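import Vale.Agent.P224.SO.Rc5b
import Vale.Agent.P224.UE.Law

/-!
Dimension five: the orientation resource for the data with rows.
-/

namespace Vale.Agent.P224.SO

open MeasureTheory Set Filter Function Module Vale.Agent.P224.UE
open scoped Topology RealInnerProductSpace ContDiff

set_option linter.unusedSectionVars false

section

variable {X : Type*} [MeasurableSpace X] {E : Type*} [NormedAddCommGroup E]
  [InnerProductSpace ℝ E] [FiniteDimensional ℝ E] [MeasurableSpace E] [BorelSpace E]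
  {μ : Measure X} [IsFiniteMeasure μ] {p n : X → E} {m : ℕ}

lemma row_xi (h : TwoG μ m p n) (z : X) (e : E) :
    ∫ x, (⟪e, e⟫ - ⟪n x, e⟫ ^ 2 - (m + 1) * ⟪p x, e⟫ ^ 2) ∂μ = 0 := by
  have h1 := h.rowG z e (fun _ => 1) (fun _ => 0)
    (fun s _ => ⟨contDiffAt_const, hasDerivAt_const _ _⟩) 2 0 1
  rw [← h1]
  refine integral_congr_ae (Eventually.of_forall fun x => ?_)
  simp [rG, rowE, dat, dv]
  ring

lemma row_sym (hm : m ≠ 0) (h : TwoG μ m p n) (z : X) (e : E) :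
    ∫ x, (⟪n x, p z⟫ * ⟪p x, e⟫ - ⟪n x, e⟫ * ⟪p x, p z⟫) ∂μ = 0 := by
  have h1 := h.rowG z e (fun _ => 1) (fun _ => 0)
    (fun s _ => ⟨contDiffAt_const, hasDerivAt_const _ _⟩) 4 0 0
  have h2 : ∀ x, rG 4 m (fun _ => 1) (fun _ => 0) 0 0 (dat p n e (x, z))
      = (-(m : ℝ)) * (⟪n x, p z⟫ * ⟪p x, e⟫ - ⟪n x, e⟫ * ⟪p x, p z⟫) := by
    intro x
    simp [rG, rowE, dat, dv]
  simp only [h2] at h1
  rw [integral_const_mul] at h1
  rcases mul_eq_zero.1 h1 with h3 | h3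
  · exfalso
    rw [neg_eq_zero, Nat.cast_eq_zero] at h3
    exact hm h3
  · exact h3

/-- the orientation resource in dimension five -/
theorem rc5G (hE : finrank ℝ E = 7) (h : TwoG μ 5 p n) [Nonempty X]
    (hsp : ∀ w, (∀ x, ⟪p x, w⟫ = 0) → w = 0)
    (hor : 0 ≤ ∫ q : X × X, ⟪p q.1, p q.2⟫ * ⟪p q.1, n q.2⟫ ∂(μ.prod μ)) :
    0 ≤ ∫ q : X × X, ((1 - 6 * ⟪p q.1, p q.2⟫ ^ 2 - ⟪p q.1, p q.2⟫ * ⟪n q.1, n q.2⟫)
      + 20 * (⟪p q.1, p q.2⟫ ^ 2 - 1 / 7 - 1 / 2100)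
      + 1 / √6 * (⟪p q.1, p q.2⟫ * (⟪p q.1, n q.2⟫ + ⟪n q.1, p q.2⟫) / 2) - 1 / 300)
      ∂(μ.prod μ) := by
  refine rc5 hE ⟨h.mp, h.np⟩ ⟨h.mn, h.nn⟩ h.pn (fun e => ?_) (row_sym (by norm_num) h) hsp hor
  have h1 := row_xi h (Classical.arbitrary X) e
  have e6 : ((5 : ℕ) : ℝ) + 1 = 6 := by norm_num
  rw [e6] at h1
  exact h1

/-- one of the two orientations is admissible -/
theorem orient :
    (0 ≤ ∫ q : X × X, ⟪p q.1, p q.2⟫ * ⟪p q.1, n q.2⟫ ∂(μ.prod μ)) ∨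
    (0 ≤ ∫ q : X × X, ⟪p q.1, p q.2⟫ * ⟪p q.1, -n q.2⟫ ∂(μ.prod μ)) := by
  rcases le_total 0 (∫ q : X × X, ⟪p q.1, p q.2⟫ * ⟪p q.1, n q.2⟫ ∂(μ.prod μ)) with h | h
  · exact Or.inl h
  · refine Or.inr ?_
    simp only [inner_neg_right, mul_neg, integral_neg]
    linarith

end

end Vale.Agent.P224.SO
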