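import Vale.Agent.P224.SO.LawT

/-!
The law with general coefficient functions (for instance with logarithms), odd dimension.
-/

namespace Vale.Agent.P224.SO

open MeasureTheory Set Filter Function
open Vale.Agent.P224.UE Vale.Agent.P224.UG
open scoped Topology RealInnerProductSpace

set_option linter.unusedSectionVars false

/-- a value term: coefficient `φ`, of order `(1 - T) ^ (k + 1 / 2)` at `T = 1`, kernel
`(1 - s) ^ a (1 - T s) ^ (-q) t ^ i p ^ j w` -/
structure GT where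
  /-- the coefficient -/
  φ : ℝ → ℝ
  /-- its derivative -/
  φ' : ℝ → ℝ
  /-- the power of `1 - T` -/
  k : ℕ
  /-- the limit of the coefficient divided by `(1 - T) ^ (k + 1 / 2)` -/
  c : ℝ
  /-- the exponent of the kernel -/
  q : ℕ
  /-- the power of `1 - s` -/
  a : ℕ
  /-- the power of `t` -/
  i : ℕ
  /-- the power of `p` -/
  j : ℕ
  /-- the weight -/
  w : R9 → ℝ

/-- the polynomial of the term -/
noncomputable def GT.Q (t : GT) (d : R9) : ℝ := (1 - d 0) ^ t.a * (d 1 ^ t.i * d 2 ^ t.j * t.w d)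

/-- the term as a value term -/
noncomputable def GT.v (t : GT) : VTm := ⟨t.φ, t.φ', t.q, t.Q⟩

/-- the regularity of the term -/
structure GT.Reg (t : GT) : Prop where
  hw : Continuous t.w
  hm : Measurable t.φ
  hm' : Measurable t.φ'
  hc : ContinuousOn t.φ (Ico 0 1)
  hc' : ContinuousOn t.φ' (Ioo 0 1)
  hd : ∀ T ∈ Ioo (0 : ℝ) 1, HasDerivAt t.φ (t.φ' T) T
  hl : Tendsto (fun T => t.φ T / (1 - T) ^ ((t.k : ℝ) + 1 / 2)) (𝓝[<] 1) (𝓝 t.c)

/-- the term is a flux term -/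
def GT.fl (h : ℕ) (t : GT) : Prop := t.i = 0 ∧ t.j = 0 ∧ t.q = t.k + h + 1 + t.a

instance (h : ℕ) (t : GT) : Decidable (t.fl h) := by unfold GT.fl; infer_instance

/-- the term has a limit -/
def GT.ok (h : ℕ) (t : GT) : Prop := t.fl h ∨ t.q ≤ t.k + h + (t.a + t.i + t.j)

instance (h : ℕ) (t : GT) : Decidable (t.ok h) := by unfold GT.ok; infer_instance

lemma GT.continuous_Q {t : GT} (hw : Continuous t.w) : Continuous t.Q := by
  unfold GT.Q
  fun_prop

lemma GT.Reg.v {t : GT} (h : t.Reg) : t.v.Reg :=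
  ⟨GT.continuous_Q h.hw, h.hm, h.hm', h.hc, h.hc', h.hd⟩

section

variable {X : Type*} [MeasurableSpace X]
  {E : Type*} [NormedAddCommGroup E]
  [InnerProductSpace ℝ E] [MeasurableSpace E] [BorelSpace E] [SecondCountableTopology E]
  {μ : Measure X} [IsFiniteMeasure μ] {m h : ℕ} {p n : X → E} {C S : ℝ}

lemma GT.bound (hD : EmbD μ m p n C S) (e : E) {t : GT} (hw : Continuous t.w) :
    ∃ B : ℝ, ∀ y, |t.Q (dat p n e y)| ≤ B * (1 - dat p n e y 0) ^ (t.a + t.i + t.j) := by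
  have hP := hD.toTwoG.toPts
  obtain ⟨W, hW⟩ := (isCompact_KE (bE e)).exists_bound_of_continuousOn hw.continuousOn
  refine ⟨|C| ^ t.i * |C| ^ t.j * |W|, fun y => ?_⟩
  have hs := dat0_mem hP e y
  have h0 : 0 ≤ 1 - dat p n e y 0 := by linarith [hs.2]
  have h1 : |dat p n e y 1| ≤ |C| * (1 - dat p n e y 0) := by
    have := (hD.contact y.2 y.1).1
    have e1 : dat p n e y 1 = ⟪n y.2, p y.1⟫ := real_inner_comm _ _
    have e2 : dat p n e y 0 = ⟪p y.2, p y.1⟫ := real_inner_comm _ _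
    rw [e1, e2]
    rw [e2] at h0
    exact this.trans (mul_le_mul_of_nonneg_right (le_abs_self C) h0)
  have h2 : |dat p n e y 2| ≤ |C| * (1 - dat p n e y 0) := by
    have := (hD.contact y.1 y.2).1
    have e1 : dat p n e y 2 = ⟪n y.1, p y.2⟫ := rfl
    have e2 : dat p n e y 0 = ⟪p y.1, p y.2⟫ := rfl
    rw [e1, e2]
    rw [e2] at h0
    exact this.trans (mul_le_mul_of_nonneg_right (le_abs_self C) h0)
  have h3 : |t.w (dat p n e y)| ≤ |W| := by
    have := hW _ (dat_mem hP e y)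
    rw [Real.norm_eq_abs] at this
    exact this.trans (le_abs_self W)
  unfold GT.Q
  rw [abs_mul, abs_mul, abs_mul, abs_pow, abs_pow, abs_pow, abs_of_nonneg h0]
  calc (1 - dat p n e y 0) ^ t.a * (|dat p n e y 1| ^ t.i * |dat p n e y 2| ^ t.j
        * |t.w (dat p n e y)|)
      ≤ (1 - dat p n e y 0) ^ t.a * ((|C| * (1 - dat p n e y 0)) ^ t.i
        * (|C| * (1 - dat p n e y 0)) ^ t.j * |W|) := by
        gcongr
    _ = _ := by
      rw [mul_pow, mul_pow, pow_add, pow_add]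
      ring

/-- the limit of a flux term -/
theorem GT.lim_flux (hD : EmbD μ m p n C S) (hmh : m = 2 * h + 1) (e : E) {t : GT} (ht : t.Reg)
    (hf : t.fl h) :
    Tendsto (fun T => t.φ T * ∫ y, t.Q (dat p n e y) * SM2.ker T t.q (dat p n e y 0)
      ∂(μ.prod μ)) (𝓝[<] 1)
      (𝓝 (t.c * (kap2 m t.a t.q * (S * ∫ y, t.w (dat p n e (y, y)) ∂μ)))) := by
  have hm : 0 < m := by omega
  obtain ⟨hi, hj, hq⟩ := hf
  have h3 := flux_aq hD hm e ht.hw t.a (q := t.q) (by omega)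
  refine (ht.hl.mul h3).congr' ?_
  have h0 : ∀ᶠ T in 𝓝[<] (1 : ℝ), T ∈ Ioo (0 : ℝ) 1 := Ioo_mem_nhdsLT one_pos
  filter_upwards [h0] with T hT
  have h4 : 0 < 1 - T := by linarith [hT.2]
  have e1 : (t.q : ℝ) - t.a - (m : ℝ) / 2 = (t.k : ℝ) + 1 / 2 := by
    rw [hq, hmh]
    push_cast
    ring
  rw [e1, ← mul_assoc, div_mul_cancel₀ _ (Real.rpow_pos_of_pos h4 _).ne']
  simp only [GT.Q, hi, hj, pow_zero, one_mul]

/-- the limit of a null term -/
theorem GT.lim_null (hD : EmbD μ m p n C S) (hmh : m = 2 * h + 1) (e : E) {t : GT} (ht : t.Reg)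
    (hq : t.q ≤ t.k + h + (t.a + t.i + t.j)) :
    Tendsto (fun T => t.φ T * ∫ y, t.Q (dat p n e y) * SM2.ker T t.q (dat p n e y 0)
      ∂(μ.prod μ)) (𝓝[<] 1) (𝓝 0) := by
  have hm : 0 < m := by omega
  obtain ⟨B, hB⟩ := GT.bound hD e ht.hw
  refine null_aq hD hm e (b := t.k + h) hB (by omega) (by omega) (K := |t.c| + 1) ?_
  have h5 : ∀ᶠ T in 𝓝[<] (1 : ℝ), |t.φ T / (1 - T) ^ ((t.k : ℝ) + 1 / 2)| < |t.c| + 1 :=
    ht.hl.abs.eventually (gt_mem_nhds (by linarith))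
  have h0 : ∀ᶠ T in 𝓝[<] (1 : ℝ), T ∈ Ioo (0 : ℝ) 1 := Ioo_mem_nhdsLT one_pos
  filter_upwards [h0, h5] with T hT h6
  have h4 : 0 < 1 - T := by linarith [hT.2]
  have h7 : 0 < (1 - T) ^ ((t.k : ℝ) + 1 / 2) := Real.rpow_pos_of_pos h4 _
  have e1 : ((t.k + h : ℕ) : ℝ) + 1 - (m : ℝ) / 2 = (t.k : ℝ) + 1 / 2 := by
    rw [hmh]
    push_cast
    ring
  rw [e1]
  rw [abs_div, abs_of_pos h7, div_lt_iff₀ h7] at h6
  exact h6.le

/-- the law in odd dimension, general coefficients -/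
theorem law_G (hD : EmbD μ m p n C S) (hmh : m = 2 * h + 1) (e : E) (l : List GT)
    (hr : ∀ t ∈ l, t.Reg) (hok : ∀ t ∈ l, t.ok h)
    (hR : ∀ T ∈ Ioo (0 : ℝ) 1, ∃ R : R9 → ℝ, Null μ p n e R ∧
      ∀ x N y w : E, ‖x‖ = 1 → ‖N‖ = 1 → ‖y‖ = 1 → ‖w‖ = 1 → ⟪x, N⟫ = 0 → ⟪y, w⟫ = 0 →
        gS' (l.map GT.v) T (dv x N y w e) ≤ R (dv x N y w e)) :
    (l.map fun t => if t.fl h then t.c * (kap2 m t.a t.q
        * (S * ∫ y, t.w (dat p n e (y, y)) ∂μ)) else 0).sum
      ≤ ∫ y, (l.map fun t => t.φ 0 * t.Q (dat p n e y)).sum ∂(μ.prod μ) := by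
  have key := law_S hD.toTwoG.toTwoE e (l.map fun t => (t.v,
    if t.fl h then t.c * (kap2 m t.a t.q * (S * ∫ y, t.w (dat p n e (y, y)) ∂μ)) else 0))
    (fun u hu => by
      obtain ⟨t, ht, rfl⟩ := List.mem_map.1 hu
      exact (hr t ht).v)
    (fun u hu => by
      obtain ⟨t, ht, rfl⟩ := List.mem_map.1 hu
      simp only
      by_cases hf : t.fl h
      · rw [if_pos hf]
        exact GT.lim_flux hD hmh e (hr t ht) hf
      · rw [if_neg hf]
        rcases hok t ht with h3 | h3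
        · exact absurd h3 hf
        · exact GT.lim_null hD hmh e (hr t ht) h3)
    (by
      have e1 : (l.map fun t => (t.v,
          if t.fl h then t.c * (kap2 m t.a t.q
            * (S * ∫ y, t.w (dat p n e (y, y)) ∂μ)) else 0)).map Prod.fst
          = l.map GT.v := by
        rw [List.map_map]
        rfl
      rw [e1]
      exact hR)
  rw [List.map_map] at key
  refine (le_of_eq ?_).trans (key.trans (le_of_eq ?_))
  · rfl
  · refine integral_congr_ae (Eventually.of_forall fun y => ?_)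
    simp only
    rw [List.map_map]
    rfl

end

end Vale.Agent.P224.SO
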