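import Vale.Agent.P224.SO.Rc5b

/-!
Positive definite kernels of degree three.
-/

namespace Vale.Agent.P224.SO

open MeasureTheory Set Filter Function Module
open scoped Topology RealInnerProductSpace

set_option linter.unusedSectionVars false

section

variable {X : Type*} [MeasurableSpace X] {E : Type*} [NormedAddCommGroup E]
  [InnerProductSpace ℝ E] [FiniteDimensional ℝ E] [MeasurableSpace E] [BorelSpace E]
  {μ : Measure X} [IsFiniteMeasure μ]

lemma UF.integrable_mul3 {f g h : X → E} (hf : UF f) (hg : UF g) (hh : UF h) (u v w : E) :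
    Integrable (fun x => ⟪f x, u⟫ * ⟪g x, v⟫ * ⟪h x, w⟫) μ := by
  refine integrable_bdd (C := ‖u‖ * ‖v‖ * ‖w‖)
    (((hf.measI u).mul (hg.measI v)).mul (hh.measI w)) fun x => ?_
  rw [abs_mul, abs_mul]
  have h1 := hf.abs_le u x
  have h2 := hg.abs_le v x
  have h3 := hh.abs_le w x
  gcongr

/-- the product of three inner product kernels is positive -/
theorem pd3 {f g h : X → E} (hf : UF f) (hg : UF g) (hh : UF h) :
    0 ≤ ∫ q : X × X, ⟪f q.1, f q.2⟫ * ⟪g q.1, g q.2⟫ * ⟪h q.1, h q.2⟫ ∂(μ.prod μ) := by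
  set b := stdOrthonormalBasis ℝ E with hb
  have e : ∀ q : X × X, ⟪f q.1, f q.2⟫ * ⟪g q.1, g q.2⟫ * ⟪h q.1, h q.2⟫
      = ∑ i, ∑ j, ∑ k, (⟪f q.1, b i⟫ * ⟪g q.1, b j⟫ * ⟪h q.1, b k⟫)
        * (⟪f q.2, b i⟫ * ⟪g q.2, b j⟫ * ⟪h q.2, b k⟫) := by
    intro q
    rw [← b.sum_inner_mul_inner (f q.1) (f q.2), ← b.sum_inner_mul_inner (g q.1) (g q.2),
      ← b.sum_inner_mul_inner (h q.1) (h q.2), Finset.sum_mul_sum, Finset.sum_mul]
    refine Finset.sum_congr rfl fun i _ => ?_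
    rw [Finset.sum_mul]
    refine Finset.sum_congr rfl fun j _ => ?_
    rw [Finset.mul_sum]
    refine Finset.sum_congr rfl fun k _ => ?_
    rw [real_inner_comm (b i) (f q.2), real_inner_comm (b j) (g q.2),
      real_inner_comm (b k) (h q.2)]
    ring
  simp only [e]
  have hi : ∀ i j k, Integrable (fun q : X × X =>
      (⟪f q.1, b i⟫ * ⟪g q.1, b j⟫ * ⟪h q.1, b k⟫)
        * (⟪f q.2, b i⟫ * ⟪g q.2, b j⟫ * ⟪h q.2, b k⟫)) (μ.prod μ) :=
    fun i j k => (hf.integrable_mul3 hg hh _ _ _).mul_prod (hf.integrable_mul3 hg hh _ _ _)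
  rw [integral_finsetSum _ fun i _ => integrable_finsetSum _ fun j _ =>
    integrable_finsetSum _ fun k _ => hi i j k]
  refine Finset.sum_nonneg fun i _ => ?_
  rw [integral_finsetSum _ fun j _ => integrable_finsetSum _ fun k _ => hi i j k]
  refine Finset.sum_nonneg fun j _ => ?_
  rw [integral_finsetSum _ fun k _ => hi i j k]
  refine Finset.sum_nonneg fun k _ => ?_
  rw [integral_prod_mul (fun x => ⟪f x, b i⟫ * ⟪g x, b j⟫ * ⟪h x, b k⟫)
    (fun x => ⟪f x, b i⟫ * ⟪g x, b j⟫ * ⟪h x, b k⟫)]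
  exact mul_self_nonneg _

/-- the third moments -/
theorem k00 {p : X → E} (hp : UF p) : 0 ≤ ∫ q : X × X, ⟪p q.1, p q.2⟫ ^ 3 ∂(μ.prod μ) := by
  have h := pd3 (μ := μ) hp hp hp
  have e : ∀ q : X × X, ⟪p q.1, p q.2⟫ ^ 3
      = ⟪p q.1, p q.2⟫ * ⟪p q.1, p q.2⟫ * ⟪p q.1, p q.2⟫ := fun q => by ring
  simp only [e]
  exact h

end

end Vale.Agent.P224.SO
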