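import Vale.Agent.P224.SO.Lev

/-!
Dimension three: five points in the disc `z ^ 2 ≤ d - d ^ 2` with sum `(1, 0)` satisfy
`∑ z ^ 2 ≤ 3 / 4`.
-/

namespace Vale.Agent.P224.SO.D3

open Finset Vale.Agent.P224.SO

section

variable {d z w : ℝ}

lemma lin_nonneg (h : z ^ 2 ≤ d - d ^ 2) (u v : ℝ) :
    0 ≤ (1 - 2 * u) * d - 2 * v * z + u ^ 2 + v ^ 2 := by
  nlinarith [sq_nonneg (d - u), sq_nonneg (z - v)]

lemma a_pos (h : z ^ 2 ≤ d - d ^ 2) (hz : 1 / 10 ≤ z) :
    144 / 10000 ≤ -z ^ 2 + 48 / 100 * d + 197 / 1000 * z := by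
  nlinarith [mul_nonneg (sub_nonneg.2 hz) (lin_nonneg h (176 / 1000) (3808 / 10000)),
    sq_nonneg (d - 176 / 1000), sq_nonneg (z - 3808 / 10000),
    sq_nonneg ((d - 176 / 1000) - (z - 3808 / 10000)),
    sq_nonneg ((d - 176 / 1000) - 1 / 2 * (z - 3808 / 10000))]

lemma a_all (h : z ^ 2 ≤ d - d ^ 2) :
    -(1564 / 10000) ≤ -z ^ 2 + 48 / 100 * d + 197 / 1000 * z := by
  nlinarith [sq_nonneg (d - 303 / 1000), sq_nonneg (z + 4595 / 10000)]

lemma b_all (h : z ^ 2 ≤ d - d ^ 2) : -(1 / 9) ≤ -z ^ 2 + 1 / 3 * d := by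
  nlinarith [sq_nonneg (d - 1 / 3)]

lemma b_mid (h : z ^ 2 ≤ d - d ^ 2) (h1 : z < 1 / 10) (h2 : -(1 / 10) < z) :
    -(67 / 10000) ≤ -z ^ 2 + 1 / 3 * d := by
  nlinarith [sq_nonneg d, mul_pos (sub_pos.2 h1) (sub_pos.2 h2)]

lemma c_all (h : z ^ 2 ≤ d - d ^ 2) : -(1 / 16) ≤ -z ^ 2 + 1 / 2 * d := by
  nlinarith [sq_nonneg (d - 1 / 4)]

lemma c_mid (h : z ^ 2 ≤ d - d ^ 2) (h1 : z < 1 / 10) (h2 : -(1 / 10) < z) :
    -(5 / 1000) ≤ -z ^ 2 + 1 / 2 * d := by
  nlinarith [sq_nonneg d, mul_pos (sub_pos.2 h1) (sub_pos.2 h2)]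

lemma c_gap (h : z ^ 2 ≤ d - d ^ 2) (h1 : z < 381 / 1000) (h2 : -(381 / 1000) < z) :
    -(1 / 16) + 54 / 10000 ≤ -z ^ 2 + 1 / 2 * d := by
  nlinarith [sq_nonneg (d - 1762 / 10000), mul_pos (sub_pos.2 h1) (sub_pos.2 h2)]

lemma slack (hw : w ^ 2 = 3 / 16) (hw0 : 433 / 1000 < w) (hw1 : w < 4331 / 10000)
    (h : z ^ 2 ≤ d - d ^ 2) (hz : 381 / 1000 ≤ z) :
    2 * (z - w) ^ 2 ≤ -z ^ 2 + 1 / 2 * d + 1 / 16 := by
  rcases le_total w z with h1 | h1
  · have h2 : 0 ≤ z - w := sub_nonneg.2 h1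
    have h3 : 4 * w * (z - w) ≤ d - 1 / 4 := by nlinarith [sq_nonneg (d - 1 / 4)]
    have h4 : 0 ≤ 4 * w * (z - w) := by positivity
    have h5 : (4 * w * (z - w)) ^ 2 ≤ (d - 1 / 4) ^ 2 := pow_le_pow_left₀ h4 h3 2
    have h6 : (4 * w * (z - w)) ^ 2 = 3 * (z - w) ^ 2 := by
      have : (4 * w * (z - w)) ^ 2 = 16 * w ^ 2 * (z - w) ^ 2 := by ring
      rw [this, hw]; ring
    nlinarith [sq_nonneg (z - w)]
  · rcases le_total (1 / 4) d with h2 | h2
    · have h3 : 0 ≤ (w - z) * (w + z - 2 * (w - z)) :=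
        mul_nonneg (sub_nonneg.2 h1) (by linarith)
      nlinarith
    · by_contra hc
      rw [not_le] at hc
      have h3 : (w - z) * (4 * w - 6 * (w - z)) < 2 * (1 / 4 - d) / 2 * 1 := by nlinarith
      have h4 : 0 ≤ w - z := sub_nonneg.2 h1
      have h5 : 14175 / 10000 ≤ 4 * w - 6 * (w - z) := by linarith
      have h6 : (w - z) * (14175 / 10000) ≤ (w - z) * (4 * w - 6 * (w - z)) :=
        mul_le_mul_of_nonneg_left h5 h4
      have h7 : 0 ≤ (w - z) * (14175 / 10000) := by positivity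
      have h8 : (w - z) * (14175 / 10000) ≤ 1 / 4 - d := by linarith
      have h9 : ((w - z) * (14175 / 10000)) ^ 2 ≤ (1 / 4 - d) ^ 2 := pow_le_pow_left₀ h7 h8 2
      nlinarith [sq_nonneg (w - z)]

end

section

variable {d z : Fin 5 → ℝ}

lemma sum_lin (a b : ℝ) (h1 : ∑ i, d i = 1) (h0 : ∑ i, z i = 0) :
    ∑ i, (-z i ^ 2 + a * d i + b * z i) = -∑ i, z i ^ 2 + a := by
  rw [sum_add_distrib, sum_add_distrib, ← mul_sum, ← mul_sum, h1, h0, sum_neg_distrib]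
  ring

/-- at least three points to the right -/
lemma scal_a (h : ∀ i, z i ^ 2 ≤ d i - d i ^ 2) (h1 : ∑ i, d i = 1) (h0 : ∑ i, z i = 0)
    (hc : 3 ≤ (Rt (1 / 10) z).card) : ∑ i, z i ^ 2 ≤ 3 / 4 := by
  have e := sum_lev (z := z) (Z := 1 / 10) (by norm_num)
    (fun i => -z i ^ 2 + 48 / 100 * d i + 197 / 1000 * z i)
    (fun i hi => a_pos (h i) hi) (fun i _ => a_all (h i)) (fun i _ _ => a_all (h i))
  rw [sum_lin _ _ h1 h0] at e
  have hc' : (3 : ℝ) ≤ ((Rt (1 / 10) z).card : ℝ) := by exact_mod_cast hc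
  push_cast at e
  linarith

/-- at least two points in the middle -/
lemma scal_b (h : ∀ i, z i ^ 2 ≤ d i - d i ^ 2) (h1 : ∑ i, d i = 1) (h0 : ∑ i, z i = 0)
    (hc : (Rt (1 / 10) z).card + (Lt (1 / 10) z).card ≤ 3) : ∑ i, z i ^ 2 ≤ 3 / 4 := by
  have e := sum_lev (z := z) (Z := 1 / 10) (by norm_num)
    (fun i => -z i ^ 2 + 1 / 3 * d i + 0 * z i)
    (fun i _ => by rw [zero_mul, add_zero]; exact b_all (h i))
    (fun i _ => by rw [zero_mul, add_zero]; exact b_all (h i))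
    (fun i hi hi' => by rw [zero_mul, add_zero]; exact b_mid (h i) hi hi')
  rw [sum_lin _ _ h1 h0] at e
  have hc' : ((Rt (1 / 10) z).card : ℝ) + ((Lt (1 / 10) z).card : ℝ) ≤ 3 := by
    exact_mod_cast hc
  push_cast at e
  linarith

/-- two points on each side -/
lemma scal_c (h : ∀ i, z i ^ 2 ≤ d i - d i ^ 2) (h1 : ∑ i, d i = 1) (h0 : ∑ i, z i = 0)
    (hc : (Rt (1 / 10) z).card = 2) (hc' : (Lt (1 / 10) z).card = 2) :
    ∑ i, z i ^ 2 ≤ 3 / 4 := by
  by_cases hg : ∃ j, (1 / 10 ≤ z j ∨ z j ≤ -(1 / 10)) ∧ z j < 381 / 1000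
      ∧ -(381 / 1000) < z j
  · obtain ⟨j, hj1, hj2, hj3⟩ := hg
    have e := sum_lev (z := z) (Z := 1 / 10) (ap := -(1 / 16)) (an := -(1 / 16))
      (am := -(5 / 1000)) (by norm_num)
      (fun i => (-z i ^ 2 + 1 / 2 * d i + 0 * z i) - if i = j then 54 / 10000 else 0)
      (fun i _ => ?_) (fun i _ => ?_) (fun i hi hi' => ?_)
    · rw [sum_sub_distrib, sum_lin _ _ h1 h0, sum_ite_eq' univ j, if_pos (mem_univ _), hc,
        hc'] at e
      push_cast at e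
      linarith
    · rw [zero_mul, add_zero]
      by_cases hij : i = j
      · rw [if_pos hij, hij]
        have := c_gap (h j) hj2 hj3
        linarith
      · rw [if_neg hij, sub_zero]
        exact c_all (h i)
    · rw [zero_mul, add_zero]
      by_cases hij : i = j
      · rw [if_pos hij, hij]
        have := c_gap (h j) hj2 hj3
        linarith
      · rw [if_neg hij, sub_zero]
        exact c_all (h i)
    · rw [zero_mul, add_zero]
      have hij : i ≠ j := by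
        rintro rfl
        rcases hj1 with hj1 | hj1 <;> linarith
      rw [if_neg hij, sub_zero]
      exact c_mid (h i) hi hi'
  · have hg1 : ∀ i, 1 / 10 ≤ z i → 381 / 1000 ≤ z i := by
      intro i hi
      by_contra hh
      exact hg ⟨i, Or.inl hi, not_le.1 hh, by linarith⟩
    have hg2 : ∀ i, z i ≤ -(1 / 10) → 381 / 1000 ≤ -z i := by
      intro i hi
      by_contra hh
      exact hg ⟨i, Or.inr hi, by linarith, by linarith⟩
    obtain ⟨i₀, hi₀⟩ := exists_mid (z := z) (Z := 1 / 10) (k := 2) (l := 2) (by norm_num)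
      (by norm_num) hc hc'
    set y := z i₀ with hy
    set w : ℝ := √3 / 4 with hw
    have hw2 : w ^ 2 = 3 / 16 := by
      rw [hw, div_pow, Real.sq_sqrt (by norm_num)]; norm_num
    have hw0 : 433 / 1000 < w := by
      have : (1732 / 1000 : ℝ) < √3 := by
        rw [Real.lt_sqrt (by norm_num)]; norm_num
      rw [hw]; linarith
    have hw1 : w < 4331 / 10000 := by
      have : √3 < (17324 / 10000 : ℝ) := by
        rw [Real.sqrt_lt' (by norm_num)]; norm_num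
      rw [hw]; linarith
    have e := sum_lev (z := z) (Z := 1 / 10) (ap := -(1 / 16) + y * w - y ^ 2 / 8)
      (an := -(1 / 16) - y * w - y ^ 2 / 8) (am := y ^ 2 / 2) (by norm_num)
      (fun i => -z i ^ 2 + 1 / 2 * d i + y * z i)
      (fun i hi => ?_) (fun i hi => ?_) (fun i hi hi' => ?_)
    · rw [sum_lin _ _ h1 h0, hc, hc'] at e
      push_cast at e
      linarith
    · have := slack hw2 hw0 hw1 (h i) (hg1 i hi)
      nlinarith [sq_nonneg ((z i - w) + y / 4)]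
    · have := slack hw2 hw0 hw1 (d := d i) (z := -z i) (by rw [neg_sq]; exact h i)
        (hg2 i hi)
      nlinarith [sq_nonneg ((z i + w) + y / 4)]
    · rw [hi₀ i hi hi']
      have h2 := h i
      rw [hi₀ i hi hi'] at h2
      nlinarith [sq_nonneg (d i)]

/-- the scalar inequality in dimension three -/
theorem scal3 (h : ∀ i, z i ^ 2 ≤ d i - d i ^ 2) (h1 : ∑ i, d i = 1) (h0 : ∑ i, z i = 0) :
    ∑ i, z i ^ 2 ≤ 3 / 4 := by
  by_cases c1 : (Rt (1 / 10) z).card + (Lt (1 / 10) z).card ≤ 3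
  · exact scal_b h h1 h0 c1
  by_cases c2 : 3 ≤ (Rt (1 / 10) z).card
  · exact scal_a h h1 h0 c2
  by_cases c3 : 3 ≤ (Lt (1 / 10) z).card
  · have := scal_a (z := fun i => -z i) (fun i => by rw [neg_sq]; exact h i) h1
      (by rw [sum_neg1, h0, neg_zero]) (by rw [Rt_neg]; exact c3)
    simpa using this
  exact scal_c h h1 h0 (by omega) (by omega)

end

end Vale.Agent.P224.SO.D3
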