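import Vale.Agent.P224.SO.Red
import Vale.Agent.P224.SO.R3a

/-!
Dimension three: `∬ s c ≤ 3 / 16`.
-/

namespace Vale.Agent.P224.SO

open MeasureTheory Set Filter Function Module Vale.Agent.P224.UE
open scoped Topology RealInnerProductSpace ContDiff

set_option linter.unusedSectionVars false

section

variable {X : Type*} [MeasurableSpace X] {E : Type*} [NormedAddCommGroup E]
  [InnerProductSpace ℝ E] [FiniteDimensional ℝ E] [MeasurableSpace E] [BorelSpace E]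
  {μ : Measure X} [IsFiniteMeasure μ] {p n : X → E} {m : ℕ}

/-- the resource of a scalar inequality, for the data with rows -/
theorem resG (hm : m ≠ 0) (hE : finrank ℝ E = m + 2) (h : TwoG μ m p n) [Nonempty X]
    (hsp : ∀ w, (∀ x, ⟪p x, w⟫ = 0) → w = 0)
    (hor : 0 ≤ ∫ q : X × X, ⟪p q.1, p q.2⟫ * ⟪p q.1, n q.2⟫ ∂(μ.prod μ))
    {k0 k1 c : ℝ} (hk1 : 0 ≤ k1)
    (hs : ∀ d z : Fin (m + 2) → ℝ, (∀ i, z i ^ 2 ≤ d i - d i ^ 2) → ∑ i, d i = 1 →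
      ∑ i, z i = 0 → ∑ i, d i * z i ≤ 0 →
      0 ≤ (k0 * (m + 1) ^ 2 + k1 * m) + (k1 * ∑ i, d i ^ 2 - (m + 1) * ∑ i, z i ^ 2
        - c * √((m : ℝ) + 1) * ∑ i, d i * z i)) :
    0 ≤ ∫ q : X × X, (k0 + k1 * ⟪p q.1, p q.2⟫ ^ 2 - ⟪p q.1, p q.2⟫ * ⟪n q.1, n q.2⟫
      + c * (⟪p q.1, p q.2⟫ * ((⟪p q.1, n q.2⟫ + ⟪n q.1, p q.2⟫) / 2))) ∂(μ.prod μ) :=
  res_of_scal hE ⟨h.mp, h.np⟩ ⟨h.mn, h.nn⟩ h.pn (fun e => row_xi h (Classical.arbitrary X) e)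
    (row_sym hm h) hsp hor hk1 hs

/-- the resource in dimension three -/
theorem r3G (hE : finrank ℝ E = 5) (h : TwoG μ 3 p n) [Nonempty X]
    (hsp : ∀ w, (∀ x, ⟪p x, w⟫ = 0) → w = 0)
    (hor : 0 ≤ ∫ q : X × X, ⟪p q.1, p q.2⟫ * ⟪p q.1, n q.2⟫ ∂(μ.prod μ)) :
    0 ≤ ∫ q : X × X, (3 / 16 + 0 * ⟪p q.1, p q.2⟫ ^ 2 - ⟪p q.1, p q.2⟫ * ⟪n q.1, n q.2⟫
      + 0 * (⟪p q.1, p q.2⟫ * ((⟪p q.1, n q.2⟫ + ⟪n q.1, p q.2⟫) / 2))) ∂(μ.prod μ) := by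
  refine resG (m := 3) (by norm_num) hE h hsp hor le_rfl fun d z h1 h2 h3 _ => ?_
  have := D3.scal3 h1 h2 h3
  push_cast
  linarith

end

end Vale.Agent.P224.SO
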