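import Vale.Agent.P224.SO.StabV

/-!
The pair integrals in terms of scalar data, every dimension.
-/

namespace Vale.Agent.P224.SO

open MeasureTheory Set Filter Function Module Vale.Agent.P224.UE
open scoped Topology RealInnerProductSpace ContDiff

set_option linter.unusedSectionVars false

section

variable {X : Type*} [MeasurableSpace X] {E : Type*} [NormedAddCommGroup E]
  [InnerProductSpace ℝ E] [FiniteDimensional ℝ E] [MeasurableSpace E] [BorelSpace E]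
  {μ : Measure X} [IsFiniteMeasure μ] {p n : X → E} {m : ℕ}

/-- the pair integrals in terms of the scalar data -/
theorem scalG (hE : finrank ℝ E = m + 2) (hm : m ≠ 0) (h : TwoG μ m p n) [Nonempty X]
    (hsp : ∀ w, (∀ x, ⟪p x, w⟫ = 0) → w = 0)
    (hor : 0 ≤ ∫ q : X × X, ⟪p q.1, p q.2⟫ * ⟪p q.1, n q.2⟫ ∂(μ.prod μ))
    (hA : 0 < μ.real univ) {r σ : ℝ} (hr : 0 < r) (hσ : 0 < σ) :
    ∃ (b : OrthonormalBasis (Fin (m + 2)) ℝ E) (d x : Fin (m + 2) → ℝ) (o : ℝ), 0 ≤ o ∧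
      (∀ i, (m + 1) * r ^ 2 / σ ^ 2 * x i ^ 2 ≤ d i - d i ^ 2) ∧ ∑ i, d i = 1 ∧
      ∑ i, x i = 0 ∧ ∑ i, d i * x i ≤ 0 ∧
      (∀ i, mom μ p p (b i) (b i) = μ.real univ * (1 - d i) / (m + 1)) ∧
      (∀ i, mom μ p n (b i) (b i) = r / σ * μ.real univ * x i) ∧
      (∀ i, mom μ n n (b i) (b i) = μ.real univ * d i) ∧
      ∫ q : X × X, ⟪p q.1, p q.2⟫ * ⟪p q.1, p q.2⟫ ∂(μ.prod μ)
        = μ.real univ ^ 2 / (m + 1) ^ 2 * (m + ∑ i, d i ^ 2) + o ∧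
      ∫ q : X × X, ⟪p q.1, p q.2⟫ * ⟪n q.1, n q.2⟫ ∂(μ.prod μ)
        = μ.real univ ^ 2 * (r / σ) ^ 2 * ∑ i, x i ^ 2 ∧
      ∫ q : X × X, ⟪p q.1, p q.2⟫ * ⟪p q.1, n q.2⟫ ∂(μ.prod μ)
        = -(μ.real univ ^ 2 * (r / σ) / (m + 1) * ∑ i, d i * x i) ∧
      ∫ q : X × X, ⟪p q.1, p q.2⟫ * ⟪n q.1, p q.2⟫ ∂(μ.prod μ)
        = -(μ.real univ ^ 2 * (r / σ) / (m + 1) * ∑ i, d i * x i) ∧
      ∫ q : X × X, ⟪p q.1, n q.2⟫ * ⟪p q.1, n q.2⟫ ∂(μ.prod μ)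
        = μ.real univ ^ 2 / (m + 1) * (1 - ∑ i, d i ^ 2) - (m + 1) * o ∧
      ∫ q : X × X, ⟪n q.1, p q.2⟫ * ⟪n q.1, p q.2⟫ ∂(μ.prod μ)
        = μ.real univ ^ 2 / (m + 1) * (1 - ∑ i, d i ^ 2) - (m + 1) * o ∧
      ∫ q : X × X, ⟪p q.1, n q.2⟫ * ⟪n q.1, p q.2⟫ ∂(μ.prod μ)
        = μ.real univ ^ 2 * (r / σ) ^ 2 * ∑ i, x i ^ 2 ∧
      ∫ q : X × X, ⟪n q.1, n q.2⟫ * ⟪n q.1, n q.2⟫ ∂(μ.prod μ)
        = μ.real univ ^ 2 * ∑ i, d i ^ 2 + (m + 1) ^ 2 * o ∧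
      ∫ q : X × X, ⟪n q.1, n q.2⟫ * ⟪p q.1, n q.2⟫ ∂(μ.prod μ)
        = r / σ * μ.real univ ^ 2 * ∑ i, d i * x i ∧
      ∫ q : X × X, ⟪n q.1, n q.2⟫ * ⟪n q.1, p q.2⟫ ∂(μ.prod μ)
        = r / σ * μ.real univ ^ 2 * ∑ i, d i * x i := by
  have hp : UF p := ⟨h.mp, h.np⟩
  have hn : UF n := ⟨h.mn, h.nn⟩
  obtain ⟨b, ξ, β, o, ho, m1, m2, m3, s1, s2, s4, I1, I2, I3, I4, I5, I6, I7, I8, I9, I10⟩ :=
    moments (m := m) hE hp hn h.pn
      (fun e => row_xi h (Classical.arbitrary X) e) (row_sym hm h) hsp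
  have hM : (0 : ℝ) < (m : ℝ) + 1 := by positivity
  set M : ℝ := (m : ℝ) + 1 with hMd
  have hM' : M ≠ 0 := hM.ne'
  set A := μ.real univ with hAd
  have hA' : A ≠ 0 := hA.ne'
  have hA2 : 0 < A ^ 2 := by positivity
  set s := r / σ with hs
  have hs0 : 0 < s := by positivity
  have hs' : s ≠ 0 := hs0.ne'
  obtain ⟨d, hd⟩ : ∃ d : Fin (m + 2) → ℝ, ∀ i, ξ i = A * (1 - d i) / M :=
    ⟨fun i => 1 - M * (ξ i / A), fun i => by
      have h1 : A * (1 - (1 - M * (ξ i / A))) / M = A * (M * (ξ i / A)) / M := by ring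
      rw [h1]
      field_simp⟩
  obtain ⟨x, hx⟩ : ∃ x : Fin (m + 2) → ℝ, ∀ i, β i = s * A * x i :=
    ⟨fun i => β i / (s * A), fun i => by field_simp⟩
  simp only [hd, hx] at m1 m2 m3 s1 s2 s4 I1 I2 I3 I4 I5 I6 I7 I8 I9 I10
  have hd1 : ∑ i, d i = 1 := by
    have : ∑ i : Fin (m + 2), A * (1 - d i) / M = A / M * ((m : ℝ) + 2 - ∑ i, d i) := by
      have e : ∀ i, A * (1 - d i) / M = A / M * (1 - d i) := fun i => by ring
      simp only [e, ← Finset.mul_sum, Finset.sum_sub_distrib]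
      simp
    rw [this] at s1
    have h1 : A * ((m : ℝ) + 2 - ∑ i, d i) = A * M := by
      have h2 : A / M * ((m : ℝ) + 2 - ∑ i, d i) * M = A * ((m : ℝ) + 2 - ∑ i, d i) := by
        field_simp
      rw [← h2, s1]
    have h3 := mul_left_cancel₀ hA' h1
    linarith
  have hz0 : ∑ i, x i = 0 := by
    rw [← Finset.mul_sum] at s2
    rcases mul_eq_zero.1 s2 with h' | h'
    · exact absurd h' (by positivity)
    · exact h'
  have hzd : ∀ i, M * s ^ 2 * x i ^ 2 ≤ d i - d i ^ 2 := by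
    intro i
    have h1 := s4 i
    have h3 : A * (1 - d i) / M * (A - M * (A * (1 - d i) / M))
        = A ^ 2 / M * (d i - d i ^ 2) := by field_simp; ring
    have h2 : (s * A * x i) ^ 2 = A ^ 2 / M * (M * s ^ 2 * x i ^ 2) := by field_simp
    rw [h2, h3] at h1
    exact le_of_mul_le_mul_left h1 (by positivity)
  -- the sums
  set D2 := ∑ i, d i ^ 2 with hD2
  set Z2 := ∑ i, x i ^ 2 with hZ2
  set DZ := ∑ i, d i * x i with hDZ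
  have J1 : ∑ i : Fin (m + 2), (A * (1 - d i) / M) ^ 2 = A ^ 2 / M ^ 2 * (m + D2) := by
    have e : ∀ i, (A * (1 - d i) / M) ^ 2 = A ^ 2 / M ^ 2 * (1 - 2 * d i + d i ^ 2) :=
      fun i => by ring
    simp only [e, ← Finset.mul_sum, Finset.sum_add_distrib, Finset.sum_sub_distrib, hd1]
    simp only [Finset.sum_const, Finset.card_univ, Fintype.card_fin, nsmul_eq_mul, ← hD2]
    push_cast
    ring
  have J2 : ∑ i : Fin (m + 2), (s * A * x i) ^ 2 = A ^ 2 * s ^ 2 * Z2 := by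
    have e : ∀ i, (s * A * x i) ^ 2 = A ^ 2 * s ^ 2 * x i ^ 2 := fun i => by ring
    simp only [e, ← Finset.mul_sum, ← hZ2]
  have J3 : ∑ i : Fin (m + 2), A * (1 - d i) / M * (s * A * x i) = -(A ^ 2 * s / M * DZ) := by
    have e : ∀ i, A * (1 - d i) / M * (s * A * x i)
        = A ^ 2 * s / M * (x i - d i * x i) := fun i => by ring
    simp only [e, ← Finset.mul_sum, Finset.sum_sub_distrib, hz0, ← hDZ]
    ring
  have J4 : ∑ i : Fin (m + 2), A * (1 - d i) / M * (A - M * (A * (1 - d i) / M))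
      = A ^ 2 / M * (1 - D2) := by
    have e : ∀ i, A * (1 - d i) / M * (A - M * (A * (1 - d i) / M))
        = A ^ 2 / M * (d i - d i ^ 2) := fun i => by field_simp; ring
    simp only [e, ← Finset.mul_sum, Finset.sum_sub_distrib, hd1, ← hD2]
  have J5 : ∑ i : Fin (m + 2), (A - M * (A * (1 - d i) / M)) ^ 2 = A ^ 2 * D2 := by
    have e : ∀ i, (A - M * (A * (1 - d i) / M)) ^ 2 = A ^ 2 * d i ^ 2 := fun i => by
      field_simp
      ring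
    simp only [e, ← Finset.mul_sum, ← hD2]
  have J6 : ∑ i : Fin (m + 2), s * A * x i * (A - M * (A * (1 - d i) / M))
      = s * A ^ 2 * DZ := by
    have e : ∀ i, s * A * x i * (A - M * (A * (1 - d i) / M))
        = s * A ^ 2 * (d i * x i) := fun i => by field_simp; ring
    simp only [e, ← Finset.mul_sum, ← hDZ]
  rw [J1] at I1
  rw [J2] at I2 I7
  rw [J3] at I3 I4
  rw [J4] at I5 I6
  rw [J5] at I8
  rw [J6] at I9 I10
  have hDZ0 : DZ ≤ 0 := by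
    rw [I3] at hor
    by_contra hc
    rw [not_le] at hc
    have : 0 < A ^ 2 * s / M * DZ := by positivity
    linarith
  refine ⟨b, d, x, o, ho, fun i => ?_, hd1, hz0, hDZ0, m1, m2, fun i => ?_, I1, I2, I3, I4, I5,
    I6, I7, I8, I9, I10⟩
  · have e : M * r ^ 2 / σ ^ 2 = M * s ^ 2 := by rw [hs]; field_simp
    rw [e]
    exact hzd i
  · rw [m3]
    field_simp
    ring

/-- the value of the resources in terms of the scalar data -/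
theorem resGV (hE : finrank ℝ E = m + 2) (hm : m ≠ 0) (h : TwoG μ m p n) [Nonempty X]
    (hsp : ∀ w, (∀ x, ⟪p x, w⟫ = 0) → w = 0)
    (hor : 0 ≤ ∫ q : X × X, ⟪p q.1, p q.2⟫ * ⟪p q.1, n q.2⟫ ∂(μ.prod μ))
    (hA : 0 < μ.real univ) {s r : ℝ} (hs : 0 < s) (hr : 0 < r) :
    ∃ (b : OrthonormalBasis (Fin (m + 2)) ℝ E) (d x : Fin (m + 2) → ℝ),
      (∀ i, (m + 1) * s ^ 2 * x i ^ 2 ≤ d i - d i ^ 2) ∧ ∑ i, d i = 1 ∧
      ∑ i, x i = 0 ∧ ∑ i, d i * x i ≤ 0 ∧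
      (∀ i, mom μ p p (b i) (b i) = μ.real univ * (1 - d i) / (m + 1)) ∧
      (∀ i, mom μ p n (b i) (b i) = s * μ.real univ * x i) ∧
      (∀ i, mom μ n n (b i) (b i) = μ.real univ * d i) ∧
      (∀ k0 k1 ρ cc lu lv : ℝ,
        (m + 1) * lu / 2 ≤ ρ * k1 + lv * (1 + (m + 1) ^ 2 - (m + 1) / (2 * r ^ 2)) →
        μ.real univ ^ 2 * (ρ * (k0 * (m + 1) ^ 2 + k1 * (m + ∑ i, d i ^ 2)
            - (m + 1) ^ 2 * s ^ 2 * ∑ i, x i ^ 2) - ρ * cc * ((m + 1) * s) * ∑ i, d i * x i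
            + lu * ((m + 1) / 2) * (1 - ∑ i, d i ^ 2 - (m + 1) * s ^ 2 * ∑ i, x i ^ 2)
            + lv * ((m + ∑ i, d i ^ 2) + (m + 1) ^ 2 * ∑ i, d i ^ 2
              - 2 * ((m + 1) ^ 2 * s ^ 2) * ∑ i, x i ^ 2
              + (m + 1) / (2 * r ^ 2) * (1 - ∑ i, d i ^ 2 + (m + 1) * s ^ 2 * ∑ i, x i ^ 2)
              + 2 * (m + 1) * (m + 2) * (s / r) * ∑ i, d i * x i))
          ≤ (m + 1) ^ 2 * ∫ q : X × X, (ρ * (k0 + k1 * ⟪p q.1, p q.2⟫ ^ 2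
              - ⟪p q.1, p q.2⟫ * ⟪n q.1, n q.2⟫
              + cc * (⟪p q.1, p q.2⟫ * ((⟪p q.1, n q.2⟫ + ⟪n q.1, p q.2⟫) / 2)))
            + lu * ((⟪p q.1, n q.2⟫ - ⟪n q.1, p q.2⟫) / 2) ^ 2
            + lv * (⟪n q.1, n q.2⟫ - ⟪p q.1, p q.2⟫
              + 1 / r * ((⟪p q.1, n q.2⟫ + ⟪n q.1, p q.2⟫) / 2)) ^ 2) ∂(μ.prod μ)) := by
  have hp : UF p := ⟨h.mp, h.np⟩
  have hn : UF n := ⟨h.mn, h.nn⟩
  obtain ⟨b, d, x, o, ho, hzd, hd1, hz0, hDZ, m1, m2, m3, I1, I2, I3, I4, I5, I6, I7, I8, I9,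
    I10⟩ := scalG hE hm h hsp hor hA hs one_pos
  have hM : (0 : ℝ) < (m : ℝ) + 1 := by positivity
  simp only [div_one, one_pow] at hzd m2 I2 I3 I4 I7 I9 I10
  refine ⟨b, d, x, hzd, hd1, hz0, hDZ, m1, m2, m3, fun k0 k1 ρ cc lu lv hoff => ?_⟩
  have key := int_lin (μ := μ) hp hn (ρ * k0) (ρ * k1 + lv) (-ρ - 2 * lv) (ρ * cc / 2 - lv / r)
    (ρ * cc / 2 - lv / r) (lu / 4 + lv / (4 * r ^ 2)) (lu / 4 + lv / (4 * r ^ 2))
    (-(lu / 2) + lv / (2 * r ^ 2)) lv (lv / r) (lv / r)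
  rw [I1, I2, I3, I4, I5, I6, I7, I8, I9, I10] at key
  have e : ∫ q : X × X, (ρ * (k0 + k1 * ⟪p q.1, p q.2⟫ ^ 2
              - ⟪p q.1, p q.2⟫ * ⟪n q.1, n q.2⟫
              + cc * (⟪p q.1, p q.2⟫ * ((⟪p q.1, n q.2⟫ + ⟪n q.1, p q.2⟫) / 2)))
            + lu * ((⟪p q.1, n q.2⟫ - ⟪n q.1, p q.2⟫) / 2) ^ 2
            + lv * (⟪n q.1, n q.2⟫ - ⟪p q.1, p q.2⟫
              + 1 / r * ((⟪p q.1, n q.2⟫ + ⟪n q.1, p q.2⟫) / 2)) ^ 2) ∂(μ.prod μ)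
      = _ := Eq.trans (integral_congr_ae (Eventually.of_forall fun q => by
        simp only
        field_simp
        ring)) key
  rw [e]
  have h1 := mul_le_mul_of_nonneg_right hoff (mul_nonneg (sq_nonneg ((m : ℝ) + 1)) ho)
  refine le_of_sub_nonneg ?_
  refine le_trans (sub_nonneg.2 h1) (le_of_eq ?_)
  field_simp
  ring

end

end Vale.Agent.P224.SO
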