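import Vale.Agent.P224.SO.Rg

/-!
Dimension 11: the orientation resource.
-/

namespace Vale.Agent.P224.SO.M11

open Vale.Agent.P224.SO Vale.Agent.P224.SO.Rg

lemma A1 (d x : ℝ) (h : 10 * x ^ 2 ≤ d - d ^ 2) (hz : (3 / 100) ≤ x) :
    (6 / 49) ≤ Q 74 120 24 (76 / 35) (-((72 / 7))) 0 d x := by
  unfold Q
  nlinarith [sq_nonneg (d + (-((13130 / 19529))) * x + (-((245 / 19529)))),
      sq_nonneg (x + (-((6 / 77)))),
      mul_nonneg (sub_nonneg.2 hz) (lin_q (q := 10) (by norm_num) h (5 / 77) (6 / 77))]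

lemma A2 (d x : ℝ) (h : 10 * x ^ 2 ≤ d - d ^ 2) :
    (-((46 / 35))) ≤ Q 74 120 24 (76 / 35) (-((72 / 7))) 0 d x := by
  unfold Q
  nlinarith [sq_nonneg (d + (-((210 / 1583))) * x + (-((163 / 1583)))),
      sq_nonneg (x + (1 / 11))]

lemma B1 (d x : ℝ) (h : 10 * x ^ 2 ≤ d - d ^ 2) : (-((225 / 344))) ≤ Q 74 120 24 3 0 24 d x := by
  unfold Q
  nlinarith [sq_nonneg (d - (15 / 172))]

lemma B2 (d x : ℝ) (hz : (-((3 / 100))) ≤ x) (hz' : x ≤ (3 / 100)) : (-((5121 / 37000))) ≤ Q 74 120 24 3 0 24 d x := by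
  unfold Q
  nlinarith [sq_nonneg (d - (3 / 148)), mul_nonneg (sub_nonneg.2 hz) (sub_nonneg.2 hz')]

lemma C1 (d x : ℝ) (h : 10 * x ^ 2 ≤ d - d ^ 2) (hz : (3 / 100) ≤ x) :
    (-((2071 / 10000))) ≤ Q 74 120 24 (41 / 20) (-((31 / 5))) 0 d x := by
  unfold Q
  nlinarith [sq_nonneg (d + (-((1320 / 3229))) * x + (-((1503 / 32290)))),
      sq_nonneg (x + (-((4332797 / 48460200)))),
      mul_nonneg (sub_nonneg.2 hz) (lin_q (q := 10) (by norm_num) h (2 / 25) (17 / 200))]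

lemma C2 (d x : ℝ) (h : 10 * x ^ 2 ≤ d - d ^ 2) :
    (-((1883 / 2000))) ≤ Q 74 120 24 (41 / 20) (-((31 / 5))) 0 d x := by
  unfold Q
  nlinarith [sq_nonneg (d + (-((240 / 1769))) * x + (-((165 / 1769)))),
      sq_nonneg (x + (35039 / 404605))]

lemma C3 (d x : ℝ) (hz : 0 ≤ x) (hz' : x ≤ (3 / 100)) :
    (-((1681 / 118400))) ≤ Q 74 120 24 (41 / 20) (-((31 / 5))) 0 d x := by
  unfold Q
  nlinarith [sq_nonneg (d - (6 / 37) * x - (41 / 2960)), mul_nonneg hz (sub_nonneg.2 hz')]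

/-- the one point inequalities -/
noncomputable def dat : Dat 6 10 74 120 24 (-((34 / 7))) where
  Z := (3 / 100)
  aA := (76 / 35)
  bA := (-((72 / 7)))
  ap := (6 / 49)
  an := (-((46 / 35)))
  aB := 3
  bp := (-((225 / 344)))
  bm := (-((5121 / 37000)))
  aC := (41 / 20)
  bC := (-((31 / 5)))
  gp := (-((2071 / 10000)))
  gn := (-((1883 / 2000)))
  g0 := (-((1681 / 118400)))
  Zpos := by norm_num
  cnn := by norm_num
  A1 := A1
  A2 := A2
  A3 := by norm_num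
  A4 := by norm_num
  B1 := B1
  B2 := fun d x _ => B2 d x
  B3 := by norm_num
  B4 := by norm_num
  C1 := C1
  C2 := C2
  C3 := fun d x _ => C3 d x
  C4 := by norm_num

section

open MeasureTheory Set Filter Function Module Vale.Agent.P224.UE
open scoped Topology RealInnerProductSpace ContDiff

variable {X : Type*} [MeasurableSpace X] {E : Type*} [NormedAddCommGroup E]
  [InnerProductSpace ℝ E] [FiniteDimensional ℝ E] [MeasurableSpace E] [BorelSpace E]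
  {μ : Measure X} [IsFiniteMeasure μ] {p n : X → E}

/-- the orientation resource in dimension 11 -/
theorem rc (hE : finrank ℝ E = 13) (h : TwoG μ 11 p n) [Nonempty X]
    (hsp : ∀ w, (∀ x, ⟪p x, w⟫ = 0) → w = 0)
    (hor : 0 ≤ ∫ q : X × X, ⟪p q.1, p q.2⟫ * ⟪p q.1, n q.2⟫ ∂(μ.prod μ))
    {c : ℝ} (hc0 : 0 ≤ c) (hc : 576 ≤ 120 * c ^ 2) :
    0 ≤ ∫ q : X × X, ((-((118 / 21))) + 74 * ⟪p q.1, p q.2⟫ ^ 2 - ⟪p q.1, p q.2⟫ * ⟪n q.1, n q.2⟫
      + c * (⟪p q.1, p q.2⟫ * ((⟪p q.1, n q.2⟫ + ⟪n q.1, p q.2⟫) / 2))) ∂(μ.prod μ) :=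
  resD (m := 11) dat (by norm_num) (by norm_num) (by norm_num) (by norm_num) (by norm_num)
    (by norm_num) hc0 (by push_cast; linarith) hE h hsp hor

end

end Vale.Agent.P224.SO.M11

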