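import Vale.Agent.P224.SO.Rg

/-!
Dimension 7: the orientation resource.
-/

namespace Vale.Agent.P224.SO.M7

open Vale.Agent.P224.SO Vale.Agent.P224.SO.Rg

lemma A1 (d x : ℝ) (h : 6 * x ^ 2 ≤ d - d ^ 2) (hz : (1 / 20) ≤ x) :
    (61 / 350) ≤ Q 34 48 7 (101 / 42) (-((253 / 35))) 0 d x := by
  unfold Q
  nlinarith [sq_nonneg (d + (-((4563 / 7211))) * x + (-((483 / 36055)))),
      sq_nonneg (x + (-((4 / 35)))),
      mul_nonneg (sub_nonneg.2 hz) (lin_q (q := 6) (by norm_num) h (3 / 35) (4 / 35))]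

lemma A2 (d x : ℝ) (h : 6 * x ^ 2 ≤ d - d ^ 2) :
    (-((319 / 210))) ≤ Q 34 48 7 (101 / 42) (-((253 / 35))) 0 d x := by
  unfold Q
  nlinarith [sq_nonneg (d + (-((105 / 1369))) * x + (-((1474 / 9583)))),
      sq_nonneg (x + (1 / 7))]

lemma B1 (d x : ℝ) (h : 6 * x ^ 2 ≤ d - d ^ 2) : (-((121 / 168))) ≤ Q 34 48 7 3 0 7 d x := by
  unfold Q
  nlinarith [sq_nonneg (d - (11 / 84))]

lemma B2 (d x : ℝ) (hz : (-((1 / 20))) ≤ x) (hz' : x ≤ (1 / 20)) : (-((633 / 3400))) ≤ Q 34 48 7 3 0 7 d x := by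
  unfold Q
  nlinarith [sq_nonneg (d - (3 / 68)), mul_nonneg (sub_nonneg.2 hz) (sub_nonneg.2 hz')]

lemma C1 (d x : ℝ) (h : 6 * x ^ 2 ≤ d - d ^ 2) (hz : (1 / 20) ≤ x) :
    (-((139 / 400))) ≤ Q 34 48 7 (43 / 20) (-((57 / 20))) 0 d x := by
  unfold Q
  nlinarith [sq_nonneg (d + (-((1262 / 3875))) * x + (-((1497 / 19375)))),
      sq_nonneg (x + (-((7268253 / 53591060)))),
      mul_nonneg (sub_nonneg.2 hz) (lin_q (q := 6) (by norm_num) h (3 / 25) (13 / 100))]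

lemma C2 (d x : ℝ) (h : 6 * x ^ 2 ≤ d - d ^ 2) :
    (-((8809 / 10000))) ≤ Q 34 48 7 (43 / 20) (-((57 / 20))) 0 d x := by
  unfold Q
  nlinarith [sq_nonneg (d + (-((14 / 173))) * x + (-((114 / 865)))),
      sq_nonneg (x + (6669 / 49940))]

lemma C3 (d x : ℝ) (hz : 0 ≤ x) (hz' : x ≤ (1 / 20)) :
    (-((1849 / 54400))) ≤ Q 34 48 7 (43 / 20) (-((57 / 20))) 0 d x := by
  unfold Q
  nlinarith [sq_nonneg (d - (7 / 68) * x - (43 / 1360)), mul_nonneg hz (sub_nonneg.2 hz')]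

/-- the one point inequalities -/
noncomputable def dat : Dat 4 6 34 48 7 (-((14 / 5))) where
  Z := (1 / 20)
  aA := (101 / 42)
  bA := (-((253 / 35)))
  ap := (61 / 350)
  an := (-((319 / 210)))
  aB := 3
  bp := (-((121 / 168)))
  bm := (-((633 / 3400)))
  aC := (43 / 20)
  bC := (-((57 / 20)))
  gp := (-((139 / 400)))
  gn := (-((8809 / 10000)))
  g0 := (-((1849 / 54400)))
  Zpos := by norm_num
  cnn := by norm_num
  A1 := A1
  A2 := A2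
  A3 := by norm_num
  A4 := by norm_num
  B1 := B1
  B2 := fun d x _ => B2 d x
  B3 := by norm_num
  B4 := by norm_num
  C1 := C1
  C2 := C2
  C3 := fun d x _ => C3 d x
  C4 := by norm_num

section

open MeasureTheory Set Filter Function Module Vale.Agent.P224.UE
open scoped Topology RealInnerProductSpace ContDiff

variable {X : Type*} [MeasurableSpace X] {E : Type*} [NormedAddCommGroup E]
  [InnerProductSpace ℝ E] [FiniteDimensional ℝ E] [MeasurableSpace E] [BorelSpace E]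
  {μ : Measure X} [IsFiniteMeasure μ] {p n : X → E}

/-- the orientation resource in dimension 7 -/
theorem rc (hE : finrank ℝ E = 9) (h : TwoG μ 7 p n) [Nonempty X]
    (hsp : ∀ w, (∀ x, ⟪p x, w⟫ = 0) → w = 0)
    (hor : 0 ≤ ∫ q : X × X, ⟪p q.1, p q.2⟫ * ⟪p q.1, n q.2⟫ ∂(μ.prod μ))
    {c : ℝ} (hc0 : 0 ≤ c) (hc : 49 ≤ 48 * c ^ 2) :
    0 ≤ ∫ q : X × X, ((-((147 / 40))) + 34 * ⟪p q.1, p q.2⟫ ^ 2 - ⟪p q.1, p q.2⟫ * ⟪n q.1, n q.2⟫
      + c * (⟪p q.1, p q.2⟫ * ((⟪p q.1, n q.2⟫ + ⟪n q.1, p q.2⟫) / 2))) ∂(μ.prod μ) :=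
  resD (m := 7) dat (by norm_num) (by norm_num) (by norm_num) (by norm_num) (by norm_num)
    (by norm_num) hc0 (by push_cast; linarith) hE h hsp hor

end

end Vale.Agent.P224.SO.M7

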