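import Vale.Agent.P224.SO.Rg

/-!
Dimension 9: the orientation resource.
-/

namespace Vale.Agent.P224.SO.M9

open Vale.Agent.P224.SO Vale.Agent.P224.SO.Rg

lemma A1 (d x : ℝ) (h : 8 * x ^ 2 ≤ d - d ^ 2) (hz : (1 / 25) ≤ x) :
    (23 / 162) ≤ Q 48 80 14 (481 / 324) (-((674 / 81))) 0 d x := by
  unfold Q
  nlinarith [sq_nonneg (d + (-((92500 / 134237))) * x + (-((4136 / 402711)))),
      sq_nonneg (x + (-((5 / 54)))),
      mul_nonneg (sub_nonneg.2 hz) (lin_q (q := 8) (by norm_num) h (2 / 27) (5 / 54))]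

lemma A2 (d x : ℝ) (h : 8 * x ^ 2 ≤ d - d ^ 2) :
    (-((425 / 324))) ≤ Q 48 80 14 (481 / 324) (-((674 / 81))) 0 d x := by
  unfold Q
  nlinarith [sq_nonneg (d + (-((252 / 2225))) * x + (-((2477 / 20025)))),
      sq_nonneg (x + (1 / 9))]

lemma B1 (d x : ℝ) (h : 8 * x ^ 2 ≤ d - d ^ 2) : (-((2401 / 3712))) ≤ Q 48 80 14 (9 / 4) 0 14 d x := by
  unfold Q
  nlinarith [sq_nonneg (d - (49 / 464))]

lemma B2 (d x : ℝ) (hz : (-((1 / 25))) ≤ x) (hz' : x ≤ (1 / 25)) : (-((19759 / 128000))) ≤ Q 48 80 14 (9 / 4) 0 14 d x := by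
  unfold Q
  nlinarith [sq_nonneg (d - (3 / 128)), mul_nonneg (sub_nonneg.2 hz) (sub_nonneg.2 hz')]

lemma C1 (d x : ℝ) (h : 8 * x ^ 2 ≤ d - d ^ 2) (hz : (1 / 25) ≤ x) :
    (-((2367 / 10000))) ≤ Q 48 80 14 (3 / 2) (-((91 / 20))) 0 d x := by
  unfold Q
  nlinarith [sq_nonneg (d + (-((300 / 769))) * x + (-((621 / 10766)))),
      sq_nonneg (x + (-((7321 / 72040)))),
      mul_nonneg (sub_nonneg.2 hz) (lin_q (q := 8) (by norm_num) h (1 / 10) (11 / 100))]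

lemma C2 (d x : ℝ) (h : 8 * x ^ 2 ≤ d - d ^ 2) :
    (-((9049 / 10000))) ≤ Q 48 80 14 (3 / 2) (-((91 / 20))) 0 d x := by
  unfold Q
  nlinarith [sq_nonneg (d + (-((20 / 171))) * x + (-((89 / 798)))),
      sq_nonneg (x + (10221 / 95632))]

lemma C3 (d x : ℝ) (hz : 0 ≤ x) (hz' : x ≤ (1 / 25)) :
    (-((3 / 256))) ≤ Q 48 80 14 (3 / 2) (-((91 / 20))) 0 d x := by
  unfold Q
  nlinarith [sq_nonneg (d - (7 / 48) * x - (1 / 64)), mul_nonneg hz (sub_nonneg.2 hz')]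

/-- the one point inequalities -/
noncomputable def dat : Dat 5 8 48 80 14 (-((38 / 9))) where
  Z := (1 / 25)
  aA := (481 / 324)
  bA := (-((674 / 81)))
  ap := (23 / 162)
  an := (-((425 / 324)))
  aB := (9 / 4)
  bp := (-((2401 / 3712)))
  bm := (-((19759 / 128000)))
  aC := (3 / 2)
  bC := (-((91 / 20)))
  gp := (-((2367 / 10000)))
  gn := (-((9049 / 10000)))
  g0 := (-((3 / 256)))
  Zpos := by norm_num
  cnn := by norm_num
  A1 := A1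
  A2 := A2
  A3 := by norm_num
  A4 := by norm_num
  B1 := B1
  B2 := fun d x _ => B2 d x
  B3 := by norm_num
  B4 := by norm_num
  C1 := C1
  C2 := C2
  C3 := fun d x _ => C3 d x
  C4 := by norm_num

section

open MeasureTheory Set Filter Function Module Vale.Agent.P224.UE
open scoped Topology RealInnerProductSpace ContDiff

variable {X : Type*} [MeasurableSpace X] {E : Type*} [NormedAddCommGroup E]
  [InnerProductSpace ℝ E] [FiniteDimensional ℝ E] [MeasurableSpace E] [BorelSpace E]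
  {μ : Measure X} [IsFiniteMeasure μ] {p n : X → E}

/-- the orientation resource in dimension 9 -/
theorem rc (hE : finrank ℝ E = 11) (h : TwoG μ 9 p n) [Nonempty X]
    (hsp : ∀ w, (∀ x, ⟪p x, w⟫ = 0) → w = 0)
    (hor : 0 ≤ ∫ q : X × X, ⟪p q.1, p q.2⟫ * ⟪p q.1, n q.2⟫ ∂(μ.prod μ))
    {c : ℝ} (hc0 : 0 ≤ c) (hc : 196 ≤ 80 * c ^ 2) :
    0 ≤ ∫ q : X × X, ((-((77 / 18))) + 48 * ⟪p q.1, p q.2⟫ ^ 2 - ⟪p q.1, p q.2⟫ * ⟪n q.1, n q.2⟫
      + c * (⟪p q.1, p q.2⟫ * ((⟪p q.1, n q.2⟫ + ⟪n q.1, p q.2⟫) / 2))) ∂(μ.prod μ) :=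
  resD (m := 9) dat (by norm_num) (by norm_num) (by norm_num) (by norm_num) (by norm_num)
    (by norm_num) hc0 (by push_cast; linarith) hE h hsp hor

end

end Vale.Agent.P224.SO.M9

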