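import Vale.Agent.P224.SO.One

/-!
The one point identity in dimension five with the constant 177/100.
-/

namespace Vale.Agent.P224.SO

open MeasureTheory Set Filter Function Module Vale.Agent.P224.UE
open scoped Topology RealInnerProductSpace ContDiff

set_option linter.unusedSectionVars false

lemma sp_key {H C w ξ : ℝ} (hw : w = ξ - 2 / 5 + 6 / 25 * H) (hw2 : 25 / 24 * w ^ 2 ≤ C) :
    H * (ξ - 2 / 5 + 2 / 25 * H) ≤ 6 * C := by
  have e : H * (ξ - 2 / 5 + 2 / 25 * H) = H * w - 4 / 25 * H ^ 2 := by rw [hw]; ring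
  rw [e]
  have e2 : H * w - 4 / 25 * H ^ 2 = 25 / 16 * w ^ 2 - (2 / 5 * H - 5 / 4 * w) ^ 2 := by ring
  rw [e2]
  have := sq_nonneg (2 / 5 * H - 5 / 4 * w)
  have := sq_nonneg w
  linarith

lemma sp_theta {H C ξ : ℝ} (h0 : 0 ≤ ξ) (hC0 : 0 ≤ C) (hCH : C ≤ H)
    (key : H * (ξ - 2 / 5 + 2 / 25 * H) ≤ 6 * C) :
    (H / 2 - 5 / 6 * C) * (9 / 2 + 5 / 4 * ξ + H / 10) ≤ 5 / 2 * H := by
  have e : (H / 2 - 5 / 6 * C) * (9 / 2 + 5 / 4 * ξ + H / 10)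
      = 5 / 2 * H + 5 / 8 * (H * (ξ - 2 / 5 + 2 / 25 * H)) - 15 / 4 * C
        - 25 / 24 * (C * ξ) - 1 / 12 * (C * H) := by ring
  rw [e]
  have h1 := mul_nonneg hC0 h0
  have h2 := mul_nonneg hC0 (hC0.trans hCH)
  linarith

lemma sp_final {H θ ξ : ℝ} (hH0 : 0 ≤ H) (hθ0 : 0 ≤ θ) (hθH : θ ≤ H / 2) (h0 : 0 ≤ ξ)
    (h4 : θ * (9 / 2 + 5 / 4 * ξ + H / 10) ≤ 5 / 2 * H) :
    (1 / 4 + 1 / 96) * H ^ 2 + (32 / 3 + 17 / 6 * ξ) * θ ^ 2
        - (2 / 3 + ξ / 12) * θ * H + θ * H * (H / 10 - 1 / 6 - ξ / 12)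
      ≤ (1662 / 1000) ^ 2 * H ^ 2 := by
  have h2 : θ ^ 2 ≤ θ * (H / 2) := by rw [sq]; exact mul_le_mul_of_nonneg_left hθH hθ0
  have h3 : (32 / 3 + 17 / 6 * ξ) * θ ^ 2 ≤ (32 / 3 + 17 / 6 * ξ) * (θ * (H / 2)) :=
    mul_le_mul_of_nonneg_left h2 (by linarith)
  have h5 : H * (θ * (9 / 2 + 5 / 4 * ξ + H / 10)) ≤ H * (5 / 2 * H) :=
    mul_le_mul_of_nonneg_left h4 hH0
  have h6 : 0 ≤ H ^ 2 := sq_nonneg H
  have e : (1 / 4 + 1 / 96) * H ^ 2 + (32 / 3 + 17 / 6 * ξ) * (θ * (H / 2))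
        - (2 / 3 + ξ / 12) * θ * H + θ * H * (H / 10 - 1 / 6 - ξ / 12)
      = (1 / 4 + 1 / 96) * H ^ 2 + H * (θ * (9 / 2 + 5 / 4 * ξ + H / 10)) := by ring
  linarith

/-- the scalar inequality, positive case -/
lemma scal_pos {q H r ξ η σ C : ℝ} (hq : q ^ 2 = 6) (hq0 : 0 ≤ q)
    (hH : H = 5 / 6 * (2 + ξ + 2 * q * σ)) (hr : r = 5 * q / 6 * (1 - η - ξ))
    (hC : C = η + q * σ + 3 / 2 * ξ) (h0 : 0 ≤ ξ) (h1 : ξ ≤ 1) (hC0 : 0 ≤ C) (hCH : C ≤ H)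
    (hcs : (σ + q / 2 * ξ) ^ 2 ≤ ξ * C) (hr0 : 0 ≤ r) :
    H ^ 2 / 4 + H * (r * (σ / 6)) + (r ^ 2 * (16 / 9 + 17 / 36 * ξ)
      - 2 * (q / 24) * H * r * (4 / 3 + ξ / 6) + (q / 24) ^ 2 * H ^ 2)
      ≤ (1662 / 1000) ^ 2 * H ^ 2 := by
  have hH0 : 0 ≤ H := hC0.trans hCH
  obtain ⟨θ, hθ⟩ : ∃ θ, θ = H / 2 - 5 / 6 * C := ⟨_, rfl⟩
  have hrθ : r = q * θ := by
    rw [hr, hθ, hH, hC]
    ring
  have hq1 : 0 < q := by
    rcases hq0.eq_or_lt with h | h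
    · rw [← h] at hq; norm_num at hq
    · exact h
  have hθ0 : 0 ≤ θ := by
    by_contra h
    push Not at h
    have := mul_neg_of_pos_of_neg hq1 h
    linarith
  have hqσ : q * σ = 3 / 5 * H - 1 - ξ / 2 := by rw [hH]; ring
  obtain ⟨w, hw⟩ : ∃ w, w = ξ - 2 / 5 + 6 / 25 * H := ⟨_, rfl⟩
  have hw1 : σ + q / 2 * ξ = q * (5 / 12) * w := by
    have : q * (σ + q / 2 * ξ) = q * (q * (5 / 12) * w) := by
      rw [hw]
      linear_combination hqσ + (ξ / 2 - 5 / 12 * (ξ - 2 / 5 + 6 / 25 * H)) * hq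
    exact mul_left_cancel₀ hq1.ne' this
  have hw2 : 25 / 24 * w ^ 2 ≤ C := by
    have e : (σ + q / 2 * ξ) ^ 2 = 25 / 24 * w ^ 2 := by
      rw [hw1]
      linear_combination (25 / 144 * w ^ 2) * hq
    rw [e] at hcs
    have := mul_le_mul_of_nonneg_right h1 hC0
    linarith
  have hθH : θ ≤ H / 2 := by rw [hθ]; linarith
  have h4 : θ * (9 / 2 + 5 / 4 * ξ + H / 10) ≤ 5 / 2 * H := by
    rw [hθ]
    exact sp_theta h0 hC0 hCH (sp_key hw hw2)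
  have e1 : H ^ 2 / 4 + H * (r * (σ / 6)) + (r ^ 2 * (16 / 9 + 17 / 36 * ξ)
      - 2 * (q / 24) * H * r * (4 / 3 + ξ / 6) + (q / 24) ^ 2 * H ^ 2)
      = (1 / 4 + 1 / 96) * H ^ 2 + (32 / 3 + 17 / 6 * ξ) * θ ^ 2
        - (2 / 3 + ξ / 12) * θ * H + θ * H * (H / 10 - 1 / 6 - ξ / 12) := by
    rw [hrθ]
    linear_combination (θ * H / 6) * hqσ + (θ ^ 2 * (16 / 9 + 17 / 36 * ξ)
      - 1 / 12 * H * θ * (4 / 3 + ξ / 6) + 1 / 576 * H ^ 2) * hq
  rw [e1]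
  exact sp_final hH0 hθ0 hθH h0 h4

lemma scal_neg {q H r a b c g : ℝ} (hq : q ^ 2 = 6) (hq0 : 0 ≤ q) (hH : 0 ≤ H)
    (hr1 : -(q / 3) * H ≤ r) (hr2 : r ≤ 0) (hab : a ^ 2 + b ^ 2 ≤ 1) (hc2 : -1 ≤ c)
    (hg : g = 4 / 3 * b + 1 / 6 * c) :
    r * g + 1 / 2 * H * a + q / 24 * (H * (1 - b)) ≤ 177 / 100 * H := by
  have hq1 : q ≤ 245 / 100 := by nlinarith
  have ha1 : a ≤ 1 := by nlinarith
  have hb1 : -1 ≤ b := by nlinarith
  rcases le_total 0 g with h0 | h0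
  · have h1 : r * g ≤ 0 := mul_nonpos_of_nonpos_of_nonneg hr2 h0
    have h4 : 1 / 2 * a + q / 24 * (1 - b) ≤ 177 / 100 := by nlinarith
    nlinarith [mul_le_mul_of_nonneg_left h4 hH]
  · have h1 : r * g ≤ -(q / 3) * H * g := mul_le_mul_of_nonpos_right hr1 h0
    have h2 : -(35 * q / 72 * b) + 1 / 2 * a ≤ 1300 / 1000 := by
      have : (-(35 * q / 72 * b) + 1 / 2 * a) ^ 2 ≤ (1300 / 1000) ^ 2 := by
        have e : (-(35 * q / 72 * b) + 1 / 2 * a) ^ 2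
            = (1225 * q ^ 2 / 5184 + 1 / 4) * (a ^ 2 + b ^ 2)
              - (35 * q / 72 * a + 1 / 2 * b) ^ 2 := by
          ring
        rw [e, hq]
        nlinarith [sq_nonneg (35 * q / 72 * a + 1 / 2 * b)]
      nlinarith [abs_le_of_sq_le_sq' this (by norm_num)]
    have h3 : -(q / 18 * c) ≤ q / 18 := by nlinarith
    have h4 : -(q / 3) * g + 1 / 2 * a + q / 24 * (1 - b) ≤ 177 / 100 := by
      rw [hg]
      nlinarith
    nlinarith [mul_le_mul_of_nonneg_left h4 hH]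

lemma sqrt6_le : √6 ≤ (245 / 100 : ℝ) := Real.sqrt_le_iff.2 ⟨by norm_num, by norm_num⟩

lemma sum_split (S : Finset (Fin 7)) (α β : ℝ) (g : Fin 7 → ℝ) :
    ∑ i, (if i ∈ S then α else β) * g i
      = α * ∑ i, g i + (β - α) * ∑ i ∈ Finset.univ \ S, g i := by
  have e1 : ∀ i, (if i ∈ S then α else β) * g i
      = α * g i + (β - α) * (if i ∈ Finset.univ \ S then g i else 0) := by
    intro i
    by_cases hi : i ∈ S
    · simp [hi]
    · simp [hi]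
      ring
  simp only [e1]
  rw [Finset.sum_add_distrib, ← Finset.mul_sum, ← Finset.mul_sum, Finset.sum_ite_mem,
    Finset.univ_inter]

/-- the pointwise inequality with the constant 177/100 -/
lemma pointwiseS (S : Finset (Fin 7)) (x N u : Fin 7 → ℝ) (hx : ∑ i, x i ^ 2 = 1)
    (hN : ∑ i, N i ^ 2 = 1) (hu : ∑ i, u i ^ 2 = 1) (hxN : ∑ i, x i * N i = 0) :
    ∑ k, (dc S k * ((∑ i, (zc S i + √6 / 6) * (N i - zc S i * x i) ^ 2) * x k)
      + 1 / 2 * ((∑ i, (N i - zc S i * x i) ^ 2) * N k)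
      + √6 / 12 * ((∑ i, zc S i * x i ^ 2) * (N k - zc S k * x k))) * u k
      ≤ 177 / 100 * ∑ i, (N i - zc S i * x i) ^ 2 := by
  obtain ⟨h, hh⟩ : ∃ h : Fin 7 → ℝ, h = fun i => N i - zc S i * x i := ⟨_, rfl⟩
  have hhi : ∀ i, N i - zc S i * x i = h i := fun i => by rw [hh]
  obtain ⟨H, hHd⟩ : ∃ H, H = ∑ i, h i ^ 2 := ⟨_, rfl⟩
  obtain ⟨r, hr⟩ : ∃ r, r = ∑ i, (zc S i + √6 / 6) * h i ^ 2 := ⟨_, rfl⟩
  simp only [hhi]
  rw [← hHd, ← hr]
  have hq0 : 0 ≤ √6 := Real.sqrt_nonneg _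
  have hH0 : 0 ≤ H := by rw [hHd]; exact Finset.sum_nonneg fun i _ => sq_nonneg _
  have hr1 : -(√6 / 3) * H ≤ r := by
    rw [hHd, hr, Finset.mul_sum]
    refine Finset.sum_le_sum fun i _ => mul_le_mul_of_nonneg_right ?_ (sq_nonneg _)
    unfold zc
    split_ifs <;> linarith
  have hqx : ∑ i, zc S i * x i ^ 2 = -∑ i, h i * x i := by
    have : ∑ i, h i * x i = ∑ i, x i * N i - ∑ i, zc S i * x i ^ 2 := by
      rw [← Finset.sum_sub_distrib]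
      exact Finset.sum_congr rfl fun i _ => by rw [hh]; ring
    rw [this, hxN]
    ring
  obtain ⟨a, ha⟩ : ∃ a, a = ∑ i, N i * u i := ⟨_, rfl⟩
  obtain ⟨b, hb⟩ : ∃ b, b = ∑ i, x i * u i := ⟨_, rfl⟩
  obtain ⟨c, hc⟩ : ∃ c, c = ∑ i ∈ Finset.univ \ S, x i * u i := ⟨_, rfl⟩
  have hc2 : -1 ≤ c := by
    have := cs_partial (Finset.univ \ S) x (fun i => -u i) hx (by simpa using hu)
    simp only [mul_neg, Finset.sum_neg_distrib] at this
    linarith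
  have hab : a ^ 2 + b ^ 2 ≤ 1 := by rw [ha, hb]; exact bessel x N u hx hN hu hxN
  have hg : ∑ i, dc S i * (x i * u i) = 4 / 3 * b + 1 / 6 * c := by
    unfold dc
    rw [sum_split, hb, hc]
    ring
  have hcr := cross x h u hx hu
  rw [← hHd, ← hb] at hcr
  have e0 : ∑ k, (dc S k * (r * x k) + 1 / 2 * (H * N k)
      + √6 / 12 * ((∑ i, zc S i * x i ^ 2) * h k)) * u k
      = r * (∑ i, dc S i * (x i * u i)) + 1 / 2 * H * a
        + √6 / 12 * ((∑ i, zc S i * x i ^ 2) * ∑ i, h i * u i) := by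
    rw [ha]
    simp only [Finset.mul_sum, ← Finset.sum_add_distrib]
    exact Finset.sum_congr rfl fun i _ => by ring
  rw [e0, hg, hqx]
  have h6 : √6 / 12 * (-(∑ i, h i * x i) * ∑ i, h i * u i) ≤ √6 / 24 * (H * (1 - b)) := by
    have := mul_le_mul_of_nonneg_left hcr (by positivity : 0 ≤ √6 / 24)
    linarith only [this]
  rcases le_total r 0 with hr0 | hr0
  · have key := scal_neg sq6 hq0 hH0 hr1 hr0 hab hc2 rfl
    linarith only [key, h6]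
  -- the positive case
  obtain ⟨ξ, hξ⟩ : ∃ ξ, ξ = ∑ i ∈ Finset.univ \ S, x i ^ 2 := ⟨_, rfl⟩
  obtain ⟨η, hη⟩ : ∃ η, η = ∑ i ∈ Finset.univ \ S, N i ^ 2 := ⟨_, rfl⟩
  obtain ⟨σ, hσ⟩ : ∃ σ, σ = ∑ i ∈ Finset.univ \ S, x i * N i := ⟨_, rfl⟩
  obtain ⟨C, hC⟩ : ∃ C, C = ∑ i ∈ Finset.univ \ S, h i ^ 2 := ⟨_, rfl⟩
  have q6 := sq6
  have hz : ∀ i ∈ Finset.univ \ S, zc S i = -(√6 / 2) := by
    intro i hi
    unfold zc
    rw [if_neg (Finset.mem_sdiff.1 hi).2]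
  have hC1 : C = η + √6 * σ + 3 / 2 * ξ := by
    have e : ∑ i ∈ Finset.univ \ S, h i ^ 2 = ∑ i ∈ Finset.univ \ S,
        (N i ^ 2 + √6 * (x i * N i) + 3 / 2 * x i ^ 2) := by
      refine Finset.sum_congr rfl fun i hi => ?_
      rw [hh]
      simp only
      rw [hz i hi]
      linear_combination (x i ^ 2 / 4) * q6
    rw [hC, e, Finset.sum_add_distrib, Finset.sum_add_distrib, ← Finset.mul_sum,
      ← Finset.mul_sum, ← hξ, ← hη, ← hσ]
  have hz1 : ∀ g : Fin 7 → ℝ, ∑ i, zc S i * g i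
      = √6 / 3 * ∑ i, g i - 5 * √6 / 6 * ∑ i ∈ Finset.univ \ S, g i := by
    intro g
    unfold zc
    rw [sum_split]
    ring
  have hz2 : ∀ g : Fin 7 → ℝ, ∑ i, zc S i ^ 2 * g i
      = 2 / 3 * ∑ i, g i + 5 / 6 * ∑ i ∈ Finset.univ \ S, g i := by
    intro g
    have e : ∀ i, zc S i ^ 2 * g i = (if i ∈ S then 2 / 3 else 3 / 2) * g i := by
      intro i
      unfold zc
      split_ifs
      · linear_combination (g i / 9) * q6
      · linear_combination (g i / 4) * q6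
    simp only [e]
    rw [sum_split]
    ring
  have hH1 : H = 5 / 6 * (2 + ξ + 2 * √6 * σ) := by
    have e : ∑ i, h i ^ 2 = ∑ i, N i ^ 2 - 2 * ∑ i, zc S i * (x i * N i)
        + ∑ i, zc S i ^ 2 * x i ^ 2 := by
      simp only [Finset.mul_sum, ← Finset.sum_add_distrib, ← Finset.sum_sub_distrib]
      exact Finset.sum_congr rfl fun i _ => by rw [hh]; ring
    rw [hHd, e, hz1, hz2, hN, hx, hxN, ← hξ, ← hσ]
    ring
  have hr3 : r = √6 / 2 * H - 5 * √6 / 6 * C := by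
    have e : ∑ i, (zc S i + √6 / 6) * h i ^ 2
        = ∑ i, zc S i * h i ^ 2 + √6 / 6 * ∑ i, h i ^ 2 := by
      simp only [Finset.mul_sum, ← Finset.sum_add_distrib]
      exact Finset.sum_congr rfl fun i _ => by ring
    rw [hr, e, hz1, ← hHd, ← hC]
    ring
  have hr4 : r = 5 * √6 / 6 * (1 - η - ξ) := by
    rw [hr3, hH1, hC1]
    ring
  have hξ0 : 0 ≤ ξ := by rw [hξ]; exact Finset.sum_nonneg fun i _ => sq_nonneg _
  have hξ1 : ξ ≤ 1 := by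
    rw [hξ, ← hx]
    exact Finset.sum_le_sum_of_subset_of_nonneg (Finset.subset_univ _) fun i _ _ => sq_nonneg _
  have hC0 : 0 ≤ C := by rw [hC]; exact Finset.sum_nonneg fun i _ => sq_nonneg _
  have hCH : C ≤ H := by
    rw [hC, hHd]
    exact Finset.sum_le_sum_of_subset_of_nonneg (Finset.subset_univ _) fun i _ _ => sq_nonneg _
  have hcs : (σ + √6 / 2 * ξ) ^ 2 ≤ ξ * C := by
    have e : σ + √6 / 2 * ξ = ∑ i ∈ Finset.univ \ S, x i * h i := by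
      rw [hσ, hξ, Finset.mul_sum, ← Finset.sum_add_distrib]
      refine Finset.sum_congr rfl fun i hi => ?_
      rw [hh]
      simp only
      rw [hz i hi]
      ring
    rw [e, hξ, hC]
    exact Finset.sum_mul_sq_le_sq_mul_sq _ _ _
  have key := scal_pos sq6 hq0 hH1 hr4 hC1 hξ0 hξ1 hC0 hCH hcs hr0
  -- the vector
  have g0 : ∑ k, ((1 / 2 * H) * N k + (r * dc S k - √6 / 24 * H) * x k) ^ 2
      = (1 / 2 * H) ^ 2 * ∑ k, N k ^ 2 + H * (r * ∑ k, dc S k * (x k * N k)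
        - √6 / 24 * H * ∑ k, x k * N k) + (r ^ 2 * ∑ k, dc S k ^ 2 * x k ^ 2
        - 2 * (√6 / 24) * H * r * ∑ k, dc S k * x k ^ 2
        + (√6 / 24) ^ 2 * H ^ 2 * ∑ k, x k ^ 2) := by
    simp only [Finset.mul_sum, ← Finset.sum_add_distrib, ← Finset.sum_sub_distrib]
    exact Finset.sum_congr rfl fun i _ => by ring
  have g1 : ∑ k, dc S k * (x k * N k) = σ / 6 := by
    unfold dc
    rw [sum_split, hxN, ← hσ]
    ring
  have g2 : ∑ k, dc S k ^ 2 * x k ^ 2 = 16 / 9 + 17 / 36 * ξ := by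
    have e : ∀ i, dc S i ^ 2 * x i ^ 2 = (if i ∈ S then 16 / 9 else 9 / 4) * x i ^ 2 := by
      intro i
      unfold dc
      split_ifs <;> ring
    simp only [e]
    rw [sum_split, hx, ← hξ]
    ring
  have g3 : ∑ k, dc S k * x k ^ 2 = 4 / 3 + ξ / 6 := by
    unfold dc
    rw [sum_split, hx, ← hξ]
    ring
  have hcs2 := Finset.sum_mul_sq_le_sq_mul_sq Finset.univ
    (fun k => (1 / 2 * H) * N k + (r * dc S k - √6 / 24 * H) * x k) u
  have g4 : ∑ k, ((1 / 2 * H) * N k + (r * dc S k - √6 / 24 * H) * x k) * u k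
      = 1 / 2 * H * a + r * (4 / 3 * b + 1 / 6 * c) - √6 / 24 * H * b := by
    rw [← hg, ha, hb]
    simp only [Finset.mul_sum, ← Finset.sum_add_distrib, ← Finset.sum_sub_distrib]
    exact Finset.sum_congr rfl fun i _ => by ring
  rw [g4, g0, g1, g2, g3, hu, hN, hx, hxN] at hcs2
  have h7 : (1 / 2 * H * a + r * (4 / 3 * b + 1 / 6 * c) - √6 / 24 * H * b) ^ 2
      ≤ (1662 / 1000 * H) ^ 2 := by
    rw [mul_pow]
    refine hcs2.trans (le_trans (le_of_eq ?_) key)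
    ring
  have h8 := (abs_le_of_sq_le_sq' h7 (by positivity)).2
  have h9 : √6 * H ≤ 245 / 100 * H := mul_le_mul_of_nonneg_right sqrt6_le hH0
  have h10 : √6 / 24 * (H * (1 - b)) = √6 * H / 24 - √6 / 24 * H * b := by ring
  linarith only [h6, h8, h9, h10, hH0]

section

variable {X : Type*} [MeasurableSpace X] {E : Type*} [NormedAddCommGroup E]
  [InnerProductSpace ℝ E] [FiniteDimensional ℝ E] [MeasurableSpace E] [BorelSpace E]
  {μ : Measure X} [IsFiniteMeasure μ] {p n : X → E}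

/-- the one point identity with the constant 177/100 -/
theorem one_pointS (h : TwoG μ 5 p n) [Nonempty X]
    (hsp : ∀ w, (∀ x, ⟪p x, w⟫ = 0) → w = 0) (b : OrthonormalBasis (Fin 7) ℝ E)
    (S : Finset (Fin 7)) :
    ‖∫ x, n x ∂μ‖ ≤ 177 / 100 * ∫ x, ‖n x - ∑ i, ((if i ∈ S then √6 / 3 else -(√6 / 2))
      * ⟪p x, b i⟫) • b i‖ ^ 2 ∂μ := by
  have hp : UF p := ⟨h.mp, h.np⟩
  have hn : UF n := ⟨h.mn, h.nn⟩
  have bx : ∀ i, BM fun x => ⟪p x, b i⟫ := fun i => bm_inner hp _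
  have bn : ∀ i, BM fun x => ⟪n x, b i⟫ := fun i => bm_inner hn _
  have ips : ∀ u v : E, ∑ i, ⟪u, b i⟫ * ⟪v, b i⟫ = ⟪u, v⟫ := by
    intro u v
    rw [← b.sum_inner_mul_inner u v]
    exact Finset.sum_congr rfl fun i _ => by rw [real_inner_comm v]
  have hxx : ∀ x, ∑ i, ⟪p x, b i⟫ ^ 2 = 1 := fun x => by
    have := ips (p x) (p x)
    rw [real_inner_self_eq_norm_sq, hp.unit, one_pow] at this
    simpa only [sq] using this
  have hnn : ∀ x, ∑ i, ⟪n x, b i⟫ ^ 2 = 1 := fun x => by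
    have := ips (n x) (n x)
    rw [real_inner_self_eq_norm_sq, hn.unit, one_pow] at this
    simpa only [sq] using this
  have hxn : ∀ x, ∑ i, ⟪p x, b i⟫ * ⟪n x, b i⟫ = 0 := fun x => by rw [ips, h.pn]
  have hnorm : ∀ x, ‖n x - ∑ i, ((if i ∈ S then √6 / 3 else -(√6 / 2))
      * ⟪p x, b i⟫) • b i‖ ^ 2 = ∑ i, (⟪n x, b i⟫ - zc S i * ⟪p x, b i⟫) ^ 2 := by
    intro x
    rw [← real_inner_self_eq_norm_sq, ← ips]
    refine Finset.sum_congr rfl fun i _ => ?_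
    have : ⟪n x - ∑ j, ((if j ∈ S then √6 / 3 else -(√6 / 2)) * ⟪p x, b j⟫) • b j, b i⟫
        = ⟪n x, b i⟫ - zc S i * ⟪p x, b i⟫ := by
      rw [inner_sub_left, sum_inner]
      congr 1
      rw [Finset.sum_eq_single i]
      · rw [real_inner_smul_left, orthonormal_iff_ite.1 b.orthonormal i i, if_pos rfl, mul_one]
        rfl
      · intro j _ hj
        rw [real_inner_smul_left, orthonormal_iff_ite.1 b.orthonormal j i, if_neg hj, mul_zero]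
      · intro hi
        exact absurd (Finset.mem_univ i) hi
    rw [this, sq]
  simp only [hnorm]
  set v := ∫ x, n x ∂μ with hv
  have hIn : Integrable n μ :=
    Integrable.of_bound hn.meas.aestronglyMeasurable 1
      (Eventually.of_forall fun x => (hn.unit x).le)
  rcases eq_or_ne v 0 with h0 | h0
  · rw [h0, norm_zero]
    exact mul_nonneg (by norm_num)
      (integral_nonneg fun x => Finset.sum_nonneg fun i _ => sq_nonneg _)
  have hvp : 0 < ‖v‖ := norm_pos_iff.2 h0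
  have hvk : ∀ k, ⟪v, b k⟫ = ∫ x, ⟪n x, b k⟫ ∂μ := by
    intro k
    rw [hv, real_inner_comm, ← integral_inner hIn]
    exact integral_congr_ae (Eventually.of_forall fun x => real_inner_comm _ _)
  set u : Fin 7 → ℝ := fun k => ⟪v, b k⟫ / ‖v‖ with hu
  have huu : ∑ k, u k ^ 2 = 1 := by
    have : ∑ k, u k ^ 2 = (∑ k, ⟪v, b k⟫ * ⟪v, b k⟫) / ‖v‖ ^ 2 := by
      rw [Finset.sum_div]
      exact Finset.sum_congr rfl fun i _ => by simp only [hu]; rw [div_pow, sq ⟪v, b i⟫]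
    rw [this, ips, real_inner_self_eq_norm_sq, div_self (by positivity)]
  set V : Fin 7 → X → ℝ := fun k x =>
    dc S k * ((∑ i, (zc S i + √6 / 6) * (⟪n x, b i⟫ - zc S i * ⟪p x, b i⟫) ^ 2) * ⟪p x, b k⟫)
      + 1 / 2 * ((∑ i, (⟪n x, b i⟫ - zc S i * ⟪p x, b i⟫) ^ 2) * ⟪n x, b k⟫)
      + √6 / 12 * ((∑ i, zc S i * ⟪p x, b i⟫ ^ 2) * (⟪n x, b k⟫ - zc S k * ⟪p x, b k⟫)) with hV
  have bh : ∀ i, BM fun x => ⟪n x, b i⟫ - zc S i * ⟪p x, b i⟫ := fun i => by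
    simpa only [neg_mul, ← sub_eq_add_neg] using (bn i).add ((bx i).cmul (-(zc S i)))
  have bH : BM fun x => ∑ i, (⟪n x, b i⟫ - zc S i * ⟪p x, b i⟫) ^ 2 := by
    simpa only [sq] using BM.sum Finset.univ fun i => (bh i).mul (bh i)
  have br : BM fun x => ∑ i, (zc S i + √6 / 6) * (⟪n x, b i⟫ - zc S i * ⟪p x, b i⟫) ^ 2 := by
    simpa only [sq] using BM.sum Finset.univ fun i => ((bh i).mul (bh i)).cmul (zc S i + √6 / 6)
  have bq : BM fun x => ∑ i, zc S i * ⟪p x, b i⟫ ^ 2 := by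
    simpa only [sq] using BM.sum Finset.univ fun i => ((bx i).mul (bx i)).cmul (zc S i)
  have bV : ∀ k, BM (V k) := fun k =>
    (((br.mul (bx k)).cmul _).add ((bH.mul (bn k)).cmul _)).add ((bq.mul (bh k)).cmul _)
  have hVk : ∀ k, ∫ x, V k x ∂μ = ⟪v, b k⟫ := fun k => by
    rw [hvk]
    exact one_coord h hp hn hsp b S k
  have h1 : ‖v‖ = ∫ x, ∑ k, V k x * u k ∂μ := by
    rw [integral_finsetSum _ fun k _ => (bV k).int.mul_const _]
    have : ∀ k, ∫ x, V k x * u k ∂μ = ⟪v, b k⟫ * ⟪v, b k⟫ / ‖v‖ := by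
      intro k
      rw [integral_mul_const, hVk]
      simp only [hu]
      ring
    simp only [this]
    rw [← Finset.sum_div, ips, real_inner_self_eq_norm_sq, sq, mul_div_assoc,
      div_self hvp.ne', mul_one]
  rw [h1, ← integral_const_mul]
  refine integral_mono (BM.sum Finset.univ fun k => (bV k).mul (BM.const (u k))).int
    (bH.cmul (177 / 100)).int fun x => ?_
  exact pointwiseS S (fun i => ⟪p x, b i⟫) (fun i => ⟪n x, b i⟫) u (hxx x) (hnn x) huu (hxn x)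

end

end Vale.Agent.P224.SO
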