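import Vale.Agent.P224.SO.Stab5U

/-!
Dimension five: the strong stable scalar inequalities in the form used by the core theorem.
-/

namespace Vale.Agent.P224.SO.St

open Finset Vale.Agent.P224.SO

/-- the first stable hypothesis of the core theorem -/
theorem hst1U (d z : Fin 7 → ℝ) (h : ∀ i, z i ^ 2 ≤ d i - d i ^ 2) (h1 : ∑ i, d i = 1)
    (h0 : ∑ i, z i = 0) (hv : ∑ i, d i * z i ≤ 0)
    (hS : Sv d z + ∑ i, pT (d i) (z i) < 129 / 10000) :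
    (Rt (1 / 5) z).card = 4 ∧
      205 / 100 * ∑ i, dl d z i ≤ Sv d z + ∑ i, pT (d i) (z i) :=
  stabTU h h1 h0 hv hS

/-- the second stable hypothesis of the core theorem -/
theorem hst2U (d z : Fin 7 → ℝ) (h : ∀ i, z i ^ 2 ≤ d i - d i ^ 2) (h1 : ∑ i, d i = 1)
    (h0 : ∑ i, z i = 0) (hv : ∑ i, d i * z i ≤ 0)
    (hS : Sv d z + 7 / 10 * ∑ i, (d i - d i ^ 2 - z i ^ 2) < 110 / 10000) :
    (Rt (1 / 5) z).card = 4 ∧
      186 / 100 * ∑ i, dl d z i ≤ Sv d z + 7 / 10 * ∑ i, (d i - d i ^ 2 - z i ^ 2) := by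
  have e : ∑ i, pS (d i) (z i) = 7 / 10 * ∑ i, (d i - d i ^ 2 - z i ^ 2) := by
    rw [mul_sum]
    rfl
  rw [← e] at hS ⊢
  exact stabSU h h1 h0 hv hS

end Vale.Agent.P224.SO.St
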