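import Vale.Agent.P224.SO.Rg

/-!
Dimension 13: the orientation resource.
-/

namespace Vale.Agent.P224.SO.M13

open Vale.Agent.P224.SO Vale.Agent.P224.SO.Rg

lemma A1 (d x : ℝ) (h : 12 * x ^ 2 ≤ d - d ^ 2) (hz : (1 / 50) ≤ x) :
    (495 / 5408) ≤ Q 96 168 33 (515 / 338) (-((1881 / 169))) 0 d x := by
  unfold Q
  nlinarith [sq_nonneg (d + (-((18090 / 25639))) * x + (-((6801 / 666614)))),
      sq_nonneg (x + (-((7 / 104)))),
      mul_nonneg (sub_nonneg.2 hz) (lin_q (q := 12) (by norm_num) h (3 / 52) (7 / 104))]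

lemma A2 (d x : ℝ) (h : 12 * x ^ 2 ≤ d - d ^ 2) :
    (-((407 / 338))) ≤ Q 96 168 33 (515 / 338) (-((1881 / 169))) 0 d x := by
  unfold Q
  nlinarith [sq_nonneg (d + (-((39 / 271))) * x + (-((310 / 3523)))),
      sq_nonneg (x + (1 / 13))]

lemma B1 (d x : ℝ) (h : 12 * x ^ 2 ≤ d - d ^ 2) : (-((99 / 160))) ≤ Q 96 168 33 (5 / 2) 0 33 d x := by
  unfold Q
  nlinarith [sq_nonneg (d - (3 / 40))]

lemma B2 (d x : ℝ) (hz : (-((1 / 50))) ≤ x) (hz' : x ≤ (1 / 50)) : (-((80137 / 960000))) ≤ Q 96 168 33 (5 / 2) 0 33 d x := by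
  unfold Q
  nlinarith [sq_nonneg (d - (5 / 384)), mul_nonneg (sub_nonneg.2 hz) (sub_nonneg.2 hz')]

lemma C1 (d x : ℝ) (h : 12 * x ^ 2 ≤ d - d ^ 2) (hz : (1 / 50) ≤ x) :
    (-((1759 / 10000))) ≤ Q 96 168 33 (31 / 20) (-((37 / 5))) 0 d x := by
  unfold Q
  nlinarith [sq_nonneg (d + (-((9148 / 20695))) * x + (-((39277 / 1034750)))),
      sq_nonneg (x + (-((89081479 / 1235549950)))),
      mul_nonneg (sub_nonneg.2 hz) (lin_q (q := 12) (by norm_num) h (7 / 100) (3 / 40))]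

lemma C2 (d x : ℝ) (h : 12 * x ^ 2 ≤ d - d ^ 2) :
    (-((4629 / 5000))) ≤ Q 96 168 33 (31 / 20) (-((37 / 5))) 0 d x := by
  unfold Q
  nlinarith [sq_nonneg (d + (-((330 / 2257))) * x + (-((184 / 2257)))),
      sq_nonneg (x + (53149 / 717444))]

lemma C3 (d x : ℝ) (hz : 0 ≤ x) (hz' : x ≤ (1 / 50)) :
    (-((961 / 153600))) ≤ Q 96 168 33 (31 / 20) (-((37 / 5))) 0 d x := by
  unfold Q
  nlinarith [sq_nonneg (d - (11 / 64) * x - (31 / 3840)), mul_nonneg hz (sub_nonneg.2 hz')]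

/-- the one point inequalities -/
noncomputable def dat : Dat 7 12 96 168 33 (-((321 / 52))) where
  Z := (1 / 50)
  aA := (515 / 338)
  bA := (-((1881 / 169)))
  ap := (495 / 5408)
  an := (-((407 / 338)))
  aB := (5 / 2)
  bp := (-((99 / 160)))
  bm := (-((80137 / 960000)))
  aC := (31 / 20)
  bC := (-((37 / 5)))
  gp := (-((1759 / 10000)))
  gn := (-((4629 / 5000)))
  g0 := (-((961 / 153600)))
  Zpos := by norm_num
  cnn := by norm_num
  A1 := A1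
  A2 := A2
  A3 := by norm_num
  A4 := by norm_num
  B1 := B1
  B2 := fun d x _ => B2 d x
  B3 := by norm_num
  B4 := by norm_num
  C1 := C1
  C2 := C2
  C3 := fun d x _ => C3 d x
  C4 := by norm_num

section

open MeasureTheory Set Filter Function Module Vale.Agent.P224.UE
open scoped Topology RealInnerProductSpace ContDiff

variable {X : Type*} [MeasurableSpace X] {E : Type*} [NormedAddCommGroup E]
  [InnerProductSpace ℝ E] [FiniteDimensional ℝ E] [MeasurableSpace E] [BorelSpace E]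
  {μ : Measure X} [IsFiniteMeasure μ] {p n : X → E}

/-- the orientation resource in dimension 13 -/
theorem rc (hE : finrank ℝ E = 15) (h : TwoG μ 13 p n) [Nonempty X]
    (hsp : ∀ w, (∀ x, ⟪p x, w⟫ = 0) → w = 0)
    (hor : 0 ≤ ∫ q : X × X, ⟪p q.1, p q.2⟫ * ⟪p q.1, n q.2⟫ ∂(μ.prod μ))
    {c : ℝ} (hc0 : 0 ≤ c) (hc : 1089 ≤ 168 * c ^ 2) :
    0 ≤ ∫ q : X × X, ((-((9225 / 1456))) + 96 * ⟪p q.1, p q.2⟫ ^ 2 - ⟪p q.1, p q.2⟫ * ⟪n q.1, n q.2⟫
      + c * (⟪p q.1, p q.2⟫ * ((⟪p q.1, n q.2⟫ + ⟪n q.1, p q.2⟫) / 2))) ∂(μ.prod μ) :=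
  resD (m := 13) dat (by norm_num) (by norm_num) (by norm_num) (by norm_num) (by norm_num)
    (by norm_num) hc0 (by push_cast; linarith) hE h hsp hor

end

end Vale.Agent.P224.SO.M13

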