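import Vale.Agent.P224.SO.Rg

/-!
Dimension 15: the orientation resource.
-/

namespace Vale.Agent.P224.SO.M15

open Vale.Agent.P224.SO Vale.Agent.P224.SO.Rg

lemma A1 (d x : ℝ) (h : 14 * x ^ 2 ≤ d - d ^ 2) (hz : (1 / 50) ≤ x) :
    (28 / 375) ≤ Q 113 224 42 (-((7 / 125))) (-((1442 / 125))) 0 d x := by
  unfold Q
  nlinarith [sq_nonneg (d + (-((4255 / 6128))) * x + (-((41 / 3830)))),
      sq_nonneg (x + (-((8 / 135)))),
      mul_nonneg (sub_nonneg.2 hz) (lin_q (q := 14) (by norm_num) h (7 / 135) (8 / 135))]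

lemma A2 (d x : ℝ) (h : 14 * x ^ 2 ≤ d - d ^ 2) :
    (-((134 / 125))) ≤ Q 113 224 42 (-((7 / 125))) (-((1442 / 125))) 0 d x := by
  unfold Q
  nlinarith [sq_nonneg (d + (-((175 / 1114))) * x + (-((1289 / 16710)))),
      sq_nonneg (x + (1 / 15))]

lemma B1 (d x : ℝ) (h : 14 * x ^ 2 ≤ d - d ^ 2) : (-((289 / 516))) ≤ Q 113 224 42 1 0 42 d x := by
  unfold Q
  nlinarith [sq_nonneg (d - (17 / 258))]

lemma B2 (d x : ℝ) (hz : (-((1 / 50))) ≤ x) (hz' : x ≤ (1 / 50)) : (-((25937 / 282500))) ≤ Q 113 224 42 1 0 42 d x := by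
  unfold Q
  nlinarith [sq_nonneg (d - (1 / 226)), mul_nonneg (sub_nonneg.2 hz) (sub_nonneg.2 hz')]

lemma C1 (d x : ℝ) (h : 14 * x ^ 2 ≤ d - d ^ 2) (hz : (1 / 50) ≤ x) :
    (-((1461 / 10000))) ≤ Q 113 224 42 (1 / 20) (-((81 / 10))) 0 d x := by
  unfold Q
  nlinarith [sq_nonneg (d + (-((11416 / 24463))) * x + (-((39609 / 1223150)))),
      sq_nonneg (x + (-((911764977 / 14194813400)))),
      mul_nonneg (sub_nonneg.2 hz) (lin_q (q := 14) (by norm_num) h (3 / 50) (13 / 200))]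

lemma C2 (d x : ℝ) (h : 14 * x ^ 2 ≤ d - d ^ 2) :
    (-((4273 / 5000))) ≤ Q 113 224 42 (1 / 20) (-((81 / 10))) 0 d x := by
  unfold Q
  nlinarith [sq_nonneg (d + (-((420 / 2641))) * x + (-((191 / 2641)))),
      sq_nonneg (x + (133701 / 2079014))]

lemma C3 (d x : ℝ) (hz : 0 ≤ x) (hz' : x ≤ (1 / 50)) :
    (-((1 / 180800))) ≤ Q 113 224 42 (1 / 20) (-((81 / 10))) 0 d x := by
  unfold Q
  nlinarith [sq_nonneg (d - (21 / 113) * x - (1 / 4520)), mul_nonneg hz (sub_nonneg.2 hz')]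

/-- the one point inequalities -/
noncomputable def dat : Dat 8 14 113 224 42 (-((199 / 25))) where
  Z := (1 / 50)
  aA := (-((7 / 125)))
  bA := (-((1442 / 125)))
  ap := (28 / 375)
  an := (-((134 / 125)))
  aB := 1
  bp := (-((289 / 516)))
  bm := (-((25937 / 282500)))
  aC := (1 / 20)
  bC := (-((81 / 10)))
  gp := (-((1461 / 10000)))
  gn := (-((4273 / 5000)))
  g0 := (-((1 / 180800)))
  Zpos := by norm_num
  cnn := by norm_num
  A1 := A1
  A2 := A2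
  A3 := by norm_num
  A4 := by norm_num
  B1 := B1
  B2 := fun d x _ => B2 d x
  B3 := by norm_num
  B4 := by norm_num
  C1 := C1
  C2 := C2
  C3 := fun d x _ => C3 d x
  C4 := by norm_num

section

open MeasureTheory Set Filter Function Module Vale.Agent.P224.UE
open scoped Topology RealInnerProductSpace ContDiff

variable {X : Type*} [MeasurableSpace X] {E : Type*} [NormedAddCommGroup E]
  [InnerProductSpace ℝ E] [FiniteDimensional ℝ E] [MeasurableSpace E] [BorelSpace E]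
  {μ : Measure X} [IsFiniteMeasure μ] {p n : X → E}

/-- the orientation resource in dimension 15 -/
theorem rc (hE : finrank ℝ E = 17) (h : TwoG μ 15 p n) [Nonempty X]
    (hsp : ∀ w, (∀ x, ⟪p x, w⟫ = 0) → w = 0)
    (hor : 0 ≤ ∫ q : X × X, ⟪p q.1, p q.2⟫ * ⟪p q.1, n q.2⟫ ∂(μ.prod μ))
    {c : ℝ} (hc0 : 0 ≤ c) (hc : 1764 ≤ 224 * c ^ 2) :
    0 ≤ ∫ q : X × X, ((-((659 / 100))) + 113 * ⟪p q.1, p q.2⟫ ^ 2 - ⟪p q.1, p q.2⟫ * ⟪n q.1, n q.2⟫
      + c * (⟪p q.1, p q.2⟫ * ((⟪p q.1, n q.2⟫ + ⟪n q.1, p q.2⟫) / 2))) ∂(μ.prod μ) :=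
  resD (m := 15) dat (by norm_num) (by norm_num) (by norm_num) (by norm_num) (by norm_num)
    (by norm_num) hc0 (by push_cast; linarith) hE h hsp hor

end

end Vale.Agent.P224.SO.M15

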