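import Vale.Agent.P224.SO.RgN
import Vale.Agent.P224.SO.Rc11

/-!
Dimension 11: the stable scalar inequalities near the Clifford configuration.
-/

namespace Vale.Agent.P224.SO.N11

open Finset Vale.Agent.P224.SO Vale.Agent.P224.SO.Rg Vale.Agent.P224.SO.M11

/-- the additional terms -/
noncomputable def PT (d x : ℝ) : ℝ :=
  12 * (d - d ^ 2 - 10 * x ^ 2)
    + (9 / 40) * ((1 - 13 * d - 2 * x) ^ 2 + (121 / 5) * (d - d ^ 2 - 10 * x ^ 2))

lemma PT_nonneg {d x : ℝ} (h : 10 * x ^ 2 ≤ d - d ^ 2) : 0 ≤ PT d x := by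
  unfold PT
  linarith [sq_nonneg (1 - 13 * d - 2 * x)]

lemma nT0 (d x : ℝ) (h : 10 * x ^ 2 ≤ d - d ^ 2) (hz : (-(7 / 100)) ≤ x) :
    (-(46 / 35)) + (1 / 5) ≤ Q 74 120 24 (76 / 35) (-(72 / 7)) 0 d x + PT d x := by
  unfold Q PT
  linarith [mul_nonneg (sub_nonneg.2 hz) (lin_q (q := 10) (by norm_num) h (2909 / 5000) (39 / 250)),
    sq_nonneg (d + (-(8471351 / 233900200)) * x + (-(8874966199 / 163730140000))),
    sq_nonneg (x + (68907206053171977 / 986766563268359300))]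

lemma nTR1 (d x : ℝ) (h : 10 * x ^ 2 ≤ d - d ^ 2) (hz : (3 / 100) ≤ x) :
    (-(47937 / 500000)) ≤ Q 74 120 24 (2743 / 1000) (-(1008 / 125)) 0 d x + PT d x := by
  unfold Q PT
  linarith [mul_nonneg (sub_nonneg.2 hz) (lin_q (q := 10) (by norm_num) h (369 / 5000) (827 / 10000)),
    sq_nonneg (d + (-(258409157 / 270338750)) * x + (141164971 / 27033875000)),
    sq_nonneg (x + (-(2692148153797909187 / 32567730102664740400)))]

lemma nTL1 (d x : ℝ) (h : 10 * x ^ 2 ≤ d - d ^ 2) :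
    (-(1164601 / 1000000)) ≤ Q 74 120 24 (2743 / 1000) (-(1008 / 125)) 0 d x + PT d x := by
  unfold Q PT
  linarith [sq_nonneg (d + (-(30750 / 636481)) * x + (-(119321 / 1272962))),
    sq_nonneg (x + (637654289 / 7068095624))]

lemma nTM1 (d x : ℝ) (h : 10 * x ^ 2 ≤ d - d ^ 2) (hz : (3 / 100) ≤ x) (hz' : x ≤ (113 / 2500)) :
    (1021 / 6250) ≤ Q 74 120 24 (2743 / 1000) (-(1008 / 125)) 0 d x + PT d x := by
  unfold Q PT
  linarith [mul_nonneg (sub_nonneg.2 hz) (lin_q (q := 10) (by norm_num) h (209 / 10000) (113 / 2500)),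
    mul_nonneg (sub_nonneg.2 hz') (lin_q (q := 10) (by norm_num) h (29 / 5000) (3 / 125)),
    mul_nonneg (sub_nonneg.2 hz) (sub_nonneg.2 hz'),
    sq_nonneg (d + (-(130601103 / 2675435000)) * x + (-(124804575353 / 6688587500000))),
    sq_nonneg (x + (-(916351337272008320203 / 20273238648744819492500)))]

lemma nTR2 (d x : ℝ) (h : 10 * x ^ 2 ≤ d - d ^ 2) (hz : (113 / 2500) ≤ x) :
    (14229 / 1000000) + 12 * ((67 / 72) * d - (5 / 3) * x + (5 / 72)) ≤ Q 74 120 24 (2473 / 1000) (-(4601 / 500)) 0 d x + PT d x := by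
  unfold Q PT
  linarith [mul_nonneg (sub_nonneg.2 hz) (lin_q (q := 10) (by norm_num) h (369 / 5000) (827 / 10000)),
    sq_nonneg (d + (-(256719274 / 247197625)) * x + (5585841284 / 463495546875)),
    sq_nonneg (x + (-(26716140113813553319 / 323365259394500220000)))]

lemma nTL2 (d x : ℝ) (h : 10 * x ^ 2 ≤ d - d ^ 2) (hz' : x ≤ (-(7 / 100))) :
    (-(310831 / 250000)) + 12 * (2 * ((9 / 10) * d + 2 * x + (1 / 10))) ≤ Q 74 120 24 (2473 / 1000) (-(4601 / 500)) 0 d x + PT d x := by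
  unfold Q PT
  linarith [mul_nonneg (sub_nonneg.2 hz') (lin_q (q := 10) (by norm_num) h (447 / 5000) (-(451 / 5000))),
    sq_nonneg (d + (72063872 / 59590185) * x + (29382901 / 1489754625)),
    sq_nonneg (x + (363801098391943681 / 4032168225079916000))]

lemma nTM2 (d x : ℝ) (h : 10 * x ^ 2 ≤ d - d ^ 2) (hz : (113 / 2500) ≤ x) (hz' : x ≤ (477 / 10000)) :
    (3631 / 62500) + 12 * ((67 / 72) * d - (5 / 3) * x + (5 / 72)) ≤ Q 74 120 24 (2473 / 1000) (-(4601 / 500)) 0 d x + PT d x := by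
  unfold Q PT
  linarith [mul_nonneg (sub_nonneg.2 hz) (lin_q (q := 10) (by norm_num) h (51 / 1000) (87 / 1250)),
    mul_nonneg (sub_nonneg.2 hz) (sub_nonneg.2 hz'),
    sq_nonneg (d + (-(150340513 / 95984980)) * x + (35944408907 / 719887350000)),
    sq_nonneg (x + (-(1336101991080371296 / 29549099201337658125)))]

lemma nTRB (d x : ℝ) (h : 10 * x ^ 2 ≤ d - d ^ 2) (hz : (477 / 10000) ≤ x) :
    (6 / 49) + 12 * ((67 / 72) * d - (5 / 3) * x + (5 / 72)) ≤ Q 74 120 24 (76 / 35) (-(72 / 7)) 0 d x + PT d x := by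
  unfold Q PT
  linarith [mul_nonneg (sub_nonneg.2 hz) (lin_q (q := 10) (by norm_num) h (5 / 77) (6 / 77)),
    sq_nonneg ((d - (5 / 77)) + (-(5634008000 / 4094385067)) * (x - (6 / 77))), sq_nonneg (x - (6 / 77))]

lemma nTLB (d x : ℝ) (h : 10 * x ^ 2 ≤ d - d ^ 2) (hz' : x ≤ (-(7 / 100))) :
    (-(46 / 35)) + 12 * (2 * ((9 / 10) * d + 2 * x + (1 / 10))) ≤ Q 74 120 24 (76 / 35) (-(72 / 7)) 0 d x + PT d x := by
  unfold Q PT
  linarith [mul_nonneg (sub_nonneg.2 hz') (lin_q (q := 10) (by norm_num) h (1 / 11) (-(1 / 11))),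
    sq_nonneg ((d - (1 / 11)) + (559600370 / 378829021) * (x - (-(1 / 11)))), sq_nonneg (x - (-(1 / 11)))]

theorem nearT0 {d x : Fin 13 → ℝ} (h : ∀ i, 10 * x i ^ 2 ≤ d i - d i ^ 2)
    (h1 : ∑ i, d i = 1) (h0 : ∑ i, x i = 0) (hc : (Rt (3 / 100) x).card = 7)
    (hS : 74 * ∑ i, d i ^ 2 - 120 * ∑ i, x i ^ 2 - 24 * ∑ i, d i * x i + ∑ i, PT (d i) (x i) < -(34 / 7) + (1 / 5)) :
    -(34 / 7) + 12 * ∑ i, (if (3 / 100) ≤ x i then (67 / 72) * d i - (5 / 3) * x i + (5 / 72)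
        else 2 * ((9 / 10) * d i + 2 * x i + (1 / 10)))
      ≤ 74 * ∑ i, d i ^ 2 - 120 * ∑ i, x i ^ 2 - 24 * ∑ i, d i * x i + ∑ i, PT (d i) (x i) := by
  have hZL := left_le (K := 6) (a := (76 / 35)) (b := (-(72 / 7))) (ap := (6 / 49)) (an := (-(46 / 35))) (ZL := (-(7 / 100))) (P := PT)
    (A := 74) (B := 120) (c := 24) (T := -(34 / 7)) (t := (1 / 5)) (by norm_num) hc h h1 h0
    (fun d x h hz => le_trans (A1 d x h (by linarith)) (le_add_of_nonneg_right (PT_nonneg h)))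
    (fun d x h => le_trans (A2 d x h) (le_add_of_nonneg_right (PT_nonneg h)))
    nT0 (by norm_num) hS
  have hne : (Rt (3 / 100) x).Nonempty := by
    rw [← card_pos, hc]
    norm_num
  obtain ⟨i₀, hi₀, hmin⟩ := exists_min_image (Rt (3 / 100) x) x hne

  rcases le_total (x i₀) (113 / 2500) with hy | hy
  · have := stepS (K := 6) (a := (2743 / 1000)) (b := (-(1008 / 125))) (r := (-(47937 / 500000))) (l := (-(1164601 / 1000000))) (μ := (1021 / 6250)) (Z1 := (3 / 100)) (Z2 := (113 / 2500))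
      (A := 74) (B := 120) (c := 24) (T := -(34 / 7)) (t := (1 / 5)) (P := PT) (by norm_num) hc h h1 h0 hi₀ hmin
      (mem_Rt.1 hi₀) hy nTR1 nTL1 nTM1 (by norm_num)
    linarith

  rcases le_total (x i₀) (477 / 10000) with hy' | hy'
  · exact stepG (K := 6) (κ := 12) (w := 2) (a2 := (67 / 72)) (b2 := (5 / 3)) (c2 := (5 / 72)) (a1 := (9 / 10)) (b1 := 2)
      (c1 := (1 / 10)) (a := (2473 / 1000)) (b := (-(4601 / 500))) (r := (14229 / 1000000)) (l := (-(310831 / 250000))) (μ := (3631 / 62500)) (Z1 := (113 / 2500)) (Z2 := (477 / 10000)) (ZL := (-(7 / 100)))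
      (A := 74) (B := 120) (c := 24) (T := -(34 / 7)) (P := PT) (by norm_num) hc h h1 h0 hi₀ hmin
      hy hy' hZL nTR2 nTL2 nTM2 (by norm_num)
  clear hy; have hy := hy'; clear hy'

  exact stepB (K := 6) (κ := 12) (w := 2) (a2 := (67 / 72)) (b2 := (5 / 3)) (c2 := (5 / 72)) (a1 := (9 / 10)) (b1 := 2)
    (c1 := (1 / 10)) (a := (76 / 35)) (b := (-(72 / 7))) (ap := (6 / 49)) (an := (-(46 / 35))) (Z1 := (477 / 10000)) (ZL := (-(7 / 100)))
    (A := 74) (B := 120) (c := 24) (T := -(34 / 7)) (P := PT) (by norm_num) hc h h1 h0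
    (fun i hi => hy.trans (hmin i hi)) hZL nTRB nTLB (by norm_num)

theorem nearTg {lu lv : ℝ} (hu : 12 ≤ lu) (hv : (9 / 40) ≤ lv) {d x : Fin 13 → ℝ}
    (h : ∀ i, 10 * x i ^ 2 ≤ d i - d i ^ 2)
    (h1 : ∑ i, d i = 1) (h0 : ∑ i, x i = 0) (hc : (Rt (3 / 100) x).card = 7) {w : ℝ} (hw : w ≤ 2)
    (hS : (34 / 7) + (74 * ∑ i, d i ^ 2 - 120 * ∑ i, x i ^ 2 - 24 * ∑ i, d i * x i)
      + ∑ i, (lu * (d i - d i ^ 2 - 10 * x i ^ 2) + lv * ((1 - 13 * d i - 2 * x i) ^ 2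
        + (121 / 5) * (d i - d i ^ 2 - 10 * x i ^ 2))) < (1 / 5)) :
    12 * ∑ i, (if (3 / 100) ≤ x i then (67 / 72) * d i - (5 / 3) * x i + (5 / 72)
        else w * ((9 / 10) * d i + 2 * x i + (1 / 10)))
      ≤ (34 / 7) + (74 * ∑ i, d i ^ 2 - 120 * ∑ i, x i ^ 2 - 24 * ∑ i, d i * x i)
      + ∑ i, (lu * (d i - d i ^ 2 - 10 * x i ^ 2) + lv * ((1 - 13 * d i - 2 * x i) ^ 2
        + (121 / 5) * (d i - d i ^ 2 - 10 * x i ^ 2))) := by
  have e1 : ∑ i, PT (d i) (x i) ≤ ∑ i, (lu * (d i - d i ^ 2 - 10 * x i ^ 2)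
      + lv * ((1 - 13 * d i - 2 * x i) ^ 2
        + (121 / 5) * (d i - d i ^ 2 - 10 * x i ^ 2))) := by
    refine sum_le_sum fun i _ => ?_
    have h2 : 0 ≤ d i - d i ^ 2 - 10 * x i ^ 2 := by have := h i; linarith
    have h3 : 0 ≤ (1 - 13 * d i - 2 * x i) ^ 2
        + (121 / 5) * (d i - d i ^ 2 - 10 * x i ^ 2) := by positivity
    have h4 := mul_le_mul_of_nonneg_right hu h2
    have h5 := mul_le_mul_of_nonneg_right hv h3
    unfold PT
    linarith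
  have e2 : 12 * ∑ i, (if (3 / 100) ≤ x i then (67 / 72) * d i - (5 / 3) * x i + (5 / 72)
        else w * ((9 / 10) * d i + 2 * x i + (1 / 10)))
      ≤ 12 * ∑ i, (if (3 / 100) ≤ x i then (67 / 72) * d i - (5 / 3) * x i + (5 / 72)
        else 2 * ((9 / 10) * d i + 2 * x i + (1 / 10))) := by
    refine mul_le_mul_of_nonneg_left (sum_le_sum fun i _ => ?_) (by norm_num)
    split_ifs with hz
    · exact le_refl _
    · refine mul_le_mul_of_nonneg_right hw ?_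
      have := lin_q (q := 10) (by norm_num) (h i) (1 / 11) (-(1 / 11))
      linarith
  have e3 := nearT0 h h1 h0 hc (by linarith)
  linarith

/-- the additional terms -/
noncomputable def PS (d x : ℝ) : ℝ :=
  4 * (d - d ^ 2 - 10 * x ^ 2)

lemma PS_nonneg {d x : ℝ} (h : 10 * x ^ 2 ≤ d - d ^ 2) : 0 ≤ PS d x := by
  unfold PS
  linarith

lemma nS0 (d x : ℝ) (h : 10 * x ^ 2 ≤ d - d ^ 2) (hz : (-(3 / 40)) ≤ x) :
    (-(46 / 35)) + (9 / 100) ≤ Q 74 120 24 (76 / 35) (-(72 / 7)) 0 d x + PS d x := by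
  unfold Q PS
  linarith [mul_nonneg (sub_nonneg.2 hz) (lin_q (q := 10) (by norm_num) h (79 / 5000) (79 / 2000)),
    sq_nonneg (d + (-(951963407 / 1393940000)) * x + (-(43342831547 / 390303200000))),
    sq_nonneg (x + (16039178479050059993 / 214058245145319974840))]

lemma nSR1 (d x : ℝ) (h : 10 * x ^ 2 ≤ d - d ^ 2) (hz : (3 / 100) ≤ x) :
    (-(5013 / 1000000)) ≤ Q 74 120 24 (243 / 100) (-(4463 / 500)) 0 d x + PS d x := by
  unfold Q PS
  linarith [mul_nonneg (sub_nonneg.2 hz) (lin_q (q := 10) (by norm_num) h (741 / 10000) (207 / 2500)),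
    sq_nonneg (d + (-(639636331 / 752400700)) * x + (-(276126007 / 75240070000))),
    sq_nonneg (x + (-(4995610843482784657 / 60297959538817287800)))]

lemma nSL1 (d x : ℝ) (h : 10 * x ^ 2 ≤ d - d ^ 2) :
    (-(1214471 / 1000000)) ≤ Q 74 120 24 (243 / 100) (-(4463 / 500)) 0 d x + PS d x := by
  unfold Q PS
  linarith [sq_nonneg (d + (-(60000 / 448807)) * x + (-(90957 / 897614))),
    sq_nonneg (x + (1457283641 / 16161426498))]

lemma nSM1 (d x : ℝ) (h : 10 * x ^ 2 ≤ d - d ^ 2) (hz : (3 / 100) ≤ x) (hz' : x ≤ (441 / 10000)) :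
    (7511 / 62500) ≤ Q 74 120 24 (243 / 100) (-(4463 / 500)) 0 d x + PS d x := by
  unfold Q PS
  linarith [mul_nonneg (sub_nonneg.2 hz') (lin_q (q := 10) (by norm_num) h (167 / 10000) (203 / 5000)),
    mul_nonneg (sub_nonneg.2 hz) (sub_nonneg.2 hz'),
    sq_nonneg (d + (-(1257864789 / 10489340000)) * x + (-(10685871396357 / 734253800000000))),
    sq_nonneg (x + (-(254757624564997496303673 / 5776797559839426983530000)))]

lemma nSR2 (d x : ℝ) (h : 10 * x ^ 2 ≤ d - d ^ 2) (hz : (441 / 10000) ≤ x) :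
    (43373 / 1000000) + 5 * ((67 / 72) * d - (5 / 3) * x + (5 / 72)) ≤ Q 74 120 24 (1117 / 500) (-(2339 / 250)) 0 d x + PS d x := by
  unfold Q PS
  linarith [mul_nonneg (sub_nonneg.2 hz) (lin_q (q := 10) (by norm_num) h (367 / 5000) (33 / 400)),
    sq_nonneg (d + (-(133063931 / 117069170)) * x + (642389276417 / 31608675900000)),
    sq_nonneg (x + (-(30512785993819861609 / 370171022235804765000)))]

lemma nSL2 (d x : ℝ) (h : 10 * x ^ 2 ≤ d - d ^ 2) (hz' : x ≤ (-(3 / 40))) :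
    (-(9887 / 8000)) + 5 * (2 * ((9 / 10) * d + 2 * x + (1 / 10))) ≤ Q 74 120 24 (1117 / 500) (-(2339 / 250)) 0 d x + PS d x := by
  unfold Q PS
  linarith [mul_nonneg (sub_nonneg.2 hz') (lin_q (q := 10) (by norm_num) h (177 / 2000) (-(449 / 5000))),
    sq_nonneg (d + (6632425 / 15452978) * x + (-(6179657 / 123623824))),
    sq_nonneg (x + (3536586622664071 / 39364587015442000))]

lemma nSM2 (d x : ℝ) (h : 10 * x ^ 2 ≤ d - d ^ 2) (hz : (441 / 10000) ≤ x) (hz' : x ≤ (97 / 2000)) :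
    (1653 / 25000) + 5 * ((67 / 72) * d - (5 / 3) * x + (5 / 72)) ≤ Q 74 120 24 (1117 / 500) (-(2339 / 250)) 0 d x + PS d x := by
  unfold Q PS
  linarith [mul_nonneg (sub_nonneg.2 hz) (lin_q (q := 10) (by norm_num) h (139 / 5000) (13 / 250)),
    mul_nonneg (sub_nonneg.2 hz) (sub_nonneg.2 hz'),
    sq_nonneg (d + (-(7795044880000000000000 / 4666666666666666709721)) * x + (11461799877231998837533 / 252000000000000002324934)),
    sq_nonneg (x + (-(3803971227366704020775930831384005600000000 / 86259164960721628854266800387200050049241707)))]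

lemma nSRB (d x : ℝ) (h : 10 * x ^ 2 ≤ d - d ^ 2) (hz : (97 / 2000) ≤ x) :
    (6 / 49) + 5 * ((67 / 72) * d - (5 / 3) * x + (5 / 72)) ≤ Q 74 120 24 (76 / 35) (-(72 / 7)) 0 d x + PS d x := by
  unfold Q PS
  linarith [mul_nonneg (sub_nonneg.2 hz) (lin_q (q := 10) (by norm_num) h (5 / 77) (6 / 77)),
    sq_nonneg ((d - (5 / 77)) + (-(3530880000 / 2854887949)) * (x - (6 / 77))), sq_nonneg (x - (6 / 77))]

lemma nSLB (d x : ℝ) (h : 10 * x ^ 2 ≤ d - d ^ 2) (hz' : x ≤ (-(3 / 40))) :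
    (-(46 / 35)) + 5 * (2 * ((9 / 10) * d + 2 * x + (1 / 10))) ≤ Q 74 120 24 (76 / 35) (-(72 / 7)) 0 d x + PS d x := by
  unfold Q PS
  linarith [mul_nonneg (sub_nonneg.2 hz') (lin_q (q := 10) (by norm_num) h (1 / 11) (-(1 / 11))),
    sq_nonneg ((d - (1 / 11)) + (682260 / 360521) * (x - (-(1 / 11)))), sq_nonneg (x - (-(1 / 11)))]

theorem nearS0 {d x : Fin 13 → ℝ} (h : ∀ i, 10 * x i ^ 2 ≤ d i - d i ^ 2)
    (h1 : ∑ i, d i = 1) (h0 : ∑ i, x i = 0) (hc : (Rt (3 / 100) x).card = 7)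
    (hS : 74 * ∑ i, d i ^ 2 - 120 * ∑ i, x i ^ 2 - 24 * ∑ i, d i * x i + ∑ i, PS (d i) (x i) < -(34 / 7) + (9 / 100)) :
    -(34 / 7) + 5 * ∑ i, (if (3 / 100) ≤ x i then (67 / 72) * d i - (5 / 3) * x i + (5 / 72)
        else 2 * ((9 / 10) * d i + 2 * x i + (1 / 10)))
      ≤ 74 * ∑ i, d i ^ 2 - 120 * ∑ i, x i ^ 2 - 24 * ∑ i, d i * x i + ∑ i, PS (d i) (x i) := by
  have hZL := left_le (K := 6) (a := (76 / 35)) (b := (-(72 / 7))) (ap := (6 / 49)) (an := (-(46 / 35))) (ZL := (-(3 / 40))) (P := PS)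
    (A := 74) (B := 120) (c := 24) (T := -(34 / 7)) (t := (9 / 100)) (by norm_num) hc h h1 h0
    (fun d x h hz => le_trans (A1 d x h (by linarith)) (le_add_of_nonneg_right (PS_nonneg h)))
    (fun d x h => le_trans (A2 d x h) (le_add_of_nonneg_right (PS_nonneg h)))
    nS0 (by norm_num) hS
  have hne : (Rt (3 / 100) x).Nonempty := by
    rw [← card_pos, hc]
    norm_num
  obtain ⟨i₀, hi₀, hmin⟩ := exists_min_image (Rt (3 / 100) x) x hne

  rcases le_total (x i₀) (441 / 10000) with hy | hy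
  · have := stepS (K := 6) (a := (243 / 100)) (b := (-(4463 / 500))) (r := (-(5013 / 1000000))) (l := (-(1214471 / 1000000))) (μ := (7511 / 62500)) (Z1 := (3 / 100)) (Z2 := (441 / 10000))
      (A := 74) (B := 120) (c := 24) (T := -(34 / 7)) (t := (9 / 100)) (P := PS) (by norm_num) hc h h1 h0 hi₀ hmin
      (mem_Rt.1 hi₀) hy nSR1 nSL1 nSM1 (by norm_num)
    linarith

  rcases le_total (x i₀) (97 / 2000) with hy' | hy'
  · exact stepG (K := 6) (κ := 5) (w := 2) (a2 := (67 / 72)) (b2 := (5 / 3)) (c2 := (5 / 72)) (a1 := (9 / 10)) (b1 := 2)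
      (c1 := (1 / 10)) (a := (1117 / 500)) (b := (-(2339 / 250))) (r := (43373 / 1000000)) (l := (-(9887 / 8000))) (μ := (1653 / 25000)) (Z1 := (441 / 10000)) (Z2 := (97 / 2000)) (ZL := (-(3 / 40)))
      (A := 74) (B := 120) (c := 24) (T := -(34 / 7)) (P := PS) (by norm_num) hc h h1 h0 hi₀ hmin
      hy hy' hZL nSR2 nSL2 nSM2 (by norm_num)
  clear hy; have hy := hy'; clear hy'

  exact stepB (K := 6) (κ := 5) (w := 2) (a2 := (67 / 72)) (b2 := (5 / 3)) (c2 := (5 / 72)) (a1 := (9 / 10)) (b1 := 2)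
    (c1 := (1 / 10)) (a := (76 / 35)) (b := (-(72 / 7))) (ap := (6 / 49)) (an := (-(46 / 35))) (Z1 := (97 / 2000)) (ZL := (-(3 / 40)))
    (A := 74) (B := 120) (c := 24) (T := -(34 / 7)) (P := PS) (by norm_num) hc h h1 h0
    (fun i hi => hy.trans (hmin i hi)) hZL nSRB nSLB (by norm_num)

theorem nearSg {lu lv : ℝ} (hu : 4 ≤ lu) (hv : 0 ≤ lv) {d x : Fin 13 → ℝ}
    (h : ∀ i, 10 * x i ^ 2 ≤ d i - d i ^ 2)
    (h1 : ∑ i, d i = 1) (h0 : ∑ i, x i = 0) (hc : (Rt (3 / 100) x).card = 7) {w : ℝ} (hw : w ≤ 2)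
    (hS : (34 / 7) + (74 * ∑ i, d i ^ 2 - 120 * ∑ i, x i ^ 2 - 24 * ∑ i, d i * x i)
      + ∑ i, (lu * (d i - d i ^ 2 - 10 * x i ^ 2) + lv * ((1 - 13 * d i - 2 * x i) ^ 2
        + (121 / 5) * (d i - d i ^ 2 - 10 * x i ^ 2))) < (9 / 100)) :
    5 * ∑ i, (if (3 / 100) ≤ x i then (67 / 72) * d i - (5 / 3) * x i + (5 / 72)
        else w * ((9 / 10) * d i + 2 * x i + (1 / 10)))
      ≤ (34 / 7) + (74 * ∑ i, d i ^ 2 - 120 * ∑ i, x i ^ 2 - 24 * ∑ i, d i * x i)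
      + ∑ i, (lu * (d i - d i ^ 2 - 10 * x i ^ 2) + lv * ((1 - 13 * d i - 2 * x i) ^ 2
        + (121 / 5) * (d i - d i ^ 2 - 10 * x i ^ 2))) := by
  have e1 : ∑ i, PS (d i) (x i) ≤ ∑ i, (lu * (d i - d i ^ 2 - 10 * x i ^ 2)
      + lv * ((1 - 13 * d i - 2 * x i) ^ 2
        + (121 / 5) * (d i - d i ^ 2 - 10 * x i ^ 2))) := by
    refine sum_le_sum fun i _ => ?_
    have h2 : 0 ≤ d i - d i ^ 2 - 10 * x i ^ 2 := by have := h i; linarith
    have h3 : 0 ≤ (1 - 13 * d i - 2 * x i) ^ 2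
        + (121 / 5) * (d i - d i ^ 2 - 10 * x i ^ 2) := by positivity
    have h4 := mul_le_mul_of_nonneg_right hu h2
    have h5 := mul_le_mul_of_nonneg_right hv h3
    unfold PS
    linarith
  have e2 : 5 * ∑ i, (if (3 / 100) ≤ x i then (67 / 72) * d i - (5 / 3) * x i + (5 / 72)
        else w * ((9 / 10) * d i + 2 * x i + (1 / 10)))
      ≤ 5 * ∑ i, (if (3 / 100) ≤ x i then (67 / 72) * d i - (5 / 3) * x i + (5 / 72)
        else 2 * ((9 / 10) * d i + 2 * x i + (1 / 10))) := by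
    refine mul_le_mul_of_nonneg_left (sum_le_sum fun i _ => ?_) (by norm_num)
    split_ifs with hz
    · exact le_refl _
    · refine mul_le_mul_of_nonneg_right hw ?_
      have := lin_q (q := 10) (by norm_num) (h i) (1 / 11) (-(1 / 11))
      linarith
  have e3 := nearS0 h h1 h0 hc (by linarith)
  linarith

end Vale.Agent.P224.SO.N11
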