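import Vale.Agent.P224.SO.RgN
import Vale.Agent.P224.SO.Rc15

/-!
Dimension 15: the stable scalar inequalities near the Clifford configuration.
-/

namespace Vale.Agent.P224.SO.N15

open Finset Vale.Agent.P224.SO Vale.Agent.P224.SO.Rg Vale.Agent.P224.SO.M15

/-- the additional terms -/
noncomputable def PT (d x : ℝ) : ℝ :=
  4 * (d - d ^ 2 - 14 * x ^ 2)
    + (23 / 100) * ((1 - 17 * d - 2 * x) ^ 2 + (225 / 7) * (d - d ^ 2 - 14 * x ^ 2))

lemma PT_nonneg {d x : ℝ} (h : 14 * x ^ 2 ≤ d - d ^ 2) : 0 ≤ PT d x := by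
  unfold PT
  linarith [sq_nonneg (1 - 17 * d - 2 * x)]

lemma nT0 (d x : ℝ) (h : 14 * x ^ 2 ≤ d - d ^ 2) (hz : (-(13 / 250)) ≤ x) :
    (-(134 / 125)) + (31 / 200) ≤ Q 113 224 42 (-(7 / 125)) (-(1442 / 125)) 0 d x + PT d x := by
  unfold Q PT
  linarith [mul_nonneg (sub_nonneg.2 hz) (lin_q (q := 14) (by norm_num) h (519 / 1000) (267 / 2000)),
    sq_nonneg (d + (-(147376061 / 2191998000)) * x + (-(7837362931 / 182666500000))),
    sq_nonneg (x + (40380935342469268 / 755362973945862125))]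

lemma nTR1 (d x : ℝ) (h : 14 * x ^ 2 ≤ d - d ^ 2) (hz : (3 / 100) ≤ x) :
    (-(1217 / 15625)) ≤ Q 113 224 42 (517 / 1000) (-(1907 / 200)) 0 d x + PT d x := by
  unfold Q PT
  linarith [mul_nonneg (sub_nonneg.2 hz) (lin_q (q := 14) (by norm_num) h (57 / 1000) (31 / 500)),
    sq_nonneg (d + (-(627545317 / 1300515600)) * x + (-(3523374049 / 130051560000))),
    sq_nonneg (x + (-(980775094362558919 / 15837067945003427300)))]

lemma nTL1 (d x : ℝ) (h : 14 * x ^ 2 ≤ d - d ^ 2) :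
    (-(976943 / 1000000)) ≤ Q 113 224 42 (517 / 1000) (-(1907 / 200)) 0 d x + PT d x := by
  unfold Q PT
  linarith [sq_nonneg (d + (-(922600 / 13937703)) * x + (-(1958393 / 27875406))),
    sq_nonneg (x + (471308458025 / 7109365262618))]

lemma nTM1 (d x : ℝ) (h : 14 * x ^ 2 ≤ d - d ^ 2) (hz : (3 / 100) ≤ x) (hz' : x ≤ (347 / 10000)) :
    (154447 / 1000000) ≤ Q 113 224 42 (517 / 1000) (-(1907 / 200)) 0 d x + PT d x := by
  unfold Q PT
  linarith [mul_nonneg (sub_nonneg.2 hz) (lin_q (q := 14) (by norm_num) h (43 / 2500) (347 / 10000)),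
    mul_nonneg (sub_nonneg.2 hz') (lin_q (q := 14) (by norm_num) h (8 / 625) (3 / 100)),
    mul_nonneg (sub_nonneg.2 hz) (sub_nonneg.2 hz'),
    sq_nonneg (d + (7769902609 / 30834543750) * x + (-(49904451661 / 1927158984375))),
    sq_nonneg (x + (-(196147218090072332029427 / 5652660624686118921068000)))]

lemma nTRB (d x : ℝ) (h : 14 * x ^ 2 ≤ d - d ^ 2) (hz : (347 / 10000) ≤ x) :
    (28 / 375) + (66 / 5) * ((121 / 128) * d - (7 / 4) * x + (7 / 128)) ≤ Q 113 224 42 (-(7 / 125)) (-(1442 / 125)) 0 d x + PT d x := by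
  unfold Q PT
  linarith [mul_nonneg (sub_nonneg.2 hz) (lin_q (q := 14) (by norm_num) h (7 / 135) (8 / 135)),
    sq_nonneg ((d - (7 / 135)) + (-(143971911700 / 156083176817)) * (x - (8 / 135))), sq_nonneg (x - (8 / 135))]

lemma nTLB (d x : ℝ) (h : 14 * x ^ 2 ≤ d - d ^ 2) (hz' : x ≤ (-(13 / 250))) :
    (-(134 / 125)) + (66 / 5) * (2 * ((13 / 14) * d + 2 * x + (1 / 14))) ≤ Q 113 224 42 (-(7 / 125)) (-(1442 / 125)) 0 d x + PT d x := by
  unfold Q PT
  linarith [mul_nonneg (sub_nonneg.2 hz') (lin_q (q := 14) (by norm_num) h (1 / 15) (-(1 / 15))),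
    sq_nonneg ((d - (1 / 15)) + (27485875 / 47066803) * (x - (-(1 / 15)))), sq_nonneg (x - (-(1 / 15)))]

theorem nearT0 {d x : Fin 17 → ℝ} (h : ∀ i, 14 * x i ^ 2 ≤ d i - d i ^ 2)
    (h1 : ∑ i, d i = 1) (h0 : ∑ i, x i = 0) (hc : (Rt (3 / 100) x).card = 9)
    (hS : 113 * ∑ i, d i ^ 2 - 224 * ∑ i, x i ^ 2 - 42 * ∑ i, d i * x i + ∑ i, PT (d i) (x i) < -(199 / 25) + (31 / 200)) :
    -(199 / 25) + (66 / 5) * ∑ i, (if (3 / 100) ≤ x i then (121 / 128) * d i - (7 / 4) * x i + (7 / 128)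
        else 2 * ((13 / 14) * d i + 2 * x i + (1 / 14)))
      ≤ 113 * ∑ i, d i ^ 2 - 224 * ∑ i, x i ^ 2 - 42 * ∑ i, d i * x i + ∑ i, PT (d i) (x i) := by
  have hZL := left_le (K := 8) (a := (-(7 / 125))) (b := (-(1442 / 125))) (ap := (28 / 375)) (an := (-(134 / 125))) (ZL := (-(13 / 250))) (P := PT)
    (A := 113) (B := 224) (c := 42) (T := -(199 / 25)) (t := (31 / 200)) (by norm_num) hc h h1 h0
    (fun d x h hz => le_trans (A1 d x h (by linarith)) (le_add_of_nonneg_right (PT_nonneg h)))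
    (fun d x h => le_trans (A2 d x h) (le_add_of_nonneg_right (PT_nonneg h)))
    nT0 (by norm_num) hS
  have hne : (Rt (3 / 100) x).Nonempty := by
    rw [← card_pos, hc]
    norm_num
  obtain ⟨i₀, hi₀, hmin⟩ := exists_min_image (Rt (3 / 100) x) x hne

  rcases le_total (x i₀) (347 / 10000) with hy | hy
  · have := stepS (K := 8) (a := (517 / 1000)) (b := (-(1907 / 200))) (r := (-(1217 / 15625))) (l := (-(976943 / 1000000))) (μ := (154447 / 1000000)) (Z1 := (3 / 100)) (Z2 := (347 / 10000))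
      (A := 113) (B := 224) (c := 42) (T := -(199 / 25)) (t := (31 / 200)) (P := PT) (by norm_num) hc h h1 h0 hi₀ hmin
      (mem_Rt.1 hi₀) hy nTR1 nTL1 nTM1 (by norm_num)
    linarith

  exact stepB (K := 8) (κ := (66 / 5)) (w := 2) (a2 := (121 / 128)) (b2 := (7 / 4)) (c2 := (7 / 128)) (a1 := (13 / 14)) (b1 := 2)
    (c1 := (1 / 14)) (a := (-(7 / 125))) (b := (-(1442 / 125))) (ap := (28 / 375)) (an := (-(134 / 125))) (Z1 := (347 / 10000)) (ZL := (-(13 / 250)))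
    (A := 113) (B := 224) (c := 42) (T := -(199 / 25)) (P := PT) (by norm_num) hc h h1 h0
    (fun i hi => hy.trans (hmin i hi)) hZL nTRB nTLB (by norm_num)

theorem nearTg {lu lv : ℝ} (hu : 4 ≤ lu) (hv : (23 / 100) ≤ lv) {d x : Fin 17 → ℝ}
    (h : ∀ i, 14 * x i ^ 2 ≤ d i - d i ^ 2)
    (h1 : ∑ i, d i = 1) (h0 : ∑ i, x i = 0) (hc : (Rt (3 / 100) x).card = 9) {w : ℝ} (hw : w ≤ 2)
    (hS : (199 / 25) + (113 * ∑ i, d i ^ 2 - 224 * ∑ i, x i ^ 2 - 42 * ∑ i, d i * x i)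
      + ∑ i, (lu * (d i - d i ^ 2 - 14 * x i ^ 2) + lv * ((1 - 17 * d i - 2 * x i) ^ 2
        + (225 / 7) * (d i - d i ^ 2 - 14 * x i ^ 2))) < (31 / 200)) :
    (66 / 5) * ∑ i, (if (3 / 100) ≤ x i then (121 / 128) * d i - (7 / 4) * x i + (7 / 128)
        else w * ((13 / 14) * d i + 2 * x i + (1 / 14)))
      ≤ (199 / 25) + (113 * ∑ i, d i ^ 2 - 224 * ∑ i, x i ^ 2 - 42 * ∑ i, d i * x i)
      + ∑ i, (lu * (d i - d i ^ 2 - 14 * x i ^ 2) + lv * ((1 - 17 * d i - 2 * x i) ^ 2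
        + (225 / 7) * (d i - d i ^ 2 - 14 * x i ^ 2))) := by
  have e1 : ∑ i, PT (d i) (x i) ≤ ∑ i, (lu * (d i - d i ^ 2 - 14 * x i ^ 2)
      + lv * ((1 - 17 * d i - 2 * x i) ^ 2
        + (225 / 7) * (d i - d i ^ 2 - 14 * x i ^ 2))) := by
    refine sum_le_sum fun i _ => ?_
    have h2 : 0 ≤ d i - d i ^ 2 - 14 * x i ^ 2 := by have := h i; linarith
    have h3 : 0 ≤ (1 - 17 * d i - 2 * x i) ^ 2
        + (225 / 7) * (d i - d i ^ 2 - 14 * x i ^ 2) := by positivity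
    have h4 := mul_le_mul_of_nonneg_right hu h2
    have h5 := mul_le_mul_of_nonneg_right hv h3
    unfold PT
    linarith
  have e2 : (66 / 5) * ∑ i, (if (3 / 100) ≤ x i then (121 / 128) * d i - (7 / 4) * x i + (7 / 128)
        else w * ((13 / 14) * d i + 2 * x i + (1 / 14)))
      ≤ (66 / 5) * ∑ i, (if (3 / 100) ≤ x i then (121 / 128) * d i - (7 / 4) * x i + (7 / 128)
        else 2 * ((13 / 14) * d i + 2 * x i + (1 / 14))) := by
    refine mul_le_mul_of_nonneg_left (sum_le_sum fun i _ => ?_) (by norm_num)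
    split_ifs with hz
    · exact le_refl _
    · refine mul_le_mul_of_nonneg_right hw ?_
      have := lin_q (q := 14) (by norm_num) (h i) (1 / 15) (-(1 / 15))
      linarith
  have e3 := nearT0 h h1 h0 hc (by linarith)
  linarith

/-- the additional terms -/
noncomputable def PS (d x : ℝ) : ℝ :=
  4 * (d - d ^ 2 - 14 * x ^ 2)

lemma PS_nonneg {d x : ℝ} (h : 14 * x ^ 2 ≤ d - d ^ 2) : 0 ≤ PS d x := by
  unfold PS
  linarith

lemma nS0 (d x : ℝ) (h : 14 * x ^ 2 ≤ d - d ^ 2) (hz : (-(27 / 500)) ≤ x) :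
    (-(134 / 125)) + (2 / 25) ≤ Q 113 224 42 (-(7 / 125)) (-(1442 / 125)) 0 d x + PS d x := by
  unfold Q PS
  linarith [mul_nonneg (sub_nonneg.2 hz) (lin_q (q := 14) (by norm_num) h (4037 / 5000) (527 / 5000)),
    sq_nonneg (d + (-(818517041 / 6303820000)) * x + (-(156504960107 / 3151910000000))),
    sq_nonneg (x + (11826269164281981613 / 219236985060022159500))]

lemma nSR1 (d x : ℝ) (h : 14 * x ^ 2 ≤ d - d ^ 2) (hz : (3 / 100) ≤ x) :
    (-(4883 / 1000000)) ≤ Q 113 224 42 (49 / 250) (-(209 / 20)) 0 d x + PS d x := by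
  unfold Q PS
  linarith [mul_nonneg (sub_nonneg.2 hz) (lin_q (q := 14) (by norm_num) h (569 / 10000) (619 / 10000)),
    sq_nonneg (d + (-(1428919359 / 1155739000)) * x + (2271808077 / 115573900000)),
    sq_nonneg (x + (-(573042105419662013 / 9258440069657150850)))]

lemma nSL1 (d x : ℝ) (h : 14 * x ^ 2 ≤ d - d ^ 2) :
    (-(1016497 / 1000000)) ≤ Q 113 224 42 (49 / 250) (-(209 / 20)) 0 d x + PS d x := by
  unfold Q PS
  linarith [sq_nonneg (d + (-(1680 / 10651)) * x + (-(40667 / 532550))),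
    sq_nonneg (x + (701297 / 10575985))]

lemma nSM1 (d x : ℝ) (h : 14 * x ^ 2 ≤ d - d ^ 2) (hz : (3 / 100) ≤ x) (hz' : x ≤ (353 / 10000)) :
    (11949 / 125000) ≤ Q 113 224 42 (49 / 250) (-(209 / 20)) 0 d x + PS d x := by
  unfold Q PS
  linarith [mul_nonneg (sub_nonneg.2 hz) (lin_q (q := 14) (by norm_num) h (89 / 5000) (353 / 10000)),
    mul_nonneg (sub_nonneg.2 hz') (lin_q (q := 14) (by norm_num) h (9 / 2500) (-(2 / 125))),
    mul_nonneg (sub_nonneg.2 hz) (sub_nonneg.2 hz'),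
    sq_nonneg (d + (-(629769387 / 473902750)) * x + (828857900851 / 28434165000000)),
    sq_nonneg (x + (-(619540899921805089769 / 17551273778097539430000)))]

lemma nSR2 (d x : ℝ) (h : 14 * x ^ 2 ≤ d - d ^ 2) (hz : (353 / 10000) ≤ x) :
    (459 / 15625) + 7 * ((121 / 128) * d - (7 / 4) * x + (7 / 128)) ≤ Q 113 224 42 (31 / 500) (-(2179 / 200)) 0 d x + PS d x := by
  unfold Q PS
  linarith [mul_nonneg (sub_nonneg.2 hz) (lin_q (q := 14) (by norm_num) h (71 / 1250) (619 / 10000)),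
    sq_nonneg (d + (-(139677168 / 99150739)) * x + (20686651459 / 681661330625)),
    sq_nonneg (x + (-(2836545281347145367 / 46014010800529484000)))]

lemma nSL2 (d x : ℝ) (h : 14 * x ^ 2 ≤ d - d ^ 2) (hz' : x ≤ (-(27 / 500))) :
    (-(103721 / 100000)) + 7 * (2 * ((13 / 14) * d + 2 * x + (1 / 14))) ≤ Q 113 224 42 (31 / 500) (-(2179 / 200)) 0 d x + PS d x := by
  unfold Q PS
  linarith [mul_nonneg (sub_nonneg.2 hz') (lin_q (q := 14) (by norm_num) h (329 / 5000) (-(663 / 10000))),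
    sq_nonneg (d + (279629557 / 580591200) * x + (-(200822489 / 5924400000))),
    sq_nonneg (x + (11696429415121014977 / 176518068894258275500))]

lemma nSM2 (d x : ℝ) (h : 14 * x ^ 2 ≤ d - d ^ 2) (hz : (353 / 10000) ≤ x) (hz' : x ≤ (369 / 10000)) :
    (45573 / 1000000) + 7 * ((121 / 128) * d - (7 / 4) * x + (7 / 128)) ≤ Q 113 224 42 (31 / 500) (-(2179 / 200)) 0 d x + PS d x := by
  unfold Q PS
  linarith [mul_nonneg (sub_nonneg.2 hz) (lin_q (q := 14) (by norm_num) h (257 / 5000) (59 / 1000)),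
    mul_nonneg (sub_nonneg.2 hz) (sub_nonneg.2 hz'),
    sq_nonneg (d + (-(1645830997500000000000 / 1362500000000000008301)) * x + (64173324673499991699 / 2725000000000000016602)),
    sq_nonneg (x + (-(1187373082107099379551812247297125000000 / 34225970396577584505836527725000482346207)))]

lemma nSRB (d x : ℝ) (h : 14 * x ^ 2 ≤ d - d ^ 2) (hz : (369 / 10000) ≤ x) :
    (28 / 375) + 7 * ((121 / 128) * d - (7 / 4) * x + (7 / 128)) ≤ Q 113 224 42 (-(7 / 125)) (-(1442 / 125)) 0 d x + PS d x := by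
  unfold Q PS
  linarith [mul_nonneg (sub_nonneg.2 hz) (lin_q (q := 14) (by norm_num) h (7 / 135) (8 / 135)),
    sq_nonneg ((d - (7 / 135)) + (-(76516952000 / 52700734051)) * (x - (8 / 135))), sq_nonneg (x - (8 / 135))]

lemma nSLB (d x : ℝ) (h : 14 * x ^ 2 ≤ d - d ^ 2) (hz' : x ≤ (-(27 / 500))) :
    (-(134 / 125)) + 7 * (2 * ((13 / 14) * d + 2 * x + (1 / 14))) ≤ Q 113 224 42 (-(7 / 125)) (-(1442 / 125)) 0 d x + PS d x := by
  unfold Q PS
  linarith [mul_nonneg (sub_nonneg.2 hz') (lin_q (q := 14) (by norm_num) h (1 / 15) (-(1 / 15))),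
    sq_nonneg ((d - (1 / 15)) + (3276950 / 1773593) * (x - (-(1 / 15)))), sq_nonneg (x - (-(1 / 15)))]

theorem nearS0 {d x : Fin 17 → ℝ} (h : ∀ i, 14 * x i ^ 2 ≤ d i - d i ^ 2)
    (h1 : ∑ i, d i = 1) (h0 : ∑ i, x i = 0) (hc : (Rt (3 / 100) x).card = 9)
    (hS : 113 * ∑ i, d i ^ 2 - 224 * ∑ i, x i ^ 2 - 42 * ∑ i, d i * x i + ∑ i, PS (d i) (x i) < -(199 / 25) + (2 / 25)) :
    -(199 / 25) + 7 * ∑ i, (if (3 / 100) ≤ x i then (121 / 128) * d i - (7 / 4) * x i + (7 / 128)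
        else 2 * ((13 / 14) * d i + 2 * x i + (1 / 14)))
      ≤ 113 * ∑ i, d i ^ 2 - 224 * ∑ i, x i ^ 2 - 42 * ∑ i, d i * x i + ∑ i, PS (d i) (x i) := by
  have hZL := left_le (K := 8) (a := (-(7 / 125))) (b := (-(1442 / 125))) (ap := (28 / 375)) (an := (-(134 / 125))) (ZL := (-(27 / 500))) (P := PS)
    (A := 113) (B := 224) (c := 42) (T := -(199 / 25)) (t := (2 / 25)) (by norm_num) hc h h1 h0
    (fun d x h hz => le_trans (A1 d x h (by linarith)) (le_add_of_nonneg_right (PS_nonneg h)))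
    (fun d x h => le_trans (A2 d x h) (le_add_of_nonneg_right (PS_nonneg h)))
    nS0 (by norm_num) hS
  have hne : (Rt (3 / 100) x).Nonempty := by
    rw [← card_pos, hc]
    norm_num
  obtain ⟨i₀, hi₀, hmin⟩ := exists_min_image (Rt (3 / 100) x) x hne

  rcases le_total (x i₀) (353 / 10000) with hy | hy
  · have := stepS (K := 8) (a := (49 / 250)) (b := (-(209 / 20))) (r := (-(4883 / 1000000))) (l := (-(1016497 / 1000000))) (μ := (11949 / 125000)) (Z1 := (3 / 100)) (Z2 := (353 / 10000))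
      (A := 113) (B := 224) (c := 42) (T := -(199 / 25)) (t := (2 / 25)) (P := PS) (by norm_num) hc h h1 h0 hi₀ hmin
      (mem_Rt.1 hi₀) hy nSR1 nSL1 nSM1 (by norm_num)
    linarith

  rcases le_total (x i₀) (369 / 10000) with hy' | hy'
  · exact stepG (K := 8) (κ := 7) (w := 2) (a2 := (121 / 128)) (b2 := (7 / 4)) (c2 := (7 / 128)) (a1 := (13 / 14)) (b1 := 2)
      (c1 := (1 / 14)) (a := (31 / 500)) (b := (-(2179 / 200))) (r := (459 / 15625)) (l := (-(103721 / 100000))) (μ := (45573 / 1000000)) (Z1 := (353 / 10000)) (Z2 := (369 / 10000)) (ZL := (-(27 / 500)))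
      (A := 113) (B := 224) (c := 42) (T := -(199 / 25)) (P := PS) (by norm_num) hc h h1 h0 hi₀ hmin
      hy hy' hZL nSR2 nSL2 nSM2 (by norm_num)
  clear hy; have hy := hy'; clear hy'

  exact stepB (K := 8) (κ := 7) (w := 2) (a2 := (121 / 128)) (b2 := (7 / 4)) (c2 := (7 / 128)) (a1 := (13 / 14)) (b1 := 2)
    (c1 := (1 / 14)) (a := (-(7 / 125))) (b := (-(1442 / 125))) (ap := (28 / 375)) (an := (-(134 / 125))) (Z1 := (369 / 10000)) (ZL := (-(27 / 500)))
    (A := 113) (B := 224) (c := 42) (T := -(199 / 25)) (P := PS) (by norm_num) hc h h1 h0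
    (fun i hi => hy.trans (hmin i hi)) hZL nSRB nSLB (by norm_num)

theorem nearSg {lu lv : ℝ} (hu : 4 ≤ lu) (hv : 0 ≤ lv) {d x : Fin 17 → ℝ}
    (h : ∀ i, 14 * x i ^ 2 ≤ d i - d i ^ 2)
    (h1 : ∑ i, d i = 1) (h0 : ∑ i, x i = 0) (hc : (Rt (3 / 100) x).card = 9) {w : ℝ} (hw : w ≤ 2)
    (hS : (199 / 25) + (113 * ∑ i, d i ^ 2 - 224 * ∑ i, x i ^ 2 - 42 * ∑ i, d i * x i)
      + ∑ i, (lu * (d i - d i ^ 2 - 14 * x i ^ 2) + lv * ((1 - 17 * d i - 2 * x i) ^ 2
        + (225 / 7) * (d i - d i ^ 2 - 14 * x i ^ 2))) < (2 / 25)) :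
    7 * ∑ i, (if (3 / 100) ≤ x i then (121 / 128) * d i - (7 / 4) * x i + (7 / 128)
        else w * ((13 / 14) * d i + 2 * x i + (1 / 14)))
      ≤ (199 / 25) + (113 * ∑ i, d i ^ 2 - 224 * ∑ i, x i ^ 2 - 42 * ∑ i, d i * x i)
      + ∑ i, (lu * (d i - d i ^ 2 - 14 * x i ^ 2) + lv * ((1 - 17 * d i - 2 * x i) ^ 2
        + (225 / 7) * (d i - d i ^ 2 - 14 * x i ^ 2))) := by
  have e1 : ∑ i, PS (d i) (x i) ≤ ∑ i, (lu * (d i - d i ^ 2 - 14 * x i ^ 2)
      + lv * ((1 - 17 * d i - 2 * x i) ^ 2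
        + (225 / 7) * (d i - d i ^ 2 - 14 * x i ^ 2))) := by
    refine sum_le_sum fun i _ => ?_
    have h2 : 0 ≤ d i - d i ^ 2 - 14 * x i ^ 2 := by have := h i; linarith
    have h3 : 0 ≤ (1 - 17 * d i - 2 * x i) ^ 2
        + (225 / 7) * (d i - d i ^ 2 - 14 * x i ^ 2) := by positivity
    have h4 := mul_le_mul_of_nonneg_right hu h2
    have h5 := mul_le_mul_of_nonneg_right hv h3
    unfold PS
    linarith
  have e2 : 7 * ∑ i, (if (3 / 100) ≤ x i then (121 / 128) * d i - (7 / 4) * x i + (7 / 128)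
        else w * ((13 / 14) * d i + 2 * x i + (1 / 14)))
      ≤ 7 * ∑ i, (if (3 / 100) ≤ x i then (121 / 128) * d i - (7 / 4) * x i + (7 / 128)
        else 2 * ((13 / 14) * d i + 2 * x i + (1 / 14))) := by
    refine mul_le_mul_of_nonneg_left (sum_le_sum fun i _ => ?_) (by norm_num)
    split_ifs with hz
    · exact le_refl _
    · refine mul_le_mul_of_nonneg_right hw ?_
      have := lin_q (q := 14) (by norm_num) (h i) (1 / 15) (-(1 / 15))
      linarith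
  have e3 := nearS0 h h1 h0 hc (by linarith)
  linarith

end Vale.Agent.P224.SO.N15
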