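import Vale.Agent.P224.SO.OneA

/-!
The one point identity in dimension 11, blocks 6 and 7: the mean normal is at most 187/200
times the mean square distance of the normal to a Clifford point, with the weight 2 on the
block of dimension 6.
-/

namespace Vale.Agent.P224.SO.One11W

open MeasureTheory Set Filter Function Module Vale.Agent.P224.UE Vale.Agent.P224.SO
open scoped Topology RealInnerProductSpace ContDiff

set_option linter.unusedSectionVars false
set_option linter.unusedVariables false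

lemma sqK : √30 ^ 2 = (30 : ℝ) := Real.sq_sqrt (by norm_num)

/-- the coefficients in the block of dimension 6 -/
noncomputable def pa (t u v : ℝ) : ℝ := (-(14 / 625)) * (v) + 48 / 125 * (u) + 162 / 6875 * (t * v) + 162 / 6875 * (t * u) + (-(2079 / 6250)) * (t ^ 2)

/-- the coefficients in the block of dimension 6 -/
noncomputable def pb (t u v : ℝ) : ℝ := 148 / 275 * (v) + 148 / 275 * (u) + 1306 / 825 * (t) + 162 / 1375 * (t * v) + 162 / 1375 * (t * u) + (-(27 / 625)) * (t ^ 2)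

/-- the coefficients in the block of dimension 7 -/
noncomputable def qa (t u v : ℝ) : ℝ := (-(1249 / 6000)) * (v) + 1151 / 4500 * (u) + 166 / 1375 * (t * v) + 166 / 1375 * (t * u) + 3652 / 1875 * (t ^ 2)

/-- the coefficients in the block of dimension 7 -/
noncomputable def qb (t u v : ℝ) : ℝ := 4849 / 11000 * (v) + 4849 / 11000 * (u) + 1284061 / 330000 * (t) + (-(996 / 1375)) * (t * v) + (-(996 / 1375)) * (t * u) + 166 / 625 * (t ^ 2)

/-- the certificate -/
lemma cert {t u v g g' a1 B1 a2 B2 : ℝ} (hρ : 0 ≤ 5 / 11 + t) (hr : 0 ≤ 6 / 11 - t)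
    (hu : 0 ≤ u) (hv : 0 ≤ v) (hg : 0 ≤ g) (hg' : 0 ≤ g')
    (hgd : g = (5 / 11 + t) * u - (11 / 2 * t + 15 / 11 * (u + v)) ^ 2 / 30)
    (hgd' : g' = (6 / 11 - t) * v - (11 / 2 * t - 15 / 11 * (u + v)) ^ 2 / 30)
    (ha1 : a1 = pa t u v) (hb1 : B1 = pb t u v) (ha2 : a2 = qa t u v) (hb2 : B2 = qb t u v) :
    (30 * a1 ^ 2 * (5 / 11 + t) - 2 * a1 * B1 * (11 / 2 * t + 15 / 11 * (u + v)) + B1 ^ 2 * u
      + (30 * a2 ^ 2 * (6 / 11 - t) - 2 * a2 * B2 * (11 / 2 * t - 15 / 11 * (u + v)) + B2 ^ 2 * v))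
      ≤ (187 / 200 * (2 * u + v)) ^ 2 := by
  have hQ0 : (0 : ℝ) ≤ 2 / 125 * (u + 27 / 4 * (t * u) + (-(73 / 16)) * (t * v) + (-(13 / 8)) * (u ^ 2) + 1 / 8 * (u * v) + (-(23 / 16)) * (v ^ 2)) ^ 2 +
      523 / 200 * (t * u + (-(1965 / 2092)) * (t * v) + (-(1059 / 5230)) * (u ^ 2) + 223 / 1046 * (u * v) + (-(3167 / 10460)) * (v ^ 2)) ^ 2 +
      132633 / 1046000 * (t * v + (-(20879 / 265266)) * (u ^ 2) + (-(18879 / 29474)) * (u * v) + 39097 / 132633 * (v ^ 2)) ^ 2 +
      759057069313 / 77675190120000 * (u ^ 2 + 111498179625 / 759057069313 * (u * v) + (-(5583732208 / 759057069313)) * (v ^ 2)) ^ 2 +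
      151813604975007029 / 11113354551811633000 * (u * v + (-(17208711188859257 / 151813604975007029)) * (v ^ 2)) ^ 2 +
      2690468972272060089296 / 277837873804884738948625 * (v ^ 2) ^ 2 := by positivity
  have hQ1 : (0 : ℝ) ≤ 1408271 / 2250000 * (u + 22250265 / 30981962 * (v) + (-(1522128019 / 123927848)) * (t ^ 2) + (-(1140935661 / 681603164)) * (t * u) + 2700635148 / 852003955 * (t * v)) ^ 2 +
      11437558583821 / 852003955000000 * (v + (-(3900029478917563 / 686253515029260)) * (t ^ 2) + (-(198337941296575 / 251626288844062)) * (t * u) + 181692391009863 / 125813144422031 * (t * v)) ^ 2 +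
      83940171652353947283313 / 102938027254389000000000 * (t ^ 2 + 131569799357032581373350 / 923341888175893420116443 * (t * u) + (-(2664758389030306378763370 / 10156760769934827621280873)) * (t * v)) ^ 2 +
      3611704558338113484544779411 / 507838038496741381064043650000 * (t * u + (-(4925512853784572930587429639 / 66214583569532080549987622535)) * (t * v)) ^ 2 +
      2966824909654133815795567116470448883 / 293772035770157330706778418646950000000 * (t * v) ^ 2 := by positivity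
  have hQ2 : (0 : ℝ) ≤ 211 / 1000 * (u + 15 / 211 * (v) + (-(572 / 211)) * (t ^ 2) + (-(776 / 211)) * (t * u)) ^ 2 +
      377 / 42200 * (v + (-(17 / 65)) * (t ^ 2) + (-(809 / 1885)) * (t * u)) ^ 2 +
      467724839 / 5850000000 * (t ^ 2 + 5580000 / 4630939 * (t * u)) ^ 2 +
      15012951577 / 671486155000 * (t * u) ^ 2 := by positivity
  have hQ3 : (0 : ℝ) ≤ 2574902141 / 16335000000 * (t + 4976911715 / 28323923551 * (u) + (-(68909969181 / 56647847102)) * (v) + 25253910000 / 2574902141 * (t ^ 2) + (-(359370000 / 111952267)) * (t * u) + (-(4034745000 / 2574902141)) * (t * v)) ^ 2 +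
      3928606389233534447 / 203575368130457400000 * (u + (-(159409012673644677249 / 39286063892335344470)) * (v) + 39564070116228662400 / 3928606389233534447 * (t ^ 2) + (-(14947870573670208768 / 3928606389233534447)) * (t * u) + 149359488512998669092 / 19643031946167672235 * (t * v)) ^ 2 +
      13956808587955445007290691701 / 39217313280523757617177500000 * (v + (-(33207709300884604413442399500 / 13956808587955445007290691701)) * (t ^ 2) + 12374251954444976673116086440 / 13956808587955445007290691701 * (t * u) + (-(25153120453472936505415938267 / 13956808587955445007290691701)) * (t * v)) ^ 2 +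
      1595754623799324801205641965923 / 3489202146988861251822672925250 * (t ^ 2 + (-(1983050324252290762287375778679 / 6383018495197299204822567863692)) * (t * u) + (-(6988315500692493711438360207927 / 15957546237993248012056419659230)) * (t * v)) ^ 2 +
      2148948768982852975275372473471629931 / 212394940427690131040470945664351300000 * (t * u + (-(1590143125544685700056118685164378802 / 10744743844914264876376862367358149655)) * (t * v)) ^ 2 +
      135779577859016285748356403866455551362851859 / 1430125405758088655045760381095369719080500000 * (t * v) ^ 2 := by positivity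
  have hQ4 : (0 : ℝ) ≤ 3558242009 / 18150000000 * (t + 4719000000 / 3558242009 * (u) + 63011572685 / 78281324198 * (v) + (-(46736250000 / 3558242009)) * (t ^ 2) + (-(2450250000 / 508320287)) * (t * u) + 1052700000 / 3558242009 * (t * v)) ^ 2 +
      100284269357 / 3558242009000 * (u + 536863199027 / 1103126962927 * (v) + (-(1031861643345 / 100284269357)) * (t ^ 2) + (-(112885981565 / 100284269357)) * (t * u) + 18073844738 / 100284269357 * (t * v)) ^ 2 +
      97850704989184382431 / 7047657540748017600000 * (v + (-(987760267756135922400 / 97850704989184382431)) * (t ^ 2) + 162841514025429703200 / 97850704989184382431 * (t * u) + 100520557311518269728 / 489253524945921912155 * (t * v)) ^ 2 +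
      51267004838340352608353 / 19570140997836876486200 * (t ^ 2 + (-(13707521764738364798244 / 51267004838340352608353)) * (t * u) + (-(17187812126286355608268 / 1281675120958508815208825)) * (t * v)) ^ 2 +
      2393005165490243042687889 / 10253400967668070521670600 * (t * u + (-(5403764635725970450784 / 443149104720415378275535)) * (t * v)) ^ 2 +
      646879463750215239057987439363 / 73728932297859108560592135625000 * (t * v) ^ 2 := by positivity
  have hQ5 : (0 : ℝ) ≤ 8639 / 1000 * (t + (-(4722 / 8639)) * (u) + 2965 / 8639 * (v)) ^ 2 +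
      103643 / 8639000 * (u + (-(11728 / 103643)) * (v)) ^ 2 +
      1059823 / 103643000 * (v) ^ 2 := by positivity
  have hQ6 : (0 : ℝ) ≤ 9 / 1000 * (1 + 28 / 9 * (t)) ^ 2 +
      51253 / 1800 * (t) ^ 2 := by positivity
  have hQ7 : (0 : ℝ) ≤ 19 / 1000 * (1 + (-(46 / 19)) * (u) + 80 / 19 * (v)) ^ 2 +
      1051 / 9500 * (u + (-(3445 / 2102)) * (v)) ^ 2 +
      69359 / 2102000 * (v) ^ 2 := by positivity
  have hQ8 : (0 : ℝ) ≤ 5067 / 250 * (1) ^ 2 := by positivity
  have hQ9 : (0 : ℝ) ≤ 3734 / 125 * (t + (-(6075 / 29872)) * (u) + (-(1409 / 29872)) * (v)) ^ 2 +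
      57003 / 5974400 * (u + 319361 / 57003 * (v)) ^ 2 +
      262217089 / 57003000 * (v) ^ 2 := by positivity
  have hQ10 : (0 : ℝ) ≤ 12997 / 250 * (t + (-(1993 / 12997)) * (u) + (-(1941 / 25994)) * (v)) ^ 2 +
      293069 / 12997000 * (u + (-(473978 / 41867)) * (v)) ^ 2 +
      10682761 / 5981000 * (v) ^ 2 := by positivity
  have e : (187 / 200 * (2 * u + v)) ^ 2 - (30 * a1 ^ 2 * (5 / 11 + t) - 2 * a1 * B1 * (11 / 2 * t + 15 / 11 * (u + v)) + B1 ^ 2 * u
      + (30 * a2 ^ 2 * (6 / 11 - t) - 2 * a2 * B2 * (11 / 2 * t - 15 / 11 * (u + v)) + B2 ^ 2 * v))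
      = (2 / 125 * (u + 27 / 4 * (t * u) + (-(73 / 16)) * (t * v) + (-(13 / 8)) * (u ^ 2) + 1 / 8 * (u * v) + (-(23 / 16)) * (v ^ 2)) ^ 2 +
      523 / 200 * (t * u + (-(1965 / 2092)) * (t * v) + (-(1059 / 5230)) * (u ^ 2) + 223 / 1046 * (u * v) + (-(3167 / 10460)) * (v ^ 2)) ^ 2 +
      132633 / 1046000 * (t * v + (-(20879 / 265266)) * (u ^ 2) + (-(18879 / 29474)) * (u * v) + 39097 / 132633 * (v ^ 2)) ^ 2 +
      759057069313 / 77675190120000 * (u ^ 2 + 111498179625 / 759057069313 * (u * v) + (-(5583732208 / 759057069313)) * (v ^ 2)) ^ 2 +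
      151813604975007029 / 11113354551811633000 * (u * v + (-(17208711188859257 / 151813604975007029)) * (v ^ 2)) ^ 2 +
      2690468972272060089296 / 277837873804884738948625 * (v ^ 2) ^ 2)
      + (5 / 11 + t) * (1408271 / 2250000 * (u + 22250265 / 30981962 * (v) + (-(1522128019 / 123927848)) * (t ^ 2) + (-(1140935661 / 681603164)) * (t * u) + 2700635148 / 852003955 * (t * v)) ^ 2 +
      11437558583821 / 852003955000000 * (v + (-(3900029478917563 / 686253515029260)) * (t ^ 2) + (-(198337941296575 / 251626288844062)) * (t * u) + 181692391009863 / 125813144422031 * (t * v)) ^ 2 +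
      83940171652353947283313 / 102938027254389000000000 * (t ^ 2 + 131569799357032581373350 / 923341888175893420116443 * (t * u) + (-(2664758389030306378763370 / 10156760769934827621280873)) * (t * v)) ^ 2 +
      3611704558338113484544779411 / 507838038496741381064043650000 * (t * u + (-(4925512853784572930587429639 / 66214583569532080549987622535)) * (t * v)) ^ 2 +
      2966824909654133815795567116470448883 / 293772035770157330706778418646950000000 * (t * v) ^ 2)
      + (6 / 11 - t) * (211 / 1000 * (u + 15 / 211 * (v) + (-(572 / 211)) * (t ^ 2) + (-(776 / 211)) * (t * u)) ^ 2 +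
      377 / 42200 * (v + (-(17 / 65)) * (t ^ 2) + (-(809 / 1885)) * (t * u)) ^ 2 +
      467724839 / 5850000000 * (t ^ 2 + 5580000 / 4630939 * (t * u)) ^ 2 +
      15012951577 / 671486155000 * (t * u) ^ 2)
      + u * (2574902141 / 16335000000 * (t + 4976911715 / 28323923551 * (u) + (-(68909969181 / 56647847102)) * (v) + 25253910000 / 2574902141 * (t ^ 2) + (-(359370000 / 111952267)) * (t * u) + (-(4034745000 / 2574902141)) * (t * v)) ^ 2 +
      3928606389233534447 / 203575368130457400000 * (u + (-(159409012673644677249 / 39286063892335344470)) * (v) + 39564070116228662400 / 3928606389233534447 * (t ^ 2) + (-(14947870573670208768 / 3928606389233534447)) * (t * u) + 149359488512998669092 / 19643031946167672235 * (t * v)) ^ 2 +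
      13956808587955445007290691701 / 39217313280523757617177500000 * (v + (-(33207709300884604413442399500 / 13956808587955445007290691701)) * (t ^ 2) + 12374251954444976673116086440 / 13956808587955445007290691701 * (t * u) + (-(25153120453472936505415938267 / 13956808587955445007290691701)) * (t * v)) ^ 2 +
      1595754623799324801205641965923 / 3489202146988861251822672925250 * (t ^ 2 + (-(1983050324252290762287375778679 / 6383018495197299204822567863692)) * (t * u) + (-(6988315500692493711438360207927 / 15957546237993248012056419659230)) * (t * v)) ^ 2 +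
      2148948768982852975275372473471629931 / 212394940427690131040470945664351300000 * (t * u + (-(1590143125544685700056118685164378802 / 10744743844914264876376862367358149655)) * (t * v)) ^ 2 +
      135779577859016285748356403866455551362851859 / 1430125405758088655045760381095369719080500000 * (t * v) ^ 2)
      + v * (3558242009 / 18150000000 * (t + 4719000000 / 3558242009 * (u) + 63011572685 / 78281324198 * (v) + (-(46736250000 / 3558242009)) * (t ^ 2) + (-(2450250000 / 508320287)) * (t * u) + 1052700000 / 3558242009 * (t * v)) ^ 2 +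
      100284269357 / 3558242009000 * (u + 536863199027 / 1103126962927 * (v) + (-(1031861643345 / 100284269357)) * (t ^ 2) + (-(112885981565 / 100284269357)) * (t * u) + 18073844738 / 100284269357 * (t * v)) ^ 2 +
      97850704989184382431 / 7047657540748017600000 * (v + (-(987760267756135922400 / 97850704989184382431)) * (t ^ 2) + 162841514025429703200 / 97850704989184382431 * (t * u) + 100520557311518269728 / 489253524945921912155 * (t * v)) ^ 2 +
      51267004838340352608353 / 19570140997836876486200 * (t ^ 2 + (-(13707521764738364798244 / 51267004838340352608353)) * (t * u) + (-(17187812126286355608268 / 1281675120958508815208825)) * (t * v)) ^ 2 +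
      2393005165490243042687889 / 10253400967668070521670600 * (t * u + (-(5403764635725970450784 / 443149104720415378275535)) * (t * v)) ^ 2 +
      646879463750215239057987439363 / 73728932297859108560592135625000 * (t * v) ^ 2)
      + g' * (8639 / 1000 * (t + (-(4722 / 8639)) * (u) + 2965 / 8639 * (v)) ^ 2 +
      103643 / 8639000 * (u + (-(11728 / 103643)) * (v)) ^ 2 +
      1059823 / 103643000 * (v) ^ 2)
      + (g' * u) * (9 / 1000 * (1 + 28 / 9 * (t)) ^ 2 +
      51253 / 1800 * (t) ^ 2)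
      + (u * v) * (19 / 1000 * (1 + (-(46 / 19)) * (u) + 80 / 19 * (v)) ^ 2 +
      1051 / 9500 * (u + (-(3445 / 2102)) * (v)) ^ 2 +
      69359 / 2102000 * (v) ^ 2)
      + (g * g') * (5067 / 250 * (1) ^ 2)
      + (g * (5 / 11 + t)) * (3734 / 125 * (t + (-(6075 / 29872)) * (u) + (-(1409 / 29872)) * (v)) ^ 2 +
      57003 / 5974400 * (u + 319361 / 57003 * (v)) ^ 2 +
      262217089 / 57003000 * (v) ^ 2)
      + (g * (6 / 11 - t)) * (12997 / 250 * (t + (-(1993 / 12997)) * (u) + (-(1941 / 25994)) * (v)) ^ 2 +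
      293069 / 12997000 * (u + (-(473978 / 41867)) * (v)) ^ 2 +
      10682761 / 5981000 * (v) ^ 2) := by
    rw [ha1, hb1, ha2, hb2, hgd, hgd']
    unfold pa pb qa qb
    ring
  have h1 := mul_nonneg hρ hQ1
  have h2 := mul_nonneg hr hQ2
  have h3 := mul_nonneg hu hQ3
  have h4 := mul_nonneg hv hQ4
  have h5 := mul_nonneg hg' hQ5
  have h6 := mul_nonneg (mul_nonneg hg' hu) hQ6
  have h7 := mul_nonneg (mul_nonneg hu hv) hQ7
  have h8 := mul_nonneg (mul_nonneg hg hg') hQ8
  have h9 := mul_nonneg (mul_nonneg hg hρ) hQ9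
  have h10 := mul_nonneg (mul_nonneg hg hr) hQ10
  rw [← sub_nonneg, e]
  exact add_nonneg (add_nonneg (add_nonneg (add_nonneg (add_nonneg (add_nonneg (add_nonneg (add_nonneg (add_nonneg (add_nonneg hQ0 h1) h2) h3) h4) h5) h6) h7) h8) h9) h10

/-- the first block -/
noncomputable def uQ (ρ σ ν : ℝ) : ℝ := ν + 2 / 5 * √30 * σ + 6 / 5 * ρ

/-- the second block -/
noncomputable def vQ (ρ σ ν : ℝ) : ℝ := 1 - ν + 1 / 3 * √30 * σ + 5 / 6 * (1 - ρ)

/-- the integrand, for a coordinate -/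
noncomputable def Ps (k : Prop) [Decidable k] (ρ σ ν x n : ℝ) : ℝ :=
  if k then -(√30 * qa (ρ - 5 / 11) (uQ ρ σ ν) (vQ ρ σ ν)) * x
      + qb (ρ - 5 / 11) (uQ ρ σ ν) (vQ ρ σ ν) * (n - √30 / 6 * x)
    else -(√30 * pa (ρ - 5 / 11) (uQ ρ σ ν) (vQ ρ σ ν)) * x
      + pb (ρ - 5 / 11) (uQ ρ σ ν) (vQ ρ σ ν) * (n + √30 / 5 * x)

lemma Ps_in {k : Prop} [Decidable k] (hk : k) (ρ σ ν x n : ℝ) : Ps k ρ σ ν x n
    = n + (51541 / 396000 * √30) * x + (99769 / 1980000 * √30) * (13 * (ρ * x) + 2 * (σ * n))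
      + ((-(8351 / 18000)) * √30) * (ν * x - σ * n) + 217 / 1000 * (12 * (ρ * n - σ * x) - 6 * n)
      + (83 / 625 * √30) * (4 * (ρ * (0 * x)) - 15 * (ρ ^ 2 * x) - 4 * (ρ * σ * n)) := by
  unfold Ps qa qb uQ vQ
  rw [if_pos hk]
  linear_combination ((-(217 / 2500)) * σ * x) * sqK

lemma Ps_out {k : Prop} [Decidable k] (hk : ¬k) (ρ σ ν x n : ℝ) : Ps k ρ σ ν x n
    = n + (6659 / 41250 * √30) * x + ((-(526 / 20625)) * √30) * (13 * (ρ * x) + 2 * (σ * n))
      + ((-(254 / 625)) * √30) * (ν * x - σ * n) + 21 / 125 * (12 * (ρ * n - σ * x) - 5 * n)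
      + ((-(27 / 1250)) * √30) * (4 * (ρ * (1 * x)) - 15 * (ρ ^ 2 * x) - 4 * (ρ * σ * n)) := by
  unfold Ps pa pb uQ vQ
  rw [if_neg hk]
  linear_combination ((-(42 / 625)) * σ * x) * sqK

/-- the pointwise inequality -/
lemma pointwise' (S : Finset (Fin 13)) (x N u : Fin 13 → ℝ) (hx : ∑ i, x i ^ 2 = 1)
    (hN : ∑ i, N i ^ 2 = 1) (hu : ∑ i, u i ^ 2 = 1) (hxN : ∑ i, x i * N i = 0) :
    ∑ k, Ps (k ∈ S) (∑ i ∈ Finset.univ \ S, x i ^ 2) (∑ i ∈ Finset.univ \ S, x i * N i)
        (∑ i ∈ Finset.univ \ S, N i ^ 2) (x k) (N k) * u k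
      ≤ 187 / 200 * ∑ i, (if i ∈ S then 1 else 2)
        * (N i - (if i ∈ S then √30 / 6 else -(√30 / 5)) * x i) ^ 2 := by
  obtain ⟨ρ, hρ⟩ : ∃ ρ, ρ = ∑ i ∈ Finset.univ \ S, x i ^ 2 := ⟨_, rfl⟩
  obtain ⟨ν, hν⟩ : ∃ ν, ν = ∑ i ∈ Finset.univ \ S, N i ^ 2 := ⟨_, rfl⟩
  obtain ⟨σ, hσ⟩ : ∃ σ, σ = ∑ i ∈ Finset.univ \ S, x i * N i := ⟨_, rfl⟩
  rw [← hρ, ← hν, ← hσ]
  have spl : ∀ f : Fin 13 → ℝ, ∑ i, f i = ∑ i ∈ S, f i + ∑ i ∈ Finset.univ \ S, f i := fun f => by
    rw [add_comm, Finset.sum_sdiff (Finset.subset_univ S)]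
  have hρ2 : ∑ i ∈ S, x i ^ 2 = 1 - ρ := by
    have := spl fun i => x i ^ 2
    rw [hx, ← hρ] at this
    linarith
  have hν2 : ∑ i ∈ S, N i ^ 2 = 1 - ν := by
    have := spl fun i => N i ^ 2
    rw [hN, ← hν] at this
    linarith
  have hσ2 : ∑ i ∈ S, x i * N i = -σ := by
    have := spl fun i => x i * N i
    rw [hxN, ← hσ] at this
    linarith
  have q6 := sqK
  have hA : ∑ i ∈ Finset.univ \ S, (N i + √30 / 5 * x i) ^ 2 = uQ ρ σ ν := by
    have : ∑ i ∈ Finset.univ \ S, (N i + √30 / 5 * x i) ^ 2 = ∑ i ∈ Finset.univ \ S,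
        (N i ^ 2 + (2 / 5 * √30) * (x i * N i) + 6 / 5 * x i ^ 2) :=
      Finset.sum_congr rfl fun i _ => by linear_combination (x i ^ 2 / 25) * q6
    rw [this, Finset.sum_add_distrib, Finset.sum_add_distrib, ← Finset.mul_sum,
      ← Finset.mul_sum, ← hρ, ← hν, ← hσ]
    rfl
  have hB : ∑ i ∈ S, (N i - √30 / 6 * x i) ^ 2 = vQ ρ σ ν := by
    have : ∑ i ∈ S, (N i - √30 / 6 * x i) ^ 2 = ∑ i ∈ S,
        (N i ^ 2 + (-(1 / 3 * √30)) * (x i * N i) + 5 / 6 * x i ^ 2) :=
      Finset.sum_congr rfl fun i _ => by linear_combination (x i ^ 2 / 36) * q6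
    rw [this, Finset.sum_add_distrib, Finset.sum_add_distrib, ← Finset.mul_sum,
      ← Finset.mul_sum, hρ2, hν2, hσ2]
    unfold vQ
    ring
  obtain ⟨U, hU⟩ : ∃ U, U = uQ ρ σ ν := ⟨_, rfl⟩
  obtain ⟨V, hV⟩ : ∃ V, V = vQ ρ σ ν := ⟨_, rfl⟩
  obtain ⟨t, ht⟩ : ∃ t, t = ρ - 5 / 11 := ⟨_, rfl⟩
  obtain ⟨a, ha⟩ : ∃ a, a = pa t U V := ⟨_, rfl⟩
  obtain ⟨α, hα⟩ : ∃ α, α = pb t U V := ⟨_, rfl⟩
  obtain ⟨b, hb⟩ : ∃ b, b = qa t U V := ⟨_, rfl⟩
  obtain ⟨β, hβ⟩ : ∃ β, β = qb t U V := ⟨_, rfl⟩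
  obtain ⟨y, hy⟩ : ∃ y, y = 11 / 2 * t + 15 / 11 * (U + V) := ⟨_, rfl⟩
  obtain ⟨z, hz⟩ : ∃ z, z = 11 / 2 * t - 15 / 11 * (U + V) := ⟨_, rfl⟩
  obtain ⟨g, hg⟩ : ∃ g, g = (5 / 11 + t) * U - (11 / 2 * t + 15 / 11 * (U + V)) ^ 2 / 30 := ⟨_, rfl⟩
  obtain ⟨g', hg'⟩ : ∃ g', g' = (6 / 11 - t) * V - (11 / 2 * t - 15 / 11 * (U + V)) ^ 2 / 30 := ⟨_, rfl⟩
  have hU0 : 0 ≤ U := by
    rw [hU, ← hA]
    exact Finset.sum_nonneg fun i _ => sq_nonneg _
  have hV0 : 0 ≤ V := by
    rw [hV, ← hB]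
    exact Finset.sum_nonneg fun i _ => sq_nonneg _
  have hρ0 : 0 ≤ ρ := by
    rw [hρ]
    exact Finset.sum_nonneg fun i _ => sq_nonneg _
  have hρ1 : 0 ≤ 1 - ρ := by
    rw [← hρ2]
    exact Finset.sum_nonneg fun i _ => sq_nonneg _
  have hp1 : √30 * (σ + √30 / 5 * ρ) = y := by
    rw [hy, hU, hV, ht]
    unfold uQ vQ
    linear_combination (ρ / 5) * q6
  have hp1' : ∑ i ∈ Finset.univ \ S, x i * (N i + √30 / 5 * x i) = σ + √30 / 5 * ρ := by
    rw [hσ, hρ, Finset.mul_sum, ← Finset.sum_add_distrib]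
    exact Finset.sum_congr rfl fun i _ => by ring
  have hp2' : ∑ i ∈ S, x i * (N i - √30 / 6 * x i) = -σ - √30 / 6 * (1 - ρ) := by
    rw [← hσ2, ← hρ2, Finset.mul_sum, ← Finset.sum_sub_distrib]
    exact Finset.sum_congr rfl fun i _ => by ring
  have hp2 : √30 * (-σ - √30 / 6 * (1 - ρ)) = z := by
    rw [hz, hU, hV, ht]
    unfold uQ vQ
    linear_combination (-(1 - ρ) / 6) * q6
  have hcs := Finset.sum_mul_sq_le_sq_mul_sq (Finset.univ \ S) x fun i => N i + √30 / 5 * x i
  rw [hp1', ← hρ, hA, ← hU] at hcs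
  have hcs' := Finset.sum_mul_sq_le_sq_mul_sq S x fun i => N i - √30 / 6 * x i
  rw [hp2', hρ2, hB, ← hV] at hcs'
  have hg0 : 0 ≤ g := by
    have e : y ^ 2 = 30 * (σ + √30 / 5 * ρ) ^ 2 := by
      rw [← hp1]
      linear_combination ((σ + √30 / 5 * ρ) ^ 2) * q6
    rw [hg, ← hy, e, ht]
    linarith
  have hg0' : 0 ≤ g' := by
    have e : z ^ 2 = 30 * (-σ - √30 / 6 * (1 - ρ)) ^ 2 := by
      rw [← hp2]
      linear_combination ((-σ - √30 / 6 * (1 - ρ)) ^ 2) * q6
    rw [hg', ← hz, e, ht]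
    linarith
  have hρt : 0 ≤ 5 / 11 + t := by rw [ht]; linarith
  have hρt' : 0 ≤ 6 / 11 - t := by rw [ht]; linarith
  have key := cert hρt hρt' hU0 hV0 hg0 hg0' hg hg' ha hα hb hβ
  rw [← hy, ← hz] at key
  have hPs : ∀ k, Ps (k ∈ S) ρ σ ν (x k) (N k)
      = if k ∈ S then -(√30 * b) * x k + β * (N k - √30 / 6 * x k)
        else -(√30 * a) * x k + α * (N k + √30 / 5 * x k) := by
    intro k
    unfold Ps
    rw [← hU, ← hV, ← ht, ← ha, ← hβ, ← hα, ← hb]
  have nS : ∑ k ∈ S, (-(√30 * b) * x k + β * (N k - √30 / 6 * x k)) ^ 2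
      = 30 * b ^ 2 * (6 / 11 - t) - 2 * b * β * z + β ^ 2 * V := by
    have : ∑ k ∈ S, (-(√30 * b) * x k + β * (N k - √30 / 6 * x k)) ^ 2
        = ∑ k ∈ S, (30 * b ^ 2 * x k ^ 2 + (-2 * √30 * b * β) * (x k * (N k - √30 / 6 * x k))
          + β ^ 2 * (N k - √30 / 6 * x k) ^ 2) :=
      Finset.sum_congr rfl fun i _ => by linear_combination (b ^ 2 * x i ^ 2) * q6
    rw [this, Finset.sum_add_distrib, Finset.sum_add_distrib, ← Finset.mul_sum,
      ← Finset.mul_sum, ← Finset.mul_sum, hρ2, hB, ← hV, hp2', ht]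
    linear_combination (-2 * b * β) * hp2
  have nA : ∑ k ∈ Finset.univ \ S, (-(√30 * a) * x k + α * (N k + √30 / 5 * x k)) ^ 2
      = 30 * a ^ 2 * (5 / 11 + t) - 2 * a * α * y + α ^ 2 * U := by
    have : ∑ k ∈ Finset.univ \ S, (-(√30 * a) * x k + α * (N k + √30 / 5 * x k)) ^ 2
        = ∑ k ∈ Finset.univ \ S, (30 * a ^ 2 * x k ^ 2
          + (-2 * √30 * a * α) * (x k * (N k + √30 / 5 * x k))
          + α ^ 2 * (N k + √30 / 5 * x k) ^ 2) :=
      Finset.sum_congr rfl fun i _ => by linear_combination (a ^ 2 * x i ^ 2) * q6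
    rw [this, Finset.sum_add_distrib, Finset.sum_add_distrib, ← Finset.mul_sum,
      ← Finset.mul_sum, ← Finset.mul_sum, ← hρ, hA, ← hU, hp1', ht]
    linear_combination (-2 * a * α) * hp1
  have hn2 : ∑ k, Ps (k ∈ S) ρ σ ν (x k) (N k) ^ 2 ≤ (187 / 200 * (2 * U + V)) ^ 2 := by
    refine le_trans (le_of_eq ?_) key
    rw [spl, ← nS, ← nA, add_comm]
    congr 1
    · refine Finset.sum_congr rfl fun i hi => ?_
      rw [hPs, if_neg (Finset.mem_sdiff.1 hi).2]
    · refine Finset.sum_congr rfl fun i hi => ?_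
      rw [hPs, if_pos hi]
  have hfin : ∑ i, (if i ∈ S then (1 : ℝ) else 2)
      * (N i - (if i ∈ S then √30 / 6 else -(√30 / 5)) * x i) ^ 2 = 2 * U + V := by
    rw [spl, hU, hV, ← hA, ← hB, Finset.mul_sum, add_comm]
    congr 1
    · refine Finset.sum_congr rfl fun i hi => ?_
      have := (Finset.mem_sdiff.1 hi).2
      rw [if_neg this, if_neg this]
      ring
    · refine Finset.sum_congr rfl fun i hi => ?_
      rw [if_pos hi, if_pos hi, one_mul]
  rw [hfin]
  have hcs2 := Finset.sum_mul_sq_le_sq_mul_sq Finset.univ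
    (fun k => Ps (k ∈ S) ρ σ ν (x k) (N k)) u
  rw [hu, mul_one] at hcs2
  exact (abs_le_of_sq_le_sq' (hcs2.trans hn2) (by positivity)).2

section

variable {X : Type*} [MeasurableSpace X] {E : Type*} [NormedAddCommGroup E]
  [InnerProductSpace ℝ E] [FiniteDimensional ℝ E] [MeasurableSpace E] [BorelSpace E]
  {μ : Measure X} [IsFiniteMeasure μ] {p n : X → E}

/-- the integrand differs from the normal by a null function -/
lemma coord' (h : TwoG μ 11 p n) (hp : UF p) (hn : UF n) [Nonempty X]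
    (hsp : ∀ w, (∀ x, ⟪p x, w⟫ = 0) → w = 0) (b : OrthonormalBasis (Fin 13) ℝ E)
    (S : Finset (Fin 13)) (hS : S.card = 7) (k : Fin 13) :
    Nul μ (fun x => Ps (k ∈ S) (bρ p b (Finset.univ \ S) x) (bσ p n b (Finset.univ \ S) x)
      (bρ n b (Finset.univ \ S) x) ⟪p x, b k⟫ ⟪n x, b k⟫ - ⟪n x, b k⟫) := by
  have hc : (Finset.univ \ S).card = 6 := by
    rw [Finset.card_sdiff_of_subset (Finset.subset_univ S), hS]
    simp
  have n0 := nul0 h (by norm_num) hp (b k) (μ := μ)
  have n1 := blk1 h (by norm_num) hp hn hsp b (Finset.univ \ S) (b k)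
  have n2 := blk2 h (by norm_num) hp hn hsp b (Finset.univ \ S) (b k)
  have n3 := blk3 h hp hn hsp b (Finset.univ \ S) k
  have n4 := blk4 h hp hn hsp b (Finset.univ \ S) k
  by_cases hk : k ∈ S
  · have hk' : k ∉ Finset.univ \ S := fun hh => (Finset.mem_sdiff.1 hh).2 hk
    refine (((((n0.cmul (51541 / 396000 * √30)).add (n1.cmul (99769 / 1980000 * √30))).add
      (n2.cmul ((-(8351 / 18000)) * √30))).add (n3.cmul (217 / 1000))).add
      (n4.cmul (83 / 625 * √30))).congr fun x => ?_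
    rw [Ps_in hk, hc, if_neg hk']
    push_cast
    ring
  · have hk' : k ∈ Finset.univ \ S := Finset.mem_sdiff.2 ⟨Finset.mem_univ k, hk⟩
    refine (((((n0.cmul (6659 / 41250 * √30)).add (n1.cmul ((-(526 / 20625)) * √30))).add
      (n2.cmul ((-(254 / 625)) * √30))).add (n3.cmul (21 / 125))).add
      (n4.cmul ((-(27 / 1250)) * √30))).congr fun x => ?_
    rw [Ps_out hk, hc, if_pos hk']
    push_cast
    ring

/-- the one point identity -/
theorem one (h : TwoG μ 11 p n) [Nonempty X]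
    (hsp : ∀ w, (∀ x, ⟪p x, w⟫ = 0) → w = 0) (b : OrthonormalBasis (Fin 13) ℝ E)
    (S : Finset (Fin 13)) (hS : S.card = 7) :
    ‖∫ x, n x ∂μ‖ ≤ 187 / 200 * ∫ x, ∑ i, (if i ∈ S then 1 else 2)
      * (⟪n x, b i⟫ - (if i ∈ S then √30 / 6 else -(√30 / 5)) * ⟪p x, b i⟫) ^ 2 ∂μ :=
  one_abs h b (Cc := 187 / 200) (by norm_num) (fun i => if i ∈ S then (1 : ℝ) else 2)
    (fun i => by split_ifs <;> norm_num) (fun i => if i ∈ S then √30 / 6 else -(√30 / 5))
    (fun k x => Ps (k ∈ S) (bρ p b (Finset.univ \ S) x) (bσ p n b (Finset.univ \ S) x)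
      (bρ n b (Finset.univ \ S) x) ⟪p x, b k⟫ ⟪n x, b k⟫)
    (fun k => coord' h ⟨h.mp, h.np⟩ ⟨h.mn, h.nn⟩ hsp b S hS k)
    (fun x u hx hN hu hxN => pointwise' S (fun i => ⟪p x, b i⟫) (fun i => ⟪n x, b i⟫) u hx hN
      hu hxN)

end

end Vale.Agent.P224.SO.One11W
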