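import Vale.Agent.P224.SO.OneA

/-!
The one point identity in dimension 13, blocks 7 and 8: the mean normal is at most 89/100
times the mean square distance of the normal to a Clifford point, with the weight 2 on the
block of dimension 7.
-/

namespace Vale.Agent.P224.SO.One13W

open MeasureTheory Set Filter Function Module Vale.Agent.P224.UE Vale.Agent.P224.SO
open scoped Topology RealInnerProductSpace ContDiff

set_option linter.unusedSectionVars false
set_option linter.unusedVariables false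

lemma sqK : √42 ^ 2 = (42 : ℝ) := Real.sq_sqrt (by norm_num)

/-- the coefficients in the block of dimension 7 -/
noncomputable def pa (t u v : ℝ) : ℝ := (-(38 / 1125)) * (v) + 77 / 250 * (u) + 77 / 5000 * (t * v) + 77 / 5000 * (t * u) + (-(1859 / 7500)) * (t ^ 2)

/-- the coefficients in the block of dimension 7 -/
noncomputable def pb (t u v : ℝ) : ℝ := 856 / 1625 * (v) + 856 / 1625 * (u) + 33499 / 26250 * (t) + 231 / 2500 * (t * v) + 231 / 2500 * (t * u) + (-(143 / 5000)) * (t ^ 2)

/-- the coefficients in the block of dimension 8 -/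
noncomputable def qa (t u v : ℝ) : ℝ := (-(17609 / 105000)) * (v) + 52173 / 245000 * (u) + 657 / 8125 * (t * v) + 657 / 8125 * (t * u) + 25623 / 17500 * (t ^ 2)

/-- the coefficients in the block of dimension 8 -/
noncomputable def qb (t u v : ℝ) : ℝ := 29203 / 65000 * (v) + 29203 / 65000 * (u) + 9911537 / 2730000 * (t) + (-(4599 / 8125)) * (t * v) + (-(4599 / 8125)) * (t * u) + 219 / 1250 * (t ^ 2)

/-- the certificate -/
lemma cert {t u v g g' a1 B1 a2 B2 : ℝ} (hρ : 0 ≤ 6 / 13 + t) (hr : 0 ≤ 7 / 13 - t)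
    (hu : 0 ≤ u) (hv : 0 ≤ v) (hg : 0 ≤ g) (hg' : 0 ≤ g')
    (hgd : g = (6 / 13 + t) * u - (13 / 2 * t + 21 / 13 * (u + v)) ^ 2 / 42)
    (hgd' : g' = (7 / 13 - t) * v - (13 / 2 * t - 21 / 13 * (u + v)) ^ 2 / 42)
    (ha1 : a1 = pa t u v) (hb1 : B1 = pb t u v) (ha2 : a2 = qa t u v) (hb2 : B2 = qb t u v) :
    (42 * a1 ^ 2 * (6 / 13 + t) - 2 * a1 * B1 * (13 / 2 * t + 21 / 13 * (u + v)) + B1 ^ 2 * u
      + (42 * a2 ^ 2 * (7 / 13 - t) - 2 * a2 * B2 * (13 / 2 * t - 21 / 13 * (u + v)) + B2 ^ 2 * v))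
      ≤ (89 / 100 * (2 * u + v)) ^ 2 := by
  have hQ0 : (0 : ℝ) ≤ 31 / 125 * (u + 19 / 124 * (v) + (-(657 / 124)) * (t ^ 2) + (-(309 / 124)) * (t * u) + 929 / 248 * (t * v) + (-(7 / 62)) * (u ^ 2) + (-(191 / 124)) * (u * v) + 325 / 248 * (v ^ 2)) ^ 2 +
      2491 / 62000 * (v + (-(19819 / 2491)) * (t ^ 2) + (-(21843 / 2491)) * (t * u) + 36289 / 4982 * (t * v) + 4792 / 2491 * (u ^ 2) + (-(4989 / 2491)) * (u * v) + 3249 / 4982 * (v ^ 2)) ^ 2 +
      14794086650869 / 18308850000000 * (t ^ 2 + 14272869450000 / 14794086650869 * (t * u) + (-(12731578125000 / 14794086650869)) * (t * v) + (-(2790530400000 / 14794086650869)) * (u ^ 2) + 3712948050000 / 14794086650869 * (u * v) + (-(1621391625000 / 14794086650869)) * (v ^ 2)) ^ 2 +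
      670130269535589 / 7397043325434500 * (t * u + (-(944000350524971 / 2680521078142356)) * (t * v) + (-(488039251242017 / 1340260539071178)) * (u ^ 2) + (-(23469124080971 / 670130269535589)) * (u * v) + 178245796043711 / 893507026047452 * (v ^ 2)) ^ 2 +
      57013622969916527 / 5361042156284712000 * (t * v + 640216310282350 / 57013622969916527 * (u ^ 2) + (-(8074543966632400 / 57013622969916527)) * (u * v) + 4612815494263971 / 57013622969916527 * (v ^ 2)) ^ 2 +
      1920122429663578986244 / 203545760705473240955875 * (u ^ 2 + 2317623993891386215297 / 30721958874617263779904 * (u * v) + (-(4690179079500991372033 / 30721958874617263779904)) * (v ^ 2)) ^ 2 +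
      14320835219163212826789214961 / 1754899734835887341635676288000 * (u * v + (-(1267911259191366507871319601 / 14320835219163212826789214961)) * (v ^ 2)) ^ 2 +
      977694971242314401960808132032823 / 102254343673630130386481692125280250 * (v ^ 2) ^ 2 := by positivity
  have hQ1 : (0 : ℝ) ≤ 445360813 / 3675000000 * (u + 6871975887 / 5789690569 * (v) + (-(122820993935 / 5789690569)) * (t ^ 2) + 344328618377 / 69476286828 * (t * v)) ^ 2 +
      804018649757369 / 40643627794380000 * (v + (-(40335935835767652408 / 3517581592688489375)) * (t ^ 2) + 15583511469985578981 / 5628130548301583000 * (t * v)) ^ 2 +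
      30139037623158708328746759 / 19236774335015176269531250 * (t ^ 2 + (-(1298425396566742573251465387715 / 5867708956777522607107049016192)) * (t * v)) ^ 2 +
      10263039086371026946766598498201004276037 / 1249469945256205663957375017507924480000000 * (t * v) ^ 2 := by positivity
  have hQ2 : (0 : ℝ) ≤ 1767047978699 / 5217030000000 * (t + (-(684183207249 / 1767047978699)) * (u) + 15265029780000 / 1767047978699 * (t ^ 2) + (-(91337504977278 / 114858118615435)) * (t * u) + (-(48671287406371 / 45943247446174)) * (t * v)) ^ 2 +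
      2042596001676031294289851 / 66579805617809206450000000 * (u + 2924036925102807163650000 / 2042596001676031294289851 * (t ^ 2) + (-(7582541568114764962834942 / 2042596001676031294289851)) * (t * u) + 18296302956031767607177097 / 4085192003352062588579702 * (t * v)) ^ 2 +
      212895372569033319421531949470621 / 268090725219979107375542943750000 * (t ^ 2 + (-(46224030116673223887341295658062879 / 143917271856666523928955597842139796)) * (t * u) + 6830713774544383502217409994512356 / 35979317964166630982238899460534949 * (t * v)) ^ 2 +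
      32693510281336606187941045338330105450918193 / 233865566767083101384552846493477168500000000 * (t * u + (-(38996494517221889202047865681649271931029440 / 32693510281336606187941045338330105450918193)) * (t * v)) ^ 2 +
      755610946030441705013285512543227116193985987068131981 / 32322438939643435707707914473740058754050271509450000000 * (t * v) ^ 2 := by positivity
  have hQ3 : (0 : ℝ) ≤ 354596021233 / 3194100000000 * (t + 370515600000 / 354596021233 * (u) + 3188495781168 / 4609748276029 * (v) + (-(3737097000000 / 354596021233)) * (t ^ 2) + (-(1533168000000 / 354596021233)) * (t * u) + 146928600000 / 354596021233 * (t * v)) ^ 2 +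
      18489440357463590420369 / 408999915790673025000000 * (u + 1072009287220737289946 / 18489440357463590420369 * (v) + (-(8782406805497243100000 / 18489440357463590420369)) * (t ^ 2) + (-(955118146275302100000 / 303105579630550662629)) * (t * u) + (-(4463679187329561530352 / 18489440357463590420369)) * (t * v)) ^ 2 +
      3377505572285166720789992504955757 / 277240375675996743147983479725000000 * (v + (-(18154543481446879280163343726500000 / 3377505572285166720789992504955757)) * (t ^ 2) + (-(480118601418573848548388011350000 / 3377505572285166720789992504955757)) * (t * u) + 1534843217643415210631135116691064 / 3377505572285166720789992504955757 * (t * v)) ^ 2 +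
      251269070122598563452415774255362377 / 422188196535645840098749063119469625 * (t ^ 2 + 92189730828197122245619169458373391 / 2010152560980788507619326194042899016 * (t * u) + (-(154119544056166272497031612490149039 / 2010152560980788507619326194042899016)) * (t * v)) ^ 2 +
      217594793162115720717671119147464390411 / 2010152560980788507619326194042899016000 * (t * u + 20865398270849915787928680069920576765 / 217594793162115720717671119147464390411 * (t * v)) ^ 2 +
      24367078647128005297507240673577768844020304757 / 2987848503607301490104521554793620410831043750000 * (t * v) ^ 2 := by positivity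
  have hQ4 : (0 : ℝ) ≤ 17259 / 1000 * (t + (-(1027 / 5753)) * (u) + (-(2909 / 17259)) * (v)) ^ 2 +
      207071 / 5753000 * (u + (-(2590586 / 207071)) * (v)) ^ 2 +
      1102116311 / 621213000 * (v) ^ 2 := by positivity
  have hQ5 : (0 : ℝ) ≤ 1281 / 200 * (t + (-(4429 / 6405)) * (u) + 2162 / 6405 * (v)) ^ 2 +
      72929 / 6405000 * (u + (-(12787 / 72929)) * (v)) ^ 2 +
      323421 / 36464500 * (v) ^ 2 := by positivity
  have hQ6 : (0 : ℝ) ≤ 77 / 500 * (1 + 367 / 154 * (t) + 1 / 7 * (u) + (-(235 / 77)) * (v)) ^ 2 +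
      336243 / 154000 * (t + (-(139744 / 336243)) * (u) + 35372 / 112081 * (v)) ^ 2 +
      6968981 / 336243000 * (u + (-(12938250 / 6968981)) * (v)) ^ 2 +
      443801009 / 6968981000 * (v) ^ 2 := by positivity
  have hQ7 : (0 : ℝ) ≤ 4853 / 250 * (1) ^ 2 := by positivity
  have hQ8 : (0 : ℝ) ≤ 119 / 200 * (t + 681 / 595 * (u) + 39 / 119 * (v)) ^ 2 +
      11049 / 595000 * (u + 1675 / 11049 * (v)) ^ 2 +
      95747 / 11049000 * (v) ^ 2 := by positivity
  have hQ9 : (0 : ℝ) ≤ 16293 / 500 * (t + (-(5071 / 32586)) * (u) + (-(1453 / 32586)) * (v)) ^ 2 +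
      288587 / 32586000 * (u + (-(3727 / 288587)) * (v)) ^ 2 +
      2369209 / 288587000 * (v) ^ 2 := by positivity
  have e : (89 / 100 * (2 * u + v)) ^ 2 - (42 * a1 ^ 2 * (6 / 13 + t) - 2 * a1 * B1 * (13 / 2 * t + 21 / 13 * (u + v)) + B1 ^ 2 * u
      + (42 * a2 ^ 2 * (7 / 13 - t) - 2 * a2 * B2 * (13 / 2 * t - 21 / 13 * (u + v)) + B2 ^ 2 * v))
      = (31 / 125 * (u + 19 / 124 * (v) + (-(657 / 124)) * (t ^ 2) + (-(309 / 124)) * (t * u) + 929 / 248 * (t * v) + (-(7 / 62)) * (u ^ 2) + (-(191 / 124)) * (u * v) + 325 / 248 * (v ^ 2)) ^ 2 +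
      2491 / 62000 * (v + (-(19819 / 2491)) * (t ^ 2) + (-(21843 / 2491)) * (t * u) + 36289 / 4982 * (t * v) + 4792 / 2491 * (u ^ 2) + (-(4989 / 2491)) * (u * v) + 3249 / 4982 * (v ^ 2)) ^ 2 +
      14794086650869 / 18308850000000 * (t ^ 2 + 14272869450000 / 14794086650869 * (t * u) + (-(12731578125000 / 14794086650869)) * (t * v) + (-(2790530400000 / 14794086650869)) * (u ^ 2) + 3712948050000 / 14794086650869 * (u * v) + (-(1621391625000 / 14794086650869)) * (v ^ 2)) ^ 2 +
      670130269535589 / 7397043325434500 * (t * u + (-(944000350524971 / 2680521078142356)) * (t * v) + (-(488039251242017 / 1340260539071178)) * (u ^ 2) + (-(23469124080971 / 670130269535589)) * (u * v) + 178245796043711 / 893507026047452 * (v ^ 2)) ^ 2 +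
      57013622969916527 / 5361042156284712000 * (t * v + 640216310282350 / 57013622969916527 * (u ^ 2) + (-(8074543966632400 / 57013622969916527)) * (u * v) + 4612815494263971 / 57013622969916527 * (v ^ 2)) ^ 2 +
      1920122429663578986244 / 203545760705473240955875 * (u ^ 2 + 2317623993891386215297 / 30721958874617263779904 * (u * v) + (-(4690179079500991372033 / 30721958874617263779904)) * (v ^ 2)) ^ 2 +
      14320835219163212826789214961 / 1754899734835887341635676288000 * (u * v + (-(1267911259191366507871319601 / 14320835219163212826789214961)) * (v ^ 2)) ^ 2 +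
      977694971242314401960808132032823 / 102254343673630130386481692125280250 * (v ^ 2) ^ 2)
      + (6 / 13 + t) * (445360813 / 3675000000 * (u + 6871975887 / 5789690569 * (v) + (-(122820993935 / 5789690569)) * (t ^ 2) + 344328618377 / 69476286828 * (t * v)) ^ 2 +
      804018649757369 / 40643627794380000 * (v + (-(40335935835767652408 / 3517581592688489375)) * (t ^ 2) + 15583511469985578981 / 5628130548301583000 * (t * v)) ^ 2 +
      30139037623158708328746759 / 19236774335015176269531250 * (t ^ 2 + (-(1298425396566742573251465387715 / 5867708956777522607107049016192)) * (t * v)) ^ 2 +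
      10263039086371026946766598498201004276037 / 1249469945256205663957375017507924480000000 * (t * v) ^ 2)
      + u * (1767047978699 / 5217030000000 * (t + (-(684183207249 / 1767047978699)) * (u) + 15265029780000 / 1767047978699 * (t ^ 2) + (-(91337504977278 / 114858118615435)) * (t * u) + (-(48671287406371 / 45943247446174)) * (t * v)) ^ 2 +
      2042596001676031294289851 / 66579805617809206450000000 * (u + 2924036925102807163650000 / 2042596001676031294289851 * (t ^ 2) + (-(7582541568114764962834942 / 2042596001676031294289851)) * (t * u) + 18296302956031767607177097 / 4085192003352062588579702 * (t * v)) ^ 2 +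
      212895372569033319421531949470621 / 268090725219979107375542943750000 * (t ^ 2 + (-(46224030116673223887341295658062879 / 143917271856666523928955597842139796)) * (t * u) + 6830713774544383502217409994512356 / 35979317964166630982238899460534949 * (t * v)) ^ 2 +
      32693510281336606187941045338330105450918193 / 233865566767083101384552846493477168500000000 * (t * u + (-(38996494517221889202047865681649271931029440 / 32693510281336606187941045338330105450918193)) * (t * v)) ^ 2 +
      755610946030441705013285512543227116193985987068131981 / 32322438939643435707707914473740058754050271509450000000 * (t * v) ^ 2)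
      + v * (354596021233 / 3194100000000 * (t + 370515600000 / 354596021233 * (u) + 3188495781168 / 4609748276029 * (v) + (-(3737097000000 / 354596021233)) * (t ^ 2) + (-(1533168000000 / 354596021233)) * (t * u) + 146928600000 / 354596021233 * (t * v)) ^ 2 +
      18489440357463590420369 / 408999915790673025000000 * (u + 1072009287220737289946 / 18489440357463590420369 * (v) + (-(8782406805497243100000 / 18489440357463590420369)) * (t ^ 2) + (-(955118146275302100000 / 303105579630550662629)) * (t * u) + (-(4463679187329561530352 / 18489440357463590420369)) * (t * v)) ^ 2 +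
      3377505572285166720789992504955757 / 277240375675996743147983479725000000 * (v + (-(18154543481446879280163343726500000 / 3377505572285166720789992504955757)) * (t ^ 2) + (-(480118601418573848548388011350000 / 3377505572285166720789992504955757)) * (t * u) + 1534843217643415210631135116691064 / 3377505572285166720789992504955757 * (t * v)) ^ 2 +
      251269070122598563452415774255362377 / 422188196535645840098749063119469625 * (t ^ 2 + 92189730828197122245619169458373391 / 2010152560980788507619326194042899016 * (t * u) + (-(154119544056166272497031612490149039 / 2010152560980788507619326194042899016)) * (t * v)) ^ 2 +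
      217594793162115720717671119147464390411 / 2010152560980788507619326194042899016000 * (t * u + 20865398270849915787928680069920576765 / 217594793162115720717671119147464390411 * (t * v)) ^ 2 +
      24367078647128005297507240673577768844020304757 / 2987848503607301490104521554793620410831043750000 * (t * v) ^ 2)
      + g * (17259 / 1000 * (t + (-(1027 / 5753)) * (u) + (-(2909 / 17259)) * (v)) ^ 2 +
      207071 / 5753000 * (u + (-(2590586 / 207071)) * (v)) ^ 2 +
      1102116311 / 621213000 * (v) ^ 2)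
      + g' * (1281 / 200 * (t + (-(4429 / 6405)) * (u) + 2162 / 6405 * (v)) ^ 2 +
      72929 / 6405000 * (u + (-(12787 / 72929)) * (v)) ^ 2 +
      323421 / 36464500 * (v) ^ 2)
      + (u * v) * (77 / 500 * (1 + 367 / 154 * (t) + 1 / 7 * (u) + (-(235 / 77)) * (v)) ^ 2 +
      336243 / 154000 * (t + (-(139744 / 336243)) * (u) + 35372 / 112081 * (v)) ^ 2 +
      6968981 / 336243000 * (u + (-(12938250 / 6968981)) * (v)) ^ 2 +
      443801009 / 6968981000 * (v) ^ 2)
      + (g * g') * (4853 / 250 * (1) ^ 2)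
      + (g' * (6 / 13 + t)) * (119 / 200 * (t + 681 / 595 * (u) + 39 / 119 * (v)) ^ 2 +
      11049 / 595000 * (u + 1675 / 11049 * (v)) ^ 2 +
      95747 / 11049000 * (v) ^ 2)
      + (g * (7 / 13 - t)) * (16293 / 500 * (t + (-(5071 / 32586)) * (u) + (-(1453 / 32586)) * (v)) ^ 2 +
      288587 / 32586000 * (u + (-(3727 / 288587)) * (v)) ^ 2 +
      2369209 / 288587000 * (v) ^ 2) := by
    rw [ha1, hb1, ha2, hb2, hgd, hgd']
    unfold pa pb qa qb
    ring
  have h1 := mul_nonneg hρ hQ1
  have h2 := mul_nonneg hu hQ2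
  have h3 := mul_nonneg hv hQ3
  have h4 := mul_nonneg hg hQ4
  have h5 := mul_nonneg hg' hQ5
  have h6 := mul_nonneg (mul_nonneg hu hv) hQ6
  have h7 := mul_nonneg (mul_nonneg hg hg') hQ7
  have h8 := mul_nonneg (mul_nonneg hg' hρ) hQ8
  have h9 := mul_nonneg (mul_nonneg hg hr) hQ9
  rw [← sub_nonneg, e]
  exact add_nonneg (add_nonneg (add_nonneg (add_nonneg (add_nonneg (add_nonneg (add_nonneg (add_nonneg (add_nonneg hQ0 h1) h2) h3) h4) h5) h6) h7) h8) h9

/-- the first block -/
noncomputable def uQ (ρ σ ν : ℝ) : ℝ := ν + 1 / 3 * √42 * σ + 7 / 6 * ρ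

/-- the second block -/
noncomputable def vQ (ρ σ ν : ℝ) : ℝ := 1 - ν + 2 / 7 * √42 * σ + 6 / 7 * (1 - ρ)

/-- the integrand, for a coordinate -/
noncomputable def Ps (k : Prop) [Decidable k] (ρ σ ν x n : ℝ) : ℝ :=
  if k then -(√42 * qa (ρ - 6 / 13) (uQ ρ σ ν) (vQ ρ σ ν)) * x
      + qb (ρ - 6 / 13) (uQ ρ σ ν) (vQ ρ σ ν) * (n - √42 / 7 * x)
    else -(√42 * pa (ρ - 6 / 13) (uQ ρ σ ν) (vQ ρ σ ν)) * x
      + pb (ρ - 6 / 13) (uQ ρ σ ν) (vQ ρ σ ν) * (n + √42 / 6 * x)

lemma Ps_in {k : Prop} [Decidable k] (hk : k) (ρ σ ν x n : ℝ) : Ps k ρ σ ν x n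
    = n + (1093187 / 9555000 * √42) * x + (565571 / 19110000 * √42) * (15 * (ρ * x) + 2 * (σ * n))
      + ((-(139891 / 367500)) * √42) * (ν * x - σ * n) + 471 / 2500 * (14 * (ρ * n - σ * x) - 7 * n)
      + (219 / 2500 * √42) * (4 * (ρ * (0 * x)) - 17 * (ρ ^ 2 * x) - 4 * (ρ * σ * n)) := by
  unfold Ps qa qb uQ vQ
  rw [if_pos hk]
  linear_combination ((-(157 / 2500)) * σ * x) * sqK

lemma Ps_out {k : Prop} [Decidable k] (hk : ¬k) (ρ σ ν x n : ℝ) : Ps k ρ σ ν x n
    = n + (5651 / 31500 * √42) * x + ((-(1657 / 78750)) * √42) * (15 * (ρ * x) + 2 * (σ * n))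
      + ((-(769 / 2250)) * √42) * (ν * x - σ * n) + 29 / 250 * (14 * (ρ * n - σ * x) - 6 * n)
      + ((-(143 / 10000)) * √42) * (4 * (ρ * (1 * x)) - 17 * (ρ ^ 2 * x) - 4 * (ρ * σ * n)) := by
  unfold Ps pa pb uQ vQ
  rw [if_neg hk]
  linear_combination ((-(29 / 750)) * σ * x) * sqK

/-- the pointwise inequality -/
lemma pointwise' (S : Finset (Fin 15)) (x N u : Fin 15 → ℝ) (hx : ∑ i, x i ^ 2 = 1)
    (hN : ∑ i, N i ^ 2 = 1) (hu : ∑ i, u i ^ 2 = 1) (hxN : ∑ i, x i * N i = 0) :
    ∑ k, Ps (k ∈ S) (∑ i ∈ Finset.univ \ S, x i ^ 2) (∑ i ∈ Finset.univ \ S, x i * N i)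
        (∑ i ∈ Finset.univ \ S, N i ^ 2) (x k) (N k) * u k
      ≤ 89 / 100 * ∑ i, (if i ∈ S then 1 else 2)
        * (N i - (if i ∈ S then √42 / 7 else -(√42 / 6)) * x i) ^ 2 := by
  obtain ⟨ρ, hρ⟩ : ∃ ρ, ρ = ∑ i ∈ Finset.univ \ S, x i ^ 2 := ⟨_, rfl⟩
  obtain ⟨ν, hν⟩ : ∃ ν, ν = ∑ i ∈ Finset.univ \ S, N i ^ 2 := ⟨_, rfl⟩
  obtain ⟨σ, hσ⟩ : ∃ σ, σ = ∑ i ∈ Finset.univ \ S, x i * N i := ⟨_, rfl⟩
  rw [← hρ, ← hν, ← hσ]
  have spl : ∀ f : Fin 15 → ℝ, ∑ i, f i = ∑ i ∈ S, f i + ∑ i ∈ Finset.univ \ S, f i := fun f => by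
    rw [add_comm, Finset.sum_sdiff (Finset.subset_univ S)]
  have hρ2 : ∑ i ∈ S, x i ^ 2 = 1 - ρ := by
    have := spl fun i => x i ^ 2
    rw [hx, ← hρ] at this
    linarith
  have hν2 : ∑ i ∈ S, N i ^ 2 = 1 - ν := by
    have := spl fun i => N i ^ 2
    rw [hN, ← hν] at this
    linarith
  have hσ2 : ∑ i ∈ S, x i * N i = -σ := by
    have := spl fun i => x i * N i
    rw [hxN, ← hσ] at this
    linarith
  have q6 := sqK
  have hA : ∑ i ∈ Finset.univ \ S, (N i + √42 / 6 * x i) ^ 2 = uQ ρ σ ν := by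
    have : ∑ i ∈ Finset.univ \ S, (N i + √42 / 6 * x i) ^ 2 = ∑ i ∈ Finset.univ \ S,
        (N i ^ 2 + (1 / 3 * √42) * (x i * N i) + 7 / 6 * x i ^ 2) :=
      Finset.sum_congr rfl fun i _ => by linear_combination (x i ^ 2 / 36) * q6
    rw [this, Finset.sum_add_distrib, Finset.sum_add_distrib, ← Finset.mul_sum,
      ← Finset.mul_sum, ← hρ, ← hν, ← hσ]
    rfl
  have hB : ∑ i ∈ S, (N i - √42 / 7 * x i) ^ 2 = vQ ρ σ ν := by
    have : ∑ i ∈ S, (N i - √42 / 7 * x i) ^ 2 = ∑ i ∈ S,
        (N i ^ 2 + (-(2 / 7 * √42)) * (x i * N i) + 6 / 7 * x i ^ 2) :=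
      Finset.sum_congr rfl fun i _ => by linear_combination (x i ^ 2 / 49) * q6
    rw [this, Finset.sum_add_distrib, Finset.sum_add_distrib, ← Finset.mul_sum,
      ← Finset.mul_sum, hρ2, hν2, hσ2]
    unfold vQ
    ring
  obtain ⟨U, hU⟩ : ∃ U, U = uQ ρ σ ν := ⟨_, rfl⟩
  obtain ⟨V, hV⟩ : ∃ V, V = vQ ρ σ ν := ⟨_, rfl⟩
  obtain ⟨t, ht⟩ : ∃ t, t = ρ - 6 / 13 := ⟨_, rfl⟩
  obtain ⟨a, ha⟩ : ∃ a, a = pa t U V := ⟨_, rfl⟩
  obtain ⟨α, hα⟩ : ∃ α, α = pb t U V := ⟨_, rfl⟩
  obtain ⟨b, hb⟩ : ∃ b, b = qa t U V := ⟨_, rfl⟩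
  obtain ⟨β, hβ⟩ : ∃ β, β = qb t U V := ⟨_, rfl⟩
  obtain ⟨y, hy⟩ : ∃ y, y = 13 / 2 * t + 21 / 13 * (U + V) := ⟨_, rfl⟩
  obtain ⟨z, hz⟩ : ∃ z, z = 13 / 2 * t - 21 / 13 * (U + V) := ⟨_, rfl⟩
  obtain ⟨g, hg⟩ : ∃ g, g = (6 / 13 + t) * U - (13 / 2 * t + 21 / 13 * (U + V)) ^ 2 / 42 := ⟨_, rfl⟩
  obtain ⟨g', hg'⟩ : ∃ g', g' = (7 / 13 - t) * V - (13 / 2 * t - 21 / 13 * (U + V)) ^ 2 / 42 := ⟨_, rfl⟩
  have hU0 : 0 ≤ U := by
    rw [hU, ← hA]
    exact Finset.sum_nonneg fun i _ => sq_nonneg _
  have hV0 : 0 ≤ V := by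
    rw [hV, ← hB]
    exact Finset.sum_nonneg fun i _ => sq_nonneg _
  have hρ0 : 0 ≤ ρ := by
    rw [hρ]
    exact Finset.sum_nonneg fun i _ => sq_nonneg _
  have hρ1 : 0 ≤ 1 - ρ := by
    rw [← hρ2]
    exact Finset.sum_nonneg fun i _ => sq_nonneg _
  have hp1 : √42 * (σ + √42 / 6 * ρ) = y := by
    rw [hy, hU, hV, ht]
    unfold uQ vQ
    linear_combination (ρ / 6) * q6
  have hp1' : ∑ i ∈ Finset.univ \ S, x i * (N i + √42 / 6 * x i) = σ + √42 / 6 * ρ := by
    rw [hσ, hρ, Finset.mul_sum, ← Finset.sum_add_distrib]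
    exact Finset.sum_congr rfl fun i _ => by ring
  have hp2' : ∑ i ∈ S, x i * (N i - √42 / 7 * x i) = -σ - √42 / 7 * (1 - ρ) := by
    rw [← hσ2, ← hρ2, Finset.mul_sum, ← Finset.sum_sub_distrib]
    exact Finset.sum_congr rfl fun i _ => by ring
  have hp2 : √42 * (-σ - √42 / 7 * (1 - ρ)) = z := by
    rw [hz, hU, hV, ht]
    unfold uQ vQ
    linear_combination (-(1 - ρ) / 7) * q6
  have hcs := Finset.sum_mul_sq_le_sq_mul_sq (Finset.univ \ S) x fun i => N i + √42 / 6 * x i
  rw [hp1', ← hρ, hA, ← hU] at hcs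
  have hcs' := Finset.sum_mul_sq_le_sq_mul_sq S x fun i => N i - √42 / 7 * x i
  rw [hp2', hρ2, hB, ← hV] at hcs'
  have hg0 : 0 ≤ g := by
    have e : y ^ 2 = 42 * (σ + √42 / 6 * ρ) ^ 2 := by
      rw [← hp1]
      linear_combination ((σ + √42 / 6 * ρ) ^ 2) * q6
    rw [hg, ← hy, e, ht]
    linarith
  have hg0' : 0 ≤ g' := by
    have e : z ^ 2 = 42 * (-σ - √42 / 7 * (1 - ρ)) ^ 2 := by
      rw [← hp2]
      linear_combination ((-σ - √42 / 7 * (1 - ρ)) ^ 2) * q6
    rw [hg', ← hz, e, ht]
    linarith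
  have hρt : 0 ≤ 6 / 13 + t := by rw [ht]; linarith
  have hρt' : 0 ≤ 7 / 13 - t := by rw [ht]; linarith
  have key := cert hρt hρt' hU0 hV0 hg0 hg0' hg hg' ha hα hb hβ
  rw [← hy, ← hz] at key
  have hPs : ∀ k, Ps (k ∈ S) ρ σ ν (x k) (N k)
      = if k ∈ S then -(√42 * b) * x k + β * (N k - √42 / 7 * x k)
        else -(√42 * a) * x k + α * (N k + √42 / 6 * x k) := by
    intro k
    unfold Ps
    rw [← hU, ← hV, ← ht, ← ha, ← hβ, ← hα, ← hb]
  have nS : ∑ k ∈ S, (-(√42 * b) * x k + β * (N k - √42 / 7 * x k)) ^ 2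
      = 42 * b ^ 2 * (7 / 13 - t) - 2 * b * β * z + β ^ 2 * V := by
    have : ∑ k ∈ S, (-(√42 * b) * x k + β * (N k - √42 / 7 * x k)) ^ 2
        = ∑ k ∈ S, (42 * b ^ 2 * x k ^ 2 + (-2 * √42 * b * β) * (x k * (N k - √42 / 7 * x k))
          + β ^ 2 * (N k - √42 / 7 * x k) ^ 2) :=
      Finset.sum_congr rfl fun i _ => by linear_combination (b ^ 2 * x i ^ 2) * q6
    rw [this, Finset.sum_add_distrib, Finset.sum_add_distrib, ← Finset.mul_sum,
      ← Finset.mul_sum, ← Finset.mul_sum, hρ2, hB, ← hV, hp2', ht]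
    linear_combination (-2 * b * β) * hp2
  have nA : ∑ k ∈ Finset.univ \ S, (-(√42 * a) * x k + α * (N k + √42 / 6 * x k)) ^ 2
      = 42 * a ^ 2 * (6 / 13 + t) - 2 * a * α * y + α ^ 2 * U := by
    have : ∑ k ∈ Finset.univ \ S, (-(√42 * a) * x k + α * (N k + √42 / 6 * x k)) ^ 2
        = ∑ k ∈ Finset.univ \ S, (42 * a ^ 2 * x k ^ 2
          + (-2 * √42 * a * α) * (x k * (N k + √42 / 6 * x k))
          + α ^ 2 * (N k + √42 / 6 * x k) ^ 2) :=
      Finset.sum_congr rfl fun i _ => by linear_combination (a ^ 2 * x i ^ 2) * q6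
    rw [this, Finset.sum_add_distrib, Finset.sum_add_distrib, ← Finset.mul_sum,
      ← Finset.mul_sum, ← Finset.mul_sum, ← hρ, hA, ← hU, hp1', ht]
    linear_combination (-2 * a * α) * hp1
  have hn2 : ∑ k, Ps (k ∈ S) ρ σ ν (x k) (N k) ^ 2 ≤ (89 / 100 * (2 * U + V)) ^ 2 := by
    refine le_trans (le_of_eq ?_) key
    rw [spl, ← nS, ← nA, add_comm]
    congr 1
    · refine Finset.sum_congr rfl fun i hi => ?_
      rw [hPs, if_neg (Finset.mem_sdiff.1 hi).2]
    · refine Finset.sum_congr rfl fun i hi => ?_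
      rw [hPs, if_pos hi]
  have hfin : ∑ i, (if i ∈ S then (1 : ℝ) else 2)
      * (N i - (if i ∈ S then √42 / 7 else -(√42 / 6)) * x i) ^ 2 = 2 * U + V := by
    rw [spl, hU, hV, ← hA, ← hB, Finset.mul_sum, add_comm]
    congr 1
    · refine Finset.sum_congr rfl fun i hi => ?_
      have := (Finset.mem_sdiff.1 hi).2
      rw [if_neg this, if_neg this]
      ring
    · refine Finset.sum_congr rfl fun i hi => ?_
      rw [if_pos hi, if_pos hi, one_mul]
  rw [hfin]
  have hcs2 := Finset.sum_mul_sq_le_sq_mul_sq Finset.univ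
    (fun k => Ps (k ∈ S) ρ σ ν (x k) (N k)) u
  rw [hu, mul_one] at hcs2
  exact (abs_le_of_sq_le_sq' (hcs2.trans hn2) (by positivity)).2

section

variable {X : Type*} [MeasurableSpace X] {E : Type*} [NormedAddCommGroup E]
  [InnerProductSpace ℝ E] [FiniteDimensional ℝ E] [MeasurableSpace E] [BorelSpace E]
  {μ : Measure X} [IsFiniteMeasure μ] {p n : X → E}

/-- the integrand differs from the normal by a null function -/
lemma coord' (h : TwoG μ 13 p n) (hp : UF p) (hn : UF n) [Nonempty X]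
    (hsp : ∀ w, (∀ x, ⟪p x, w⟫ = 0) → w = 0) (b : OrthonormalBasis (Fin 15) ℝ E)
    (S : Finset (Fin 15)) (hS : S.card = 8) (k : Fin 15) :
    Nul μ (fun x => Ps (k ∈ S) (bρ p b (Finset.univ \ S) x) (bσ p n b (Finset.univ \ S) x)
      (bρ n b (Finset.univ \ S) x) ⟪p x, b k⟫ ⟪n x, b k⟫ - ⟪n x, b k⟫) := by
  have hc : (Finset.univ \ S).card = 7 := by
    rw [Finset.card_sdiff_of_subset (Finset.subset_univ S), hS]
    simp
  have n0 := nul0 h (by norm_num) hp (b k) (μ := μ)
  have n1 := blk1 h (by norm_num) hp hn hsp b (Finset.univ \ S) (b k)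
  have n2 := blk2 h (by norm_num) hp hn hsp b (Finset.univ \ S) (b k)
  have n3 := blk3 h hp hn hsp b (Finset.univ \ S) k
  have n4 := blk4 h hp hn hsp b (Finset.univ \ S) k
  by_cases hk : k ∈ S
  · have hk' : k ∉ Finset.univ \ S := fun hh => (Finset.mem_sdiff.1 hh).2 hk
    refine (((((n0.cmul (1093187 / 9555000 * √42)).add (n1.cmul (565571 / 19110000 * √42))).add
      (n2.cmul ((-(139891 / 367500)) * √42))).add (n3.cmul (471 / 2500))).add
      (n4.cmul (219 / 2500 * √42))).congr fun x => ?_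
    rw [Ps_in hk, hc, if_neg hk']
    push_cast
    ring
  · have hk' : k ∈ Finset.univ \ S := Finset.mem_sdiff.2 ⟨Finset.mem_univ k, hk⟩
    refine (((((n0.cmul (5651 / 31500 * √42)).add (n1.cmul ((-(1657 / 78750)) * √42))).add
      (n2.cmul ((-(769 / 2250)) * √42))).add (n3.cmul (29 / 250))).add
      (n4.cmul ((-(143 / 10000)) * √42))).congr fun x => ?_
    rw [Ps_out hk, hc, if_pos hk']
    push_cast
    ring

/-- the one point identity -/
theorem one (h : TwoG μ 13 p n) [Nonempty X]
    (hsp : ∀ w, (∀ x, ⟪p x, w⟫ = 0) → w = 0) (b : OrthonormalBasis (Fin 15) ℝ E)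
    (S : Finset (Fin 15)) (hS : S.card = 8) :
    ‖∫ x, n x ∂μ‖ ≤ 89 / 100 * ∫ x, ∑ i, (if i ∈ S then 1 else 2)
      * (⟪n x, b i⟫ - (if i ∈ S then √42 / 7 else -(√42 / 6)) * ⟪p x, b i⟫) ^ 2 ∂μ :=
  one_abs h b (Cc := 89 / 100) (by norm_num) (fun i => if i ∈ S then (1 : ℝ) else 2)
    (fun i => by split_ifs <;> norm_num) (fun i => if i ∈ S then √42 / 7 else -(√42 / 6))
    (fun k x => Ps (k ∈ S) (bρ p b (Finset.univ \ S) x) (bσ p n b (Finset.univ \ S) x)
      (bρ n b (Finset.univ \ S) x) ⟪p x, b k⟫ ⟪n x, b k⟫)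
    (fun k => coord' h ⟨h.mp, h.np⟩ ⟨h.mn, h.nn⟩ hsp b S hS k)
    (fun x u hx hN hu hxN => pointwise' S (fun i => ⟪p x, b i⟫) (fun i => ⟪n x, b i⟫) u hx hN
      hu hxN)

end

end Vale.Agent.P224.SO.One13W
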