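import Vale.Agent.P224.SO.OneA

/-!
The one point identity in dimension 15, blocks 8 and 9: the mean normal is at most 43/50
times the mean square distance of the normal to a Clifford point, with the weight 2 on the
block of dimension 8.
-/

namespace Vale.Agent.P224.SO.One15W

open MeasureTheory Set Filter Function Module Vale.Agent.P224.UE Vale.Agent.P224.SO
open scoped Topology RealInnerProductSpace ContDiff

set_option linter.unusedSectionVars false
set_option linter.unusedVariables false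

lemma sqK : √56 ^ 2 = (56 : ℝ) := Real.sq_sqrt (by norm_num)

/-- the coefficients in the block of dimension 8 -/
noncomputable def pa (t u v : ℝ) : ℝ := (-(7227 / 196000)) * (v) + 7197 / 28000 * (u) + 137 / 9375 * (t * v) + 137 / 9375 * (t * u) + (-(3699 / 14000)) * (t ^ 2)

/-- the coefficients in the block of dimension 8 -/
noncomputable def pb (t u v : ℝ) : ℝ := 10399 / 20000 * (v) + 10399 / 20000 * (u) + 17205569 / 16800000 * (t) + 959 / 9375 * (t * v) + 959 / 9375 * (t * u) + (-(137 / 5000)) * (t ^ 2)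

/-- the coefficients in the block of dimension 9 -/
noncomputable def qa (t u v : ℝ) : ℝ := (-(19847 / 140000)) * (v) + 2879 / 16000 * (u) + 1169 / 18750 * (t * v) + 1169 / 18750 * (t * u) + 501 / 400 * (t ^ 2)

/-- the coefficients in the block of dimension 9 -/
noncomputable def qb (t u v : ℝ) : ℝ := 5707 / 12500 * (v) + 5707 / 12500 * (u) + 7311473 / 2100000 * (t) + (-(4676 / 9375)) * (t * v) + (-(4676 / 9375)) * (t * u) + 167 / 1250 * (t ^ 2)

/-- the certificate -/
lemma cert {t u v g g' a1 B1 a2 B2 : ℝ} (hρ : 0 ≤ 7 / 15 + t) (hr : 0 ≤ 8 / 15 - t)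
    (hu : 0 ≤ u) (hv : 0 ≤ v) (hg : 0 ≤ g) (hg' : 0 ≤ g')
    (hgd : g = (7 / 15 + t) * u - (15 / 2 * t + 28 / 15 * (u + v)) ^ 2 / 56)
    (hgd' : g' = (8 / 15 - t) * v - (15 / 2 * t - 28 / 15 * (u + v)) ^ 2 / 56)
    (ha1 : a1 = pa t u v) (hb1 : B1 = pb t u v) (ha2 : a2 = qa t u v) (hb2 : B2 = qb t u v) :
    (56 * a1 ^ 2 * (7 / 15 + t) - 2 * a1 * B1 * (15 / 2 * t + 28 / 15 * (u + v)) + B1 ^ 2 * u
      + (56 * a2 ^ 2 * (8 / 15 - t) - 2 * a2 * B2 * (15 / 2 * t - 28 / 15 * (u + v)) + B2 ^ 2 * v))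
      ≤ (43 / 50 * (2 * u + v)) ^ 2 := by
  have hQ0 : (0 : ℝ) ≤ 29 / 200 * (u + 28 / 145 * (v) + (-(817 / 145)) * (t ^ 2) + (-(577 / 145)) * (t * u) + 733 / 145 * (t * v) + 2547088321 / 15660000000 * (u ^ 2) + (-(244 / 145)) * (u * v) + 233 / 145 * (v ^ 2)) ^ 2 +
      1493 / 72500 * (v + (-(21929 / 2986)) * (t ^ 2) + (-(31259 / 2986)) * (t * u) + 21671 / 2986 * (t * v) + 166175381753 / 80622000000 * (u ^ 2) + (-(2239 / 1493)) * (u * v) + 1668 / 1493 * (v ^ 2)) ^ 2 +
      594113428087 / 585256000000 * (t ^ 2 + 754220740000 / 594113428087 * (t * u) + (-(33543244000 / 34947848711)) * (t * v) + (-(21322916681717 / 94359191519700)) * (u ^ 2) + 134834280000 / 594113428087 * (u * v) + (-(6238288000 / 34947848711)) * (v ^ 2)) ^ 2 +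
      195044696178157 / 1188226856174000 * (t * u + (-(35270883380419 / 195044696178157)) * (t * v) + (-(27950803327873965887893 / 87770113280170650000000)) * (u ^ 2) + (-(18678914243580 / 195044696178157)) * (u * v) + 27405733616820 / 195044696178157 * (v ^ 2)) ^ 2 +
      699233957482471 / 48761174044539250 * (t * v + (-(237804310207463841646949 / 3775863370405343400000000)) * (u ^ 2) + (-(413948944219415 / 2796935829929884)) * (u * v) + 236090896397359 / 1398467914964942 * (v ^ 2)) ^ 2 +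
      26053878701505823256203518965699437 / 2548707775023606795000000000000000000 * (u ^ 2 + 2057800868670583345969024875000000 / 26053878701505823256203518965699437 * (u * v) + (-(2414273145566421237605134200000000 / 26053878701505823256203518965699437)) * (v ^ 2)) ^ 2 +
      18615786231070432265324728948108997243 / 1875879266508419274446653365530359464000 * (u * v + (-(617745130110831903765614016561375643196 / 4188551901990847259698064013324524379675)) * (v ^ 2)) ^ 2 +
      43761119077336275123505030599874625829181277 / 4240908800765732850444289813491080934420937500 * (v ^ 2) ^ 2 := by positivity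
  have hQ1 : (0 : ℝ) ≤ 1437979 / 5600000 * (u + 578660662 / 754938975 * (v) + (-(329404720111 / 21569685000)) * (t ^ 2) + (-(176854360603 / 120790236000)) * (t * u) + 48842684134 / 13481053125 * (t * v)) ^ 2 +
      17674286044297783 / 1109760293250000000 * (v + (-(2972919559128263511631 / 395904007392270339200)) * (t ^ 2) + (-(2099163383940650407 / 2827885767087645280)) * (t * u) + 28804218192953384801 / 17674286044297783000 * (t * v)) ^ 2 +
      542402833633725660315915621559153891 / 456271450439443720521216000000000000 * (t ^ 2 + 55203858991320989175326349595481380 / 542402833633725660315915621559153891 * (t * u) + (-(49155930607852828684979754962645744 / 208616474474509869352275239061213035)) * (t * v)) ^ 2 +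
      7334955809231239438541659860027000731176590321031 / 857291544282783290058358540161591327496704000000000 * (t * u + (-(18900745306989906400729588371811723132913253813568 / 256723453323093380348958095100945025591180661236085)) * (t * v)) ^ 2 +
      451432695190808707874335390230290503693791338288665709538880907 / 46229475857156040466338628975302675483331857572088006375000000000 * (t * v) ^ 2 := by positivity
  have hQ2 : (0 : ℝ) ≤ 5295231013867 / 56448000000000 * (t + 12976118188264 / 132380775346675 * (v) + 28506240000000 / 5295231013867 * (t ^ 2) + (-(47415921177528 / 26476155069335)) * (t * u)) ^ 2 +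
      361061678931396298314217 / 39093697719564960937500000 * (v + 136800978388728117187500 / 361061678931396298314217 * (t ^ 2) + (-(2815372688301313942894365 / 11553973725804681546054944)) * (t * u)) ^ 2 +
      127479083941313582071151341 / 361061678931396298314217000 * (t ^ 2 + (-(1302677130705937107820095767 / 4079330686122034626276842912)) * (t * u)) ^ 2 +
      577498342466690892814618279725775311 / 57110629605708484767875800768000000000 * (t * u) ^ 2 := by positivity
  have hQ3 : (0 : ℝ) ≤ 185649356047 / 945000000000 * (u + 26460000000 / 185649356047 * (v) + (-(1288035000000 / 185649356047)) * (t ^ 2) + (-(357210000000 / 185649356047)) * (t * u) + (-(613715391408 / 928246780235)) * (t * v)) ^ 2 +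
      1145920971157735129541 / 43859660366103750000000 * (v + (-(7687445173263435594372399 / 449201020693832170780072)) * (t ^ 2) + 1880487885972858750000 / 1145920971157735129541 * (t * u) + 8916761292193963616352 / 5729604855788675647705 * (t * v)) ^ 2 +
      814374467941478787058200036905192187 / 192594937622480543221955870000000000 * (t ^ 2 + (-(65832056533153010373043095893750000 / 814374467941478787058200036905192187)) * (t * u) + (-(331560645593740997403558409470973792 / 4071872339707393935291000184525960935)) * (t * v)) ^ 2 +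
      2264751437402454259237098923130102580616321 / 31811502653964015119460938941609069804687500 * (t * u + 139631374048163681526610362818069378105729 / 323535919628922037033871274732871797230903 * (t * v)) ^ 2 +
      1487335819139708133525077015328438453625318056593 / 135408448505408218624667107170565763349987304687500 * (t * v) ^ 2 := by positivity
  have hQ4 : (0 : ℝ) ≤ 6621 / 1000 * (t + (-(1483 / 2207)) * (u) + 2254 / 6621 * (v)) ^ 2 +
      27547 / 2207000 * (u + (-(3130 / 27547)) * (v)) ^ 2 +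
      785521 / 82641000 * (v) ^ 2 := by positivity
  have hQ5 : (0 : ℝ) ≤ 12 / 125 * (1 + 155 / 48 * (t) + 37 / 96 * (u) + (-(83 / 24)) * (v)) ^ 2 +
      34079 / 24000 * (t + (-(28631 / 68158)) * (u) + 10538 / 34079 * (v)) ^ 2 +
      6158447 / 136316000 * (u + (-(11804526 / 6158447)) * (v)) ^ 2 +
      357620389 / 6158447000 * (v) ^ 2 := by positivity
  have hQ6 : (0 : ℝ) ≤ 373 / 20 * (1) ^ 2 := by positivity
  have hQ7 : (0 : ℝ) ≤ 5483 / 250 * (t + (-(1097 / 5483)) * (u) + (-(1093 / 21932)) * (v)) ^ 2 +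
      386 / 27415 * (u + (-(204713 / 15440)) * (v)) ^ 2 +
      3108637 / 617600 * (v) ^ 2 := by positivity
  have hQ8 : (0 : ℝ) ≤ 5801 / 125 * (t + (-(6287 / 46408)) * (u) + (-(3733 / 46408)) * (v)) ^ 2 +
      1869567 / 46408000 * (u + (-(7328105 / 623189)) * (v)) ^ 2 +
      210918359 / 124637800 * (v) ^ 2 := by positivity
  have e : (43 / 50 * (2 * u + v)) ^ 2 - (56 * a1 ^ 2 * (7 / 15 + t) - 2 * a1 * B1 * (15 / 2 * t + 28 / 15 * (u + v)) + B1 ^ 2 * u
      + (56 * a2 ^ 2 * (8 / 15 - t) - 2 * a2 * B2 * (15 / 2 * t - 28 / 15 * (u + v)) + B2 ^ 2 * v))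
      = (29 / 200 * (u + 28 / 145 * (v) + (-(817 / 145)) * (t ^ 2) + (-(577 / 145)) * (t * u) + 733 / 145 * (t * v) + 2547088321 / 15660000000 * (u ^ 2) + (-(244 / 145)) * (u * v) + 233 / 145 * (v ^ 2)) ^ 2 +
      1493 / 72500 * (v + (-(21929 / 2986)) * (t ^ 2) + (-(31259 / 2986)) * (t * u) + 21671 / 2986 * (t * v) + 166175381753 / 80622000000 * (u ^ 2) + (-(2239 / 1493)) * (u * v) + 1668 / 1493 * (v ^ 2)) ^ 2 +
      594113428087 / 585256000000 * (t ^ 2 + 754220740000 / 594113428087 * (t * u) + (-(33543244000 / 34947848711)) * (t * v) + (-(21322916681717 / 94359191519700)) * (u ^ 2) + 134834280000 / 594113428087 * (u * v) + (-(6238288000 / 34947848711)) * (v ^ 2)) ^ 2 +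
      195044696178157 / 1188226856174000 * (t * u + (-(35270883380419 / 195044696178157)) * (t * v) + (-(27950803327873965887893 / 87770113280170650000000)) * (u ^ 2) + (-(18678914243580 / 195044696178157)) * (u * v) + 27405733616820 / 195044696178157 * (v ^ 2)) ^ 2 +
      699233957482471 / 48761174044539250 * (t * v + (-(237804310207463841646949 / 3775863370405343400000000)) * (u ^ 2) + (-(413948944219415 / 2796935829929884)) * (u * v) + 236090896397359 / 1398467914964942 * (v ^ 2)) ^ 2 +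
      26053878701505823256203518965699437 / 2548707775023606795000000000000000000 * (u ^ 2 + 2057800868670583345969024875000000 / 26053878701505823256203518965699437 * (u * v) + (-(2414273145566421237605134200000000 / 26053878701505823256203518965699437)) * (v ^ 2)) ^ 2 +
      18615786231070432265324728948108997243 / 1875879266508419274446653365530359464000 * (u * v + (-(617745130110831903765614016561375643196 / 4188551901990847259698064013324524379675)) * (v ^ 2)) ^ 2 +
      43761119077336275123505030599874625829181277 / 4240908800765732850444289813491080934420937500 * (v ^ 2) ^ 2)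
      + (7 / 15 + t) * (1437979 / 5600000 * (u + 578660662 / 754938975 * (v) + (-(329404720111 / 21569685000)) * (t ^ 2) + (-(176854360603 / 120790236000)) * (t * u) + 48842684134 / 13481053125 * (t * v)) ^ 2 +
      17674286044297783 / 1109760293250000000 * (v + (-(2972919559128263511631 / 395904007392270339200)) * (t ^ 2) + (-(2099163383940650407 / 2827885767087645280)) * (t * u) + 28804218192953384801 / 17674286044297783000 * (t * v)) ^ 2 +
      542402833633725660315915621559153891 / 456271450439443720521216000000000000 * (t ^ 2 + 55203858991320989175326349595481380 / 542402833633725660315915621559153891 * (t * u) + (-(49155930607852828684979754962645744 / 208616474474509869352275239061213035)) * (t * v)) ^ 2 +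
      7334955809231239438541659860027000731176590321031 / 857291544282783290058358540161591327496704000000000 * (t * u + (-(18900745306989906400729588371811723132913253813568 / 256723453323093380348958095100945025591180661236085)) * (t * v)) ^ 2 +
      451432695190808707874335390230290503693791338288665709538880907 / 46229475857156040466338628975302675483331857572088006375000000000 * (t * v) ^ 2)
      + u * (5295231013867 / 56448000000000 * (t + 12976118188264 / 132380775346675 * (v) + 28506240000000 / 5295231013867 * (t ^ 2) + (-(47415921177528 / 26476155069335)) * (t * u)) ^ 2 +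
      361061678931396298314217 / 39093697719564960937500000 * (v + 136800978388728117187500 / 361061678931396298314217 * (t ^ 2) + (-(2815372688301313942894365 / 11553973725804681546054944)) * (t * u)) ^ 2 +
      127479083941313582071151341 / 361061678931396298314217000 * (t ^ 2 + (-(1302677130705937107820095767 / 4079330686122034626276842912)) * (t * u)) ^ 2 +
      577498342466690892814618279725775311 / 57110629605708484767875800768000000000 * (t * u) ^ 2)
      + v * (185649356047 / 945000000000 * (u + 26460000000 / 185649356047 * (v) + (-(1288035000000 / 185649356047)) * (t ^ 2) + (-(357210000000 / 185649356047)) * (t * u) + (-(613715391408 / 928246780235)) * (t * v)) ^ 2 +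
      1145920971157735129541 / 43859660366103750000000 * (v + (-(7687445173263435594372399 / 449201020693832170780072)) * (t ^ 2) + 1880487885972858750000 / 1145920971157735129541 * (t * u) + 8916761292193963616352 / 5729604855788675647705 * (t * v)) ^ 2 +
      814374467941478787058200036905192187 / 192594937622480543221955870000000000 * (t ^ 2 + (-(65832056533153010373043095893750000 / 814374467941478787058200036905192187)) * (t * u) + (-(331560645593740997403558409470973792 / 4071872339707393935291000184525960935)) * (t * v)) ^ 2 +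
      2264751437402454259237098923130102580616321 / 31811502653964015119460938941609069804687500 * (t * u + 139631374048163681526610362818069378105729 / 323535919628922037033871274732871797230903 * (t * v)) ^ 2 +
      1487335819139708133525077015328438453625318056593 / 135408448505408218624667107170565763349987304687500 * (t * v) ^ 2)
      + g' * (6621 / 1000 * (t + (-(1483 / 2207)) * (u) + 2254 / 6621 * (v)) ^ 2 +
      27547 / 2207000 * (u + (-(3130 / 27547)) * (v)) ^ 2 +
      785521 / 82641000 * (v) ^ 2)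
      + (u * v) * (12 / 125 * (1 + 155 / 48 * (t) + 37 / 96 * (u) + (-(83 / 24)) * (v)) ^ 2 +
      34079 / 24000 * (t + (-(28631 / 68158)) * (u) + 10538 / 34079 * (v)) ^ 2 +
      6158447 / 136316000 * (u + (-(11804526 / 6158447)) * (v)) ^ 2 +
      357620389 / 6158447000 * (v) ^ 2)
      + (g * g') * (373 / 20 * (1) ^ 2)
      + (g * (7 / 15 + t)) * (5483 / 250 * (t + (-(1097 / 5483)) * (u) + (-(1093 / 21932)) * (v)) ^ 2 +
      386 / 27415 * (u + (-(204713 / 15440)) * (v)) ^ 2 +
      3108637 / 617600 * (v) ^ 2)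
      + (g * (8 / 15 - t)) * (5801 / 125 * (t + (-(6287 / 46408)) * (u) + (-(3733 / 46408)) * (v)) ^ 2 +
      1869567 / 46408000 * (u + (-(7328105 / 623189)) * (v)) ^ 2 +
      210918359 / 124637800 * (v) ^ 2) := by
    rw [ha1, hb1, ha2, hb2, hgd, hgd']
    unfold pa pb qa qb
    ring
  have h1 := mul_nonneg hρ hQ1
  have h2 := mul_nonneg hu hQ2
  have h3 := mul_nonneg hv hQ3
  have h4 := mul_nonneg hg' hQ4
  have h5 := mul_nonneg (mul_nonneg hu hv) hQ5
  have h6 := mul_nonneg (mul_nonneg hg hg') hQ6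
  have h7 := mul_nonneg (mul_nonneg hg hρ) hQ7
  have h8 := mul_nonneg (mul_nonneg hg hr) hQ8
  rw [← sub_nonneg, e]
  exact add_nonneg (add_nonneg (add_nonneg (add_nonneg (add_nonneg (add_nonneg (add_nonneg (add_nonneg hQ0 h1) h2) h3) h4) h5) h6) h7) h8

/-- the first block -/
noncomputable def uQ (ρ σ ν : ℝ) : ℝ := ν + 2 / 7 * √56 * σ + 8 / 7 * ρ

/-- the second block -/
noncomputable def vQ (ρ σ ν : ℝ) : ℝ := 1 - ν + 1 / 4 * √56 * σ + 7 / 8 * (1 - ρ)

/-- the integrand, for a coordinate -/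
noncomputable def Ps (k : Prop) [Decidable k] (ρ σ ν x n : ℝ) : ℝ :=
  if k then -(√56 * qa (ρ - 7 / 15) (uQ ρ σ ν) (vQ ρ σ ν)) * x
      + qb (ρ - 7 / 15) (uQ ρ σ ν) (vQ ρ σ ν) * (n - √56 / 8 * x)
    else -(√56 * pa (ρ - 7 / 15) (uQ ρ σ ν) (vQ ρ σ ν)) * x
      + pb (ρ - 7 / 15) (uQ ρ σ ν) (vQ ρ σ ν) * (n + √56 / 7 * x)

lemma Ps_in {k : Prop} [Decidable k] (hk : k) (ρ σ ν x n : ℝ) : Ps k ρ σ ν x n
    = n + (1436311 / 16800000 * √56) * x + (399649 / 16800000 * √56) * (17 * (ρ * x) + 2 * (σ * n))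
      + ((-(180153 / 560000)) * √56) * (ν * x - σ * n) + 1629 / 10000 * (16 * (ρ * n - σ * x) - 8 * n)
      + (167 / 2500 * √56) * (4 * (ρ * (0 * x)) - 19 * (ρ ^ 2 * x) - 4 * (ρ * σ * n)) := by
  unfold Ps qa qb uQ vQ
  rw [if_pos hk]
  linear_combination ((-(1629 / 35000)) * σ * x) * sqK

lemma Ps_out {k : Prop} [Decidable k] (hk : ¬k) (ρ σ ν x n : ℝ) : Ps k ρ σ ν x n
    = n + (23145991 / 117600000 * √56) * x + ((-(2407087 / 117600000)) * √56) * (17 * (ρ * x) + 2 * (σ * n))
      + ((-(28803 / 98000)) * √56) * (ν * x - σ * n) + 171 / 2000 * (16 * (ρ * n - σ * x) - 7 * n)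
      + ((-(137 / 10000)) * √56) * (4 * (ρ * (1 * x)) - 19 * (ρ ^ 2 * x) - 4 * (ρ * σ * n)) := by
  unfold Ps pa pb uQ vQ
  rw [if_neg hk]
  linear_combination ((-(171 / 7000)) * σ * x) * sqK

/-- the pointwise inequality -/
lemma pointwise' (S : Finset (Fin 17)) (x N u : Fin 17 → ℝ) (hx : ∑ i, x i ^ 2 = 1)
    (hN : ∑ i, N i ^ 2 = 1) (hu : ∑ i, u i ^ 2 = 1) (hxN : ∑ i, x i * N i = 0) :
    ∑ k, Ps (k ∈ S) (∑ i ∈ Finset.univ \ S, x i ^ 2) (∑ i ∈ Finset.univ \ S, x i * N i)
        (∑ i ∈ Finset.univ \ S, N i ^ 2) (x k) (N k) * u k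
      ≤ 43 / 50 * ∑ i, (if i ∈ S then 1 else 2)
        * (N i - (if i ∈ S then √56 / 8 else -(√56 / 7)) * x i) ^ 2 := by
  obtain ⟨ρ, hρ⟩ : ∃ ρ, ρ = ∑ i ∈ Finset.univ \ S, x i ^ 2 := ⟨_, rfl⟩
  obtain ⟨ν, hν⟩ : ∃ ν, ν = ∑ i ∈ Finset.univ \ S, N i ^ 2 := ⟨_, rfl⟩
  obtain ⟨σ, hσ⟩ : ∃ σ, σ = ∑ i ∈ Finset.univ \ S, x i * N i := ⟨_, rfl⟩
  rw [← hρ, ← hν, ← hσ]
  have spl : ∀ f : Fin 17 → ℝ, ∑ i, f i = ∑ i ∈ S, f i + ∑ i ∈ Finset.univ \ S, f i := fun f => by
    rw [add_comm, Finset.sum_sdiff (Finset.subset_univ S)]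
  have hρ2 : ∑ i ∈ S, x i ^ 2 = 1 - ρ := by
    have := spl fun i => x i ^ 2
    rw [hx, ← hρ] at this
    linarith
  have hν2 : ∑ i ∈ S, N i ^ 2 = 1 - ν := by
    have := spl fun i => N i ^ 2
    rw [hN, ← hν] at this
    linarith
  have hσ2 : ∑ i ∈ S, x i * N i = -σ := by
    have := spl fun i => x i * N i
    rw [hxN, ← hσ] at this
    linarith
  have q6 := sqK
  have hA : ∑ i ∈ Finset.univ \ S, (N i + √56 / 7 * x i) ^ 2 = uQ ρ σ ν := by
    have : ∑ i ∈ Finset.univ \ S, (N i + √56 / 7 * x i) ^ 2 = ∑ i ∈ Finset.univ \ S,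
        (N i ^ 2 + (2 / 7 * √56) * (x i * N i) + 8 / 7 * x i ^ 2) :=
      Finset.sum_congr rfl fun i _ => by linear_combination (x i ^ 2 / 49) * q6
    rw [this, Finset.sum_add_distrib, Finset.sum_add_distrib, ← Finset.mul_sum,
      ← Finset.mul_sum, ← hρ, ← hν, ← hσ]
    rfl
  have hB : ∑ i ∈ S, (N i - √56 / 8 * x i) ^ 2 = vQ ρ σ ν := by
    have : ∑ i ∈ S, (N i - √56 / 8 * x i) ^ 2 = ∑ i ∈ S,
        (N i ^ 2 + (-(1 / 4 * √56)) * (x i * N i) + 7 / 8 * x i ^ 2) :=
      Finset.sum_congr rfl fun i _ => by linear_combination (x i ^ 2 / 64) * q6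
    rw [this, Finset.sum_add_distrib, Finset.sum_add_distrib, ← Finset.mul_sum,
      ← Finset.mul_sum, hρ2, hν2, hσ2]
    unfold vQ
    ring
  obtain ⟨U, hU⟩ : ∃ U, U = uQ ρ σ ν := ⟨_, rfl⟩
  obtain ⟨V, hV⟩ : ∃ V, V = vQ ρ σ ν := ⟨_, rfl⟩
  obtain ⟨t, ht⟩ : ∃ t, t = ρ - 7 / 15 := ⟨_, rfl⟩
  obtain ⟨a, ha⟩ : ∃ a, a = pa t U V := ⟨_, rfl⟩
  obtain ⟨α, hα⟩ : ∃ α, α = pb t U V := ⟨_, rfl⟩
  obtain ⟨b, hb⟩ : ∃ b, b = qa t U V := ⟨_, rfl⟩
  obtain ⟨β, hβ⟩ : ∃ β, β = qb t U V := ⟨_, rfl⟩
  obtain ⟨y, hy⟩ : ∃ y, y = 15 / 2 * t + 28 / 15 * (U + V) := ⟨_, rfl⟩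
  obtain ⟨z, hz⟩ : ∃ z, z = 15 / 2 * t - 28 / 15 * (U + V) := ⟨_, rfl⟩
  obtain ⟨g, hg⟩ : ∃ g, g = (7 / 15 + t) * U - (15 / 2 * t + 28 / 15 * (U + V)) ^ 2 / 56 := ⟨_, rfl⟩
  obtain ⟨g', hg'⟩ : ∃ g', g' = (8 / 15 - t) * V - (15 / 2 * t - 28 / 15 * (U + V)) ^ 2 / 56 := ⟨_, rfl⟩
  have hU0 : 0 ≤ U := by
    rw [hU, ← hA]
    exact Finset.sum_nonneg fun i _ => sq_nonneg _
  have hV0 : 0 ≤ V := by
    rw [hV, ← hB]
    exact Finset.sum_nonneg fun i _ => sq_nonneg _
  have hρ0 : 0 ≤ ρ := by
    rw [hρ]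
    exact Finset.sum_nonneg fun i _ => sq_nonneg _
  have hρ1 : 0 ≤ 1 - ρ := by
    rw [← hρ2]
    exact Finset.sum_nonneg fun i _ => sq_nonneg _
  have hp1 : √56 * (σ + √56 / 7 * ρ) = y := by
    rw [hy, hU, hV, ht]
    unfold uQ vQ
    linear_combination (ρ / 7) * q6
  have hp1' : ∑ i ∈ Finset.univ \ S, x i * (N i + √56 / 7 * x i) = σ + √56 / 7 * ρ := by
    rw [hσ, hρ, Finset.mul_sum, ← Finset.sum_add_distrib]
    exact Finset.sum_congr rfl fun i _ => by ring
  have hp2' : ∑ i ∈ S, x i * (N i - √56 / 8 * x i) = -σ - √56 / 8 * (1 - ρ) := by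
    rw [← hσ2, ← hρ2, Finset.mul_sum, ← Finset.sum_sub_distrib]
    exact Finset.sum_congr rfl fun i _ => by ring
  have hp2 : √56 * (-σ - √56 / 8 * (1 - ρ)) = z := by
    rw [hz, hU, hV, ht]
    unfold uQ vQ
    linear_combination (-(1 - ρ) / 8) * q6
  have hcs := Finset.sum_mul_sq_le_sq_mul_sq (Finset.univ \ S) x fun i => N i + √56 / 7 * x i
  rw [hp1', ← hρ, hA, ← hU] at hcs
  have hcs' := Finset.sum_mul_sq_le_sq_mul_sq S x fun i => N i - √56 / 8 * x i
  rw [hp2', hρ2, hB, ← hV] at hcs'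
  have hg0 : 0 ≤ g := by
    have e : y ^ 2 = 56 * (σ + √56 / 7 * ρ) ^ 2 := by
      rw [← hp1]
      linear_combination ((σ + √56 / 7 * ρ) ^ 2) * q6
    rw [hg, ← hy, e, ht]
    linarith
  have hg0' : 0 ≤ g' := by
    have e : z ^ 2 = 56 * (-σ - √56 / 8 * (1 - ρ)) ^ 2 := by
      rw [← hp2]
      linear_combination ((-σ - √56 / 8 * (1 - ρ)) ^ 2) * q6
    rw [hg', ← hz, e, ht]
    linarith
  have hρt : 0 ≤ 7 / 15 + t := by rw [ht]; linarith
  have hρt' : 0 ≤ 8 / 15 - t := by rw [ht]; linarith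
  have key := cert hρt hρt' hU0 hV0 hg0 hg0' hg hg' ha hα hb hβ
  rw [← hy, ← hz] at key
  have hPs : ∀ k, Ps (k ∈ S) ρ σ ν (x k) (N k)
      = if k ∈ S then -(√56 * b) * x k + β * (N k - √56 / 8 * x k)
        else -(√56 * a) * x k + α * (N k + √56 / 7 * x k) := by
    intro k
    unfold Ps
    rw [← hU, ← hV, ← ht, ← ha, ← hβ, ← hα, ← hb]
  have nS : ∑ k ∈ S, (-(√56 * b) * x k + β * (N k - √56 / 8 * x k)) ^ 2
      = 56 * b ^ 2 * (8 / 15 - t) - 2 * b * β * z + β ^ 2 * V := by
    have : ∑ k ∈ S, (-(√56 * b) * x k + β * (N k - √56 / 8 * x k)) ^ 2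
        = ∑ k ∈ S, (56 * b ^ 2 * x k ^ 2 + (-2 * √56 * b * β) * (x k * (N k - √56 / 8 * x k))
          + β ^ 2 * (N k - √56 / 8 * x k) ^ 2) :=
      Finset.sum_congr rfl fun i _ => by linear_combination (b ^ 2 * x i ^ 2) * q6
    rw [this, Finset.sum_add_distrib, Finset.sum_add_distrib, ← Finset.mul_sum,
      ← Finset.mul_sum, ← Finset.mul_sum, hρ2, hB, ← hV, hp2', ht]
    linear_combination (-2 * b * β) * hp2
  have nA : ∑ k ∈ Finset.univ \ S, (-(√56 * a) * x k + α * (N k + √56 / 7 * x k)) ^ 2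
      = 56 * a ^ 2 * (7 / 15 + t) - 2 * a * α * y + α ^ 2 * U := by
    have : ∑ k ∈ Finset.univ \ S, (-(√56 * a) * x k + α * (N k + √56 / 7 * x k)) ^ 2
        = ∑ k ∈ Finset.univ \ S, (56 * a ^ 2 * x k ^ 2
          + (-2 * √56 * a * α) * (x k * (N k + √56 / 7 * x k))
          + α ^ 2 * (N k + √56 / 7 * x k) ^ 2) :=
      Finset.sum_congr rfl fun i _ => by linear_combination (a ^ 2 * x i ^ 2) * q6
    rw [this, Finset.sum_add_distrib, Finset.sum_add_distrib, ← Finset.mul_sum,
      ← Finset.mul_sum, ← Finset.mul_sum, ← hρ, hA, ← hU, hp1', ht]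
    linear_combination (-2 * a * α) * hp1
  have hn2 : ∑ k, Ps (k ∈ S) ρ σ ν (x k) (N k) ^ 2 ≤ (43 / 50 * (2 * U + V)) ^ 2 := by
    refine le_trans (le_of_eq ?_) key
    rw [spl, ← nS, ← nA, add_comm]
    congr 1
    · refine Finset.sum_congr rfl fun i hi => ?_
      rw [hPs, if_neg (Finset.mem_sdiff.1 hi).2]
    · refine Finset.sum_congr rfl fun i hi => ?_
      rw [hPs, if_pos hi]
  have hfin : ∑ i, (if i ∈ S then (1 : ℝ) else 2)
      * (N i - (if i ∈ S then √56 / 8 else -(√56 / 7)) * x i) ^ 2 = 2 * U + V := by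
    rw [spl, hU, hV, ← hA, ← hB, Finset.mul_sum, add_comm]
    congr 1
    · refine Finset.sum_congr rfl fun i hi => ?_
      have := (Finset.mem_sdiff.1 hi).2
      rw [if_neg this, if_neg this]
      ring
    · refine Finset.sum_congr rfl fun i hi => ?_
      rw [if_pos hi, if_pos hi, one_mul]
  rw [hfin]
  have hcs2 := Finset.sum_mul_sq_le_sq_mul_sq Finset.univ
    (fun k => Ps (k ∈ S) ρ σ ν (x k) (N k)) u
  rw [hu, mul_one] at hcs2
  exact (abs_le_of_sq_le_sq' (hcs2.trans hn2) (by positivity)).2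

section

variable {X : Type*} [MeasurableSpace X] {E : Type*} [NormedAddCommGroup E]
  [InnerProductSpace ℝ E] [FiniteDimensional ℝ E] [MeasurableSpace E] [BorelSpace E]
  {μ : Measure X} [IsFiniteMeasure μ] {p n : X → E}

/-- the integrand differs from the normal by a null function -/
lemma coord' (h : TwoG μ 15 p n) (hp : UF p) (hn : UF n) [Nonempty X]
    (hsp : ∀ w, (∀ x, ⟪p x, w⟫ = 0) → w = 0) (b : OrthonormalBasis (Fin 17) ℝ E)
    (S : Finset (Fin 17)) (hS : S.card = 9) (k : Fin 17) :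
    Nul μ (fun x => Ps (k ∈ S) (bρ p b (Finset.univ \ S) x) (bσ p n b (Finset.univ \ S) x)
      (bρ n b (Finset.univ \ S) x) ⟪p x, b k⟫ ⟪n x, b k⟫ - ⟪n x, b k⟫) := by
  have hc : (Finset.univ \ S).card = 8 := by
    rw [Finset.card_sdiff_of_subset (Finset.subset_univ S), hS]
    simp
  have n0 := nul0 h (by norm_num) hp (b k) (μ := μ)
  have n1 := blk1 h (by norm_num) hp hn hsp b (Finset.univ \ S) (b k)
  have n2 := blk2 h (by norm_num) hp hn hsp b (Finset.univ \ S) (b k)
  have n3 := blk3 h hp hn hsp b (Finset.univ \ S) k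
  have n4 := blk4 h hp hn hsp b (Finset.univ \ S) k
  by_cases hk : k ∈ S
  · have hk' : k ∉ Finset.univ \ S := fun hh => (Finset.mem_sdiff.1 hh).2 hk
    refine (((((n0.cmul (1436311 / 16800000 * √56)).add (n1.cmul (399649 / 16800000 * √56))).add
      (n2.cmul ((-(180153 / 560000)) * √56))).add (n3.cmul (1629 / 10000))).add
      (n4.cmul (167 / 2500 * √56))).congr fun x => ?_
    rw [Ps_in hk, hc, if_neg hk']
    push_cast
    ring
  · have hk' : k ∈ Finset.univ \ S := Finset.mem_sdiff.2 ⟨Finset.mem_univ k, hk⟩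
    refine (((((n0.cmul (23145991 / 117600000 * √56)).add (n1.cmul ((-(2407087 / 117600000)) * √56))).add
      (n2.cmul ((-(28803 / 98000)) * √56))).add (n3.cmul (171 / 2000))).add
      (n4.cmul ((-(137 / 10000)) * √56))).congr fun x => ?_
    rw [Ps_out hk, hc, if_pos hk']
    push_cast
    ring

/-- the one point identity -/
theorem one (h : TwoG μ 15 p n) [Nonempty X]
    (hsp : ∀ w, (∀ x, ⟪p x, w⟫ = 0) → w = 0) (b : OrthonormalBasis (Fin 17) ℝ E)
    (S : Finset (Fin 17)) (hS : S.card = 9) :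
    ‖∫ x, n x ∂μ‖ ≤ 43 / 50 * ∫ x, ∑ i, (if i ∈ S then 1 else 2)
      * (⟪n x, b i⟫ - (if i ∈ S then √56 / 8 else -(√56 / 7)) * ⟪p x, b i⟫) ^ 2 ∂μ :=
  one_abs h b (Cc := 43 / 50) (by norm_num) (fun i => if i ∈ S then (1 : ℝ) else 2)
    (fun i => by split_ifs <;> norm_num) (fun i => if i ∈ S then √56 / 8 else -(√56 / 7))
    (fun k x => Ps (k ∈ S) (bρ p b (Finset.univ \ S) x) (bσ p n b (Finset.univ \ S) x)
      (bρ n b (Finset.univ \ S) x) ⟪p x, b k⟫ ⟪n x, b k⟫)
    (fun k => coord' h ⟨h.mp, h.np⟩ ⟨h.mn, h.nn⟩ hsp b S hS k)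
    (fun x u hx hN hu hxN => pointwise' S (fun i => ⟪p x, b i⟫) (fun i => ⟪n x, b i⟫) u hx hN
      hu hxN)

end

end Vale.Agent.P224.SO.One15W
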