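import Vale.Agent.P224.SO.OneA

/-!
The one point identity in dimension 9, blocks 5 and 6: the mean normal is at most 101/100
times the mean square distance of the normal to a Clifford point, with the weight 2 on the
block of dimension 5.
-/

namespace Vale.Agent.P224.SO.One9W

open MeasureTheory Set Filter Function Module Vale.Agent.P224.UE Vale.Agent.P224.SO
open scoped Topology RealInnerProductSpace ContDiff

set_option linter.unusedSectionVars false
set_option linter.unusedVariables false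

lemma sqK : √20 ^ 2 = (20 : ℝ) := Real.sq_sqrt (by norm_num)

/-- the coefficients in the block of dimension 5 -/
noncomputable def pa (t u v : ℝ) : ℝ := 489 / 40000 * (v) + 10163 / 20000 * (u) + 5 / 156 * (t * v) + 5 / 156 * (t * u) + (-(81 / 208)) * (t ^ 2)

/-- the coefficients in the block of dimension 5 -/
noncomputable def pb (t u v : ℝ) : ℝ := 25163 / 45000 * (v) + 25163 / 45000 * (u) + 8404343 / 3900000 * (t) + 5 / 39 * (t * v) + 5 / 39 * (t * u) + (-(3 / 52)) * (t ^ 2)

/-- the coefficients in the block of dimension 6 -/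
noncomputable def qa (t u v : ℝ) : ℝ := (-(69 / 260)) * (v) + 427 / 1300 * (u) + 14 / 75 * (t * v) + 14 / 75 * (t * u) + 1323 / 500 * (t ^ 2)

/-- the coefficients in the block of dimension 6 -/
noncomputable def qb (t u v : ℝ) : ℝ := 199 / 468 * (v) + 199 / 468 * (u) + 13627 / 3120 * (t) + (-(14 / 15)) * (t * v) + (-(14 / 15)) * (t * u) + 21 / 50 * (t ^ 2)

/-- the certificate -/
lemma cert {t u v g g' a1 B1 a2 B2 : ℝ} (hρ : 0 ≤ 4 / 9 + t) (hr : 0 ≤ 5 / 9 - t)
    (hu : 0 ≤ u) (hv : 0 ≤ v) (hg : 0 ≤ g) (hg' : 0 ≤ g')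
    (hgd : g = (4 / 9 + t) * u - (9 / 2 * t + 10 / 9 * (u + v)) ^ 2 / 20)
    (hgd' : g' = (5 / 9 - t) * v - (9 / 2 * t - 10 / 9 * (u + v)) ^ 2 / 20)
    (ha1 : a1 = pa t u v) (hb1 : B1 = pb t u v) (ha2 : a2 = qa t u v) (hb2 : B2 = qb t u v) :
    (20 * a1 ^ 2 * (4 / 9 + t) - 2 * a1 * B1 * (9 / 2 * t + 10 / 9 * (u + v)) + B1 ^ 2 * u
      + (20 * a2 ^ 2 * (5 / 9 - t) - 2 * a2 * B2 * (9 / 2 * t - 10 / 9 * (u + v)) + B2 ^ 2 * v))
      ≤ (101 / 100 * (2 * u + v)) ^ 2 := by
  have hQ0 : (0 : ℝ) ≤ 37 / 1000 * (u + 233 / 37 * (t * u) + (-4) * (t * v) + (-(65 / 37)) * (u ^ 2) + (-(19 / 37)) * (u * v) + (-(48 / 37)) * (v ^ 2)) ^ 2 +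
      28189 / 18500 * (t * u + (-(37481 / 28189)) * (t * v) + (-(12309 / 56378)) * (u ^ 2) + 8004 / 28189 * (u * v) + (-(24151 / 56378)) * (v ^ 2)) ^ 2 +
      2425419 / 7047250 * (t * v + (-(385291 / 4850838)) * (u ^ 2) + (-(2350067 / 4850838)) * (u * v) + 512615 / 1616946 * (v ^ 2)) ^ 2 +
      32853006181 / 3536260902000 * (u ^ 2 + 5713573448 / 32853006181 * (u * v) + (-(1906778013 / 32853006181)) * (v ^ 2)) ^ 2 +
      2443799389697257 / 215548573553541000 * (u * v + (-(588453240003157 / 4887598779394514)) * (v ^ 2)) ^ 2 +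
      598337470797516238771 / 64135071183214812708000 * (v ^ 2) ^ 2 := by positivity
  have hQ1 : (0 : ℝ) ≤ 3028976839 / 3380000000 * (u + 5843353379 / 7788797586 * (v) + (-(632963517166093 / 54521583102000)) * (t ^ 2) + (-(4111907104721 / 2726079155100)) * (t * u) + 720018143302 / 227173262925 * (t * v)) ^ 2 +
      41009389297229 / 2803967130960000 * (v + (-(36984894844998593971753 / 6930586791231701000000)) * (t ^ 2) + (-(19887233732441369057 / 26656103043198850000)) * (t * u) + 28900423098974307219 / 21658083722599065625 * (t * v)) ^ 2 +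
      3834778257233498221554053935932295609 / 5903196605299513643760000000000000000 * (t ^ 2 + 510096831746647991031457372171543460 / 3834778257233498221554053935932295609 * (t * u) + (-(2667531508974127721103579759315718720 / 11504334771700494664662161807796886827)) * (t * v)) ^ 2 +
      1706759591706367902107236684701212640780228235291 / 209977118253077428619413777315908778366404000000000 * (t * u + 7565764711236273101418298134937165780960018648 / 1706759591706367902107236684701212640780228235291 * (t * v)) ^ 2 +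
      22212974030188046960324055467679811558297733527813566146617 / 2920479006358558776493245372109362479955068039112312375000000 * (t * v) ^ 2 := by positivity
  have hQ2 : (0 : ℝ) ≤ 34 / 125 * (u + 23 / 272 * (v) + (-(727 / 272)) * (t ^ 2) + (-(475 / 136)) * (t * u)) ^ 2 +
      2191 / 272000 * (v + (-(143 / 2191)) * (t ^ 2) + (-(26 / 313)) * (t * u)) ^ 2 +
      41279348909 / 592446400000 * (t ^ 2 + 47278358400 / 41279348909 * (t * u)) ^ 2 +
      888761373071 / 41279348909000 * (t * u) ^ 2 := by positivity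
  have hQ3 : (0 : ℝ) ≤ 39757030199 / 770006250000 * (u + (-(2650816295081 / 636112483184)) * (v) + 196541256982401 / 12722249663680 * (t ^ 2) + (-(244353362500 / 39757030199)) * (t * u) + 609499596875 / 79514060398 * (t * v)) ^ 2 +
      268977808313481163919651 / 1567393880815039680000000 * (v + (-(18865183951308886266471723 / 5379556166269623278393020)) * (t ^ 2) + 372379653838391309240000 / 268977808313481163919651 * (t * u) + (-(460654330026739355325000 / 268977808313481163919651)) * (t * v)) ^ 2 +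
      76908889431550317364673079424941197 / 727315993679653067238736304000000000 * (t ^ 2 + (-(852141403657316257259932059593600000 / 2076540014651858568846173144473412319)) * (t * u) + 1043895451413686222058542484236600000 / 2076540014651858568846173144473412319 * (t * v)) ^ 2 +
      9709709151110952758571862214803140573113 / 947525208685643064964508805823218041159700 * (t * u + (-(10692954245986630434766601498398805130933 / 48548545755554763792859311074015702865565)) * (t * v)) ^ 2 +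
      1077029575307480377902209118376041490453788049 / 110763507141298193593408518215366826087786547500 * (t * v) ^ 2 := by positivity
  have hQ4 : (0 : ℝ) ≤ 8857595228593 / 54756000000000 * (t + 12320100000000 / 8857595228593 * (u) + 21465551434280 / 26572785685779 * (v) + (-(102065184000000 / 8857595228593)) * (t ^ 2) + (-(62914644000000 / 8857595228593)) * (t * u) + 4051944000000 / 8857595228593 * (t * v)) ^ 2 +
      146352724546589 / 4428797614296500 * (u + 276751426119309 / 292705449093178 * (v) + (-(3221274879464380 / 146352724546589)) * (t ^ 2) + 301837100126355 / 146352724546589 * (t * u) + 4751251886836 / 146352724546589 * (t * v)) ^ 2 +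
      75543933637067840935849 / 2404106935581908185200000 * (v + (-(1590446041386302373858000 / 75543933637067840935849)) * (t ^ 2) + 429676469613451496592000 / 75543933637067840935849 * (t * u) + (-(11027722479163760487000 / 75543933637067840935849)) * (t * v)) ^ 2 +
      215990564299208284937620583 / 37771966818533920467924500 * (t ^ 2 + (-(78451205847936971054594150 / 215990564299208284937620583)) * (t * u) + 5796898154182876488585473 / 431981128598416569875241166 * (t * v)) ^ 2 +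
      8457768283499376730051354136 / 26998820537401035617202572875 * (t * u + (-(2513301493312886345194724077 / 67662146267995013840410833088)) * (t * v)) ^ 2 +
      7686388556227188197670161561887529 / 926227120262583744461383894141632000 * (t * v) ^ 2 := by positivity
  have hQ5 : (0 : ℝ) ≤ 77 / 8 * (t + (-(5378 / 9625)) * (u) + 669 / 1925 * (v)) ^ 2 +
      115741 / 9625000 * (u + (-(18965 / 115741)) * (v)) ^ 2 +
      531311 / 57870500 * (v) ^ 2 := by positivity
  have hQ6 : (0 : ℝ) ≤ 51 / 250 * (1 + (-(551 / 102)) * (t)) ^ 2 +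
      13313 / 51000 * (t) ^ 2 := by positivity
  have hQ7 : (0 : ℝ) ≤ 6603 / 250 * (t) ^ 2 := by positivity
  have hQ8 : (0 : ℝ) ≤ 1 / 100 * (1 + 6 / 5 * (t) + (-(7 / 5)) * (u) + 33 / 10 * (v)) ^ 2 +
      289 / 2500 * (t + (-(601 / 578)) * (u) + 1427 / 578 * (v)) ^ 2 +
      10067 / 578000 * (u + (-(12741 / 10067)) * (v)) ^ 2 +
      676291 / 20134000 * (v) ^ 2 := by positivity
  have hQ9 : (0 : ℝ) ≤ 2624 / 125 * (1) ^ 2 := by positivity
  have hQ10 : (0 : ℝ) ≤ 17051 / 500 * (t + (-(3554 / 17051)) * (u) + (-(2755 / 34102)) * (v)) ^ 2 +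
      161209 / 17051000 * (u + (-(958852 / 161209)) * (v)) ^ 2 +
      1876458703 / 322418000 * (v) ^ 2 := by positivity
  have hQ11 : (0 : ℝ) ≤ 61127 / 1000 * (t + (-(865 / 5557)) * (u) + (-(3853 / 61127)) * (v)) ^ 2 +
      13753 / 1389250 * (u + (-(454319 / 55012)) * (v)) ^ 2 +
      3303384217 / 605132000 * (v) ^ 2 := by positivity
  have e : (101 / 100 * (2 * u + v)) ^ 2 - (20 * a1 ^ 2 * (4 / 9 + t) - 2 * a1 * B1 * (9 / 2 * t + 10 / 9 * (u + v)) + B1 ^ 2 * u
      + (20 * a2 ^ 2 * (5 / 9 - t) - 2 * a2 * B2 * (9 / 2 * t - 10 / 9 * (u + v)) + B2 ^ 2 * v))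
      = (37 / 1000 * (u + 233 / 37 * (t * u) + (-4) * (t * v) + (-(65 / 37)) * (u ^ 2) + (-(19 / 37)) * (u * v) + (-(48 / 37)) * (v ^ 2)) ^ 2 +
      28189 / 18500 * (t * u + (-(37481 / 28189)) * (t * v) + (-(12309 / 56378)) * (u ^ 2) + 8004 / 28189 * (u * v) + (-(24151 / 56378)) * (v ^ 2)) ^ 2 +
      2425419 / 7047250 * (t * v + (-(385291 / 4850838)) * (u ^ 2) + (-(2350067 / 4850838)) * (u * v) + 512615 / 1616946 * (v ^ 2)) ^ 2 +
      32853006181 / 3536260902000 * (u ^ 2 + 5713573448 / 32853006181 * (u * v) + (-(1906778013 / 32853006181)) * (v ^ 2)) ^ 2 +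
      2443799389697257 / 215548573553541000 * (u * v + (-(588453240003157 / 4887598779394514)) * (v ^ 2)) ^ 2 +
      598337470797516238771 / 64135071183214812708000 * (v ^ 2) ^ 2)
      + (4 / 9 + t) * (3028976839 / 3380000000 * (u + 5843353379 / 7788797586 * (v) + (-(632963517166093 / 54521583102000)) * (t ^ 2) + (-(4111907104721 / 2726079155100)) * (t * u) + 720018143302 / 227173262925 * (t * v)) ^ 2 +
      41009389297229 / 2803967130960000 * (v + (-(36984894844998593971753 / 6930586791231701000000)) * (t ^ 2) + (-(19887233732441369057 / 26656103043198850000)) * (t * u) + 28900423098974307219 / 21658083722599065625 * (t * v)) ^ 2 +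
      3834778257233498221554053935932295609 / 5903196605299513643760000000000000000 * (t ^ 2 + 510096831746647991031457372171543460 / 3834778257233498221554053935932295609 * (t * u) + (-(2667531508974127721103579759315718720 / 11504334771700494664662161807796886827)) * (t * v)) ^ 2 +
      1706759591706367902107236684701212640780228235291 / 209977118253077428619413777315908778366404000000000 * (t * u + 7565764711236273101418298134937165780960018648 / 1706759591706367902107236684701212640780228235291 * (t * v)) ^ 2 +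
      22212974030188046960324055467679811558297733527813566146617 / 2920479006358558776493245372109362479955068039112312375000000 * (t * v) ^ 2)
      + (5 / 9 - t) * (34 / 125 * (u + 23 / 272 * (v) + (-(727 / 272)) * (t ^ 2) + (-(475 / 136)) * (t * u)) ^ 2 +
      2191 / 272000 * (v + (-(143 / 2191)) * (t ^ 2) + (-(26 / 313)) * (t * u)) ^ 2 +
      41279348909 / 592446400000 * (t ^ 2 + 47278358400 / 41279348909 * (t * u)) ^ 2 +
      888761373071 / 41279348909000 * (t * u) ^ 2)
      + u * (39757030199 / 770006250000 * (u + (-(2650816295081 / 636112483184)) * (v) + 196541256982401 / 12722249663680 * (t ^ 2) + (-(244353362500 / 39757030199)) * (t * u) + 609499596875 / 79514060398 * (t * v)) ^ 2 +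
      268977808313481163919651 / 1567393880815039680000000 * (v + (-(18865183951308886266471723 / 5379556166269623278393020)) * (t ^ 2) + 372379653838391309240000 / 268977808313481163919651 * (t * u) + (-(460654330026739355325000 / 268977808313481163919651)) * (t * v)) ^ 2 +
      76908889431550317364673079424941197 / 727315993679653067238736304000000000 * (t ^ 2 + (-(852141403657316257259932059593600000 / 2076540014651858568846173144473412319)) * (t * u) + 1043895451413686222058542484236600000 / 2076540014651858568846173144473412319 * (t * v)) ^ 2 +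
      9709709151110952758571862214803140573113 / 947525208685643064964508805823218041159700 * (t * u + (-(10692954245986630434766601498398805130933 / 48548545755554763792859311074015702865565)) * (t * v)) ^ 2 +
      1077029575307480377902209118376041490453788049 / 110763507141298193593408518215366826087786547500 * (t * v) ^ 2)
      + v * (8857595228593 / 54756000000000 * (t + 12320100000000 / 8857595228593 * (u) + 21465551434280 / 26572785685779 * (v) + (-(102065184000000 / 8857595228593)) * (t ^ 2) + (-(62914644000000 / 8857595228593)) * (t * u) + 4051944000000 / 8857595228593 * (t * v)) ^ 2 +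
      146352724546589 / 4428797614296500 * (u + 276751426119309 / 292705449093178 * (v) + (-(3221274879464380 / 146352724546589)) * (t ^ 2) + 301837100126355 / 146352724546589 * (t * u) + 4751251886836 / 146352724546589 * (t * v)) ^ 2 +
      75543933637067840935849 / 2404106935581908185200000 * (v + (-(1590446041386302373858000 / 75543933637067840935849)) * (t ^ 2) + 429676469613451496592000 / 75543933637067840935849 * (t * u) + (-(11027722479163760487000 / 75543933637067840935849)) * (t * v)) ^ 2 +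
      215990564299208284937620583 / 37771966818533920467924500 * (t ^ 2 + (-(78451205847936971054594150 / 215990564299208284937620583)) * (t * u) + 5796898154182876488585473 / 431981128598416569875241166 * (t * v)) ^ 2 +
      8457768283499376730051354136 / 26998820537401035617202572875 * (t * u + (-(2513301493312886345194724077 / 67662146267995013840410833088)) * (t * v)) ^ 2 +
      7686388556227188197670161561887529 / 926227120262583744461383894141632000 * (t * v) ^ 2)
      + g' * (77 / 8 * (t + (-(5378 / 9625)) * (u) + 669 / 1925 * (v)) ^ 2 +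
      115741 / 9625000 * (u + (-(18965 / 115741)) * (v)) ^ 2 +
      531311 / 57870500 * (v) ^ 2)
      + (g * v) * (51 / 250 * (1 + (-(551 / 102)) * (t)) ^ 2 +
      13313 / 51000 * (t) ^ 2)
      + (g' * u) * (6603 / 250 * (t) ^ 2)
      + (u * v) * (1 / 100 * (1 + 6 / 5 * (t) + (-(7 / 5)) * (u) + 33 / 10 * (v)) ^ 2 +
      289 / 2500 * (t + (-(601 / 578)) * (u) + 1427 / 578 * (v)) ^ 2 +
      10067 / 578000 * (u + (-(12741 / 10067)) * (v)) ^ 2 +
      676291 / 20134000 * (v) ^ 2)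
      + (g * g') * (2624 / 125 * (1) ^ 2)
      + (g * (4 / 9 + t)) * (17051 / 500 * (t + (-(3554 / 17051)) * (u) + (-(2755 / 34102)) * (v)) ^ 2 +
      161209 / 17051000 * (u + (-(958852 / 161209)) * (v)) ^ 2 +
      1876458703 / 322418000 * (v) ^ 2)
      + (g * (5 / 9 - t)) * (61127 / 1000 * (t + (-(865 / 5557)) * (u) + (-(3853 / 61127)) * (v)) ^ 2 +
      13753 / 1389250 * (u + (-(454319 / 55012)) * (v)) ^ 2 +
      3303384217 / 605132000 * (v) ^ 2) := by
    rw [ha1, hb1, ha2, hb2, hgd, hgd']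
    unfold pa pb qa qb
    ring
  have h1 := mul_nonneg hρ hQ1
  have h2 := mul_nonneg hr hQ2
  have h3 := mul_nonneg hu hQ3
  have h4 := mul_nonneg hv hQ4
  have h5 := mul_nonneg hg' hQ5
  have h6 := mul_nonneg (mul_nonneg hg hv) hQ6
  have h7 := mul_nonneg (mul_nonneg hg' hu) hQ7
  have h8 := mul_nonneg (mul_nonneg hu hv) hQ8
  have h9 := mul_nonneg (mul_nonneg hg hg') hQ9
  have h10 := mul_nonneg (mul_nonneg hg hρ) hQ10
  have h11 := mul_nonneg (mul_nonneg hg hr) hQ11
  rw [← sub_nonneg, e]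
  exact add_nonneg (add_nonneg (add_nonneg (add_nonneg (add_nonneg (add_nonneg (add_nonneg (add_nonneg (add_nonneg (add_nonneg (add_nonneg hQ0 h1) h2) h3) h4) h5) h6) h7) h8) h9) h10) h11

/-- the first block -/
noncomputable def uQ (ρ σ ν : ℝ) : ℝ := ν + 1 / 2 * √20 * σ + 5 / 4 * ρ

/-- the second block -/
noncomputable def vQ (ρ σ ν : ℝ) : ℝ := 1 - ν + 2 / 5 * √20 * σ + 4 / 5 * (1 - ρ)

/-- the integrand, for a coordinate -/
noncomputable def Ps (k : Prop) [Decidable k] (ρ σ ν x n : ℝ) : ℝ :=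
  if k then -(√20 * qa (ρ - 4 / 9) (uQ ρ σ ν) (vQ ρ σ ν)) * x
      + qb (ρ - 4 / 9) (uQ ρ σ ν) (vQ ρ σ ν) * (n - √20 / 5 * x)
    else -(√20 * pa (ρ - 4 / 9) (uQ ρ σ ν) (vQ ρ σ ν)) * x
      + pb (ρ - 4 / 9) (uQ ρ σ ν) (vQ ρ σ ν) * (n + √20 / 4 * x)

lemma Ps_in {k : Prop} [Decidable k] (hk : k) (ρ σ ν x n : ℝ) : Ps k ρ σ ν x n
    = n + (677 / 3900 * √20) * x + (253 / 3120 * √20) * (11 * (ρ * x) + 2 * (σ * n))
      + ((-(193 / 325)) * √20) * (ν * x - σ * n) + 7 / 26 * (10 * (ρ * n - σ * x) - 5 * n)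
      + (21 / 100 * √20) * (4 * (ρ * (0 * x)) - 13 * (ρ ^ 2 * x) - 4 * (ρ * σ * n)) := by
  unfold Ps qa qb uQ vQ
  rw [if_pos hk]
  linear_combination ((-(7 / 52)) * σ * x) * sqK

lemma Ps_out {k : Prop} [Decidable k] (hk : ¬k) (ρ σ ν x n : ℝ) : Ps k ρ σ ν x n
    = n + (501221 / 7800000 * √20) * x + ((-(342787 / 15600000)) * √20) * (11 * (ρ * x) + 2 * (σ * n))
      + ((-(19837 / 40000)) * √20) * (ν * x - σ * n) + 2663 / 10000 * (10 * (ρ * n - σ * x) - 4 * n)
      + ((-(3 / 104)) * √20) * (4 * (ρ * (1 * x)) - 13 * (ρ ^ 2 * x) - 4 * (ρ * σ * n)) := by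
  unfold Ps pa pb uQ vQ
  rw [if_neg hk]
  linear_combination ((-(2663 / 20000)) * σ * x) * sqK

/-- the pointwise inequality -/
lemma pointwise' (S : Finset (Fin 11)) (x N u : Fin 11 → ℝ) (hx : ∑ i, x i ^ 2 = 1)
    (hN : ∑ i, N i ^ 2 = 1) (hu : ∑ i, u i ^ 2 = 1) (hxN : ∑ i, x i * N i = 0) :
    ∑ k, Ps (k ∈ S) (∑ i ∈ Finset.univ \ S, x i ^ 2) (∑ i ∈ Finset.univ \ S, x i * N i)
        (∑ i ∈ Finset.univ \ S, N i ^ 2) (x k) (N k) * u k
      ≤ 101 / 100 * ∑ i, (if i ∈ S then 1 else 2)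
        * (N i - (if i ∈ S then √20 / 5 else -(√20 / 4)) * x i) ^ 2 := by
  obtain ⟨ρ, hρ⟩ : ∃ ρ, ρ = ∑ i ∈ Finset.univ \ S, x i ^ 2 := ⟨_, rfl⟩
  obtain ⟨ν, hν⟩ : ∃ ν, ν = ∑ i ∈ Finset.univ \ S, N i ^ 2 := ⟨_, rfl⟩
  obtain ⟨σ, hσ⟩ : ∃ σ, σ = ∑ i ∈ Finset.univ \ S, x i * N i := ⟨_, rfl⟩
  rw [← hρ, ← hν, ← hσ]
  have spl : ∀ f : Fin 11 → ℝ, ∑ i, f i = ∑ i ∈ S, f i + ∑ i ∈ Finset.univ \ S, f i := fun f => by
    rw [add_comm, Finset.sum_sdiff (Finset.subset_univ S)]
  have hρ2 : ∑ i ∈ S, x i ^ 2 = 1 - ρ := by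
    have := spl fun i => x i ^ 2
    rw [hx, ← hρ] at this
    linarith
  have hν2 : ∑ i ∈ S, N i ^ 2 = 1 - ν := by
    have := spl fun i => N i ^ 2
    rw [hN, ← hν] at this
    linarith
  have hσ2 : ∑ i ∈ S, x i * N i = -σ := by
    have := spl fun i => x i * N i
    rw [hxN, ← hσ] at this
    linarith
  have q6 := sqK
  have hA : ∑ i ∈ Finset.univ \ S, (N i + √20 / 4 * x i) ^ 2 = uQ ρ σ ν := by
    have : ∑ i ∈ Finset.univ \ S, (N i + √20 / 4 * x i) ^ 2 = ∑ i ∈ Finset.univ \ S,
        (N i ^ 2 + (1 / 2 * √20) * (x i * N i) + 5 / 4 * x i ^ 2) :=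
      Finset.sum_congr rfl fun i _ => by linear_combination (x i ^ 2 / 16) * q6
    rw [this, Finset.sum_add_distrib, Finset.sum_add_distrib, ← Finset.mul_sum,
      ← Finset.mul_sum, ← hρ, ← hν, ← hσ]
    rfl
  have hB : ∑ i ∈ S, (N i - √20 / 5 * x i) ^ 2 = vQ ρ σ ν := by
    have : ∑ i ∈ S, (N i - √20 / 5 * x i) ^ 2 = ∑ i ∈ S,
        (N i ^ 2 + (-(2 / 5 * √20)) * (x i * N i) + 4 / 5 * x i ^ 2) :=
      Finset.sum_congr rfl fun i _ => by linear_combination (x i ^ 2 / 25) * q6
    rw [this, Finset.sum_add_distrib, Finset.sum_add_distrib, ← Finset.mul_sum,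
      ← Finset.mul_sum, hρ2, hν2, hσ2]
    unfold vQ
    ring
  obtain ⟨U, hU⟩ : ∃ U, U = uQ ρ σ ν := ⟨_, rfl⟩
  obtain ⟨V, hV⟩ : ∃ V, V = vQ ρ σ ν := ⟨_, rfl⟩
  obtain ⟨t, ht⟩ : ∃ t, t = ρ - 4 / 9 := ⟨_, rfl⟩
  obtain ⟨a, ha⟩ : ∃ a, a = pa t U V := ⟨_, rfl⟩
  obtain ⟨α, hα⟩ : ∃ α, α = pb t U V := ⟨_, rfl⟩
  obtain ⟨b, hb⟩ : ∃ b, b = qa t U V := ⟨_, rfl⟩
  obtain ⟨β, hβ⟩ : ∃ β, β = qb t U V := ⟨_, rfl⟩
  obtain ⟨y, hy⟩ : ∃ y, y = 9 / 2 * t + 10 / 9 * (U + V) := ⟨_, rfl⟩
  obtain ⟨z, hz⟩ : ∃ z, z = 9 / 2 * t - 10 / 9 * (U + V) := ⟨_, rfl⟩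
  obtain ⟨g, hg⟩ : ∃ g, g = (4 / 9 + t) * U - (9 / 2 * t + 10 / 9 * (U + V)) ^ 2 / 20 := ⟨_, rfl⟩
  obtain ⟨g', hg'⟩ : ∃ g', g' = (5 / 9 - t) * V - (9 / 2 * t - 10 / 9 * (U + V)) ^ 2 / 20 := ⟨_, rfl⟩
  have hU0 : 0 ≤ U := by
    rw [hU, ← hA]
    exact Finset.sum_nonneg fun i _ => sq_nonneg _
  have hV0 : 0 ≤ V := by
    rw [hV, ← hB]
    exact Finset.sum_nonneg fun i _ => sq_nonneg _
  have hρ0 : 0 ≤ ρ := by
    rw [hρ]
    exact Finset.sum_nonneg fun i _ => sq_nonneg _
  have hρ1 : 0 ≤ 1 - ρ := by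
    rw [← hρ2]
    exact Finset.sum_nonneg fun i _ => sq_nonneg _
  have hp1 : √20 * (σ + √20 / 4 * ρ) = y := by
    rw [hy, hU, hV, ht]
    unfold uQ vQ
    linear_combination (ρ / 4) * q6
  have hp1' : ∑ i ∈ Finset.univ \ S, x i * (N i + √20 / 4 * x i) = σ + √20 / 4 * ρ := by
    rw [hσ, hρ, Finset.mul_sum, ← Finset.sum_add_distrib]
    exact Finset.sum_congr rfl fun i _ => by ring
  have hp2' : ∑ i ∈ S, x i * (N i - √20 / 5 * x i) = -σ - √20 / 5 * (1 - ρ) := by
    rw [← hσ2, ← hρ2, Finset.mul_sum, ← Finset.sum_sub_distrib]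
    exact Finset.sum_congr rfl fun i _ => by ring
  have hp2 : √20 * (-σ - √20 / 5 * (1 - ρ)) = z := by
    rw [hz, hU, hV, ht]
    unfold uQ vQ
    linear_combination (-(1 - ρ) / 5) * q6
  have hcs := Finset.sum_mul_sq_le_sq_mul_sq (Finset.univ \ S) x fun i => N i + √20 / 4 * x i
  rw [hp1', ← hρ, hA, ← hU] at hcs
  have hcs' := Finset.sum_mul_sq_le_sq_mul_sq S x fun i => N i - √20 / 5 * x i
  rw [hp2', hρ2, hB, ← hV] at hcs'
  have hg0 : 0 ≤ g := by
    have e : y ^ 2 = 20 * (σ + √20 / 4 * ρ) ^ 2 := by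
      rw [← hp1]
      linear_combination ((σ + √20 / 4 * ρ) ^ 2) * q6
    rw [hg, ← hy, e, ht]
    linarith
  have hg0' : 0 ≤ g' := by
    have e : z ^ 2 = 20 * (-σ - √20 / 5 * (1 - ρ)) ^ 2 := by
      rw [← hp2]
      linear_combination ((-σ - √20 / 5 * (1 - ρ)) ^ 2) * q6
    rw [hg', ← hz, e, ht]
    linarith
  have hρt : 0 ≤ 4 / 9 + t := by rw [ht]; linarith
  have hρt' : 0 ≤ 5 / 9 - t := by rw [ht]; linarith
  have key := cert hρt hρt' hU0 hV0 hg0 hg0' hg hg' ha hα hb hβ
  rw [← hy, ← hz] at key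
  have hPs : ∀ k, Ps (k ∈ S) ρ σ ν (x k) (N k)
      = if k ∈ S then -(√20 * b) * x k + β * (N k - √20 / 5 * x k)
        else -(√20 * a) * x k + α * (N k + √20 / 4 * x k) := by
    intro k
    unfold Ps
    rw [← hU, ← hV, ← ht, ← ha, ← hβ, ← hα, ← hb]
  have nS : ∑ k ∈ S, (-(√20 * b) * x k + β * (N k - √20 / 5 * x k)) ^ 2
      = 20 * b ^ 2 * (5 / 9 - t) - 2 * b * β * z + β ^ 2 * V := by
    have : ∑ k ∈ S, (-(√20 * b) * x k + β * (N k - √20 / 5 * x k)) ^ 2
        = ∑ k ∈ S, (20 * b ^ 2 * x k ^ 2 + (-2 * √20 * b * β) * (x k * (N k - √20 / 5 * x k))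
          + β ^ 2 * (N k - √20 / 5 * x k) ^ 2) :=
      Finset.sum_congr rfl fun i _ => by linear_combination (b ^ 2 * x i ^ 2) * q6
    rw [this, Finset.sum_add_distrib, Finset.sum_add_distrib, ← Finset.mul_sum,
      ← Finset.mul_sum, ← Finset.mul_sum, hρ2, hB, ← hV, hp2', ht]
    linear_combination (-2 * b * β) * hp2
  have nA : ∑ k ∈ Finset.univ \ S, (-(√20 * a) * x k + α * (N k + √20 / 4 * x k)) ^ 2
      = 20 * a ^ 2 * (4 / 9 + t) - 2 * a * α * y + α ^ 2 * U := by
    have : ∑ k ∈ Finset.univ \ S, (-(√20 * a) * x k + α * (N k + √20 / 4 * x k)) ^ 2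
        = ∑ k ∈ Finset.univ \ S, (20 * a ^ 2 * x k ^ 2
          + (-2 * √20 * a * α) * (x k * (N k + √20 / 4 * x k))
          + α ^ 2 * (N k + √20 / 4 * x k) ^ 2) :=
      Finset.sum_congr rfl fun i _ => by linear_combination (a ^ 2 * x i ^ 2) * q6
    rw [this, Finset.sum_add_distrib, Finset.sum_add_distrib, ← Finset.mul_sum,
      ← Finset.mul_sum, ← Finset.mul_sum, ← hρ, hA, ← hU, hp1', ht]
    linear_combination (-2 * a * α) * hp1
  have hn2 : ∑ k, Ps (k ∈ S) ρ σ ν (x k) (N k) ^ 2 ≤ (101 / 100 * (2 * U + V)) ^ 2 := by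
    refine le_trans (le_of_eq ?_) key
    rw [spl, ← nS, ← nA, add_comm]
    congr 1
    · refine Finset.sum_congr rfl fun i hi => ?_
      rw [hPs, if_neg (Finset.mem_sdiff.1 hi).2]
    · refine Finset.sum_congr rfl fun i hi => ?_
      rw [hPs, if_pos hi]
  have hfin : ∑ i, (if i ∈ S then (1 : ℝ) else 2)
      * (N i - (if i ∈ S then √20 / 5 else -(√20 / 4)) * x i) ^ 2 = 2 * U + V := by
    rw [spl, hU, hV, ← hA, ← hB, Finset.mul_sum, add_comm]
    congr 1
    · refine Finset.sum_congr rfl fun i hi => ?_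
      have := (Finset.mem_sdiff.1 hi).2
      rw [if_neg this, if_neg this]
      ring
    · refine Finset.sum_congr rfl fun i hi => ?_
      rw [if_pos hi, if_pos hi, one_mul]
  rw [hfin]
  have hcs2 := Finset.sum_mul_sq_le_sq_mul_sq Finset.univ
    (fun k => Ps (k ∈ S) ρ σ ν (x k) (N k)) u
  rw [hu, mul_one] at hcs2
  exact (abs_le_of_sq_le_sq' (hcs2.trans hn2) (by positivity)).2

section

variable {X : Type*} [MeasurableSpace X] {E : Type*} [NormedAddCommGroup E]
  [InnerProductSpace ℝ E] [FiniteDimensional ℝ E] [MeasurableSpace E] [BorelSpace E]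
  {μ : Measure X} [IsFiniteMeasure μ] {p n : X → E}

/-- the integrand differs from the normal by a null function -/
lemma coord' (h : TwoG μ 9 p n) (hp : UF p) (hn : UF n) [Nonempty X]
    (hsp : ∀ w, (∀ x, ⟪p x, w⟫ = 0) → w = 0) (b : OrthonormalBasis (Fin 11) ℝ E)
    (S : Finset (Fin 11)) (hS : S.card = 6) (k : Fin 11) :
    Nul μ (fun x => Ps (k ∈ S) (bρ p b (Finset.univ \ S) x) (bσ p n b (Finset.univ \ S) x)
      (bρ n b (Finset.univ \ S) x) ⟪p x, b k⟫ ⟪n x, b k⟫ - ⟪n x, b k⟫) := by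
  have hc : (Finset.univ \ S).card = 5 := by
    rw [Finset.card_sdiff_of_subset (Finset.subset_univ S), hS]
    simp
  have n0 := nul0 h (by norm_num) hp (b k) (μ := μ)
  have n1 := blk1 h (by norm_num) hp hn hsp b (Finset.univ \ S) (b k)
  have n2 := blk2 h (by norm_num) hp hn hsp b (Finset.univ \ S) (b k)
  have n3 := blk3 h hp hn hsp b (Finset.univ \ S) k
  have n4 := blk4 h hp hn hsp b (Finset.univ \ S) k
  by_cases hk : k ∈ S
  · have hk' : k ∉ Finset.univ \ S := fun hh => (Finset.mem_sdiff.1 hh).2 hk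
    refine (((((n0.cmul (677 / 3900 * √20)).add (n1.cmul (253 / 3120 * √20))).add
      (n2.cmul ((-(193 / 325)) * √20))).add (n3.cmul (7 / 26))).add
      (n4.cmul (21 / 100 * √20))).congr fun x => ?_
    rw [Ps_in hk, hc, if_neg hk']
    push_cast
    ring
  · have hk' : k ∈ Finset.univ \ S := Finset.mem_sdiff.2 ⟨Finset.mem_univ k, hk⟩
    refine (((((n0.cmul (501221 / 7800000 * √20)).add (n1.cmul ((-(342787 / 15600000)) * √20))).add
      (n2.cmul ((-(19837 / 40000)) * √20))).add (n3.cmul (2663 / 10000))).add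
      (n4.cmul ((-(3 / 104)) * √20))).congr fun x => ?_
    rw [Ps_out hk, hc, if_pos hk']
    push_cast
    ring

/-- the one point identity -/
theorem one (h : TwoG μ 9 p n) [Nonempty X]
    (hsp : ∀ w, (∀ x, ⟪p x, w⟫ = 0) → w = 0) (b : OrthonormalBasis (Fin 11) ℝ E)
    (S : Finset (Fin 11)) (hS : S.card = 6) :
    ‖∫ x, n x ∂μ‖ ≤ 101 / 100 * ∫ x, ∑ i, (if i ∈ S then 1 else 2)
      * (⟪n x, b i⟫ - (if i ∈ S then √20 / 5 else -(√20 / 4)) * ⟪p x, b i⟫) ^ 2 ∂μ :=
  one_abs h b (Cc := 101 / 100) (by norm_num) (fun i => if i ∈ S then (1 : ℝ) else 2)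
    (fun i => by split_ifs <;> norm_num) (fun i => if i ∈ S then √20 / 5 else -(√20 / 4))
    (fun k x => Ps (k ∈ S) (bρ p b (Finset.univ \ S) x) (bσ p n b (Finset.univ \ S) x)
      (bρ n b (Finset.univ \ S) x) ⟪p x, b k⟫ ⟪n x, b k⟫)
    (fun k => coord' h ⟨h.mp, h.np⟩ ⟨h.mn, h.nn⟩ hsp b S hS k)
    (fun x u hx hN hu hxN => pointwise' S (fun i => ⟪p x, b i⟫) (fun i => ⟪n x, b i⟫) u hx hN
      hu hxN)

end

end Vale.Agent.P224.SO.One9W
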