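import Vale.Agent.P224.SO.One7W
import Vale.Agent.P224.SO.One9W
import Vale.Agent.P224.SO.One11W
import Vale.Agent.P224.SO.One13W
import Vale.Agent.P224.SO.One15W

/-!
The weighted one point bounds with a general name for the eigenvalue.
-/

namespace Vale.Agent.P224.SO

open MeasureTheory Set Filter Function Module Vale.Agent.P224.UE
open scoped Topology RealInnerProductSpace ContDiff

section

variable {X : Type*} [MeasurableSpace X] {E : Type*} [NormedAddCommGroup E]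
  [InnerProductSpace ℝ E] [FiniteDimensional ℝ E] [MeasurableSpace E] [BorelSpace E]
  {μ : Measure X} [IsFiniteMeasure μ] {p n : X → E}

theorem One7W.one_dev (h : TwoG μ 7 p n) [Nonempty X]
    (hsp : ∀ w, (∀ x, ⟪p x, w⟫ = 0) → w = 0) {α : ℝ} (hα : 0 < α) (hα2 : α ^ 2 = 3 / 4)
    (b : OrthonormalBasis (Fin 9) ℝ E) (S : Finset (Fin 9)) (hS : S.card = 5) :
    ‖∫ x, n x ∂μ‖ ≤ 57 / 50 * ∫ x, ∑ i, (if i ∈ S then 1 else 2)
      * (⟪n x, b i⟫ - (if i ∈ S then α else -(1 / α)) * ⟪p x, b i⟫) ^ 2 ∂μ := by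
  have h1 : α = √12 / 4 := by
    have h2 : (√12 / 4 : ℝ) ^ 2 = α ^ 2 := by
      rw [hα2, div_pow, One7W.sqK]
      norm_num
    exact ((sq_eq_sq₀ (by positivity) hα.le).1 h2).symm
  have h3 : 1 / α = √12 / 3 := by
    rw [h1, one_div_div, div_eq_div_iff (by positivity) (by norm_num)]
    linear_combination -One7W.sqK
  have h4 := One7W.one h hsp b S hS
  rw [h3, h1]
  exact h4

theorem One9W.one_dev (h : TwoG μ 9 p n) [Nonempty X]
    (hsp : ∀ w, (∀ x, ⟪p x, w⟫ = 0) → w = 0) {α : ℝ} (hα : 0 < α) (hα2 : α ^ 2 = 4 / 5)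
    (b : OrthonormalBasis (Fin 11) ℝ E) (S : Finset (Fin 11)) (hS : S.card = 6) :
    ‖∫ x, n x ∂μ‖ ≤ 101 / 100 * ∫ x, ∑ i, (if i ∈ S then 1 else 2)
      * (⟪n x, b i⟫ - (if i ∈ S then α else -(1 / α)) * ⟪p x, b i⟫) ^ 2 ∂μ := by
  have h1 : α = √20 / 5 := by
    have h2 : (√20 / 5 : ℝ) ^ 2 = α ^ 2 := by
      rw [hα2, div_pow, One9W.sqK]
      norm_num
    exact ((sq_eq_sq₀ (by positivity) hα.le).1 h2).symm
  have h3 : 1 / α = √20 / 4 := by
    rw [h1, one_div_div, div_eq_div_iff (by positivity) (by norm_num)]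
    linear_combination -One9W.sqK
  have h4 := One9W.one h hsp b S hS
  rw [h3, h1]
  exact h4

theorem One11W.one_dev (h : TwoG μ 11 p n) [Nonempty X]
    (hsp : ∀ w, (∀ x, ⟪p x, w⟫ = 0) → w = 0) {α : ℝ} (hα : 0 < α) (hα2 : α ^ 2 = 5 / 6)
    (b : OrthonormalBasis (Fin 13) ℝ E) (S : Finset (Fin 13)) (hS : S.card = 7) :
    ‖∫ x, n x ∂μ‖ ≤ 187 / 200 * ∫ x, ∑ i, (if i ∈ S then 1 else 2)
      * (⟪n x, b i⟫ - (if i ∈ S then α else -(1 / α)) * ⟪p x, b i⟫) ^ 2 ∂μ := by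
  have h1 : α = √30 / 6 := by
    have h2 : (√30 / 6 : ℝ) ^ 2 = α ^ 2 := by
      rw [hα2, div_pow, One11W.sqK]
      norm_num
    exact ((sq_eq_sq₀ (by positivity) hα.le).1 h2).symm
  have h3 : 1 / α = √30 / 5 := by
    rw [h1, one_div_div, div_eq_div_iff (by positivity) (by norm_num)]
    linear_combination -One11W.sqK
  have h4 := One11W.one h hsp b S hS
  rw [h3, h1]
  exact h4

theorem One13W.one_dev (h : TwoG μ 13 p n) [Nonempty X]
    (hsp : ∀ w, (∀ x, ⟪p x, w⟫ = 0) → w = 0) {α : ℝ} (hα : 0 < α) (hα2 : α ^ 2 = 6 / 7)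
    (b : OrthonormalBasis (Fin 15) ℝ E) (S : Finset (Fin 15)) (hS : S.card = 8) :
    ‖∫ x, n x ∂μ‖ ≤ 89 / 100 * ∫ x, ∑ i, (if i ∈ S then 1 else 2)
      * (⟪n x, b i⟫ - (if i ∈ S then α else -(1 / α)) * ⟪p x, b i⟫) ^ 2 ∂μ := by
  have h1 : α = √42 / 7 := by
    have h2 : (√42 / 7 : ℝ) ^ 2 = α ^ 2 := by
      rw [hα2, div_pow, One13W.sqK]
      norm_num
    exact ((sq_eq_sq₀ (by positivity) hα.le).1 h2).symm
  have h3 : 1 / α = √42 / 6 := by
    rw [h1, one_div_div, div_eq_div_iff (by positivity) (by norm_num)]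
    linear_combination -One13W.sqK
  have h4 := One13W.one h hsp b S hS
  rw [h3, h1]
  exact h4

theorem One15W.one_dev (h : TwoG μ 15 p n) [Nonempty X]
    (hsp : ∀ w, (∀ x, ⟪p x, w⟫ = 0) → w = 0) {α : ℝ} (hα : 0 < α) (hα2 : α ^ 2 = 7 / 8)
    (b : OrthonormalBasis (Fin 17) ℝ E) (S : Finset (Fin 17)) (hS : S.card = 9) :
    ‖∫ x, n x ∂μ‖ ≤ 43 / 50 * ∫ x, ∑ i, (if i ∈ S then 1 else 2)
      * (⟪n x, b i⟫ - (if i ∈ S then α else -(1 / α)) * ⟪p x, b i⟫) ^ 2 ∂μ := by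
  have h1 : α = √56 / 8 := by
    have h2 : (√56 / 8 : ℝ) ^ 2 = α ^ 2 := by
      rw [hα2, div_pow, One15W.sqK]
      norm_num
    exact ((sq_eq_sq₀ (by positivity) hα.le).1 h2).symm
  have h3 : 1 / α = √56 / 7 := by
    rw [h1, one_div_div, div_eq_div_iff (by positivity) (by norm_num)]
    linear_combination -One15W.sqK
  have h4 := One15W.one h hsp b S hS
  rw [h3, h1]
  exact h4

end

end Vale.Agent.P224.SO
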