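import Vale.Agent.P224.SO.ClsG

/-!
Dimension 11: the number of points on the right from the value of the scalar functionals.
-/

namespace Vale.Agent.P224.SO.M11S

open Vale.Agent.P224.SO Vale.Agent.P224.SO.Rg

lemma A1 (d x : ℝ) (h : 10 * x ^ 2 ≤ d - d ^ 2) (hz : (3 / 100) ≤ x) :
    (2811 / 25000) ≤ QP 74 120 24 10 6 0 13 (121 / 5) (76 / 35) (-(72 / 7)) 0 d x := by
  unfold QP Q
  nlinarith [mul_nonneg (sub_nonneg.2 hz) (lin_q (q := 10) (by norm_num) h (32 / 493) (67 / 860)),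
    sq_nonneg (d + (-(3998289 / 3612211)) * x + (46668619 / 2528547700)),
    sq_nonneg (x + (-(1026421356729277113 / 14011266294303497800)))]

lemma A2 (d x : ℝ) (h : 10 * x ^ 2 ≤ d - d ^ 2) :
    (-(132429 / 100000)) ≤ QP 74 120 24 10 6 0 13 (121 / 5) (76 / 35) (-(72 / 7)) 0 d x := by
  unfold QP Q
  nlinarith [sq_nonneg (d + (-(300 / 2263)) * x + (-(3271 / 31682))),
    sq_nonneg (x + (14055 / 157003))]

lemma L1 (d x : ℝ) (h : 10 * x ^ 2 ≤ d - d ^ 2) (hz' : x ≤ -(3 / 100)) :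
    (7237 / 20000) ≤ QP 74 120 24 10 6 0 13 (121 / 5) (14 / 5) 17 (447 / 5) d x := by
  unfold QP Q
  nlinarith [mul_nonneg (sub_nonneg.2 hz') (lin_q (q := 10) (by norm_num) h (83 / 895) (-(51 / 556))),
    sq_nonneg (d + (5785397 / 4215450) * x + (39431173 / 1264635000)),
    sq_nonneg (x + (98671372709520137 / 2112243124783351650))]

lemma L2 (d x : ℝ) (h : 10 * x ^ 2 ≤ d - d ^ 2) :
    (-(164871 / 100000)) ≤ QP 74 120 24 10 6 0 13 (121 / 5) (14 / 5) 17 (447 / 5) d x := by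
  unfold QP Q
  nlinarith [sq_nonneg (d + (1635 / 4628) * x + (-(3 / 26))),
    sq_nonneg (x + (-(218762 / 2501323)))]

lemma M1 (d x : ℝ) (h : 10 * x ^ 2 ≤ d - d ^ 2) :
    (-(13759 / 20000)) ≤ QP 74 120 24 10 6 0 13 (121 / 5) (67 / 20) 0 24 d x := by
  unfold QP Q
  nlinarith [sq_nonneg (d + 0 * x + (-(1537 / 17204))),
    sq_nonneg (x + 0)]

lemma M2 (d x : ℝ) (h : 10 * x ^ 2 ≤ d - d ^ 2) (hz : -(3 / 100) ≤ x) (hz' : x ≤ (3 / 100)) :
    (-(13533 / 100000)) ≤ QP 74 120 24 10 6 0 13 (121 / 5) (67 / 20) 0 24 d x := by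
  unfold QP Q
  nlinarith [mul_nonneg (sub_nonneg.2 hz) (sub_nonneg.2 hz'),
    sq_nonneg (d + 0 * x + (-(3 / 320))),
    sq_nonneg (x + 0)]

lemma P1 (d x : ℝ) (h : 10 * x ^ 2 ≤ d - d ^ 2) (hz : (3 / 100) ≤ x) :
    (-(3059 / 12500)) ≤ QP 74 120 24 10 6 0 13 (121 / 5) (7 / 3) (-(88 / 15)) 2 d x := by
  unfold QP Q
  nlinarith [mul_nonneg (sub_nonneg.2 hz) (lin_q (q := 10) (by norm_num) h (83 / 995) (16 / 183)),
    sq_nonneg (d + (-(15180259 / 14863310)) * x + (26674831 / 4458993000)),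
    sq_nonneg (x + (-(71870097653062812473 / 822334426434463739100)))]

lemma P2 (d x : ℝ) (h : 10 * x ^ 2 ≤ d - d ^ 2) (hz' : x ≤ -(3 / 100)) :
    (-(3799 / 4000)) ≤ QP 74 120 24 10 6 0 13 (121 / 5) (7 / 3) (-(88 / 15)) 2 d x := by
  unfold QP Q
  nlinarith [sq_nonneg (d + (-(1100 / 8831)) * x + (-(4993 / 52986))),
    sq_nonneg (x + (45683 / 523353))]

lemma P3 (d x : ℝ) (h : 10 * x ^ 2 ≤ d - d ^ 2) (hz : 0 ≤ x) (hz' : x ≤ (3 / 100)) :
    (-(1 / 50000)) ≤ QP 74 120 24 10 6 0 13 (121 / 5) (7 / 3) (-(88 / 15)) 2 d x := by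
  unfold QP Q
  nlinarith [mul_nonneg (sub_nonneg.2 hz) (sub_nonneg.2 hz'),
    sq_nonneg (d + (-(1100 / 7167)) * x + (-(1 / 43002))),
    sq_nonneg (x + (-(461183 / 21768346200)))]

lemma N1 (d x : ℝ) (h : 10 * x ^ 2 ≤ d - d ^ 2) (hz : (3 / 100) ≤ x) :
    (-(3799 / 4000)) ≤ QP 74 120 24 10 6 0 13 (121 / 5) (7 / 3) (88 / 15) 46 d x := by
  unfold QP Q
  nlinarith [sq_nonneg (d + (1100 / 8831) * x + (-(4993 / 52986))),
    sq_nonneg (x + (-(45683 / 523353)))]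

lemma N2 (d x : ℝ) (h : 10 * x ^ 2 ≤ d - d ^ 2) (hz' : x ≤ -(3 / 100)) :
    (-(3059 / 12500)) ≤ QP 74 120 24 10 6 0 13 (121 / 5) (7 / 3) (88 / 15) 46 d x := by
  unfold QP Q
  nlinarith [mul_nonneg (sub_nonneg.2 hz') (lin_q (q := 10) (by norm_num) h (83 / 995) (-(16 / 183))),
    sq_nonneg (d + (15180259 / 14863310) * x + (26674831 / 4458993000)),
    sq_nonneg (x + (71870097653062812473 / 822334426434463739100))]

lemma N3 (d x : ℝ) (h : 10 * x ^ 2 ≤ d - d ^ 2) (hz : -(3 / 100) ≤ x) (hz' : x ≤ 0) :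
    (-(1 / 50000)) ≤ QP 74 120 24 10 6 0 13 (121 / 5) (7 / 3) (88 / 15) 46 d x := by
  unfold QP Q
  nlinarith [mul_nonneg (sub_nonneg.2 hz) (sub_nonneg.2 hz'),
    sq_nonneg (d + (1100 / 7167) * x + (-(1 / 43002))),
    sq_nonneg (x + (461183 / 21768346200))]

/-- the one point inequalities -/
noncomputable def dat : CDat 6 10 74 120 24 (34 / 7) 6 0 13 (121 / 5) (47 / 2000) where
  Z := (3 / 100)
  aA := (76 / 35)
  bA := (-(72 / 7))
  ap := (2811 / 25000)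
  an := (-(132429 / 100000))
  aL := (14 / 5)
  bL := 17
  sL := (447 / 5)
  lp := (7237 / 20000)
  ln := (-(164871 / 100000))
  aM := (67 / 20)
  bM := 0
  sM := 24
  mp := (-(13759 / 20000))
  mm := (-(13533 / 100000))
  aP := (7 / 3)
  bP := (-(88 / 15))
  sP := 2
  pp := (-(3059 / 12500))
  pn := (-(3799 / 4000))
  p0 := (-(1 / 50000))
  aN := (7 / 3)
  bN := (88 / 15)
  sN := 46
  np := (-(3799 / 4000))
  nn := (-(3059 / 12500))
  n0 := (-(1 / 50000))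
  Zpos := by norm_num
  sL0 := by norm_num
  sM0 := by norm_num
  sP0 := by norm_num
  sN0 := by norm_num
  A3 := by norm_num
  A4 := by norm_num
  L3 := by norm_num
  L4 := by norm_num
  M3 := by norm_num
  M4 := by norm_num
  P4 := by norm_num
  N4 := by norm_num
  A1 := A1
  A2 := A2
  L1 := L1
  L2 := L2
  M1 := M1
  M2 := M2
  P1 := P1
  P2 := P2
  P3 := P3
  N1 := N1
  N2 := N2
  N3 := N3

end Vale.Agent.P224.SO.M11S

namespace Vale.Agent.P224.SO.M11T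

open Vale.Agent.P224.SO Vale.Agent.P224.SO.Rg

lemma A1 (d x : ℝ) (h : 10 * x ^ 2 ≤ d - d ^ 2) (hz : (3 / 100) ≤ x) :
    (2811 / 25000) ≤ QP 74 120 24 10 12 (9 / 40) 13 (121 / 5) (76 / 35) (-(72 / 7)) 0 d x := by
  unfold QP Q
  nlinarith [mul_nonneg (sub_nonneg.2 hz) (lin_q (q := 10) (by norm_num) h (32 / 493) (67 / 860)),
    sq_nonneg (d + (-(651925 / 582726)) * x + (5056097 / 244744920)),
    sq_nonneg (x + (-(18169688753225069 / 236697826451841300)))]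

lemma A2 (d x : ℝ) (h : 10 * x ^ 2 ≤ d - d ^ 2) :
    (-(132429 / 100000)) ≤ QP 74 120 24 10 12 (9 / 40) 13 (121 / 5) (76 / 35) (-(72 / 7)) 0 d x := by
  unfold QP Q
  nlinarith [sq_nonneg (d + (-(41 / 857)) * x + (-(2291 / 23996))),
    sq_nonneg (x + (1970403 / 22007104))]

lemma L1 (d x : ℝ) (h : 10 * x ^ 2 ≤ d - d ^ 2) (hz' : x ≤ -(3 / 100)) :
    (74293 / 100000) ≤ QP 74 120 24 10 12 (9 / 40) 13 (121 / 5) (18 / 5) (47 / 2) (533 / 5) d x := by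
  unfold QP Q
  nlinarith [mul_nonneg (sub_nonneg.2 hz') (lin_q (q := 10) (by norm_num) h (63 / 676) (-(90 / 979))),
    sq_nonneg (d + (9377315 / 6872892) * x + (865153 / 27491568)),
    sq_nonneg (x + (46776332867939183 / 690284368754031436))]

lemma L2 (d x : ℝ) (h : 10 * x ^ 2 ≤ d - d ^ 2) :
    (-(8573 / 4000)) ≤ QP 74 120 24 10 12 (9 / 40) 13 (121 / 5) (18 / 5) (47 / 2) (533 / 5) d x := by
  unfold QP Q
  nlinarith [sq_nonneg (d + (4715 / 13332) * x + (-(559 / 4848))),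
    sq_nonneg (x + (-(7213525 / 82311676)))]

lemma M1 (d x : ℝ) (h : 10 * x ^ 2 ≤ d - d ^ 2) :
    (-(76411 / 100000)) ≤ QP 74 120 24 10 12 (9 / 40) 13 (121 / 5) (87 / 20) (-(9 / 10)) (123 / 10) d x := by
  unfold QP Q
  nlinarith [sq_nonneg (d + 0 * x + (-(885 / 9916))),
    sq_nonneg (x + 0)]

lemma M2 (d x : ℝ) (h : 10 * x ^ 2 ≤ d - d ^ 2) (hz : -(3 / 100) ≤ x) (hz' : x ≤ (3 / 100)) :
    (157 / 5000) ≤ QP 74 120 24 10 12 (9 / 40) 13 (121 / 5) (87 / 20) (-(9 / 10)) (123 / 10) d x := by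
  unfold QP Q
  nlinarith [mul_nonneg (sub_nonneg.2 hz) (sub_nonneg.2 hz'),
    sq_nonneg (d + 0 * x + (-(381 / 41492))),
    sq_nonneg (x + 0)]

lemma P1 (d x : ℝ) (h : 10 * x ^ 2 ≤ d - d ^ 2) (hz : (3 / 100) ≤ x) :
    (-(20869 / 100000)) ≤ QP 74 120 24 10 12 (9 / 40) 13 (121 / 5) (2867 / 1000) (-(68279 / 10000)) 0 d x := by
  unfold QP Q
  nlinarith [mul_nonneg (sub_nonneg.2 hz) (lin_q (q := 10) (by norm_num) h (73 / 943) (6 / 71)),
    sq_nonneg (d + (-(21908191 / 20144366)) * x + (29221043 / 2014436600)),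
    sq_nonneg (x + (-(921331772508157333 / 10909775233541707756)))]

lemma P2 (d x : ℝ) (h : 10 * x ^ 2 ≤ d - d ^ 2) (hz' : x ≤ -(3 / 100)) :
    (-(53231 / 50000)) ≤ QP 74 120 24 10 12 (9 / 40) 13 (121 / 5) (2867 / 1000) (-(68279 / 10000)) 0 d x := by
  unfold QP Q
  nlinarith [sq_nonneg (d + (-(615 / 12664)) * x + (-(5833 / 63320))),
    sq_nonneg (x + (75902182 / 846947375))]

lemma P3 (d x : ℝ) (h : 10 * x ^ 2 ≤ d - d ^ 2) (hz : 0 ≤ x) (hz' : x ≤ (3 / 100)) :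
    (11113 / 50000) ≤ QP 74 120 24 10 12 (9 / 40) 13 (121 / 5) (2867 / 1000) (-(68279 / 10000)) 0 d x := by
  unfold QP Q
  nlinarith [mul_nonneg (sub_nonneg.2 hz) (lin_q (q := 10) (by norm_num) h (9 / 991) (3 / 100)),
    mul_nonneg (sub_nonneg.2 hz) (sub_nonneg.2 hz'),
    sq_nonneg (d + (-(3496356 / 10214237)) * x + (119 / 103070)),
    sq_nonneg (x + (-(87196762948681 / 3003496180778800)))]

lemma N1 (d x : ℝ) (h : 10 * x ^ 2 ≤ d - d ^ 2) (hz : (3 / 100) ≤ x) :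
    (-(15287 / 10000)) ≤ QP 74 120 24 10 12 (9 / 40) 13 (121 / 5) (14479 / 5000) (34901 / 2500) (680263 / 10000) d x := by
  unfold QP Q
  nlinarith [sq_nonneg (d + (79609 / 370800) * x + (-(5521 / 54075))),
    sq_nonneg (x + (-(4857905904 / 55586007119)))]

lemma N2 (d x : ℝ) (h : 10 * x ^ 2 ≤ d - d ^ 2) (hz' : x ≤ -(3 / 100)) :
    (25717 / 100000) ≤ QP 74 120 24 10 12 (9 / 40) 13 (121 / 5) (14479 / 5000) (34901 / 2500) (680263 / 10000) d x := by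
  unfold QP Q
  nlinarith [mul_nonneg (sub_nonneg.2 hz') (lin_q (q := 10) (by norm_num) h (83 / 995) (-(16 / 183))),
    sq_nonneg (d + (490709977 / 417661200) * x + (3370603 / 174025500)),
    sq_nonneg (x + (177620883068990934588 / 2034034193293139457955))]

lemma N3 (d x : ℝ) (h : 10 * x ^ 2 ≤ d - d ^ 2) (hz : -(3 / 100) ≤ x) (hz' : x ≤ 0) :
    (22489 / 100000) ≤ QP 74 120 24 10 12 (9 / 40) 13 (121 / 5) (14479 / 5000) (34901 / 2500) (680263 / 10000) d x := by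
  unfold QP Q
  nlinarith [mul_nonneg (sub_nonneg.2 hz) (sub_nonneg.2 hz'),
    sq_nonneg (d + (557263 / 2065600) * x + (-(1 / 258200))),
    sq_nonneg (x + (76536168 / 3878411956277))]

/-- the one point inequalities -/
noncomputable def dat : CDat 6 10 74 120 24 (34 / 7) 12 (9 / 40) 13 (121 / 5) (3 / 10) where
  Z := (3 / 100)
  aA := (76 / 35)
  bA := (-(72 / 7))
  ap := (2811 / 25000)
  an := (-(132429 / 100000))
  aL := (18 / 5)
  bL := (47 / 2)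
  sL := (533 / 5)
  lp := (74293 / 100000)
  ln := (-(8573 / 4000))
  aM := (87 / 20)
  bM := (-(9 / 10))
  sM := (123 / 10)
  mp := (-(76411 / 100000))
  mm := (157 / 5000)
  aP := (2867 / 1000)
  bP := (-(68279 / 10000))
  sP := 0
  pp := (-(20869 / 100000))
  pn := (-(53231 / 50000))
  p0 := (11113 / 50000)
  aN := (14479 / 5000)
  bN := (34901 / 2500)
  sN := (680263 / 10000)
  np := (-(15287 / 10000))
  nn := (25717 / 100000)
  n0 := (22489 / 100000)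
  Zpos := by norm_num
  sL0 := by norm_num
  sM0 := by norm_num
  sP0 := by norm_num
  sN0 := by norm_num
  A3 := by norm_num
  A4 := by norm_num
  L3 := by norm_num
  L4 := by norm_num
  M3 := by norm_num
  M4 := by norm_num
  P4 := by norm_num
  N4 := by norm_num
  A1 := A1
  A2 := A2
  L1 := L1
  L2 := L2
  M1 := M1
  M2 := M2
  P1 := P1
  P2 := P2
  P3 := P3
  N1 := N1
  N2 := N2
  N3 := N3

end Vale.Agent.P224.SO.M11T

namespace Vale.Agent.P224.SO.C11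

open Finset Vale.Agent.P224.SO Vale.Agent.P224.SO.Rg

/-- the static functional -/
theorem cls_S {d x : Fin 13 → ℝ}
    (h : ∀ i, 10 * x i ^ 2 ≤ d i - d i ^ 2) (h1 : ∑ i, d i = 1) (h0 : ∑ i, x i = 0)
    (hv : ∑ i, d i * x i ≤ 0)
    (hS : 34 / 7 + (74 * ∑ i, d i ^ 2 - 120 * ∑ i, x i ^ 2 - 24 * ∑ i, d i * x i)
      + ∑ i, 6 * (d i - d i ^ 2 - 10 * x i ^ 2) < 235 / 10000) :
    (Rt (3 / 100) x).card = 7 := by
  refine CDat.cls M11S.dat (by norm_num) h h1 h0 hv ?_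
  simp only [zero_mul, add_zero]
  exact hS.trans_le (by norm_num)

/-- the functional with a parameter -/
theorem cls_T {d x : Fin 13 → ℝ}
    (h : ∀ i, 10 * x i ^ 2 ≤ d i - d i ^ 2) (h1 : ∑ i, d i = 1) (h0 : ∑ i, x i = 0)
    (hv : ∑ i, d i * x i ≤ 0)
    (hS : 34 / 7 + (74 * ∑ i, d i ^ 2 - 120 * ∑ i, x i ^ 2 - 24 * ∑ i, d i * x i)
      + ∑ i, (12 * (d i - d i ^ 2 - 10 * x i ^ 2) + 9 / 40 * ((1 - 13 * d i - 2 * x i) ^ 2
        + 121 / 5 * (d i - d i ^ 2 - 10 * x i ^ 2))) < 300 / 1000) :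
    (Rt (3 / 100) x).card = 7 :=
  CDat.cls M11T.dat (by norm_num) h h1 h0 hv (hS.trans_le (by norm_num))

end Vale.Agent.P224.SO.C11
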