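import Vale.Agent.P224.SO.ClsG

/-!
Dimension 11: the number of points on the right from the value of the scalar functionals.
-/

namespace Vale.Agent.P224.SO.M11R

open Vale.Agent.P224.SO Vale.Agent.P224.SO.Rg

lemma A1 (d x : ℝ) (h : 10 * x ^ 2 ≤ d - d ^ 2) (hz : (3 / 100) ≤ x) :
    (2811 / 25000) ≤ QP 74 120 24 10 4 0 13 (121 / 5) (76 / 35) (-(72 / 7)) 0 d x := by
  unfold QP Q
  nlinarith [mul_nonneg (sub_nonneg.2 hz) (lin_q (q := 10) (by norm_num) h (32 / 493) (67 / 860)),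
    sq_nonneg (d + (-(500873 / 485112)) * x + (4326253 / 339578400)),
    sq_nonneg (x + (-(8764363393086431 / 120640657663752100)))]

lemma A2 (d x : ℝ) (h : 10 * x ^ 2 ≤ d - d ^ 2) :
    (-(132429 / 100000)) ≤ QP 74 120 24 10 4 0 13 (121 / 5) (76 / 35) (-(72 / 7)) 0 d x := by
  unfold QP Q
  nlinarith [sq_nonneg (d + (-(300 / 2263)) * x + (-(3271 / 31682))),
    sq_nonneg (x + (14055 / 157003))]

lemma L1 (d x : ℝ) (h : 10 * x ^ 2 ≤ d - d ^ 2) (hz' : x ≤ -(3 / 100)) :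
    (7237 / 20000) ≤ QP 74 120 24 10 4 0 13 (121 / 5) (14 / 5) 17 (447 / 5) d x := by
  unfold QP Q
  nlinarith [mul_nonneg (sub_nonneg.2 hz') (lin_q (q := 10) (by norm_num) h (83 / 895) (-(51 / 556))),
    sq_nonneg (d + (8523183 / 6345550) * x + (18132099 / 634555000)),
    sq_nonneg (x + (67715187557682409 / 1515409414872426550))]

lemma L2 (d x : ℝ) (h : 10 * x ^ 2 ≤ d - d ^ 2) :
    (-(164871 / 100000)) ≤ QP 74 120 24 10 4 0 13 (121 / 5) (14 / 5) 17 (447 / 5) d x := by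
  unfold QP Q
  nlinarith [sq_nonneg (d + (1635 / 4628) * x + (-(3 / 26))),
    sq_nonneg (x + (-(218762 / 2501323)))]

lemma M1 (d x : ℝ) (h : 10 * x ^ 2 ≤ d - d ^ 2) :
    (-(13759 / 20000)) ≤ QP 74 120 24 10 4 0 13 (121 / 5) (67 / 20) 0 24 d x := by
  unfold QP Q
  nlinarith [sq_nonneg (d + 0 * x + (-(1537 / 17204))),
    sq_nonneg (x + 0)]

lemma M2 (d x : ℝ) (h : 10 * x ^ 2 ≤ d - d ^ 2) (hz : -(3 / 100) ≤ x) (hz' : x ≤ (3 / 100)) :
    (-(13533 / 100000)) ≤ QP 74 120 24 10 4 0 13 (121 / 5) (67 / 20) 0 24 d x := by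
  unfold QP Q
  nlinarith [mul_nonneg (sub_nonneg.2 hz) (sub_nonneg.2 hz'),
    sq_nonneg (d + 0 * x + (-(14 / 1441))),
    sq_nonneg (x + 0)]

lemma P1 (d x : ℝ) (h : 10 * x ^ 2 ≤ d - d ^ 2) (hz : (3 / 100) ≤ x) :
    (-(3059 / 12500)) ≤ QP 74 120 24 10 4 0 13 (121 / 5) (7 / 3) (-(88 / 15)) 2 d x := by
  unfold QP Q
  nlinarith [mul_nonneg (sub_nonneg.2 hz) (lin_q (q := 10) (by norm_num) h (83 / 995) (16 / 183)),
    sq_nonneg (d + (-(14027949 / 15022510)) * x + (-(7575959 / 4506753000))),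
    sq_nonneg (x + (-(68941773865182215633 / 788874782436703211100)))]

lemma P2 (d x : ℝ) (h : 10 * x ^ 2 ≤ d - d ^ 2) (hz' : x ≤ -(3 / 100)) :
    (-(3799 / 4000)) ≤ QP 74 120 24 10 4 0 13 (121 / 5) (7 / 3) (-(88 / 15)) 2 d x := by
  unfold QP Q
  nlinarith [sq_nonneg (d + (-(1100 / 8831)) * x + (-(4993 / 52986))),
    sq_nonneg (x + (45683 / 523353))]

lemma P3 (d x : ℝ) (h : 10 * x ^ 2 ≤ d - d ^ 2) (hz : 0 ≤ x) (hz' : x ≤ (3 / 100)) :
    (-(1 / 50000)) ≤ QP 74 120 24 10 4 0 13 (121 / 5) (7 / 3) (-(88 / 15)) 2 d x := by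
  unfold QP Q
  nlinarith [mul_nonneg (sub_nonneg.2 hz) (sub_nonneg.2 hz'),
    sq_nonneg (d + (-(1100 / 7167)) * x + (-(1 / 43002))),
    sq_nonneg (x + (-(9917 / 544101150)))]

lemma N1 (d x : ℝ) (h : 10 * x ^ 2 ≤ d - d ^ 2) (hz : (3 / 100) ≤ x) :
    (-(3799 / 4000)) ≤ QP 74 120 24 10 4 0 13 (121 / 5) (7 / 3) (88 / 15) 46 d x := by
  unfold QP Q
  nlinarith [sq_nonneg (d + (1100 / 8831) * x + (-(4993 / 52986))),
    sq_nonneg (x + (-(45683 / 523353)))]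

lemma N2 (d x : ℝ) (h : 10 * x ^ 2 ≤ d - d ^ 2) (hz' : x ≤ -(3 / 100)) :
    (-(3059 / 12500)) ≤ QP 74 120 24 10 4 0 13 (121 / 5) (7 / 3) (88 / 15) 46 d x := by
  unfold QP Q
  nlinarith [mul_nonneg (sub_nonneg.2 hz') (lin_q (q := 10) (by norm_num) h (83 / 995) (-(16 / 183))),
    sq_nonneg (d + (14027949 / 15022510) * x + (-(7575959 / 4506753000))),
    sq_nonneg (x + (68941773865182215633 / 788874782436703211100))]

lemma N3 (d x : ℝ) (h : 10 * x ^ 2 ≤ d - d ^ 2) (hz : -(3 / 100) ≤ x) (hz' : x ≤ 0) :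
    (-(1 / 50000)) ≤ QP 74 120 24 10 4 0 13 (121 / 5) (7 / 3) (88 / 15) 46 d x := by
  unfold QP Q
  nlinarith [mul_nonneg (sub_nonneg.2 hz) (sub_nonneg.2 hz'),
    sq_nonneg (d + (1100 / 7167) * x + (-(1 / 43002))),
    sq_nonneg (x + (9917 / 544101150))]

/-- the one point inequalities -/
noncomputable def dat : CDat 6 10 74 120 24 (34 / 7) 4 0 13 (121 / 5) (47 / 2000) where
  Z := (3 / 100)
  aA := (76 / 35)
  bA := (-(72 / 7))
  ap := (2811 / 25000)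
  an := (-(132429 / 100000))
  aL := (14 / 5)
  bL := 17
  sL := (447 / 5)
  lp := (7237 / 20000)
  ln := (-(164871 / 100000))
  aM := (67 / 20)
  bM := 0
  sM := 24
  mp := (-(13759 / 20000))
  mm := (-(13533 / 100000))
  aP := (7 / 3)
  bP := (-(88 / 15))
  sP := 2
  pp := (-(3059 / 12500))
  pn := (-(3799 / 4000))
  p0 := (-(1 / 50000))
  aN := (7 / 3)
  bN := (88 / 15)
  sN := 46
  np := (-(3799 / 4000))
  nn := (-(3059 / 12500))
  n0 := (-(1 / 50000))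
  Zpos := by norm_num
  sL0 := by norm_num
  sM0 := by norm_num
  sP0 := by norm_num
  sN0 := by norm_num
  A3 := by norm_num
  A4 := by norm_num
  L3 := by norm_num
  L4 := by norm_num
  M3 := by norm_num
  M4 := by norm_num
  P4 := by norm_num
  N4 := by norm_num
  A1 := A1
  A2 := A2
  L1 := L1
  L2 := L2
  M1 := M1
  M2 := M2
  P1 := P1
  P2 := P2
  P3 := P3
  N1 := N1
  N2 := N2
  N3 := N3

end Vale.Agent.P224.SO.M11R

namespace Vale.Agent.P224.SO.C11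

open Finset Vale.Agent.P224.SO Vale.Agent.P224.SO.Rg

/-- the static functional -/
theorem cls_S4 {d x : Fin 13 → ℝ}
    (h : ∀ i, 10 * x i ^ 2 ≤ d i - d i ^ 2) (h1 : ∑ i, d i = 1) (h0 : ∑ i, x i = 0)
    (hv : ∑ i, d i * x i ≤ 0)
    (hS : 34 / 7 + (74 * ∑ i, d i ^ 2 - 120 * ∑ i, x i ^ 2 - 24 * ∑ i, d i * x i)
      + ∑ i, 4 * (d i - d i ^ 2 - 10 * x i ^ 2) < 235 / 10000) :
    (Rt (3 / 100) x).card = 7 := by
  refine CDat.cls M11R.dat (by norm_num) h h1 h0 hv ?_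
  simp only [zero_mul, add_zero]
  exact hS.trans_le (by norm_num)

end Vale.Agent.P224.SO.C11
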