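import Vale.Agent.P224.SO.RgN
import Vale.Agent.P224.SO.Rc13

/-!
Dimension 13: the stable scalar inequalities near the Clifford configuration.
-/

namespace Vale.Agent.P224.SO.N13V

open Finset Vale.Agent.P224.SO Vale.Agent.P224.SO.Rg Vale.Agent.P224.SO.M13

/-- the additional terms -/
noncomputable def PT (d x : ℝ) : ℝ :=
  (22 / 5) * (d - d ^ 2 - 12 * x ^ 2)
    + (227 / 1000) * ((1 - 15 * d - 2 * x) ^ 2 + (169 / 6) * (d - d ^ 2 - 12 * x ^ 2))

lemma PT_nonneg {d x : ℝ} (h : 12 * x ^ 2 ≤ d - d ^ 2) : 0 ≤ PT d x := by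
  unfold PT
  linarith [sq_nonneg (1 - 15 * d - 2 * x)]

lemma nT0 (d x : ℝ) (h : 12 * x ^ 2 ≤ d - d ^ 2) (hz : (-(149 / 2500)) ≤ x) :
    (-(407 / 338)) + (197 / 1000) ≤ Q 96 168 33 (515 / 338) (-(1881 / 169)) 0 d x + PT d x := by
  unfold Q PT
  linarith [mul_nonneg (sub_nonneg.2 hz) (lin_q (q := 12) (by norm_num) h (5003 / 10000) (1443 / 10000)),
    sq_nonneg (d + (-(1452230487 / 23040430000)) * x + (-(470892932393147 / 9734581675000000))),
    sq_nonneg (x + (242890229653193218690387 / 4056349814125083982032500))]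

lemma nTR1 (d x : ℝ) (h : 12 * x ^ 2 ≤ d - d ^ 2) (hz : (1 / 50) ≤ x) :
    (-(1129 / 12500)) ≤ Q 96 168 33 (1053 / 500) (-(9013 / 1000)) 0 d x + PT d x := by
  unfold Q PT
  linarith [mul_nonneg (sub_nonneg.2 hz) (lin_q (q := 12) (by norm_num) h (643 / 10000) (177 / 2500)),
    sq_nonneg (d + (-(2962033341 / 4397450000)) * x + (-(3645666659 / 219872500000))),
    sq_nonneg (x + (-(8384161297760805224 / 118455956551329814325)))]

lemma nTL1 (d x : ℝ) (h : 12 * x ^ 2 ≤ d - d ^ 2) :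
    (-(271571 / 250000)) ≤ Q 96 168 33 (1053 / 500) (-(9013 / 1000)) 0 d x + PT d x := by
  unfold Q PT
  linarith [sq_nonneg (d + (-(58140 / 987697)) * x + (-(158743 / 1975394))),
    sq_nonneg (x + (6467064515 / 84609297188))]

lemma nTM1 (d x : ℝ) (h : 12 * x ^ 2 ≤ d - d ^ 2) (hz : (1 / 50) ≤ x) (hz' : x ≤ (79 / 2000)) :
    (155231 / 1000000) ≤ Q 96 168 33 (1053 / 500) (-(9013 / 1000)) 0 d x + PT d x := by
  unfold Q PT
  linarith [mul_nonneg (sub_nonneg.2 hz) (lin_q (q := 12) (by norm_num) h (191 / 10000) (79 / 2000)),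
    mul_nonneg (sub_nonneg.2 hz') (lin_q (q := 12) (by norm_num) h (493 / 10000) (1 / 16)),
    mul_nonneg (sub_nonneg.2 hz) (sub_nonneg.2 hz'),
    sq_nonneg (d + (-(2181349611 / 10632785000)) * x + (-(20310822479 / 1849180000000))),
    sq_nonneg (x + (-(11413205965461610578129 / 288939728494269531572000)))]

lemma nTR2 (d x : ℝ) (h : 12 * x ^ 2 ≤ d - d ^ 2) (hz : (79 / 2000) ≤ x) :
    (3491 / 250000) + (119 / 10) * ((46 / 49) * d - (12 / 7) * x + (3 / 49)) ≤ Q 96 168 33 (217 / 125) (-(10187 / 1000)) 0 d x + PT d x := by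
  unfold Q PT
  linarith [mul_nonneg (sub_nonneg.2 hz) (lin_q (q := 12) (by norm_num) h (313 / 5000) (699 / 10000)),
    sq_nonneg (d + (-(1782693477 / 2046668020)) * x + (-(48680197219 / 28653352280000))),
    sq_nonneg (x + (-(205715212583486653213 / 2934321262535629078000)))]

lemma nTL2 (d x : ℝ) (h : 12 * x ^ 2 ≤ d - d ^ 2) (hz' : x ≤ (-(149 / 2500))) :
    (-(143507 / 125000)) + (119 / 10) * (2 * ((11 / 12) * d + 2 * x + (1 / 12))) ≤ Q 96 168 33 (217 / 125) (-(10187 / 1000)) 0 d x + PT d x := by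
  unfold Q PT
  linarith [mul_nonneg (sub_nonneg.2 hz') (lin_q (q := 12) (by norm_num) h (757 / 10000) (-(191 / 2500))),
    sq_nonneg (d + (1994499183000 / 4088437844117) * x + (-(1573360507517 / 40884378441170))),
    sq_nonneg (x + (7615800688606094645963 / 106871184404511169255120))]

lemma nTM2 (d x : ℝ) (h : 12 * x ^ 2 ≤ d - d ^ 2) (hz : (79 / 2000) ≤ x) (hz' : x ≤ (207 / 5000)) :
    (7147 / 200000) + (119 / 10) * ((46 / 49) * d - (12 / 7) * x + (3 / 49)) ≤ Q 96 168 33 (217 / 125) (-(10187 / 1000)) 0 d x + PT d x := by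
  unfold Q PT
  linarith [mul_nonneg (sub_nonneg.2 hz) (lin_q (q := 12) (by norm_num) h (9 / 500) (24 / 625)),
    mul_nonneg (sub_nonneg.2 hz) (sub_nonneg.2 hz'),
    sq_nonneg (d + (-(12374605350000000000000000 / 10221087500000000000177423)) * x + (1756376508549999998758039 / 143095225000000000002483922)),
    sq_nonneg (x + (-(565353423640324013478399347326844781500000000000 / 14310300129541136889493171120412740000220352446503)))]

lemma nTRB (d x : ℝ) (h : 12 * x ^ 2 ≤ d - d ^ 2) (hz : (207 / 5000) ≤ x) :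
    (495 / 5408) + (119 / 10) * ((46 / 49) * d - (12 / 7) * x + (3 / 49)) ≤ Q 96 168 33 (515 / 338) (-(1881 / 169)) 0 d x + PT d x := by
  unfold Q PT
  linarith [mul_nonneg (sub_nonneg.2 hz) (lin_q (q := 12) (by norm_num) h (3 / 52) (7 / 104)),
    sq_nonneg ((d - (3 / 52)) + (-(122534251931 / 139590319555)) * (x - (7 / 104))), sq_nonneg (x - (7 / 104))]

lemma nTLB (d x : ℝ) (h : 12 * x ^ 2 ≤ d - d ^ 2) (hz' : x ≤ (-(149 / 2500))) :
    (-(407 / 338)) + (119 / 10) * (2 * ((11 / 12) * d + 2 * x + (1 / 12))) ≤ Q 96 168 33 (515 / 338) (-(1881 / 169)) 0 d x + PT d x := by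
  unfold Q PT
  linarith [mul_nonneg (sub_nonneg.2 hz') (lin_q (q := 12) (by norm_num) h (1 / 13) (-(1 / 13))),
    sq_nonneg ((d - (1 / 13)) + (53199702478 / 92501536753) * (x - (-(1 / 13)))), sq_nonneg (x - (-(1 / 13)))]

theorem nearT0 {d x : Fin 15 → ℝ} (h : ∀ i, 12 * x i ^ 2 ≤ d i - d i ^ 2)
    (h1 : ∑ i, d i = 1) (h0 : ∑ i, x i = 0) (hc : (Rt (1 / 50) x).card = 8)
    (hS : 96 * ∑ i, d i ^ 2 - 168 * ∑ i, x i ^ 2 - 33 * ∑ i, d i * x i + ∑ i, PT (d i) (x i) < -(321 / 52) + (197 / 1000)) :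
    -(321 / 52) + (119 / 10) * ∑ i, (if (1 / 50) ≤ x i then (46 / 49) * d i - (12 / 7) * x i + (3 / 49)
        else 2 * ((11 / 12) * d i + 2 * x i + (1 / 12)))
      ≤ 96 * ∑ i, d i ^ 2 - 168 * ∑ i, x i ^ 2 - 33 * ∑ i, d i * x i + ∑ i, PT (d i) (x i) := by
  have hZL := left_le (K := 7) (a := (515 / 338)) (b := (-(1881 / 169))) (ap := (495 / 5408)) (an := (-(407 / 338))) (ZL := (-(149 / 2500))) (P := PT)
    (A := 96) (B := 168) (c := 33) (T := -(321 / 52)) (t := (197 / 1000)) (by norm_num) hc h h1 h0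
    (fun d x h hz => le_trans (A1 d x h (by linarith)) (le_add_of_nonneg_right (PT_nonneg h)))
    (fun d x h => le_trans (A2 d x h) (le_add_of_nonneg_right (PT_nonneg h)))
    nT0 (by norm_num) hS
  have hne : (Rt (1 / 50) x).Nonempty := by
    rw [← card_pos, hc]
    norm_num
  obtain ⟨i₀, hi₀, hmin⟩ := exists_min_image (Rt (1 / 50) x) x hne

  rcases le_total (x i₀) (79 / 2000) with hy | hy
  · have := stepS (K := 7) (a := (1053 / 500)) (b := (-(9013 / 1000))) (r := (-(1129 / 12500))) (l := (-(271571 / 250000))) (μ := (155231 / 1000000)) (Z1 := (1 / 50)) (Z2 := (79 / 2000))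
      (A := 96) (B := 168) (c := 33) (T := -(321 / 52)) (t := (197 / 1000)) (P := PT) (by norm_num) hc h h1 h0 hi₀ hmin
      (mem_Rt.1 hi₀) hy nTR1 nTL1 nTM1 (by norm_num)
    linarith

  rcases le_total (x i₀) (207 / 5000) with hy' | hy'
  · exact stepG (K := 7) (κ := (119 / 10)) (w := 2) (a2 := (46 / 49)) (b2 := (12 / 7)) (c2 := (3 / 49)) (a1 := (11 / 12)) (b1 := 2)
      (c1 := (1 / 12)) (a := (217 / 125)) (b := (-(10187 / 1000))) (r := (3491 / 250000)) (l := (-(143507 / 125000))) (μ := (7147 / 200000)) (Z1 := (79 / 2000)) (Z2 := (207 / 5000)) (ZL := (-(149 / 2500)))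
      (A := 96) (B := 168) (c := 33) (T := -(321 / 52)) (P := PT) (by norm_num) hc h h1 h0 hi₀ hmin
      hy hy' hZL nTR2 nTL2 nTM2 (by norm_num)
  clear hy; have hy := hy'; clear hy'

  exact stepB (K := 7) (κ := (119 / 10)) (w := 2) (a2 := (46 / 49)) (b2 := (12 / 7)) (c2 := (3 / 49)) (a1 := (11 / 12)) (b1 := 2)
    (c1 := (1 / 12)) (a := (515 / 338)) (b := (-(1881 / 169))) (ap := (495 / 5408)) (an := (-(407 / 338))) (Z1 := (207 / 5000)) (ZL := (-(149 / 2500)))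
    (A := 96) (B := 168) (c := 33) (T := -(321 / 52)) (P := PT) (by norm_num) hc h h1 h0
    (fun i hi => hy.trans (hmin i hi)) hZL nTRB nTLB (by norm_num)

theorem nearTg {lu lv : ℝ} (hu : (22 / 5) ≤ lu) (hv : (227 / 1000) ≤ lv) {d x : Fin 15 → ℝ}
    (h : ∀ i, 12 * x i ^ 2 ≤ d i - d i ^ 2)
    (h1 : ∑ i, d i = 1) (h0 : ∑ i, x i = 0) (hc : (Rt (1 / 50) x).card = 8) {w : ℝ} (hw : w ≤ 2)
    (hS : (321 / 52) + (96 * ∑ i, d i ^ 2 - 168 * ∑ i, x i ^ 2 - 33 * ∑ i, d i * x i)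
      + ∑ i, (lu * (d i - d i ^ 2 - 12 * x i ^ 2) + lv * ((1 - 15 * d i - 2 * x i) ^ 2
        + (169 / 6) * (d i - d i ^ 2 - 12 * x i ^ 2))) < (197 / 1000)) :
    (119 / 10) * ∑ i, (if (1 / 50) ≤ x i then (46 / 49) * d i - (12 / 7) * x i + (3 / 49)
        else w * ((11 / 12) * d i + 2 * x i + (1 / 12)))
      ≤ (321 / 52) + (96 * ∑ i, d i ^ 2 - 168 * ∑ i, x i ^ 2 - 33 * ∑ i, d i * x i)
      + ∑ i, (lu * (d i - d i ^ 2 - 12 * x i ^ 2) + lv * ((1 - 15 * d i - 2 * x i) ^ 2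
        + (169 / 6) * (d i - d i ^ 2 - 12 * x i ^ 2))) := by
  have e1 : ∑ i, PT (d i) (x i) ≤ ∑ i, (lu * (d i - d i ^ 2 - 12 * x i ^ 2)
      + lv * ((1 - 15 * d i - 2 * x i) ^ 2
        + (169 / 6) * (d i - d i ^ 2 - 12 * x i ^ 2))) := by
    refine sum_le_sum fun i _ => ?_
    have h2 : 0 ≤ d i - d i ^ 2 - 12 * x i ^ 2 := by have := h i; linarith
    have h3 : 0 ≤ (1 - 15 * d i - 2 * x i) ^ 2
        + (169 / 6) * (d i - d i ^ 2 - 12 * x i ^ 2) := by positivity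
    have h4 := mul_le_mul_of_nonneg_right hu h2
    have h5 := mul_le_mul_of_nonneg_right hv h3
    unfold PT
    linarith
  have e2 : (119 / 10) * ∑ i, (if (1 / 50) ≤ x i then (46 / 49) * d i - (12 / 7) * x i + (3 / 49)
        else w * ((11 / 12) * d i + 2 * x i + (1 / 12)))
      ≤ (119 / 10) * ∑ i, (if (1 / 50) ≤ x i then (46 / 49) * d i - (12 / 7) * x i + (3 / 49)
        else 2 * ((11 / 12) * d i + 2 * x i + (1 / 12))) := by
    refine mul_le_mul_of_nonneg_left (sum_le_sum fun i _ => ?_) (by norm_num)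
    split_ifs with hz
    · exact le_refl _
    · refine mul_le_mul_of_nonneg_right hw ?_
      have := lin_q (q := 12) (by norm_num) (h i) (1 / 13) (-(1 / 13))
      linarith
  have e3 := nearT0 h h1 h0 hc (by linarith)
  linarith

end Vale.Agent.P224.SO.N13V
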