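import Vale.Agent.P224.SO.RgN

/-!
Dimension 13: the stable scalar inequalities near the Clifford configuration.
-/

namespace Vale.Agent.P224.SO.NS13p97c32

open Finset Vale.Agent.P224.SO Vale.Agent.P224.SO.Rg

/-- the additional terms -/
noncomputable def PS (d x : ℝ) : ℝ :=
  4 * (d - d ^ 2 - 12 * x ^ 2)

lemma PS_nonneg {d x : ℝ} (h : 12 * x ^ 2 ≤ d - d ^ 2) : 0 ≤ PS d x := by
  unfold PS
  linarith

lemma nSA1 (d x : ℝ) (h : 12 * x ^ 2 ≤ d - d ^ 2) (hz : (1 / 50) ≤ x) :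
    (217 / 2704) ≤ Q 97 168 32 (1667 / 1014) (-(1852 / 169)) 0 d x + PS d x := by
  unfold Q PS
  linarith [mul_nonneg (sub_nonneg.2 hz) (lin_q (q := 12) (by norm_num) h (3 / 52) (7 / 104)),
    sq_nonneg ((d - (3 / 52)) + (-(10126690 / 9189207)) * (x - (7 / 104))), sq_nonneg (x - (7 / 104))]

lemma nSA2 (d x : ℝ) (h : 12 * x ^ 2 ≤ d - d ^ 2) :
    (-(1217 / 1014)) ≤ Q 97 168 32 (1667 / 1014) (-(1852 / 169)) 0 d x + PS d x := by
  unfold Q PS
  linarith [sq_nonneg ((d - (1 / 13)) + (-(1248 / 9017)) * (x - (-(1 / 13)))), sq_nonneg (x - (-(1 / 13)))]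

lemma nS0 (d x : ℝ) (h : 12 * x ^ 2 ≤ d - d ^ 2) (hz : (-(79 / 1250)) ≤ x) :
    (-(1217 / 1014)) + (101 / 1000) ≤ Q 97 168 32 (1667 / 1014) (-(1852 / 169)) 0 d x + PS d x := by
  unfold Q PS
  linarith [mul_nonneg (sub_nonneg.2 hz) (lin_q (q := 12) (by norm_num) h (8429 / 10000) (1051 / 10000)),
    sq_nonneg (d + (-(44979337 / 433254000)) * x + (-(15661776634861 / 274574722500000))),
    sq_nonneg (x + (53736936632165137984 / 864345676471426573125))]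

lemma nSR1 (d x : ℝ) (h : 12 * x ^ 2 ≤ d - d ^ 2) (hz : (1 / 50) ≤ x) :
    (-(17241 / 500000)) ≤ Q 97 168 32 (387 / 200) (-(239 / 25)) 0 d x + PS d x := by
  unfold Q PS
  linarith [mul_nonneg (sub_nonneg.2 hz) (lin_q (q := 12) (by norm_num) h (81 / 1250) (711 / 10000)),
    sq_nonneg (d + (-(125225376 / 120915475)) * x + (53119751 / 6045773750)),
    sq_nonneg (x + (-(946409159059401157 / 13326018710317118400)))]

lemma nSL1 (d x : ℝ) (h : 12 * x ^ 2 ≤ d - d ^ 2) :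
    (-(55761 / 50000)) ≤ Q 97 168 32 (387 / 200) (-(239 / 25)) 0 d x + PS d x := by
  unfold Q PS
  linarith [sq_nonneg (d + (-(1000 / 7181)) * x + (-(19831 / 229792))),
    sq_nonneg (x + (1525605 / 19982882))]

lemma nSM1 (d x : ℝ) (h : 12 * x ^ 2 ≤ d - d ^ 2) (hz : (1 / 50) ≤ x) (hz' : x ≤ (369 / 10000)) :
    (49511 / 500000) ≤ Q 97 168 32 (387 / 200) (-(239 / 25)) 0 d x + PS d x := by
  unfold Q PS
  linarith [mul_nonneg (sub_nonneg.2 hz) (lin_q (q := 12) (by norm_num) h (83 / 5000) (369 / 10000)),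
    mul_nonneg (sub_nonneg.2 hz') (lin_q (q := 12) (by norm_num) h (7 / 2000) (17 / 1000)),
    mul_nonneg (sub_nonneg.2 hz) (sub_nonneg.2 hz'),
    sq_nonneg (d + (-(185293693 / 1614412500)) * x + (-(6662268863 / 538137500000))),
    sq_nonneg (x + (-(18637961517625916927 / 504934264441871751000)))]

lemma nSR2 (d x : ℝ) (h : 12 * x ^ 2 ≤ d - d ^ 2) (hz : (369 / 10000) ≤ x) :
    (10581 / 1000000) + (61 / 10) * ((46 / 49) * d - (12 / 7) * x + (3 / 49)) ≤ Q 97 168 32 (431 / 250) (-(5011 / 500)) 0 d x + PS d x := by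
  unfold Q PS
  linarith [mul_nonneg (sub_nonneg.2 hz) (lin_q (q := 12) (by norm_num) h (643 / 10000) (177 / 2500)),
    sq_nonneg (d + (-(868835973 / 946428800)) * x + (337607227813 / 463750112000000)),
    sq_nonneg (x + (-(41495429683788006317 / 610991608251352930000)))]

lemma nSL2 (d x : ℝ) (h : 12 * x ^ 2 ≤ d - d ^ 2) (hz' : x ≤ (-(79 / 1250))) :
    (-(226927 / 200000)) + (61 / 10) * (2 * ((11 / 12) * d + 2 * x + (1 / 12))) ≤ Q 97 168 32 (431 / 250) (-(5011 / 500)) 0 d x + PS d x := by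
  unfold Q PS
  linarith [mul_nonneg (sub_nonneg.2 hz') (lin_q (q := 12) (by norm_num) h (3 / 40) (-(761 / 10000))),
    sq_nonneg (d + (22332385 / 19589104) * x + (171271049 / 14691828000)),
    sq_nonneg (x + (295714064194642907 / 3888381908006031450))]

lemma nSM2 (d x : ℝ) (h : 12 * x ^ 2 ≤ d - d ^ 2) (hz : (369 / 10000) ≤ x) (hz' : x ≤ (403 / 10000)) :
    (7611 / 250000) + (61 / 10) * ((46 / 49) * d - (12 / 7) * x + (3 / 49)) ≤ Q 97 168 32 (431 / 250) (-(5011 / 500)) 0 d x + PS d x := by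
  unfold Q PS
  linarith [mul_nonneg (sub_nonneg.2 hz) (lin_q (q := 12) (by norm_num) h (339 / 10000) (523 / 10000)),
    mul_nonneg (sub_nonneg.2 hz) (sub_nonneg.2 hz'),
    sq_nonneg (d + (-(3862374900000000000000 / 3100000000000000105783)) * x + (19207840340139984449899 / 911400000000000031100202)),
    sq_nonneg (x + (-(45528410817084609566825119738510641250000000 / 1233711080785487337922238388434204934809002249)))]

lemma nSRB (d x : ℝ) (h : 12 * x ^ 2 ≤ d - d ^ 2) (hz : (403 / 10000) ≤ x) :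
    (217 / 2704) + (61 / 10) * ((46 / 49) * d - (12 / 7) * x + (3 / 49)) ≤ Q 97 168 32 (1667 / 1014) (-(1852 / 169)) 0 d x + PS d x := by
  unfold Q PS
  linarith [mul_nonneg (sub_nonneg.2 hz) (lin_q (q := 12) (by norm_num) h (3 / 52) (7 / 104)),
    sq_nonneg ((d - (3 / 52)) + (-(15048379220 / 12481720863)) * (x - (7 / 104))), sq_nonneg (x - (7 / 104))]

lemma nSLB (d x : ℝ) (h : 12 * x ^ 2 ≤ d - d ^ 2) (hz' : x ≤ (-(79 / 1250))) :
    (-(1217 / 1014)) + (61 / 10) * (2 * ((11 / 12) * d + 2 * x + (1 / 12))) ≤ Q 97 168 32 (1667 / 1014) (-(1852 / 169)) 0 d x + PS d x := by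
  unfold Q PS
  linarith [mul_nonneg (sub_nonneg.2 hz') (lin_q (q := 12) (by norm_num) h (1 / 13) (-(1 / 13))),
    sq_nonneg ((d - (1 / 13)) + (155773550 / 83540929) * (x - (-(1 / 13)))), sq_nonneg (x - (-(1 / 13)))]

theorem nearS0 {d x : Fin 15 → ℝ} (h : ∀ i, 12 * x i ^ 2 ≤ d i - d i ^ 2)
    (h1 : ∑ i, d i = 1) (h0 : ∑ i, x i = 0) (hc : (Rt (1 / 50) x).card = 8)
    (hS : 97 * ∑ i, d i ^ 2 - 168 * ∑ i, x i ^ 2 - 32 * ∑ i, d i * x i + ∑ i, PS (d i) (x i) < -(159 / 26) + (101 / 1000)) :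
    -(159 / 26) + (61 / 10) * ∑ i, (if (1 / 50) ≤ x i then (46 / 49) * d i - (12 / 7) * x i + (3 / 49)
        else 2 * ((11 / 12) * d i + 2 * x i + (1 / 12)))
      ≤ 97 * ∑ i, d i ^ 2 - 168 * ∑ i, x i ^ 2 - 32 * ∑ i, d i * x i + ∑ i, PS (d i) (x i) := by
  have hZL := left_le (K := 7) (a := (1667 / 1014)) (b := (-(1852 / 169))) (ap := (217 / 2704)) (an := (-(1217 / 1014))) (ZL := (-(79 / 1250))) (P := PS)
    (A := 97) (B := 168) (c := 32) (T := -(159 / 26)) (t := (101 / 1000)) (by norm_num) hc h h1 h0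
    nSA1
    nSA2
    nS0 (by norm_num) hS
  have hne : (Rt (1 / 50) x).Nonempty := by
    rw [← card_pos, hc]
    norm_num
  obtain ⟨i₀, hi₀, hmin⟩ := exists_min_image (Rt (1 / 50) x) x hne

  rcases le_total (x i₀) (369 / 10000) with hy | hy
  · have := stepS (K := 7) (a := (387 / 200)) (b := (-(239 / 25))) (r := (-(17241 / 500000))) (l := (-(55761 / 50000))) (μ := (49511 / 500000)) (Z1 := (1 / 50)) (Z2 := (369 / 10000))
      (A := 97) (B := 168) (c := 32) (T := -(159 / 26)) (t := (101 / 1000)) (P := PS) (by norm_num) hc h h1 h0 hi₀ hmin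
      (mem_Rt.1 hi₀) hy nSR1 nSL1 nSM1 (by norm_num)
    linarith

  rcases le_total (x i₀) (403 / 10000) with hy' | hy'
  · exact stepG (K := 7) (κ := (61 / 10)) (w := 2) (a2 := (46 / 49)) (b2 := (12 / 7)) (c2 := (3 / 49)) (a1 := (11 / 12)) (b1 := 2)
      (c1 := (1 / 12)) (a := (431 / 250)) (b := (-(5011 / 500))) (r := (10581 / 1000000)) (l := (-(226927 / 200000))) (μ := (7611 / 250000)) (Z1 := (369 / 10000)) (Z2 := (403 / 10000)) (ZL := (-(79 / 1250)))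
      (A := 97) (B := 168) (c := 32) (T := -(159 / 26)) (P := PS) (by norm_num) hc h h1 h0 hi₀ hmin
      hy hy' hZL nSR2 nSL2 nSM2 (by norm_num)
  clear hy; have hy := hy'; clear hy'

  exact stepB (K := 7) (κ := (61 / 10)) (w := 2) (a2 := (46 / 49)) (b2 := (12 / 7)) (c2 := (3 / 49)) (a1 := (11 / 12)) (b1 := 2)
    (c1 := (1 / 12)) (a := (1667 / 1014)) (b := (-(1852 / 169))) (ap := (217 / 2704)) (an := (-(1217 / 1014))) (Z1 := (403 / 10000)) (ZL := (-(79 / 1250)))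
    (A := 97) (B := 168) (c := 32) (T := -(159 / 26)) (P := PS) (by norm_num) hc h h1 h0
    (fun i hi => hy.trans (hmin i hi)) hZL nSRB nSLB (by norm_num)

theorem nearSg {lu lv : ℝ} (hu : 4 ≤ lu) (hv : 0 ≤ lv) {d x : Fin 15 → ℝ}
    (h : ∀ i, 12 * x i ^ 2 ≤ d i - d i ^ 2)
    (h1 : ∑ i, d i = 1) (h0 : ∑ i, x i = 0) (hc : (Rt (1 / 50) x).card = 8) {w : ℝ} (hw : w ≤ 2)
    (hS : (159 / 26) + (97 * ∑ i, d i ^ 2 - 168 * ∑ i, x i ^ 2 - 32 * ∑ i, d i * x i)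
      + ∑ i, (lu * (d i - d i ^ 2 - 12 * x i ^ 2) + lv * ((1 - 15 * d i - 2 * x i) ^ 2
        + (169 / 6) * (d i - d i ^ 2 - 12 * x i ^ 2))) < (101 / 1000)) :
    (61 / 10) * ∑ i, (if (1 / 50) ≤ x i then (46 / 49) * d i - (12 / 7) * x i + (3 / 49)
        else w * ((11 / 12) * d i + 2 * x i + (1 / 12)))
      ≤ (159 / 26) + (97 * ∑ i, d i ^ 2 - 168 * ∑ i, x i ^ 2 - 32 * ∑ i, d i * x i)
      + ∑ i, (lu * (d i - d i ^ 2 - 12 * x i ^ 2) + lv * ((1 - 15 * d i - 2 * x i) ^ 2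
        + (169 / 6) * (d i - d i ^ 2 - 12 * x i ^ 2))) := by
  have e1 : ∑ i, PS (d i) (x i) ≤ ∑ i, (lu * (d i - d i ^ 2 - 12 * x i ^ 2)
      + lv * ((1 - 15 * d i - 2 * x i) ^ 2
        + (169 / 6) * (d i - d i ^ 2 - 12 * x i ^ 2))) := by
    refine sum_le_sum fun i _ => ?_
    have h2 : 0 ≤ d i - d i ^ 2 - 12 * x i ^ 2 := by have := h i; linarith
    have h3 : 0 ≤ (1 - 15 * d i - 2 * x i) ^ 2
        + (169 / 6) * (d i - d i ^ 2 - 12 * x i ^ 2) := by positivity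
    have h4 := mul_le_mul_of_nonneg_right hu h2
    have h5 := mul_le_mul_of_nonneg_right hv h3
    unfold PS
    linarith
  have e2 : (61 / 10) * ∑ i, (if (1 / 50) ≤ x i then (46 / 49) * d i - (12 / 7) * x i + (3 / 49)
        else w * ((11 / 12) * d i + 2 * x i + (1 / 12)))
      ≤ (61 / 10) * ∑ i, (if (1 / 50) ≤ x i then (46 / 49) * d i - (12 / 7) * x i + (3 / 49)
        else 2 * ((11 / 12) * d i + 2 * x i + (1 / 12))) := by
    refine mul_le_mul_of_nonneg_left (sum_le_sum fun i _ => ?_) (by norm_num)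
    split_ifs with hz
    · exact le_refl _
    · refine mul_le_mul_of_nonneg_right hw ?_
      have := lin_q (q := 12) (by norm_num) (h i) (1 / 13) (-(1 / 13))
      linarith
  have e3 := nearS0 h h1 h0 hc (by linarith)
  linarith

theorem nearSl {ls : ℝ} (hu : 4 ≤ ls) {d x : Fin 15 → ℝ}
    (h : ∀ i, 12 * x i ^ 2 ≤ d i - d i ^ 2)
    (h1 : ∑ i, d i = 1) (h0 : ∑ i, x i = 0) (hc : (Rt (1 / 50) x).card = 8) {w : ℝ} (hw : w ≤ 2)
    (hS : (159 / 26) + (97 * ∑ i, d i ^ 2 - 168 * ∑ i, x i ^ 2 - 32 * ∑ i, d i * x i)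
      + ∑ i, ls * (d i - d i ^ 2 - 12 * x i ^ 2) < (101 / 1000)) :
    (61 / 10) * ∑ i, (if (1 / 50) ≤ x i then (46 / 49) * d i - (12 / 7) * x i + (3 / 49)
        else w * ((11 / 12) * d i + 2 * x i + (1 / 12)))
      ≤ (159 / 26) + (97 * ∑ i, d i ^ 2 - 168 * ∑ i, x i ^ 2 - 32 * ∑ i, d i * x i) + ∑ i, ls * (d i - d i ^ 2 - 12 * x i ^ 2) := by
  have := nearSg (lu := ls) (lv := 0) hu le_rfl h h1 h0 hc hw
    (by simpa only [zero_mul, add_zero] using hS)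
  simpa only [zero_mul, add_zero] using this

end Vale.Agent.P224.SO.NS13p97c32
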