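import Vale.Agent.P224.SO.NulG

/-!
The one point identity in dimension 13, blocks 7 and 8: the mean normal is at most 79/100
times the mean square distance of the normal to a Clifford point, with the weight 2 on the
block of dimension 7.
-/

namespace Vale.Agent.P224.SO.One13Z

open MeasureTheory Set Filter Function Module Vale.Agent.P224.UE Vale.Agent.P224.SO
open scoped Topology RealInnerProductSpace ContDiff

set_option linter.unusedSectionVars false
set_option linter.unusedVariables false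

lemma sqK : √42 ^ 2 = (42 : ℝ) := Real.sq_sqrt (by norm_num)

/-- the coefficients in the block of dimension 7 -/
noncomputable def pa (t u v : ℝ) : ℝ := (-(4822001 / 76050000)) * (v) + 10122 / 528125 * (v ^ 2) + 367391 / 1352000 * (u) + 20244 / 528125 * (u * v) + 10122 / 528125 * (u ^ 2) + (-(56541 / 325000)) * (t * v) + (-(6413 / 325000)) * (t * u) + 39 / 1750 * (t ^ 2)

/-- the coefficients in the block of dimension 7 -/
noncomputable def pb (t u v : ℝ) : ℝ := 10097117 / 16900000 * (v) + 10097117 / 16900000 * (u) + 4372531 / 4200000 * (t) + 71421 / 162500 * (t * v) + 71421 / 162500 * (t * u) + (-(102401 / 25000)) * (t ^ 2)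

/-- the coefficients in the block of dimension 8 -/
noncomputable def qa (t u v : ℝ) : ℝ := (-(107567501 / 709800000)) * (v) + (-(553749 / 16900000)) * (v ^ 2) + 340017513 / 1656200000 * (u) + (-(553749 / 8450000)) * (u * v) + (-(553749 / 16900000)) * (u ^ 2) + 122237 / 1300000 * (t * v) + (-(2757 / 16250)) * (t * u) + 14434589 / 8400000 * (t ^ 2)

/-- the coefficients in the block of dimension 8 -/
noncomputable def qb (t u v : ℝ) : ℝ := 20437219 / 33800000 * (v) + 20437219 / 33800000 * (u) + 360389213 / 109200000 * (t) + (-(1868979 / 1300000)) * (t * v) + (-(1868979 / 1300000)) * (t * u) + (-(1333849 / 200000)) * (t ^ 2)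

/-- the certificate -/
lemma cert {t u v g g' a1 B1 a2 B2 : ℝ} (hρ : 0 ≤ 6 / 13 + t) (hr : 0 ≤ 7 / 13 - t)
    (hu : 0 ≤ u) (hv : 0 ≤ v) (hg : 0 ≤ g) (hg' : 0 ≤ g')
    (hgd : g = (6 / 13 + t) * u - (13 / 2 * t + 21 / 13 * (u + v)) ^ 2 / 42)
    (hgd' : g' = (7 / 13 - t) * v - (13 / 2 * t - 21 / 13 * (u + v)) ^ 2 / 42)
    (ha1 : a1 = pa t u v) (hb1 : B1 = pb t u v) (ha2 : a2 = qa t u v) (hb2 : B2 = qb t u v) :
    (42 * a1 ^ 2 * (6 / 13 + t) - 2 * a1 * B1 * (13 / 2 * t + 21 / 13 * (u + v)) + B1 ^ 2 * u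
      + (42 * a2 ^ 2 * (7 / 13 - t) - 2 * a2 * B2 * (13 / 2 * t - 21 / 13 * (u + v)) + B2 ^ 2 * v))
      ≤ (79 / 100 * (2 * u + v)) ^ 2 := by
  have hQ0 : (0 : ℝ) ≤ 1789631843588773 / 66832740000000000 * (v + 4878790020000000 / 1789631843588773 * (t ^ 2) + (-(2706725970000000 / 1789631843588773)) * (u ^ 2) + (-(2673309600000000 / 1789631843588773)) * (v ^ 2)) ^ 2 +
      135685746282954828511274893 / 42092140961207940960000000000 * (t ^ 2 + (-(62770352107968593424000000 / 135685746282954828511274893)) * (u ^ 2) + (-(4708917338267498160000000 / 10437365098688832962405761)) * (v ^ 2)) ^ 2 +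
      1325134230254430890757713608632637473 / 2981015845836517582392709399210000000000 * (u ^ 2 + 73495741073305001384493367413137473 / 441711410084810296919237869544212491 * (v ^ 2)) ^ 2 +
      30113427639441987516480755133182138450284974427 / 68335147743591445655847744290283036842026250000000 * (v ^ 2) ^ 2 := by positivity
  have hQ1 : (0 : ℝ) ≤ 40682994078825743 / 195928460000000000 * (u + (-(536262515341886333 / 122048982236477229)) * (t ^ 2) + (-(6387267796000000 / 40682994078825743)) * (t * u) + (-(57426631626000000 / 40682994078825743)) * (t * v)) ^ 2 +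
      9375938945510880046035593303 / 7322938934188633740000000000 * (t ^ 2 + 144332094222362283910490192337 / 131263145237152320644498306242 * (t * u) + 3026338826145871802976000000 / 9375938945510880046035593303 * (t * v)) ^ 2 +
      336436574308924525634756129297689152601 / 36753680666402649780459525747760000000000 * (t * u + 657741757101846949316148723952678316 / 336436574308924525634756129297689152601 * (t * v)) ^ 2 +
      107208668532641051475807151428796570514421983593 / 284288905291041224161368929256547333947845000000000 * (t * v) ^ 2 := by positivity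
  have hQ2 : (0 : ℝ) ≤ 5852651863659787 / 41736240000000000 * (t + 573102116696750592 / 989098164958504003 * (u) + (-(1271519476457832 / 1042253071610647)) * (t * u) + (-(265845441319112004 / 76084474227577231)) * (t * v)) ^ 2 +
      2193945179742695252980138898241 / 3954948576513176596155620000000000 * (u + 527174260335836205745064683180 / 731315059914231750993379632747 * (t * u) + (-(5922587582963708885355139050584 / 2193945179742695252980138898241)) * (t * v)) ^ 2 +
      14559297926413037467071904336978920934283 / 2677831977719278594887425088575265000000000 * (t * u + (-(20083835705932878299354585878659658887757 / 24958796445279492800694693149106721601628)) * (t * v)) ^ 2 +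
      6938685966175511016077329514833735728458479772883731 / 1096689515805580913662524816971749347175534320000000000 * (t * v) ^ 2 := by positivity
  have hQ3 : (0 : ℝ) ≤ 714419296320227 / 1375920000000000 * (t + (-(947777273899746624 / 1569579194015538719)) * (u) + 4769165458643334 / 714419296320227 * (t ^ 2) + 436709880906252541 / 362210583234355089 * (t * v)) ^ 2 +
      68950182743435000386657061125499 / 131796528999216735978875460000000000 * (u + (-(182586950901722506510273135947168 / 68950182743435000386657061125499)) * (t ^ 2) + (-(438713643581460817560811401961471 / 827402192921220004639884733505988)) * (t * v)) ^ 2 +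
      921521539297280155080964978067573405990843 / 57918153504485400324791931345419160000000000 * (t ^ 2 + 17326490261316488468313117198233109508326383 / 107818020097781778144472902433906088500928631 * (t * v)) ^ 2 +
      794922831878183929768475652715228274072254323123456334237 / 2046610282937701535280636191832600084411707347932480000000000 * (t * v) ^ 2 := by positivity
  have hQ4 : (0 : ℝ) ≤ 1 / 2500 * (t ^ 2) ^ 2 := by positivity
  have hQ5 : (0 : ℝ) ≤ 5281 / 5000 * (t + 2254 / 5281 * (u) + 12053677415728633 / 21051316540800000 * (v) + (-(18467 / 10562)) * (t ^ 2)) ^ 2 +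
      2317971 / 52810000 * (u + 1983908396282736958669 / 3903892099897608000000 * (v) + (-(11153696 / 2317971)) * (t ^ 2)) ^ 2 +
      11390748776435088207906325008767253109 / 18785362010436782070186240000000000000000 * (v + (-(18318504427984591262773526206008000000 / 11390748776435088207906325008767253109)) * (t ^ 2)) ^ 2 +
      6627236552203883173623444414444743400179 / 797352414350456174553442750613707717630000 * (t ^ 2) ^ 2 := by positivity
  have hQ6 : (0 : ℝ) ≤ 1 / 2500 * (t ^ 2) ^ 2 := by positivity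
  have hQ7 : (0 : ℝ) ≤ 267 / 5000 * (t + (-(188 / 267)) * (v) + 4751 / 534 * (t ^ 2)) ^ 2 +
      16545995707071367 / 25775160060000000000 * (v + (-(1583193352000000 / 447189073164091)) * (t ^ 2)) ^ 2 +
      536293511727182681 / 26831344389845460000 * (t ^ 2) ^ 2 := by positivity
  have hQ8 : (0 : ℝ) ≤ 794570879892271 / 3998540000000000 * (1 + (-(11910850952000000 / 794570879892271)) * (t)) ^ 2 +
      76209488481634979 / 794570879892271000 * (t) ^ 2 := by positivity
  have hQ9 : (0 : ℝ) ≤ 5037 / 2500 * (1 + 14551 / 20148 * (t)) ^ 2 +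
      1537688047 / 40296000 * (t) ^ 2 := by positivity
  have hQ10 : (0 : ℝ) ≤ 4671 / 10000 * (t + 1538 / 4671 * (u) + 3364 / 4671 * (v)) ^ 2 +
      849189121071020339 / 4335774007500000000 * (u + 49146105121750000 / 849189121071020339 * (v)) ^ 2 +
      404592813914806137839568077751 / 788244940824555886820817500000000 * (v) ^ 2 := by positivity
  have hQ11 : (0 : ℝ) ≤ 136609 / 10000 * (1) ^ 2 := by positivity
  have hQ12 : (0 : ℝ) ≤ 103793 / 5000 * (t + (-(56853 / 207586)) * (u) + (-(28083 / 103793)) * (v)) ^ 2 +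
      35459422721751 / 21926271250000000 * (u + (-(30458869613583 / 11819807573917)) * (v)) ^ 2 +
      870242392291203 / 236396151478340000 * (v) ^ 2 := by positivity
  have hQ13 : (0 : ℝ) ≤ 123 / 5000 * (u) ^ 2 := by positivity
  have e : (79 / 100 * (2 * u + v)) ^ 2 - (42 * a1 ^ 2 * (6 / 13 + t) - 2 * a1 * B1 * (13 / 2 * t + 21 / 13 * (u + v)) + B1 ^ 2 * u
      + (42 * a2 ^ 2 * (7 / 13 - t) - 2 * a2 * B2 * (13 / 2 * t - 21 / 13 * (u + v)) + B2 ^ 2 * v))
      = (1789631843588773 / 66832740000000000 * (v + 4878790020000000 / 1789631843588773 * (t ^ 2) + (-(2706725970000000 / 1789631843588773)) * (u ^ 2) + (-(2673309600000000 / 1789631843588773)) * (v ^ 2)) ^ 2 +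
      135685746282954828511274893 / 42092140961207940960000000000 * (t ^ 2 + (-(62770352107968593424000000 / 135685746282954828511274893)) * (u ^ 2) + (-(4708917338267498160000000 / 10437365098688832962405761)) * (v ^ 2)) ^ 2 +
      1325134230254430890757713608632637473 / 2981015845836517582392709399210000000000 * (u ^ 2 + 73495741073305001384493367413137473 / 441711410084810296919237869544212491 * (v ^ 2)) ^ 2 +
      30113427639441987516480755133182138450284974427 / 68335147743591445655847744290283036842026250000000 * (v ^ 2) ^ 2)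
      + (7 / 13 - t) * (40682994078825743 / 195928460000000000 * (u + (-(536262515341886333 / 122048982236477229)) * (t ^ 2) + (-(6387267796000000 / 40682994078825743)) * (t * u) + (-(57426631626000000 / 40682994078825743)) * (t * v)) ^ 2 +
      9375938945510880046035593303 / 7322938934188633740000000000 * (t ^ 2 + 144332094222362283910490192337 / 131263145237152320644498306242 * (t * u) + 3026338826145871802976000000 / 9375938945510880046035593303 * (t * v)) ^ 2 +
      336436574308924525634756129297689152601 / 36753680666402649780459525747760000000000 * (t * u + 657741757101846949316148723952678316 / 336436574308924525634756129297689152601 * (t * v)) ^ 2 +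
      107208668532641051475807151428796570514421983593 / 284288905291041224161368929256547333947845000000000 * (t * v) ^ 2)
      + u * (5852651863659787 / 41736240000000000 * (t + 573102116696750592 / 989098164958504003 * (u) + (-(1271519476457832 / 1042253071610647)) * (t * u) + (-(265845441319112004 / 76084474227577231)) * (t * v)) ^ 2 +
      2193945179742695252980138898241 / 3954948576513176596155620000000000 * (u + 527174260335836205745064683180 / 731315059914231750993379632747 * (t * u) + (-(5922587582963708885355139050584 / 2193945179742695252980138898241)) * (t * v)) ^ 2 +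
      14559297926413037467071904336978920934283 / 2677831977719278594887425088575265000000000 * (t * u + (-(20083835705932878299354585878659658887757 / 24958796445279492800694693149106721601628)) * (t * v)) ^ 2 +
      6938685966175511016077329514833735728458479772883731 / 1096689515805580913662524816971749347175534320000000000 * (t * v) ^ 2)
      + v * (714419296320227 / 1375920000000000 * (t + (-(947777273899746624 / 1569579194015538719)) * (u) + 4769165458643334 / 714419296320227 * (t ^ 2) + 436709880906252541 / 362210583234355089 * (t * v)) ^ 2 +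
      68950182743435000386657061125499 / 131796528999216735978875460000000000 * (u + (-(182586950901722506510273135947168 / 68950182743435000386657061125499)) * (t ^ 2) + (-(438713643581460817560811401961471 / 827402192921220004639884733505988)) * (t * v)) ^ 2 +
      921521539297280155080964978067573405990843 / 57918153504485400324791931345419160000000000 * (t ^ 2 + 17326490261316488468313117198233109508326383 / 107818020097781778144472902433906088500928631 * (t * v)) ^ 2 +
      794922831878183929768475652715228274072254323123456334237 / 2046610282937701535280636191832600084411707347932480000000000 * (t * v) ^ 2)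
      + (u * (6 / 13 + t)) * (1 / 2500 * (t ^ 2) ^ 2)
      + (v * (6 / 13 + t)) * (5281 / 5000 * (t + 2254 / 5281 * (u) + 12053677415728633 / 21051316540800000 * (v) + (-(18467 / 10562)) * (t ^ 2)) ^ 2 +
      2317971 / 52810000 * (u + 1983908396282736958669 / 3903892099897608000000 * (v) + (-(11153696 / 2317971)) * (t ^ 2)) ^ 2 +
      11390748776435088207906325008767253109 / 18785362010436782070186240000000000000000 * (v + (-(18318504427984591262773526206008000000 / 11390748776435088207906325008767253109)) * (t ^ 2)) ^ 2 +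
      6627236552203883173623444414444743400179 / 797352414350456174553442750613707717630000 * (t ^ 2) ^ 2)
      + (u * (7 / 13 - t)) * (1 / 2500 * (t ^ 2) ^ 2)
      + (v * (7 / 13 - t)) * (267 / 5000 * (t + (-(188 / 267)) * (v) + 4751 / 534 * (t ^ 2)) ^ 2 +
      16545995707071367 / 25775160060000000000 * (v + (-(1583193352000000 / 447189073164091)) * (t ^ 2)) ^ 2 +
      536293511727182681 / 26831344389845460000 * (t ^ 2) ^ 2)
      + (g * v) * (794570879892271 / 3998540000000000 * (1 + (-(11910850952000000 / 794570879892271)) * (t)) ^ 2 +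
      76209488481634979 / 794570879892271000 * (t) ^ 2)
      + (g' * u) * (5037 / 2500 * (1 + 14551 / 20148 * (t)) ^ 2 +
      1537688047 / 40296000 * (t) ^ 2)
      + (u * v) * (4671 / 10000 * (t + 1538 / 4671 * (u) + 3364 / 4671 * (v)) ^ 2 +
      849189121071020339 / 4335774007500000000 * (u + 49146105121750000 / 849189121071020339 * (v)) ^ 2 +
      404592813914806137839568077751 / 788244940824555886820817500000000 * (v) ^ 2)
      + (g * g') * (136609 / 10000 * (1) ^ 2)
      + (g * (6 / 13 + t)) * (103793 / 5000 * (t + (-(56853 / 207586)) * (u) + (-(28083 / 103793)) * (v)) ^ 2 +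
      35459422721751 / 21926271250000000 * (u + (-(30458869613583 / 11819807573917)) * (v)) ^ 2 +
      870242392291203 / 236396151478340000 * (v) ^ 2)
      + (g * (7 / 13 - t)) * (123 / 5000 * (u) ^ 2) := by
    rw [ha1, hb1, ha2, hb2, hgd, hgd']
    unfold pa pb qa qb
    ring
  have h1 := mul_nonneg hr hQ1
  have h2 := mul_nonneg hu hQ2
  have h3 := mul_nonneg hv hQ3
  have h4 := mul_nonneg (mul_nonneg hu hρ) hQ4
  have h5 := mul_nonneg (mul_nonneg hv hρ) hQ5
  have h6 := mul_nonneg (mul_nonneg hu hr) hQ6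
  have h7 := mul_nonneg (mul_nonneg hv hr) hQ7
  have h8 := mul_nonneg (mul_nonneg hg hv) hQ8
  have h9 := mul_nonneg (mul_nonneg hg' hu) hQ9
  have h10 := mul_nonneg (mul_nonneg hu hv) hQ10
  have h11 := mul_nonneg (mul_nonneg hg hg') hQ11
  have h12 := mul_nonneg (mul_nonneg hg hρ) hQ12
  have h13 := mul_nonneg (mul_nonneg hg hr) hQ13
  rw [← sub_nonneg, e]
  exact add_nonneg (add_nonneg (add_nonneg (add_nonneg (add_nonneg (add_nonneg (add_nonneg (add_nonneg (add_nonneg (add_nonneg (add_nonneg (add_nonneg (add_nonneg hQ0 h1) h2) h3) h4) h5) h6) h7) h8) h9) h10) h11) h12) h13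

/-- the first block -/
noncomputable def uQ (ρ σ ν : ℝ) : ℝ := ν + 1 / 3 * √42 * σ + 7 / 6 * ρ

/-- the second block -/
noncomputable def vQ (ρ σ ν : ℝ) : ℝ := 1 - ν + 2 / 7 * √42 * σ + 6 / 7 * (1 - ρ)

/-- the integrand, for a coordinate -/
noncomputable def Ps (k : Prop) [Decidable k] (ρ σ ν x n : ℝ) : ℝ :=
  if k then -(√42 * qa (ρ - 6 / 13) (uQ ρ σ ν) (vQ ρ σ ν)) * x
      + qb (ρ - 6 / 13) (uQ ρ σ ν) (vQ ρ σ ν) * (n - √42 / 7 * x)
    else -(√42 * pa (ρ - 6 / 13) (uQ ρ σ ν) (vQ ρ σ ν)) * x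
      + pb (ρ - 6 / 13) (uQ ρ σ ν) (vQ ρ σ ν) * (n + √42 / 6 * x)

lemma Ps_in {k : Prop} [Decidable k] (hk : k) (ρ σ ν x n : ℝ) : Ps k ρ σ ν x n
    = n + (73799459 / 382200000 * √42) * x + (117153311 / 764400000 * √42) * (15 * (ρ * x) + 2 * (σ * n))
      + ((-(91450729 / 191100000)) * √42) * (ν * x - σ * n) + 4539 / 20000 * (14 * (ρ * n - σ * x) - 7 * n)
      + (14421 / 50000 * √42) * (4 * (ρ * (0 * x)) - 17 * (ρ ^ 2 * x) - 4 * (ρ * σ * n))
      + ((-(26369 / 100000)) * √42) * ((9 * ρ - ρ * ν - 2 * σ ^ 2 - 17 * ρ ^ 2) * x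
        - ρ * σ * n + ρ * (0))
      + 2779 / 6250 * (16 * (ρ * σ) * x + (9 * ρ - 16 * ρ ^ 2) * n
        - ρ * (0) - 2 * (σ * (0))) := by
  unfold Ps qa qb uQ vQ
  rw [if_pos hk]
  linear_combination ((-(1513 / 20000)) * σ * x + 1588 / 9375 * ρ * σ * x + 3767 / 300000 * √42 * σ ^ 2 * x) * sqK

lemma Ps_out {k : Prop} [Decidable k] (hk : ¬k) (ρ σ ν x n : ℝ) : Ps k ρ σ ν x n
    = n + ((-(3367387 / 16380000)) * √42) * x + ((-(3222683 / 327600000)) * √42) * (15 * (ρ * x) + 2 * (σ * n))
      + ((-(6176591 / 23400000)) * √42) * (ν * x - σ * n) + 27003 / 100000 * (14 * (ρ * n - σ * x) - 6 * n)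
      + ((-(5329 / 50000)) * √42) * (4 * (ρ * (1 * x)) - 17 * (ρ ^ 2 * x) - 4 * (ρ * σ * n))
      + (482 / 3125 * √42) * ((9 * ρ - ρ * ν - 2 * σ ^ 2 - 17 * ρ ^ 2) * x
        - ρ * σ * n + ρ * (x))
      + 99 / 400 * (16 * (ρ * σ) * x + (9 * ρ - 16 * ρ ^ 2) * n
        - ρ * (n) - 2 * (σ * (x))) := by
  unfold Ps pa pb uQ vQ
  rw [if_neg hk]
  linear_combination ((-(71257 / 700000)) * σ * x + 33 / 350 * ρ * σ * x + (-(482 / 65625)) * √42 * σ ^ 2 * x) * sqK

/-- the pointwise inequality -/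
lemma pointwise' (S : Finset (Fin 15)) (x N u : Fin 15 → ℝ) (hx : ∑ i, x i ^ 2 = 1)
    (hN : ∑ i, N i ^ 2 = 1) (hu : ∑ i, u i ^ 2 = 1) (hxN : ∑ i, x i * N i = 0) :
    ∑ k, Ps (k ∈ S) (∑ i ∈ Finset.univ \ S, x i ^ 2) (∑ i ∈ Finset.univ \ S, x i * N i)
        (∑ i ∈ Finset.univ \ S, N i ^ 2) (x k) (N k) * u k
      ≤ 79 / 100 * ∑ i, (if i ∈ S then 1 else 2)
        * (N i - (if i ∈ S then √42 / 7 else -(√42 / 6)) * x i) ^ 2 := by
  obtain ⟨ρ, hρ⟩ : ∃ ρ, ρ = ∑ i ∈ Finset.univ \ S, x i ^ 2 := ⟨_, rfl⟩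
  obtain ⟨ν, hν⟩ : ∃ ν, ν = ∑ i ∈ Finset.univ \ S, N i ^ 2 := ⟨_, rfl⟩
  obtain ⟨σ, hσ⟩ : ∃ σ, σ = ∑ i ∈ Finset.univ \ S, x i * N i := ⟨_, rfl⟩
  rw [← hρ, ← hν, ← hσ]
  have spl : ∀ f : Fin 15 → ℝ, ∑ i, f i = ∑ i ∈ S, f i + ∑ i ∈ Finset.univ \ S, f i := fun f => by
    rw [add_comm, Finset.sum_sdiff (Finset.subset_univ S)]
  have hρ2 : ∑ i ∈ S, x i ^ 2 = 1 - ρ := by
    have := spl fun i => x i ^ 2
    rw [hx, ← hρ] at this
    linarith
  have hν2 : ∑ i ∈ S, N i ^ 2 = 1 - ν := by
    have := spl fun i => N i ^ 2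
    rw [hN, ← hν] at this
    linarith
  have hσ2 : ∑ i ∈ S, x i * N i = -σ := by
    have := spl fun i => x i * N i
    rw [hxN, ← hσ] at this
    linarith
  have q6 := sqK
  have hA : ∑ i ∈ Finset.univ \ S, (N i + √42 / 6 * x i) ^ 2 = uQ ρ σ ν := by
    have : ∑ i ∈ Finset.univ \ S, (N i + √42 / 6 * x i) ^ 2 = ∑ i ∈ Finset.univ \ S,
        (N i ^ 2 + (1 / 3 * √42) * (x i * N i) + 7 / 6 * x i ^ 2) :=
      Finset.sum_congr rfl fun i _ => by linear_combination (x i ^ 2 / 36) * q6
    rw [this, Finset.sum_add_distrib, Finset.sum_add_distrib, ← Finset.mul_sum,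
      ← Finset.mul_sum, ← hρ, ← hν, ← hσ]
    rfl
  have hB : ∑ i ∈ S, (N i - √42 / 7 * x i) ^ 2 = vQ ρ σ ν := by
    have : ∑ i ∈ S, (N i - √42 / 7 * x i) ^ 2 = ∑ i ∈ S,
        (N i ^ 2 + (-(2 / 7 * √42)) * (x i * N i) + 6 / 7 * x i ^ 2) :=
      Finset.sum_congr rfl fun i _ => by linear_combination (x i ^ 2 / 49) * q6
    rw [this, Finset.sum_add_distrib, Finset.sum_add_distrib, ← Finset.mul_sum,
      ← Finset.mul_sum, hρ2, hν2, hσ2]
    unfold vQ
    ring
  obtain ⟨U, hU⟩ : ∃ U, U = uQ ρ σ ν := ⟨_, rfl⟩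
  obtain ⟨V, hV⟩ : ∃ V, V = vQ ρ σ ν := ⟨_, rfl⟩
  obtain ⟨t, ht⟩ : ∃ t, t = ρ - 6 / 13 := ⟨_, rfl⟩
  obtain ⟨a, ha⟩ : ∃ a, a = pa t U V := ⟨_, rfl⟩
  obtain ⟨α, hα⟩ : ∃ α, α = pb t U V := ⟨_, rfl⟩
  obtain ⟨b, hb⟩ : ∃ b, b = qa t U V := ⟨_, rfl⟩
  obtain ⟨β, hβ⟩ : ∃ β, β = qb t U V := ⟨_, rfl⟩
  obtain ⟨y, hy⟩ : ∃ y, y = 13 / 2 * t + 21 / 13 * (U + V) := ⟨_, rfl⟩
  obtain ⟨z, hz⟩ : ∃ z, z = 13 / 2 * t - 21 / 13 * (U + V) := ⟨_, rfl⟩
  obtain ⟨g, hg⟩ : ∃ g, g = (6 / 13 + t) * U - (13 / 2 * t + 21 / 13 * (U + V)) ^ 2 / 42 := ⟨_, rfl⟩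
  obtain ⟨g', hg'⟩ : ∃ g', g' = (7 / 13 - t) * V - (13 / 2 * t - 21 / 13 * (U + V)) ^ 2 / 42 := ⟨_, rfl⟩
  have hU0 : 0 ≤ U := by
    rw [hU, ← hA]
    exact Finset.sum_nonneg fun i _ => sq_nonneg _
  have hV0 : 0 ≤ V := by
    rw [hV, ← hB]
    exact Finset.sum_nonneg fun i _ => sq_nonneg _
  have hρ0 : 0 ≤ ρ := by
    rw [hρ]
    exact Finset.sum_nonneg fun i _ => sq_nonneg _
  have hρ1 : 0 ≤ 1 - ρ := by
    rw [← hρ2]
    exact Finset.sum_nonneg fun i _ => sq_nonneg _
  have hp1 : √42 * (σ + √42 / 6 * ρ) = y := by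
    rw [hy, hU, hV, ht]
    unfold uQ vQ
    linear_combination (ρ / 6) * q6
  have hp1' : ∑ i ∈ Finset.univ \ S, x i * (N i + √42 / 6 * x i) = σ + √42 / 6 * ρ := by
    rw [hσ, hρ, Finset.mul_sum, ← Finset.sum_add_distrib]
    exact Finset.sum_congr rfl fun i _ => by ring
  have hp2' : ∑ i ∈ S, x i * (N i - √42 / 7 * x i) = -σ - √42 / 7 * (1 - ρ) := by
    rw [← hσ2, ← hρ2, Finset.mul_sum, ← Finset.sum_sub_distrib]
    exact Finset.sum_congr rfl fun i _ => by ring
  have hp2 : √42 * (-σ - √42 / 7 * (1 - ρ)) = z := by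
    rw [hz, hU, hV, ht]
    unfold uQ vQ
    linear_combination (-(1 - ρ) / 7) * q6
  have hcs := Finset.sum_mul_sq_le_sq_mul_sq (Finset.univ \ S) x fun i => N i + √42 / 6 * x i
  rw [hp1', ← hρ, hA, ← hU] at hcs
  have hcs' := Finset.sum_mul_sq_le_sq_mul_sq S x fun i => N i - √42 / 7 * x i
  rw [hp2', hρ2, hB, ← hV] at hcs'
  have hg0 : 0 ≤ g := by
    have e : y ^ 2 = 42 * (σ + √42 / 6 * ρ) ^ 2 := by
      rw [← hp1]
      linear_combination ((σ + √42 / 6 * ρ) ^ 2) * q6
    rw [hg, ← hy, e, ht]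
    linarith
  have hg0' : 0 ≤ g' := by
    have e : z ^ 2 = 42 * (-σ - √42 / 7 * (1 - ρ)) ^ 2 := by
      rw [← hp2]
      linear_combination ((-σ - √42 / 7 * (1 - ρ)) ^ 2) * q6
    rw [hg', ← hz, e, ht]
    linarith
  have hρt : 0 ≤ 6 / 13 + t := by rw [ht]; linarith
  have hρt' : 0 ≤ 7 / 13 - t := by rw [ht]; linarith
  have key := cert hρt hρt' hU0 hV0 hg0 hg0' hg hg' ha hα hb hβ
  rw [← hy, ← hz] at key
  have hPs : ∀ k, Ps (k ∈ S) ρ σ ν (x k) (N k)
      = if k ∈ S then -(√42 * b) * x k + β * (N k - √42 / 7 * x k)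
        else -(√42 * a) * x k + α * (N k + √42 / 6 * x k) := by
    intro k
    unfold Ps
    rw [← hU, ← hV, ← ht, ← ha, ← hβ, ← hα, ← hb]
  have nS : ∑ k ∈ S, (-(√42 * b) * x k + β * (N k - √42 / 7 * x k)) ^ 2
      = 42 * b ^ 2 * (7 / 13 - t) - 2 * b * β * z + β ^ 2 * V := by
    have : ∑ k ∈ S, (-(√42 * b) * x k + β * (N k - √42 / 7 * x k)) ^ 2
        = ∑ k ∈ S, (42 * b ^ 2 * x k ^ 2 + (-2 * √42 * b * β) * (x k * (N k - √42 / 7 * x k))
          + β ^ 2 * (N k - √42 / 7 * x k) ^ 2) :=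
      Finset.sum_congr rfl fun i _ => by linear_combination (b ^ 2 * x i ^ 2) * q6
    rw [this, Finset.sum_add_distrib, Finset.sum_add_distrib, ← Finset.mul_sum,
      ← Finset.mul_sum, ← Finset.mul_sum, hρ2, hB, ← hV, hp2', ht]
    linear_combination (-2 * b * β) * hp2
  have nA : ∑ k ∈ Finset.univ \ S, (-(√42 * a) * x k + α * (N k + √42 / 6 * x k)) ^ 2
      = 42 * a ^ 2 * (6 / 13 + t) - 2 * a * α * y + α ^ 2 * U := by
    have : ∑ k ∈ Finset.univ \ S, (-(√42 * a) * x k + α * (N k + √42 / 6 * x k)) ^ 2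
        = ∑ k ∈ Finset.univ \ S, (42 * a ^ 2 * x k ^ 2
          + (-2 * √42 * a * α) * (x k * (N k + √42 / 6 * x k))
          + α ^ 2 * (N k + √42 / 6 * x k) ^ 2) :=
      Finset.sum_congr rfl fun i _ => by linear_combination (a ^ 2 * x i ^ 2) * q6
    rw [this, Finset.sum_add_distrib, Finset.sum_add_distrib, ← Finset.mul_sum,
      ← Finset.mul_sum, ← Finset.mul_sum, ← hρ, hA, ← hU, hp1', ht]
    linear_combination (-2 * a * α) * hp1
  have hn2 : ∑ k, Ps (k ∈ S) ρ σ ν (x k) (N k) ^ 2 ≤ (79 / 100 * (2 * U + V)) ^ 2 := by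
    refine le_trans (le_of_eq ?_) key
    rw [spl, ← nS, ← nA, add_comm]
    congr 1
    · refine Finset.sum_congr rfl fun i hi => ?_
      rw [hPs, if_neg (Finset.mem_sdiff.1 hi).2]
    · refine Finset.sum_congr rfl fun i hi => ?_
      rw [hPs, if_pos hi]
  have hfin : ∑ i, (if i ∈ S then (1 : ℝ) else 2)
      * (N i - (if i ∈ S then √42 / 7 else -(√42 / 6)) * x i) ^ 2 = 2 * U + V := by
    rw [spl, hU, hV, ← hA, ← hB, Finset.mul_sum, add_comm]
    congr 1
    · refine Finset.sum_congr rfl fun i hi => ?_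
      have := (Finset.mem_sdiff.1 hi).2
      rw [if_neg this, if_neg this]
      ring
    · refine Finset.sum_congr rfl fun i hi => ?_
      rw [if_pos hi, if_pos hi, one_mul]
  rw [hfin]
  have hcs2 := Finset.sum_mul_sq_le_sq_mul_sq Finset.univ
    (fun k => Ps (k ∈ S) ρ σ ν (x k) (N k)) u
  rw [hu, mul_one] at hcs2
  exact (abs_le_of_sq_le_sq' (hcs2.trans hn2) (by positivity)).2

section

variable {X : Type*} [MeasurableSpace X] {E : Type*} [NormedAddCommGroup E]
  [InnerProductSpace ℝ E] [FiniteDimensional ℝ E] [MeasurableSpace E] [BorelSpace E]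
  {μ : Measure X} [IsFiniteMeasure μ] {p n : X → E}

/-- the integrand differs from the normal by a null function -/
lemma coord' (h : TwoG μ 13 p n) (hp : UF p) (hn : UF n) [Nonempty X]
    (hsp : ∀ w, (∀ x, ⟪p x, w⟫ = 0) → w = 0) (b : OrthonormalBasis (Fin 15) ℝ E)
    (S : Finset (Fin 15)) (hS : S.card = 8) (k : Fin 15) :
    Nul μ (fun x => Ps (k ∈ S) (bρ p b (Finset.univ \ S) x) (bσ p n b (Finset.univ \ S) x)
      (bρ n b (Finset.univ \ S) x) ⟪p x, b k⟫ ⟪n x, b k⟫ - ⟪n x, b k⟫) := by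
  have hc : (Finset.univ \ S).card = 7 := by
    rw [Finset.card_sdiff_of_subset (Finset.subset_univ S), hS]
    simp
  have n0 := nul0 h (by norm_num) hp (b k) (μ := μ)
  have n1 := blk1 h (by norm_num) hp hn hsp b (Finset.univ \ S) (b k)
  have n2 := blk2 h (by norm_num) hp hn hsp b (Finset.univ \ S) (b k)
  have n3 := blk3 h hp hn hsp b (Finset.univ \ S) k
  have n4 := blk4 h hp hn hsp b (Finset.univ \ S) k
  have n5 := blk5 h hp hn hsp b (Finset.univ \ S) k
  have n6 := blk6 h hp hn hsp b (Finset.univ \ S) k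
  by_cases hk : k ∈ S
  · have hk' : k ∉ Finset.univ \ S := fun hh => (Finset.mem_sdiff.1 hh).2 hk
    refine (((((((n0.cmul (73799459 / 382200000 * √42)).add (n1.cmul (117153311 / 764400000 * √42))).add
      (n2.cmul ((-(91450729 / 191100000)) * √42))).add (n3.cmul (4539 / 20000))).add
      (n4.cmul (14421 / 50000 * √42))).add (n5.cmul ((-(26369 / 100000)) * √42))).add
      (n6.cmul (2779 / 6250))).congr fun x => ?_
    rw [Ps_in hk, hc]
    simp only [if_neg hk']
    push_cast
    ring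
  · have hk' : k ∈ Finset.univ \ S := Finset.mem_sdiff.2 ⟨Finset.mem_univ k, hk⟩
    refine (((((((n0.cmul ((-(3367387 / 16380000)) * √42)).add (n1.cmul ((-(3222683 / 327600000)) * √42))).add
      (n2.cmul ((-(6176591 / 23400000)) * √42))).add (n3.cmul (27003 / 100000))).add
      (n4.cmul ((-(5329 / 50000)) * √42))).add (n5.cmul (482 / 3125 * √42))).add
      (n6.cmul (99 / 400))).congr fun x => ?_
    rw [Ps_out hk, hc]
    simp only [if_pos hk']
    push_cast
    ring

/-- the one point identity -/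
theorem one (h : TwoG μ 13 p n) [Nonempty X]
    (hsp : ∀ w, (∀ x, ⟪p x, w⟫ = 0) → w = 0) (b : OrthonormalBasis (Fin 15) ℝ E)
    (S : Finset (Fin 15)) (hS : S.card = 8) :
    ‖∫ x, n x ∂μ‖ ≤ 79 / 100 * ∫ x, ∑ i, (if i ∈ S then 1 else 2)
      * (⟪n x, b i⟫ - (if i ∈ S then √42 / 7 else -(√42 / 6)) * ⟪p x, b i⟫) ^ 2 ∂μ :=
  one_abs h b (Cc := 79 / 100) (by norm_num) (fun i => if i ∈ S then (1 : ℝ) else 2)
    (fun i => by split_ifs <;> norm_num) (fun i => if i ∈ S then √42 / 7 else -(√42 / 6))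
    (fun k x => Ps (k ∈ S) (bρ p b (Finset.univ \ S) x) (bσ p n b (Finset.univ \ S) x)
      (bρ n b (Finset.univ \ S) x) ⟪p x, b k⟫ ⟪n x, b k⟫)
    (fun k => coord' h ⟨h.mp, h.np⟩ ⟨h.mn, h.nn⟩ hsp b S hS k)
    (fun x u hx hN hu hxN => pointwise' S (fun i => ⟪p x, b i⟫) (fun i => ⟪n x, b i⟫) u hx hN
      hu hxN)

/-- the one point identity with a general name for the eigenvalue -/
theorem one_dev (h : TwoG μ 13 p n) [Nonempty X]
    (hsp : ∀ w, (∀ x, ⟪p x, w⟫ = 0) → w = 0) {α : ℝ} (hα : 0 < α) (hα2 : α ^ 2 = 6 / 7)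
    (b : OrthonormalBasis (Fin 15) ℝ E) (S : Finset (Fin 15)) (hS : S.card = 8) :
    ‖∫ x, n x ∂μ‖ ≤ 79 / 100 * ∫ x, ∑ i, (if i ∈ S then 1 else 2)
      * (⟪n x, b i⟫ - (if i ∈ S then α else -(1 / α)) * ⟪p x, b i⟫) ^ 2 ∂μ := by
  have h1 : α = √42 / 7 := by
    have h2 : (√42 / 7 : ℝ) ^ 2 = α ^ 2 := by
      rw [hα2, div_pow, sqK]
      norm_num
    exact ((sq_eq_sq₀ (by positivity) hα.le).1 h2).symm
  have h3 : 1 / α = √42 / 6 := by
    rw [h1, one_div_div, div_eq_div_iff (by positivity) (by norm_num)]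
    linear_combination -sqK
  have h4 := one h hsp b S hS
  rw [h3, h1]
  exact h4

end

end Vale.Agent.P224.SO.One13Z
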