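import Vale.Agent.P224.SO.ClsG

/-!
Dimension 13: the number of points on the right from the value of the scalar functionals.
-/

namespace Vale.Agent.P224.SO.M13W

open Vale.Agent.P224.SO Vale.Agent.P224.SO.Rg

lemma A1 (d x : ℝ) (h : 12 * x ^ 2 ≤ d - d ^ 2) (hz : (1 / 50) ≤ x) :
    (8153 / 100000) ≤ QP 96 168 33 12 (22 / 5) (227 / 1000) 15 (169 / 6) (515 / 338) (-(1881 / 169)) 0 d x := by
  unfold QP Q
  nlinarith [mul_nonneg (sub_nonneg.2 hz) (lin_q (q := 12) (by norm_num) h (19 / 329) (20 / 297)),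
    sq_nonneg (d + (-(242677170 / 283567403)) * x + (-(633792667 / 479228911070))),
    sq_nonneg (x + (-(6104688828177279199625 / 93146664264963381082296)))]

lemma A2 (d x : ℝ) (h : 12 * x ^ 2 ≤ d - d ^ 2) :
    (-(24283 / 20000)) ≤ QP 96 168 33 12 (22 / 5) (227 / 1000) 15 (169 / 6) (515 / 338) (-(1881 / 169)) 0 d x := by
  unfold QP Q
  nlinarith [sq_nonneg (d + (-(58140 / 994807)) * x + (-(27438673 / 336244766))),
    sq_nonneg (x + (726348050933 / 9592337307826))]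

lemma L1 (d x : ℝ) (h : 12 * x ^ 2 ≤ d - d ^ 2) (hz' : x ≤ -(1 / 50)) :
    (29589 / 50000) ≤ QP 96 168 33 12 (22 / 5) (227 / 1000) 15 (169 / 6) (14 / 5) (47 / 2) (1293 / 10) d x := by
  unfold QP Q
  nlinarith [mul_nonneg (sub_nonneg.2 hz') (lin_q (q := 12) (by norm_num) h (23 / 302) (-(67 / 875))),
    sq_nonneg (d + (153638880 / 124322377) * x + (21873589 / 1243223770)),
    sq_nonneg (x + (918321221000742677 / 23768914680503741000))]

lemma L2 (d x : ℝ) (h : 12 * x ^ 2 ≤ d - d ^ 2) :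
    (-(186661 / 100000)) ≤ QP 96 168 33 12 (22 / 5) (227 / 1000) 15 (169 / 6) (14 / 5) (47 / 2) (1293 / 10) d x := by
  unfold QP Q
  nlinarith [sq_nonneg (d + (329760 / 1021327) * x + (-(196537 / 2042654))),
    sq_nonneg (x + (-(3531718974 / 47449239437)))]

lemma M1 (d x : ℝ) (h : 12 * x ^ 2 ≤ d - d ^ 2) :
    (-(35559 / 50000)) ≤ QP 96 168 33 12 (22 / 5) (227 / 1000) 15 (169 / 6) (19 / 5) (-(9 / 10)) (97 / 5) d x := by
  unfold QP Q
  nlinarith [sq_nonneg (d + (60 / 966127) * x + (-(147337 / 1932254))),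
    sq_nonneg (x + (-(3127823 / 253124674)))]

lemma M2 (d x : ℝ) (h : 12 * x ^ 2 ≤ d - d ^ 2) (hz : -(1 / 50) ≤ x) (hz' : x ≤ (1 / 50)) :
    (437 / 4000) ≤ QP 96 168 33 12 (22 / 5) (227 / 1000) 15 (169 / 6) (19 / 5) (-(9 / 10)) (97 / 5) d x := by
  unfold QP Q
  nlinarith [mul_nonneg (sub_nonneg.2 hz) (sub_nonneg.2 hz'),
    sq_nonneg (d + (60 / 828127) * x + (-(9337 / 1656254))),
    sq_nonneg (x + (-(3265823 / 3165100794)))]

lemma P1 (d x : ℝ) (h : 12 * x ^ 2 ≤ d - d ^ 2) (hz : (1 / 50) ≤ x) :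
    (-(29229 / 100000)) ≤ QP 96 168 33 12 (22 / 5) (227 / 1000) 15 (169 / 6) (2829 / 1250) (-(15901 / 2500)) 0 d x := by
  unfold QP Q
  nlinarith [mul_nonneg (sub_nonneg.2 hz) (lin_q (q := 12) (by norm_num) h (47 / 675) (59 / 803)),
    sq_nonneg (d + (-(31949828 / 39196215)) * x + (-(19059697 / 1959810750))),
    sq_nonneg (x + (-(213216671602597172957 / 2901823720210050852975)))]

lemma P2 (d x : ℝ) (h : 12 * x ^ 2 ≤ d - d ^ 2) (hz' : x ≤ -(1 / 50)) :
    (-(22427 / 25000)) ≤ QP 96 168 33 12 (22 / 5) (227 / 1000) 15 (169 / 6) (2829 / 1250) (-(15901 / 2500)) 0 d x := by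
  unfold QP Q
  nlinarith [sq_nonneg (d + (-(58140 / 979447)) * x + (-(757181 / 9794470))),
    sq_nonneg (x + (4841150056 / 64464266485))]

lemma P3 (d x : ℝ) (h : 12 * x ^ 2 ≤ d - d ^ 2) (hz : 0 ≤ x) (hz' : x ≤ (1 / 50)) :
    (11329 / 50000) ≤ QP 96 168 33 12 (22 / 5) (227 / 1000) 15 (169 / 6) (2829 / 1250) (-(15901 / 2500)) 0 d x := by
  unfold QP Q
  nlinarith [mul_nonneg (sub_nonneg.2 hz) (sub_nonneg.2 hz'),
    sq_nonneg (d + (-(58140 / 830827)) * x + (-(14081 / 8308270))),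
    sq_nonneg (x + (-(117596 / 4514535)))]

lemma N1 (d x : ℝ) (h : 12 * x ^ 2 ≤ d - d ^ 2) (hz : (1 / 50) ≤ x) :
    (-(146117 / 100000)) ≤ QP 96 168 33 12 (22 / 5) (227 / 1000) 15 (169 / 6) (1416 / 625) (161309 / 10000) (947097 / 10000) d x := by
  unfold QP Q
  nlinarith [sq_nonneg (d + (2259891 / 10051870) * x + (-(885953 / 10051870))),
    sq_nonneg (x + (-(1045342340389 / 14055344376173)))]

lemma N2 (d x : ℝ) (h : 12 * x ^ 2 ≤ d - d ^ 2) (hz' : x ≤ -(1 / 50)) :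
    (27229 / 100000) ≤ QP 96 168 33 12 (22 / 5) (227 / 1000) 15 (169 / 6) (1416 / 625) (161309 / 10000) (947097 / 10000) d x := by
  unfold QP Q
  nlinarith [mul_nonneg (sub_nonneg.2 hz') (lin_q (q := 12) (by norm_num) h (53 / 744) (-(62 / 835))),
    sq_nonneg (d + (121513198 / 132712085) * x + (-(33209 / 9651788))),
    sq_nonneg (x + (1163210655121224395059 / 15628037506690357818624))]

lemma N3 (d x : ℝ) (h : 12 * x ^ 2 ≤ d - d ^ 2) (hz : -(1 / 50) ≤ x) (hz' : x ≤ 0) :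
    (11349 / 50000) ≤ QP 96 168 33 12 (22 / 5) (227 / 1000) 15 (169 / 6) (1416 / 625) (161309 / 10000) (947097 / 10000) d x := by
  unfold QP Q
  nlinarith [mul_nonneg (sub_nonneg.2 hz) (sub_nonneg.2 hz'),
    sq_nonneg (d + (2259891 / 8280070) * x + (-(53 / 8280070))),
    sq_nonneg (x + (246926491 / 93699272618173))]

/-- the one point inequalities -/
noncomputable def dat : CDat 7 12 96 168 33 (321 / 52) (22 / 5) (227 / 1000) 15 (169 / 6) (843 / 2500) where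
  Z := (1 / 50)
  aA := (515 / 338)
  bA := (-(1881 / 169))
  ap := (8153 / 100000)
  an := (-(24283 / 20000))
  aL := (14 / 5)
  bL := (47 / 2)
  sL := (1293 / 10)
  lp := (29589 / 50000)
  ln := (-(186661 / 100000))
  aM := (19 / 5)
  bM := (-(9 / 10))
  sM := (97 / 5)
  mp := (-(35559 / 50000))
  mm := (437 / 4000)
  aP := (2829 / 1250)
  bP := (-(15901 / 2500))
  sP := 0
  pp := (-(29229 / 100000))
  pn := (-(22427 / 25000))
  p0 := (11329 / 50000)
  aN := (1416 / 625)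
  bN := (161309 / 10000)
  sN := (947097 / 10000)
  np := (-(146117 / 100000))
  nn := (27229 / 100000)
  n0 := (11349 / 50000)
  Zpos := by norm_num
  sL0 := by norm_num
  sM0 := by norm_num
  sP0 := by norm_num
  sN0 := by norm_num
  A3 := by norm_num
  A4 := by norm_num
  L3 := by norm_num
  L4 := by norm_num
  M3 := by norm_num
  M4 := by norm_num
  P4 := by norm_num
  N4 := by norm_num
  A1 := A1
  A2 := A2
  L1 := L1
  L2 := L2
  M1 := M1
  M2 := M2
  P1 := P1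
  P2 := P2
  P3 := P3
  N1 := N1
  N2 := N2
  N3 := N3

end Vale.Agent.P224.SO.M13W

namespace Vale.Agent.P224.SO.F13

open Finset Vale.Agent.P224.SO Vale.Agent.P224.SO.Rg

/-- the functional with a parameter -/
theorem cls_T {d x : Fin 15 → ℝ}
    (h : ∀ i, 12 * x i ^ 2 ≤ d i - d i ^ 2) (h1 : ∑ i, d i = 1) (h0 : ∑ i, x i = 0)
    (hv : ∑ i, d i * x i ≤ 0)
    (hS : 321 / 52 + (96 * ∑ i, d i ^ 2 - 168 * ∑ i, x i ^ 2 - 33 * ∑ i, d i * x i)
      + ∑ i, (22 / 5 * (d i - d i ^ 2 - 12 * x i ^ 2) + 227 / 1000 * ((1 - 15 * d i - 2 * x i) ^ 2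
        + 169 / 6 * (d i - d i ^ 2 - 12 * x i ^ 2))) < 3372 / 10000) :
    (Rt (1 / 50) x).card = 8 :=
  CDat.cls M13W.dat (by norm_num) h h1 h0 hv (hS.trans_le (by norm_num))

end Vale.Agent.P224.SO.F13
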