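import Vale.Agent.P224.SO.ClsG

/-!
Dimension 13: the number of points on the right from the value of the scalar functionals.
-/

namespace Vale.Agent.P224.SO.G13_97_32

open Vale.Agent.P224.SO Vale.Agent.P224.SO.Rg

lemma A1 (d x : ℝ) (h : 12 * x ^ 2 ≤ d - d ^ 2) (hz : (1 / 50) ≤ x) :
    (281 / 4000) ≤ QP 97 168 32 12 4 0 15 (169 / 6) (1667 / 1014) (-(1852 / 169)) 0 d x := by
  unfold QP Q
  nlinarith [mul_nonneg (sub_nonneg.2 hz) (lin_q (q := 12) (by norm_num) h (19 / 329) (20 / 297)),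
    sq_nonneg (d + (-(1569499 / 1600914)) * x + (126397759 / 20291584950)),
    sq_nonneg (x + (-(2195519714007806123 / 35441639557867374975)))]

lemma A2 (d x : ℝ) (h : 12 * x ^ 2 ≤ d - d ^ 2) :
    (-(6051 / 5000)) ≤ QP 97 168 32 12 4 0 15 (169 / 6) (1667 / 1014) (-(1852 / 169)) 0 d x := by
  unfold QP Q
  nlinarith [sq_nonneg (d + (-(1600 / 11567)) * x + (-(1029919 / 11728938))),
    sq_nonneg (x + (597344350 / 7891641069))]

lemma L1 (d x : ℝ) (h : 12 * x ^ 2 ≤ d - d ^ 2) (hz' : x ≤ -(1 / 50)) :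
    (25013 / 100000) ≤ QP 97 168 32 12 4 0 15 (169 / 6) (11 / 5) (84 / 5) (539 / 5) d x := by
  unfold QP Q
  nlinarith [mul_nonneg (sub_nonneg.2 hz') (lin_q (q := 12) (by norm_num) h (23 / 302) (-(67 / 875))),
    sq_nonneg (d + (891521 / 713475) * x + (220667 / 11891250)),
    sq_nonneg (x + (16807365560301 / 397695483073000))]

lemma L2 (d x : ℝ) (h : 12 * x ^ 2 ≤ d - d ^ 2) :
    (-(72017 / 50000)) ≤ QP 97 168 32 12 4 0 15 (169 / 6) (11 / 5) (84 / 5) (539 / 5) d x := by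
  unfold QP Q
  nlinarith [sq_nonneg (d + (1895 / 5868) * x + (-(47 / 489))),
    sq_nonneg (x + (-(1395780 / 18801263)))]

lemma M1 (d x : ℝ) (h : 12 * x ^ 2 ≤ d - d ^ 2) :
    (-(64627 / 100000)) ≤ QP 97 168 32 12 4 0 15 (169 / 6) (29 / 10) 0 32 d x := by
  unfold QP Q
  nlinarith [sq_nonneg (d + 0 * x + (-(423 / 5551))),
    sq_nonneg (x + 0)]

lemma M2 (d x : ℝ) (h : 12 * x ^ 2 ≤ d - d ^ 2) (hz : -(1 / 50) ≤ x) (hz' : x ≤ (1 / 50)) :
    (-(4097 / 50000)) ≤ QP 97 168 32 12 4 0 15 (169 / 6) (29 / 10) 0 32 d x := by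
  unfold QP Q
  nlinarith [mul_nonneg (sub_nonneg.2 hz) (sub_nonneg.2 hz'),
    sq_nonneg (d + 0 * x + (-(26 / 4757))),
    sq_nonneg (x + 0)]

lemma P1 (d x : ℝ) (h : 12 * x ^ 2 ≤ d - d ^ 2) (hz : (1 / 50) ≤ x) :
    (-(22117 / 100000)) ≤ QP 97 168 32 12 4 0 15 (169 / 6) (13 / 7) (-(95 / 14)) 2 d x := by
  unfold QP Q
  nlinarith [mul_nonneg (sub_nonneg.2 hz) (lin_q (q := 12) (by norm_num) h (53 / 744) (62 / 835)),
    sq_nonneg (d + (-(104765 / 121272)) * x + (-(3779189 / 517831440))),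
    sq_nonneg (x + (-(267291761870974508 / 3593987130184535525)))]

lemma P2 (d x : ℝ) (h : 12 * x ^ 2 ≤ d - d ^ 2) (hz' : x ≤ -(1 / 50)) :
    (-(5697 / 6250)) ≤ QP 97 168 32 12 4 0 15 (169 / 6) (13 / 7) (-(95 / 14)) 2 d x := by
  unfold QP Q
  nlinarith [sq_nonneg (d + (-(75 / 568)) * x + (-(323 / 3976))),
    sq_nonneg (x + (6175 / 82983))]

lemma P3 (d x : ℝ) (h : 12 * x ^ 2 ≤ d - d ^ 2) (hz : 0 ≤ x) (hz' : x ≤ (1 / 50)) :
    (-(1 / 50000)) ≤ QP 97 168 32 12 4 0 15 (169 / 6) (13 / 7) (-(95 / 14)) 2 d x := by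
  unfold QP Q
  nlinarith [mul_nonneg (sub_nonneg.2 hz) (sub_nonneg.2 hz'),
    sq_nonneg (d + (-(750 / 4757)) * x + (1 / 66598)),
    sq_nonneg (x + (-(338859 / 48857979100)))]

lemma N1 (d x : ℝ) (h : 12 * x ^ 2 ≤ d - d ^ 2) (hz : (1 / 50) ≤ x) :
    (-(5697 / 6250)) ≤ QP 97 168 32 12 4 0 15 (169 / 6) (13 / 7) (95 / 14) 62 d x := by
  unfold QP Q
  nlinarith [sq_nonneg (d + (75 / 568) * x + (-(323 / 3976))),
    sq_nonneg (x + (-(6175 / 82983)))]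

lemma N2 (d x : ℝ) (h : 12 * x ^ 2 ≤ d - d ^ 2) (hz' : x ≤ -(1 / 50)) :
    (-(22117 / 100000)) ≤ QP 97 168 32 12 4 0 15 (169 / 6) (13 / 7) (95 / 14) 62 d x := by
  unfold QP Q
  nlinarith [mul_nonneg (sub_nonneg.2 hz') (lin_q (q := 12) (by norm_num) h (53 / 744) (-(62 / 835))),
    sq_nonneg (d + (104765 / 121272) * x + (-(3779189 / 517831440))),
    sq_nonneg (x + (267291761870974508 / 3593987130184535525))]

lemma N3 (d x : ℝ) (h : 12 * x ^ 2 ≤ d - d ^ 2) (hz : -(1 / 50) ≤ x) (hz' : x ≤ 0) :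
    (-(1 / 50000)) ≤ QP 97 168 32 12 4 0 15 (169 / 6) (13 / 7) (95 / 14) 62 d x := by
  unfold QP Q
  nlinarith [mul_nonneg (sub_nonneg.2 hz) (sub_nonneg.2 hz'),
    sq_nonneg (d + (750 / 4757) * x + (1 / 66598)),
    sq_nonneg (x + (338859 / 48857979100))]

/-- the one point inequalities -/
noncomputable def dat : CDat 7 12 97 168 32 (159 / 26) 4 0 15 (169 / 6) (109 / 2500) where
  Z := (1 / 50)
  aA := (1667 / 1014)
  bA := (-(1852 / 169))
  ap := (281 / 4000)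
  an := (-(6051 / 5000))
  aL := (11 / 5)
  bL := (84 / 5)
  sL := (539 / 5)
  lp := (25013 / 100000)
  ln := (-(72017 / 50000))
  aM := (29 / 10)
  bM := 0
  sM := 32
  mp := (-(64627 / 100000))
  mm := (-(4097 / 50000))
  aP := (13 / 7)
  bP := (-(95 / 14))
  sP := 2
  pp := (-(22117 / 100000))
  pn := (-(5697 / 6250))
  p0 := (-(1 / 50000))
  aN := (13 / 7)
  bN := (95 / 14)
  sN := 62
  np := (-(5697 / 6250))
  nn := (-(22117 / 100000))
  n0 := (-(1 / 50000))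
  Zpos := by norm_num
  sL0 := by norm_num
  sM0 := by norm_num
  sP0 := by norm_num
  sN0 := by norm_num
  A3 := by norm_num
  A4 := by norm_num
  L3 := by norm_num
  L4 := by norm_num
  M3 := by norm_num
  M4 := by norm_num
  P4 := by norm_num
  N4 := by norm_num
  A1 := A1
  A2 := A2
  L1 := L1
  L2 := L2
  M1 := M1
  M2 := M2
  P1 := P1
  P2 := P2
  P3 := P3
  N1 := N1
  N2 := N2
  N3 := N3

end Vale.Agent.P224.SO.G13_97_32

namespace Vale.Agent.P224.SO.G13d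

open Finset Vale.Agent.P224.SO Vale.Agent.P224.SO.Rg

/-- the static functional -/
theorem cls_S {d x : Fin 15 → ℝ}
    (h : ∀ i, 12 * x i ^ 2 ≤ d i - d i ^ 2) (h1 : ∑ i, d i = 1) (h0 : ∑ i, x i = 0)
    (hv : ∑ i, d i * x i ≤ 0)
    (hS : 159 / 26 + (97 * ∑ i, d i ^ 2 - 168 * ∑ i, x i ^ 2 - 32 * ∑ i, d i * x i)
      + ∑ i, 4 * (d i - d i ^ 2 - 12 * x i ^ 2) < 436 / 10000) :
    (Rt (1 / 50) x).card = 8 := by
  refine CDat.cls G13_97_32.dat (by norm_num) h h1 h0 hv ?_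
  simp only [zero_mul, add_zero]
  exact hS.trans_le (by norm_num)

end Vale.Agent.P224.SO.G13d
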