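import Vale.Agent.P224.SO.RgN
import Vale.Agent.P224.SO.Rc15

/-!
Dimension 15: the stable scalar inequalities near the Clifford configuration.
-/

namespace Vale.Agent.P224.SO.N15V

open Finset Vale.Agent.P224.SO Vale.Agent.P224.SO.Rg Vale.Agent.P224.SO.M15

/-- the additional terms -/
noncomputable def PT (d x : ℝ) : ℝ :=
  (9 / 2) * (d - d ^ 2 - 14 * x ^ 2)
    + (47 / 200) * ((1 - 17 * d - 2 * x) ^ 2 + (225 / 7) * (d - d ^ 2 - 14 * x ^ 2))

lemma PT_nonneg {d x : ℝ} (h : 14 * x ^ 2 ≤ d - d ^ 2) : 0 ≤ PT d x := by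
  unfold PT
  linarith [sq_nonneg (1 - 17 * d - 2 * x)]

lemma nT0 (d x : ℝ) (h : 14 * x ^ 2 ≤ d - d ^ 2) (hz : (-(127 / 2500)) ≤ x) :
    (-(134 / 125)) + (99 / 500) ≤ Q 113 224 42 (-(7 / 125)) (-(1442 / 125)) 0 d x + PT d x := by
  unfold Q PT
  linarith [mul_nonneg (sub_nonneg.2 hz) (lin_q (q := 14) (by norm_num) h (47 / 2500) (363 / 10000)),
    sq_nonneg (d + (-(1933171709 / 3297893000)) * x + (-(555004957043 / 8244732500000))),
    sq_nonneg (x + (48911482828310711343 / 970443254729613085000))]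

lemma nTR1 (d x : ℝ) (h : 14 * x ^ 2 ≤ d - d ^ 2) (hz : (1 / 50) ≤ x) :
    (-(5209 / 62500)) ≤ Q 113 224 42 (533 / 1000) (-(9461 / 1000)) 0 d x + PT d x := by
  unfold Q PT
  linarith [mul_nonneg (sub_nonneg.2 hz) (lin_q (q := 14) (by norm_num) h (571 / 10000) (31 / 500)),
    sq_nonneg (d + (-(7405177437 / 12879659000)) * x + (-(13810997563 / 643982950000))),
    sq_nonneg (x + (-(98181225121955287371 / 1582835987770640443300)))]

lemma nTL1 (d x : ℝ) (h : 14 * x ^ 2 ≤ d - d ^ 2) :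
    (-(973091 / 1000000)) ≤ Q 113 224 42 (533 / 1000) (-(9461 / 1000)) 0 d x + PT d x := by
  unfold Q PT
  linarith [sq_nonneg (d + (-(910700 / 14036157)) * x + (-(656239 / 9357438))),
    sq_nonneg (x + (469945428135 / 7090684671398))]

lemma nTM1 (d x : ℝ) (h : 14 * x ^ 2 ≤ d - d ^ 2) (hz : (1 / 50) ≤ x) (hz' : x ≤ (341 / 10000)) :
    (159991 / 1000000) ≤ Q 113 224 42 (533 / 1000) (-(9461 / 1000)) 0 d x + PT d x := by
  unfold Q PT
  linarith [mul_nonneg (sub_nonneg.2 hz') (lin_q (q := 14) (by norm_num) h (21 / 625) (481 / 10000)),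
    mul_nonneg (sub_nonneg.2 hz) (sub_nonneg.2 hz'),
    sq_nonneg (d + (-(425958911 / 15520495250)) * x + (-(186454625873 / 11938842500000))),
    sq_nonneg (x + (-(117678746749983149908983 / 3450956373161436436880000)))]

lemma nTRB (d x : ℝ) (h : 14 * x ^ 2 ≤ d - d ^ 2) (hz : (341 / 10000) ≤ x) :
    (28 / 375) + (67 / 5) * ((121 / 128) * d - (7 / 4) * x + (7 / 128)) ≤ Q 113 224 42 (-(7 / 125)) (-(1442 / 125)) 0 d x + PT d x := by
  unfold Q PT
  linarith [mul_nonneg (sub_nonneg.2 hz) (lin_q (q := 14) (by norm_num) h (7 / 135) (8 / 135)),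
    sq_nonneg ((d - (7 / 135)) + (-(2711763103456 / 2867514654875)) * (x - (8 / 135))), sq_nonneg (x - (8 / 135))]

lemma nTLB (d x : ℝ) (h : 14 * x ^ 2 ≤ d - d ^ 2) (hz' : x ≤ (-(127 / 2500))) :
    (-(134 / 125)) + (67 / 5) * (2 * ((13 / 14) * d + 2 * x + (1 / 14))) ≤ Q 113 224 42 (-(7 / 125)) (-(1442 / 125)) 0 d x + PT d x := by
  unfold Q PT
  linarith [mul_nonneg (sub_nonneg.2 hz') (lin_q (q := 14) (by norm_num) h (1 / 15) (-(1 / 15))),
    sq_nonneg ((d - (1 / 15)) + (240299843 / 420501086) * (x - (-(1 / 15)))), sq_nonneg (x - (-(1 / 15)))]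

theorem nearT0 {d x : Fin 17 → ℝ} (h : ∀ i, 14 * x i ^ 2 ≤ d i - d i ^ 2)
    (h1 : ∑ i, d i = 1) (h0 : ∑ i, x i = 0) (hc : (Rt (1 / 50) x).card = 9)
    (hS : 113 * ∑ i, d i ^ 2 - 224 * ∑ i, x i ^ 2 - 42 * ∑ i, d i * x i + ∑ i, PT (d i) (x i) < -(199 / 25) + (99 / 500)) :
    -(199 / 25) + (67 / 5) * ∑ i, (if (1 / 50) ≤ x i then (121 / 128) * d i - (7 / 4) * x i + (7 / 128)
        else 2 * ((13 / 14) * d i + 2 * x i + (1 / 14)))
      ≤ 113 * ∑ i, d i ^ 2 - 224 * ∑ i, x i ^ 2 - 42 * ∑ i, d i * x i + ∑ i, PT (d i) (x i) := by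
  have hZL := left_le (K := 8) (a := (-(7 / 125))) (b := (-(1442 / 125))) (ap := (28 / 375)) (an := (-(134 / 125))) (ZL := (-(127 / 2500))) (P := PT)
    (A := 113) (B := 224) (c := 42) (T := -(199 / 25)) (t := (99 / 500)) (by norm_num) hc h h1 h0
    (fun d x h hz => le_trans (A1 d x h (by linarith)) (le_add_of_nonneg_right (PT_nonneg h)))
    (fun d x h => le_trans (A2 d x h) (le_add_of_nonneg_right (PT_nonneg h)))
    nT0 (by norm_num) hS
  have hne : (Rt (1 / 50) x).Nonempty := by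
    rw [← card_pos, hc]
    norm_num
  obtain ⟨i₀, hi₀, hmin⟩ := exists_min_image (Rt (1 / 50) x) x hne

  rcases le_total (x i₀) (341 / 10000) with hy | hy
  · have := stepS (K := 8) (a := (533 / 1000)) (b := (-(9461 / 1000))) (r := (-(5209 / 62500))) (l := (-(973091 / 1000000))) (μ := (159991 / 1000000)) (Z1 := (1 / 50)) (Z2 := (341 / 10000))
      (A := 113) (B := 224) (c := 42) (T := -(199 / 25)) (t := (99 / 500)) (P := PT) (by norm_num) hc h h1 h0 hi₀ hmin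
      (mem_Rt.1 hi₀) hy nTR1 nTL1 nTM1 (by norm_num)
    linarith

  exact stepB (K := 8) (κ := (67 / 5)) (w := 2) (a2 := (121 / 128)) (b2 := (7 / 4)) (c2 := (7 / 128)) (a1 := (13 / 14)) (b1 := 2)
    (c1 := (1 / 14)) (a := (-(7 / 125))) (b := (-(1442 / 125))) (ap := (28 / 375)) (an := (-(134 / 125))) (Z1 := (341 / 10000)) (ZL := (-(127 / 2500)))
    (A := 113) (B := 224) (c := 42) (T := -(199 / 25)) (P := PT) (by norm_num) hc h h1 h0
    (fun i hi => hy.trans (hmin i hi)) hZL nTRB nTLB (by norm_num)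

theorem nearTg {lu lv : ℝ} (hu : (9 / 2) ≤ lu) (hv : (47 / 200) ≤ lv) {d x : Fin 17 → ℝ}
    (h : ∀ i, 14 * x i ^ 2 ≤ d i - d i ^ 2)
    (h1 : ∑ i, d i = 1) (h0 : ∑ i, x i = 0) (hc : (Rt (1 / 50) x).card = 9) {w : ℝ} (hw : w ≤ 2)
    (hS : (199 / 25) + (113 * ∑ i, d i ^ 2 - 224 * ∑ i, x i ^ 2 - 42 * ∑ i, d i * x i)
      + ∑ i, (lu * (d i - d i ^ 2 - 14 * x i ^ 2) + lv * ((1 - 17 * d i - 2 * x i) ^ 2
        + (225 / 7) * (d i - d i ^ 2 - 14 * x i ^ 2))) < (99 / 500)) :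
    (67 / 5) * ∑ i, (if (1 / 50) ≤ x i then (121 / 128) * d i - (7 / 4) * x i + (7 / 128)
        else w * ((13 / 14) * d i + 2 * x i + (1 / 14)))
      ≤ (199 / 25) + (113 * ∑ i, d i ^ 2 - 224 * ∑ i, x i ^ 2 - 42 * ∑ i, d i * x i)
      + ∑ i, (lu * (d i - d i ^ 2 - 14 * x i ^ 2) + lv * ((1 - 17 * d i - 2 * x i) ^ 2
        + (225 / 7) * (d i - d i ^ 2 - 14 * x i ^ 2))) := by
  have e1 : ∑ i, PT (d i) (x i) ≤ ∑ i, (lu * (d i - d i ^ 2 - 14 * x i ^ 2)
      + lv * ((1 - 17 * d i - 2 * x i) ^ 2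
        + (225 / 7) * (d i - d i ^ 2 - 14 * x i ^ 2))) := by
    refine sum_le_sum fun i _ => ?_
    have h2 : 0 ≤ d i - d i ^ 2 - 14 * x i ^ 2 := by have := h i; linarith
    have h3 : 0 ≤ (1 - 17 * d i - 2 * x i) ^ 2
        + (225 / 7) * (d i - d i ^ 2 - 14 * x i ^ 2) := by positivity
    have h4 := mul_le_mul_of_nonneg_right hu h2
    have h5 := mul_le_mul_of_nonneg_right hv h3
    unfold PT
    linarith
  have e2 : (67 / 5) * ∑ i, (if (1 / 50) ≤ x i then (121 / 128) * d i - (7 / 4) * x i + (7 / 128)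
        else w * ((13 / 14) * d i + 2 * x i + (1 / 14)))
      ≤ (67 / 5) * ∑ i, (if (1 / 50) ≤ x i then (121 / 128) * d i - (7 / 4) * x i + (7 / 128)
        else 2 * ((13 / 14) * d i + 2 * x i + (1 / 14))) := by
    refine mul_le_mul_of_nonneg_left (sum_le_sum fun i _ => ?_) (by norm_num)
    split_ifs with hz
    · exact le_refl _
    · refine mul_le_mul_of_nonneg_right hw ?_
      have := lin_q (q := 14) (by norm_num) (h i) (1 / 15) (-(1 / 15))
      linarith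
  have e3 := nearT0 h h1 h0 hc (by linarith)
  linarith

end Vale.Agent.P224.SO.N15V
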