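import Vale.Agent.P224.SO.RgN

/-!
Dimension 15: the stable scalar inequalities near the Clifford configuration.
-/

namespace Vale.Agent.P224.SO.NS15p115c41

open Finset Vale.Agent.P224.SO Vale.Agent.P224.SO.Rg

/-- the additional terms -/
noncomputable def PS (d x : ℝ) : ℝ :=
  4 * (d - d ^ 2 - 14 * x ^ 2)

lemma PS_nonneg {d x : ℝ} (h : 14 * x ^ 2 ≤ d - d ^ 2) : 0 ≤ PS d x := by
  unfold PS
  linarith

lemma nSA1 (d x : ℝ) (h : 14 * x ^ 2 ≤ d - d ^ 2) (hz : (1 / 50) ≤ x) :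
    (11651 / 182250) ≤ Q 115 224 41 (72767 / 425250) (-(346607 / 30375)) 0 d x + PS d x := by
  unfold Q PS
  linarith [mul_nonneg (sub_nonneg.2 hz) (lin_q (q := 14) (by norm_num) h (7 / 135) (8 / 135)),
    sq_nonneg ((d - (7 / 135)) + (-(36854937315 / 31768378133)) * (x - (8 / 135))), sq_nonneg (x - (8 / 135))]

lemma nSA2 (d x : ℝ) (h : 14 * x ^ 2 ≤ d - d ^ 2) :
    (-(456871 / 425250)) ≤ Q 115 224 41 (72767 / 425250) (-(346607 / 30375)) 0 d x + PS d x := by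
  unfold Q PS
  linarith [sq_nonneg ((d - (1 / 15)) + (-(581175 / 3845641)) * (x - (-(1 / 15)))), sq_nonneg (x - (-(1 / 15)))]

lemma nS0 (d x : ℝ) (h : 14 * x ^ 2 ≤ d - d ^ 2) (hz : (-(27 / 500)) ≤ x) :
    (-(456871 / 425250)) + (49 / 500) ≤ Q 115 224 41 (72767 / 425250) (-(346607 / 30375)) 0 d x + PS d x := by
  unfold Q PS
  linarith [mul_nonneg (sub_nonneg.2 hz) (lin_q (q := 14) (by norm_num) h (3927 / 5000) (1097 / 10000)),
    sq_nonneg (d + (-(805380419 / 6397775000)) * x + (-(269018200253413 / 5441307637500000))),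
    sq_nonneg (x + (9674403850514441980457 / 178348922738491285092375))]

lemma nSR1 (d x : ℝ) (h : 14 * x ^ 2 ≤ d - d ^ 2) (hz : (1 / 50) ≤ x) :
    (-(32333 / 1000000)) ≤ Q 115 224 41 (453 / 1000) (-(5041 / 500)) 0 d x + PS d x := by
  unfold Q PS
  linarith [mul_nonneg (sub_nonneg.2 hz) (lin_q (q := 14) (by norm_num) h (36 / 625) (623 / 10000)),
    sq_nonneg (d + (-(93378007 / 151741625)) * x + (-(73096934 / 3793540625))),
    sq_nonneg (x + (-(1254971847345805649 / 20186703403554843200)))]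

lemma nSL1 (d x : ℝ) (h : 14 * x ^ 2 ≤ d - d ^ 2) :
    (-(40189 / 40000)) ≤ Q 115 224 41 (453 / 1000) (-(5041 / 500)) 0 d x + PS d x := by
  unfold Q PS
  linarith [sq_nonneg (d + (-(205000 / 1349871)) * x + (-(204401 / 2699742))),
    sq_nonneg (x + (23547947305 / 355732446487))]

lemma nSM1 (d x : ℝ) (h : 14 * x ^ 2 ≤ d - d ^ 2) (hz : (1 / 50) ≤ x) (hz' : x ≤ (63 / 2000)) :
    (93569 / 1000000) ≤ Q 115 224 41 (453 / 1000) (-(5041 / 500)) 0 d x + PS d x := by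
  unfold Q PS
  linarith [mul_nonneg (sub_nonneg.2 hz) (lin_q (q := 14) (by norm_num) h (141 / 10000) (63 / 2000)),
    mul_nonneg (sub_nonneg.2 hz') (lin_q (q := 14) (by norm_num) h (3 / 2000) (-(13 / 1250))),
    mul_nonneg (sub_nonneg.2 hz) (sub_nonneg.2 hz'),
    sq_nonneg (d + (-(31261272597 / 22648598000)) * x + (1331234706071 / 45297196000000)),
    sq_nonneg (x + (-(16584095977462750823253 / 526547175180349616782000)))]

lemma nSR2 (d x : ℝ) (h : 14 * x ^ 2 ≤ d - d ^ 2) (hz : (63 / 2000) ≤ x) :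
    (6011 / 1000000) + (67 / 10) * ((121 / 128) * d - (7 / 4) * x + (7 / 128)) ≤ Q 115 224 41 (293 / 1000) (-(1321 / 125)) 0 d x + PS d x := by
  unfold Q PS
  linarith [mul_nonneg (sub_nonneg.2 hz) (lin_q (q := 14) (by norm_num) h (287 / 5000) (311 / 5000)),
    sq_nonneg (d + (-(342839306 / 278659995)) * x + (3547882301 / 185773330000)),
    sq_nonneg (x + (-(45014904496957008 / 728406989530077125)))]

lemma nSL2 (d x : ℝ) (h : 14 * x ^ 2 ≤ d - d ^ 2) (hz' : x ≤ (-(27 / 500))) :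
    (-(128307 / 125000)) + (67 / 10) * (2 * ((13 / 14) * d + 2 * x + (1 / 14))) ≤ Q 115 224 41 (293 / 1000) (-(1321 / 125)) 0 d x + PS d x := by
  unfold Q PS
  linarith [mul_nonneg (sub_nonneg.2 hz') (lin_q (q := 14) (by norm_num) h (327 / 5000) (-(661 / 10000))),
    sq_nonneg (d + (19340069 / 85325150) * x + (-(105462426213 / 2090466175000))),
    sq_nonneg (x + (1964726323719863409 / 29731303554953546000))]

lemma nSM2 (d x : ℝ) (h : 14 * x ^ 2 ≤ d - d ^ 2) (hz : (63 / 2000) ≤ x) (hz' : x ≤ (173 / 5000)) :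
    (23417 / 1000000) + (67 / 10) * ((121 / 128) * d - (7 / 4) * x + (7 / 128)) ≤ Q 115 224 41 (293 / 1000) (-(1321 / 125)) 0 d x + PS d x := by
  unfold Q PS
  linarith [mul_nonneg (sub_nonneg.2 hz) (lin_q (q := 14) (by norm_num) h (32 / 625) (589 / 10000)),
    mul_nonneg (sub_nonneg.2 hz) (sub_nonneg.2 hz'),
    sq_nonneg (d + (-(114945472000000000000000 / 111000000000000000901213)) * x + (3323470985999999098787 / 222000000000000001802426)),
    sq_nonneg (x + (-(335909027106781181400250267974617400000000000 / 10662685697348608840449456074512005685294099583)))]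

lemma nSRB (d x : ℝ) (h : 14 * x ^ 2 ≤ d - d ^ 2) (hz : (173 / 5000) ≤ x) :
    (11651 / 182250) + (67 / 10) * ((121 / 128) * d - (7 / 4) * x + (7 / 128)) ≤ Q 115 224 41 (72767 / 425250) (-(346607 / 30375)) 0 d x + PS d x := by
  unfold Q PS
  linarith [mul_nonneg (sub_nonneg.2 hz) (lin_q (q := 14) (by norm_num) h (7 / 135) (8 / 135)),
    sq_nonneg ((d - (7 / 135)) + (-(848043053928 / 613991828293)) * (x - (8 / 135))), sq_nonneg (x - (8 / 135))]

lemma nSLB (d x : ℝ) (h : 14 * x ^ 2 ≤ d - d ^ 2) (hz' : x ≤ (-(27 / 500))) :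
    (-(456871 / 425250)) + (67 / 10) * (2 * ((13 / 14) * d + 2 * x + (1 / 14))) ≤ Q 115 224 41 (72767 / 425250) (-(346607 / 30375)) 0 d x + PS d x := by
  unfold Q PS
  linarith [mul_nonneg (sub_nonneg.2 hz') (lin_q (q := 14) (by norm_num) h (1 / 15) (-(1 / 15))),
    sq_nonneg ((d - (1 / 15)) + (27783441450 / 15050535151) * (x - (-(1 / 15)))), sq_nonneg (x - (-(1 / 15)))]

theorem nearS0 {d x : Fin 17 → ℝ} (h : ∀ i, 14 * x i ^ 2 ≤ d i - d i ^ 2)
    (h1 : ∑ i, d i = 1) (h0 : ∑ i, x i = 0) (hc : (Rt (1 / 50) x).card = 9)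
    (hS : 115 * ∑ i, d i ^ 2 - 224 * ∑ i, x i ^ 2 - 41 * ∑ i, d i * x i + ∑ i, PS (d i) (x i) < -(15893 / 2025) + (49 / 500)) :
    -(15893 / 2025) + (67 / 10) * ∑ i, (if (1 / 50) ≤ x i then (121 / 128) * d i - (7 / 4) * x i + (7 / 128)
        else 2 * ((13 / 14) * d i + 2 * x i + (1 / 14)))
      ≤ 115 * ∑ i, d i ^ 2 - 224 * ∑ i, x i ^ 2 - 41 * ∑ i, d i * x i + ∑ i, PS (d i) (x i) := by
  have hZL := left_le (K := 8) (a := (72767 / 425250)) (b := (-(346607 / 30375))) (ap := (11651 / 182250)) (an := (-(456871 / 425250))) (ZL := (-(27 / 500))) (P := PS)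
    (A := 115) (B := 224) (c := 41) (T := -(15893 / 2025)) (t := (49 / 500)) (by norm_num) hc h h1 h0
    nSA1
    nSA2
    nS0 (by norm_num) hS
  have hne : (Rt (1 / 50) x).Nonempty := by
    rw [← card_pos, hc]
    norm_num
  obtain ⟨i₀, hi₀, hmin⟩ := exists_min_image (Rt (1 / 50) x) x hne

  rcases le_total (x i₀) (63 / 2000) with hy | hy
  · have := stepS (K := 8) (a := (453 / 1000)) (b := (-(5041 / 500))) (r := (-(32333 / 1000000))) (l := (-(40189 / 40000))) (μ := (93569 / 1000000)) (Z1 := (1 / 50)) (Z2 := (63 / 2000))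
      (A := 115) (B := 224) (c := 41) (T := -(15893 / 2025)) (t := (49 / 500)) (P := PS) (by norm_num) hc h h1 h0 hi₀ hmin
      (mem_Rt.1 hi₀) hy nSR1 nSL1 nSM1 (by norm_num)
    linarith

  rcases le_total (x i₀) (173 / 5000) with hy' | hy'
  · exact stepG (K := 8) (κ := (67 / 10)) (w := 2) (a2 := (121 / 128)) (b2 := (7 / 4)) (c2 := (7 / 128)) (a1 := (13 / 14)) (b1 := 2)
      (c1 := (1 / 14)) (a := (293 / 1000)) (b := (-(1321 / 125))) (r := (6011 / 1000000)) (l := (-(128307 / 125000))) (μ := (23417 / 1000000)) (Z1 := (63 / 2000)) (Z2 := (173 / 5000)) (ZL := (-(27 / 500)))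
      (A := 115) (B := 224) (c := 41) (T := -(15893 / 2025)) (P := PS) (by norm_num) hc h h1 h0 hi₀ hmin
      hy hy' hZL nSR2 nSL2 nSM2 (by norm_num)
  clear hy; have hy := hy'; clear hy'

  exact stepB (K := 8) (κ := (67 / 10)) (w := 2) (a2 := (121 / 128)) (b2 := (7 / 4)) (c2 := (7 / 128)) (a1 := (13 / 14)) (b1 := 2)
    (c1 := (1 / 14)) (a := (72767 / 425250)) (b := (-(346607 / 30375))) (ap := (11651 / 182250)) (an := (-(456871 / 425250))) (Z1 := (173 / 5000)) (ZL := (-(27 / 500)))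
    (A := 115) (B := 224) (c := 41) (T := -(15893 / 2025)) (P := PS) (by norm_num) hc h h1 h0
    (fun i hi => hy.trans (hmin i hi)) hZL nSRB nSLB (by norm_num)

theorem nearSg {lu lv : ℝ} (hu : 4 ≤ lu) (hv : 0 ≤ lv) {d x : Fin 17 → ℝ}
    (h : ∀ i, 14 * x i ^ 2 ≤ d i - d i ^ 2)
    (h1 : ∑ i, d i = 1) (h0 : ∑ i, x i = 0) (hc : (Rt (1 / 50) x).card = 9) {w : ℝ} (hw : w ≤ 2)
    (hS : (15893 / 2025) + (115 * ∑ i, d i ^ 2 - 224 * ∑ i, x i ^ 2 - 41 * ∑ i, d i * x i)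
      + ∑ i, (lu * (d i - d i ^ 2 - 14 * x i ^ 2) + lv * ((1 - 17 * d i - 2 * x i) ^ 2
        + (225 / 7) * (d i - d i ^ 2 - 14 * x i ^ 2))) < (49 / 500)) :
    (67 / 10) * ∑ i, (if (1 / 50) ≤ x i then (121 / 128) * d i - (7 / 4) * x i + (7 / 128)
        else w * ((13 / 14) * d i + 2 * x i + (1 / 14)))
      ≤ (15893 / 2025) + (115 * ∑ i, d i ^ 2 - 224 * ∑ i, x i ^ 2 - 41 * ∑ i, d i * x i)
      + ∑ i, (lu * (d i - d i ^ 2 - 14 * x i ^ 2) + lv * ((1 - 17 * d i - 2 * x i) ^ 2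
        + (225 / 7) * (d i - d i ^ 2 - 14 * x i ^ 2))) := by
  have e1 : ∑ i, PS (d i) (x i) ≤ ∑ i, (lu * (d i - d i ^ 2 - 14 * x i ^ 2)
      + lv * ((1 - 17 * d i - 2 * x i) ^ 2
        + (225 / 7) * (d i - d i ^ 2 - 14 * x i ^ 2))) := by
    refine sum_le_sum fun i _ => ?_
    have h2 : 0 ≤ d i - d i ^ 2 - 14 * x i ^ 2 := by have := h i; linarith
    have h3 : 0 ≤ (1 - 17 * d i - 2 * x i) ^ 2
        + (225 / 7) * (d i - d i ^ 2 - 14 * x i ^ 2) := by positivity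
    have h4 := mul_le_mul_of_nonneg_right hu h2
    have h5 := mul_le_mul_of_nonneg_right hv h3
    unfold PS
    linarith
  have e2 : (67 / 10) * ∑ i, (if (1 / 50) ≤ x i then (121 / 128) * d i - (7 / 4) * x i + (7 / 128)
        else w * ((13 / 14) * d i + 2 * x i + (1 / 14)))
      ≤ (67 / 10) * ∑ i, (if (1 / 50) ≤ x i then (121 / 128) * d i - (7 / 4) * x i + (7 / 128)
        else 2 * ((13 / 14) * d i + 2 * x i + (1 / 14))) := by
    refine mul_le_mul_of_nonneg_left (sum_le_sum fun i _ => ?_) (by norm_num)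
    split_ifs with hz
    · exact le_refl _
    · refine mul_le_mul_of_nonneg_right hw ?_
      have := lin_q (q := 14) (by norm_num) (h i) (1 / 15) (-(1 / 15))
      linarith
  have e3 := nearS0 h h1 h0 hc (by linarith)
  linarith

theorem nearSl {ls : ℝ} (hu : 4 ≤ ls) {d x : Fin 17 → ℝ}
    (h : ∀ i, 14 * x i ^ 2 ≤ d i - d i ^ 2)
    (h1 : ∑ i, d i = 1) (h0 : ∑ i, x i = 0) (hc : (Rt (1 / 50) x).card = 9) {w : ℝ} (hw : w ≤ 2)
    (hS : (15893 / 2025) + (115 * ∑ i, d i ^ 2 - 224 * ∑ i, x i ^ 2 - 41 * ∑ i, d i * x i)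
      + ∑ i, ls * (d i - d i ^ 2 - 14 * x i ^ 2) < (49 / 500)) :
    (67 / 10) * ∑ i, (if (1 / 50) ≤ x i then (121 / 128) * d i - (7 / 4) * x i + (7 / 128)
        else w * ((13 / 14) * d i + 2 * x i + (1 / 14)))
      ≤ (15893 / 2025) + (115 * ∑ i, d i ^ 2 - 224 * ∑ i, x i ^ 2 - 41 * ∑ i, d i * x i) + ∑ i, ls * (d i - d i ^ 2 - 14 * x i ^ 2) := by
  have := nearSg (lu := ls) (lv := 0) hu le_rfl h h1 h0 hc hw
    (by simpa only [zero_mul, add_zero] using hS)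
  simpa only [zero_mul, add_zero] using this

end Vale.Agent.P224.SO.NS15p115c41
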