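import Vale.Agent.P224.SO.NulG

/-!
The one point identity in dimension 15, blocks 8 and 9: the mean normal is at most 77/100
times the mean square distance of the normal to a Clifford point, with the weight 2 on the
block of dimension 8.
-/

namespace Vale.Agent.P224.SO.One15Z

open MeasureTheory Set Filter Function Module Vale.Agent.P224.UE Vale.Agent.P224.SO
open scoped Topology RealInnerProductSpace ContDiff

set_option linter.unusedSectionVars false
set_option linter.unusedVariables false

lemma sqK : √56 ^ 2 = (56 : ℝ) := Real.sq_sqrt (by norm_num)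

/-- the coefficients in the block of dimension 8 -/
noncomputable def pa (t u v : ℝ) : ℝ := (-(25757869 / 367500000)) * (v) + 53669 / 2812500 * (v ^ 2) + 11467483 / 52500000 * (u) + 53669 / 1406250 * (u * v) + 53669 / 2812500 * (u ^ 2) + (-(261961 / 1500000)) * (t * v) + (-(31951 / 1500000)) * (t * u) + 6507 / 560000 * (t ^ 2)

/-- the coefficients in the block of dimension 8 -/
noncomputable def pb (t u v : ℝ) : ℝ := 892121 / 1500000 * (v) + 892121 / 1500000 * (u) + 10982093 / 16800000 * (t) + 20069 / 37500 * (t * v) + 20069 / 37500 * (t * u) + (-(98321 / 20000)) * (t ^ 2)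

/-- the coefficients in the block of dimension 9 -/
noncomputable def qa (t u v : ℝ) : ℝ := (-(12672613 / 105000000)) * (v) + (-(13321 / 468750)) * (v ^ 2) + 11001569 / 60000000 * (u) + (-(13321 / 234375)) * (u * v) + (-(13321 / 468750)) * (u ^ 2) + 38969 / 375000 * (t * v) + (-(23333 / 187500)) * (t * u) + 795579 / 560000 * (t ^ 2)

/-- the coefficients in the block of dimension 9 -/
noncomputable def qb (t u v : ℝ) : ℝ := 1091629 / 1875000 * (v) + 1091629 / 1875000 * (u) + 9873151 / 3000000 * (t) + (-(13426 / 9375)) * (t * v) + (-(13426 / 9375)) * (t * u) + (-(74747 / 12500)) * (t ^ 2)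

/-- the certificate -/
lemma cert {t u v g g' a1 B1 a2 B2 : ℝ} (hρ : 0 ≤ 7 / 15 + t) (hr : 0 ≤ 8 / 15 - t)
    (hu : 0 ≤ u) (hv : 0 ≤ v) (hg : 0 ≤ g) (hg' : 0 ≤ g')
    (hgd : g = (7 / 15 + t) * u - (15 / 2 * t + 28 / 15 * (u + v)) ^ 2 / 56)
    (hgd' : g' = (8 / 15 - t) * v - (15 / 2 * t - 28 / 15 * (u + v)) ^ 2 / 56)
    (ha1 : a1 = pa t u v) (hb1 : B1 = pb t u v) (ha2 : a2 = qa t u v) (hb2 : B2 = qb t u v) :
    (56 * a1 ^ 2 * (7 / 15 + t) - 2 * a1 * B1 * (15 / 2 * t + 28 / 15 * (u + v)) + B1 ^ 2 * u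
      + (56 * a2 ^ 2 * (8 / 15 - t) - 2 * a2 * B2 * (15 / 2 * t - 28 / 15 * (u + v)) + B2 ^ 2 * v))
      ≤ (77 / 100 * (2 * u + v)) ^ 2 := by
  have hQ0 : (0 : ℝ) ≤ 11307836213929 / 93750000000000 * (u + (-(63159375000000 / 11307836213929)) * (t ^ 2) + (-(1396875000000 / 11307836213929)) * (t * u) + (-(403125000000 / 11307836213929)) * (u ^ 2) + 7153125000000 / 11307836213929 * (v ^ 2)) ^ 2 +
      6685661245494140120973939 / 7092274873376268800000000 * (t ^ 2 + 1047237664790197547520000 / 2228553748498046706991313 * (t * u) + (-(1694468178288560165120000 / 6685661245494140120973939)) * (u ^ 2) + (-(753412514585525509120000 / 6685661245494140120973939)) * (v ^ 2)) ^ 2 +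
      17809454823108793720059829 / 5571384371245116767478282500 * (t * u + (-(18492130609222463366334471 / 35618909646217587440119658)) * (u ^ 2) + 999878171372286375631391 / 71237819292435174880239316 * (v ^ 2)) ^ 2 +
      62598227609520285484291737058835099 / 132070847229475002257523756317138671875 * (u ^ 2 + 61620858160552277664966667130591379 / 2003143283504649135497335585882723168 * (v ^ 2)) ^ 2 +
      186061266353621086565734301669328887476483514827 / 475355290909794667896340378290529033031250000000000 * (v ^ 2) ^ 2 := by positivity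
  have hQ1 : (0 : ℝ) ≤ 50763057661691 / 918750000000000 * (v + (-(252288750000000 / 50763057661691)) * (t ^ 2) + (-(316693125000000 / 50763057661691)) * (t * u) + 66241875000000 / 50763057661691 * (t * v)) ^ 2 +
      5710522344543642441903 / 568546245810939200000000 * (t ^ 2 + 2362453990452227840000 / 1903507448181214147301 * (t * u) + (-(1346419464005769440000 / 5710522344543642441903)) * (t * v)) ^ 2 +
      2026905004560883997267 / 1903507448181214147301000 * (t * u + (-(2929975266296179246229 / 20269050045608839972670)) * (t * v)) ^ 2 +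
      264173137634648887474087 / 608071501368265199180100000 * (t * v) ^ 2 := by positivity
  have hQ2 : (0 : ℝ) ≤ 1006615152871273 / 2352000000000000 * (t + (-(13059860685391772 / 75496136465345475)) * (u) + (-(148047741622223624 / 226488409396036425)) * (v) + 359070850218220 / 91510468442843 * (t ^ 2) + (-(6310397041533536 / 4117971079927935)) * (t * u) + (-(55656243900686912 / 45297681879207285)) * (t * v)) ^ 2 +
      174203873224071556165336616777 / 50959892114108195625000000000000 * (u + (-(5520561384253778987679741467966 / 1219427112568500893157356317439)) * (v) + (-(856017170534142188157306884625 / 174203873224071556165336616777)) * (t ^ 2) + 17189172507394227309676823160 / 174203873224071556165336616777 * (t * u) + (-(2750865344211620325068846300480 / 174203873224071556165336616777)) * (t * v)) ^ 2 +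
      476289146894751642498666196242964814931976891 / 46300123180335268287068372677762031250000000000 * (v + 341346860835464935870719601331524152831751125 / 476289146894751642498666196242964814931976891 * (t ^ 2) + 52097603677399596556797285415393958546469280 / 476289146894751642498666196242964814931976891 * (t * u) + 1533102675416755497921597988588853199441224660 / 476289146894751642498666196242964814931976891 * (t * v)) ^ 2 +
      12996283128546570279028364674663035085201139247652769 / 1667012014131630748745331686850376852261919118500000000 * (t ^ 2 + (-(195148923521640675905360019034603096866491304670982879 / 584832740784595662556276410359836578834051266144374605)) * (t * u) + 890378683939598683479767071475233217954185280098116074 / 2924163703922978312781382051799182894170256330721873025 * (t * v)) ^ 2 +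
      5211509368783017905243737442740590747379411314962138243555777929 / 11513894584196727106576691828959282645795384302217375035937500000000 * (t * u + 3670124713364488765326686904758329281626056365338260253259926738 / 5211509368783017905243737442740590747379411314962138243555777929 * (t * v)) ^ 2 +
      50937383095043980025784009735678086912903516616736239897175397914924883371 / 10993027574776678393873508668280933607753445742498260357500469068984375000000 * (t * v) ^ 2 := by positivity
  have hQ3 : (0 : ℝ) ≤ 2878243596702619 / 6174000000000000 * (t + (-(1858374000000000 / 2878243596702619)) * (u) + 21971374287125876 / 215868269752696425 * (v) + 35732259798107565 / 5756487193405238 * (t ^ 2) + 358092000000000 / 2878243596702619 * (t * u) + 43764824585715436 / 43173653950539285 * (t * v)) ^ 2 +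
      283954799833867367 / 2878243596702619000 * (u + 4454700962897924426 / 21296609987540052525 * (v) + (-(12582268065305422994 / 1419773999169336835)) * (t ^ 2) + (-(997459849133805696 / 283954799833867367)) * (t * u) + (-(1092107368950481834 / 851864399501602101)) * (t * v)) ^ 2 +
      49216458397441584020227159837996759 / 616337203420651332606328125000000000 * (v + (-(1080564793710840538402214794792845375 / 393731667179532672161817278703974072)) * (t ^ 2) + 677322384274781150971570312500000 / 3785881415187814155402089218307443 * (t * u) + 75216298423412868643627269720622235 / 49216458397441584020227159837996759 * (t * v)) ^ 2 +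
      179245014647688511713414649918598307263774753 / 5512243340513457410265441901855637008000000000 * (t ^ 2 + 1225972709245449536949023874842593288200000 / 3381981408446953051196502828652798250259901 * (t * u) + 21772365339946453445987807102719054882135584716 / 201650641478649575677591481158423095671746597125 * (t * v)) ^ 2 +
      74554111776137465461280433704704057214018819 / 16909907042234765255982514143263991251299505000 * (t * u + 1121955810192593221507110067874157332344719689 / 2727589455224541419315137818464782581000688500 * (t * v)) ^ 2 +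
      155394282146214481766457637984316801042053468029184415297 / 121974390950822461594998819319471996044124538859375000000000 * (t * v) ^ 2 := by positivity
  have hQ4 : (0 : ℝ) ≤ 1 / 2500 * (t ^ 2) ^ 2 := by positivity
  have hQ5 : (0 : ℝ) ≤ 1 / 2500 * (t ^ 2) ^ 2 := by positivity
  have hQ6 : (0 : ℝ) ≤ 1 / 2500 * (t ^ 2) ^ 2 := by positivity
  have hQ7 : (0 : ℝ) ≤ 1 / 2500 * (t ^ 2) ^ 2 := by positivity
  have hQ8 : (0 : ℝ) ≤ 86848390306033 / 344531250000000 * (1 + (-(1145463046875000 / 86848390306033)) * (t)) ^ 2 +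
      6880600747122811 / 108560487882541250 * (t) ^ 2 := by positivity
  have hQ9 : (0 : ℝ) ≤ 18971 / 10000 * (1 + 29964 / 18971 * (t)) ^ 2 +
      8637912883 / 189710000 * (t) ^ 2 := by positivity
  have hQ10 : (0 : ℝ) ≤ 301 / 5000 * (1 + (-(667 / 602)) * (t) + (-(1167 / 602)) * (u) + (-(499 / 301)) * (v)) ^ 2 +
      867471 / 6020000 * (t + (-(295585 / 867471)) * (u) + 631042 / 867471 * (v)) ^ 2 +
      10229110936204661 / 4288644470214843750 * (u + 11185763818359375 / 40916443744818644 * (v)) ^ 2 +
      1545032953963713892478422523 / 2427415974118879514648437500000 * (v) ^ 2 := by positivity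
  have hQ11 : (0 : ℝ) ≤ 8297 / 625 * (1) ^ 2 := by positivity
  have hQ12 : (0 : ℝ) ≤ 6483 / 400 * (t + (-(16172 / 54025)) * (u) + (-(47777 / 162075)) * (v)) ^ 2 +
      1291890323 / 3038906250000 * (u + (-(10844164 / 30043961)) * (v)) ^ 2 +
      486163649479 / 22532970750000 * (v) ^ 2 := by positivity
  have hQ13 : (0 : ℝ) ≤ 23761 / 10000 * (t + 2302 / 23761 * (u)) ^ 2 +
      94543 / 237610000 * (u) ^ 2 := by positivity
  have e : (77 / 100 * (2 * u + v)) ^ 2 - (56 * a1 ^ 2 * (7 / 15 + t) - 2 * a1 * B1 * (15 / 2 * t + 28 / 15 * (u + v)) + B1 ^ 2 * u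
      + (56 * a2 ^ 2 * (8 / 15 - t) - 2 * a2 * B2 * (15 / 2 * t - 28 / 15 * (u + v)) + B2 ^ 2 * v))
      = (11307836213929 / 93750000000000 * (u + (-(63159375000000 / 11307836213929)) * (t ^ 2) + (-(1396875000000 / 11307836213929)) * (t * u) + (-(403125000000 / 11307836213929)) * (u ^ 2) + 7153125000000 / 11307836213929 * (v ^ 2)) ^ 2 +
      6685661245494140120973939 / 7092274873376268800000000 * (t ^ 2 + 1047237664790197547520000 / 2228553748498046706991313 * (t * u) + (-(1694468178288560165120000 / 6685661245494140120973939)) * (u ^ 2) + (-(753412514585525509120000 / 6685661245494140120973939)) * (v ^ 2)) ^ 2 +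
      17809454823108793720059829 / 5571384371245116767478282500 * (t * u + (-(18492130609222463366334471 / 35618909646217587440119658)) * (u ^ 2) + 999878171372286375631391 / 71237819292435174880239316 * (v ^ 2)) ^ 2 +
      62598227609520285484291737058835099 / 132070847229475002257523756317138671875 * (u ^ 2 + 61620858160552277664966667130591379 / 2003143283504649135497335585882723168 * (v ^ 2)) ^ 2 +
      186061266353621086565734301669328887476483514827 / 475355290909794667896340378290529033031250000000000 * (v ^ 2) ^ 2)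
      + (8 / 15 - t) * (50763057661691 / 918750000000000 * (v + (-(252288750000000 / 50763057661691)) * (t ^ 2) + (-(316693125000000 / 50763057661691)) * (t * u) + 66241875000000 / 50763057661691 * (t * v)) ^ 2 +
      5710522344543642441903 / 568546245810939200000000 * (t ^ 2 + 2362453990452227840000 / 1903507448181214147301 * (t * u) + (-(1346419464005769440000 / 5710522344543642441903)) * (t * v)) ^ 2 +
      2026905004560883997267 / 1903507448181214147301000 * (t * u + (-(2929975266296179246229 / 20269050045608839972670)) * (t * v)) ^ 2 +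
      264173137634648887474087 / 608071501368265199180100000 * (t * v) ^ 2)
      + u * (1006615152871273 / 2352000000000000 * (t + (-(13059860685391772 / 75496136465345475)) * (u) + (-(148047741622223624 / 226488409396036425)) * (v) + 359070850218220 / 91510468442843 * (t ^ 2) + (-(6310397041533536 / 4117971079927935)) * (t * u) + (-(55656243900686912 / 45297681879207285)) * (t * v)) ^ 2 +
      174203873224071556165336616777 / 50959892114108195625000000000000 * (u + (-(5520561384253778987679741467966 / 1219427112568500893157356317439)) * (v) + (-(856017170534142188157306884625 / 174203873224071556165336616777)) * (t ^ 2) + 17189172507394227309676823160 / 174203873224071556165336616777 * (t * u) + (-(2750865344211620325068846300480 / 174203873224071556165336616777)) * (t * v)) ^ 2 +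
      476289146894751642498666196242964814931976891 / 46300123180335268287068372677762031250000000000 * (v + 341346860835464935870719601331524152831751125 / 476289146894751642498666196242964814931976891 * (t ^ 2) + 52097603677399596556797285415393958546469280 / 476289146894751642498666196242964814931976891 * (t * u) + 1533102675416755497921597988588853199441224660 / 476289146894751642498666196242964814931976891 * (t * v)) ^ 2 +
      12996283128546570279028364674663035085201139247652769 / 1667012014131630748745331686850376852261919118500000000 * (t ^ 2 + (-(195148923521640675905360019034603096866491304670982879 / 584832740784595662556276410359836578834051266144374605)) * (t * u) + 890378683939598683479767071475233217954185280098116074 / 2924163703922978312781382051799182894170256330721873025 * (t * v)) ^ 2 +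
      5211509368783017905243737442740590747379411314962138243555777929 / 11513894584196727106576691828959282645795384302217375035937500000000 * (t * u + 3670124713364488765326686904758329281626056365338260253259926738 / 5211509368783017905243737442740590747379411314962138243555777929 * (t * v)) ^ 2 +
      50937383095043980025784009735678086912903516616736239897175397914924883371 / 10993027574776678393873508668280933607753445742498260357500469068984375000000 * (t * v) ^ 2)
      + v * (2878243596702619 / 6174000000000000 * (t + (-(1858374000000000 / 2878243596702619)) * (u) + 21971374287125876 / 215868269752696425 * (v) + 35732259798107565 / 5756487193405238 * (t ^ 2) + 358092000000000 / 2878243596702619 * (t * u) + 43764824585715436 / 43173653950539285 * (t * v)) ^ 2 +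
      283954799833867367 / 2878243596702619000 * (u + 4454700962897924426 / 21296609987540052525 * (v) + (-(12582268065305422994 / 1419773999169336835)) * (t ^ 2) + (-(997459849133805696 / 283954799833867367)) * (t * u) + (-(1092107368950481834 / 851864399501602101)) * (t * v)) ^ 2 +
      49216458397441584020227159837996759 / 616337203420651332606328125000000000 * (v + (-(1080564793710840538402214794792845375 / 393731667179532672161817278703974072)) * (t ^ 2) + 677322384274781150971570312500000 / 3785881415187814155402089218307443 * (t * u) + 75216298423412868643627269720622235 / 49216458397441584020227159837996759 * (t * v)) ^ 2 +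
      179245014647688511713414649918598307263774753 / 5512243340513457410265441901855637008000000000 * (t ^ 2 + 1225972709245449536949023874842593288200000 / 3381981408446953051196502828652798250259901 * (t * u) + 21772365339946453445987807102719054882135584716 / 201650641478649575677591481158423095671746597125 * (t * v)) ^ 2 +
      74554111776137465461280433704704057214018819 / 16909907042234765255982514143263991251299505000 * (t * u + 1121955810192593221507110067874157332344719689 / 2727589455224541419315137818464782581000688500 * (t * v)) ^ 2 +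
      155394282146214481766457637984316801042053468029184415297 / 121974390950822461594998819319471996044124538859375000000000 * (t * v) ^ 2)
      + (u * (7 / 15 + t)) * (1 / 2500 * (t ^ 2) ^ 2)
      + (v * (7 / 15 + t)) * (1 / 2500 * (t ^ 2) ^ 2)
      + (u * (8 / 15 - t)) * (1 / 2500 * (t ^ 2) ^ 2)
      + (v * (8 / 15 - t)) * (1 / 2500 * (t ^ 2) ^ 2)
      + (g * v) * (86848390306033 / 344531250000000 * (1 + (-(1145463046875000 / 86848390306033)) * (t)) ^ 2 +
      6880600747122811 / 108560487882541250 * (t) ^ 2)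
      + (g' * u) * (18971 / 10000 * (1 + 29964 / 18971 * (t)) ^ 2 +
      8637912883 / 189710000 * (t) ^ 2)
      + (u * v) * (301 / 5000 * (1 + (-(667 / 602)) * (t) + (-(1167 / 602)) * (u) + (-(499 / 301)) * (v)) ^ 2 +
      867471 / 6020000 * (t + (-(295585 / 867471)) * (u) + 631042 / 867471 * (v)) ^ 2 +
      10229110936204661 / 4288644470214843750 * (u + 11185763818359375 / 40916443744818644 * (v)) ^ 2 +
      1545032953963713892478422523 / 2427415974118879514648437500000 * (v) ^ 2)
      + (g * g') * (8297 / 625 * (1) ^ 2)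
      + (g * (7 / 15 + t)) * (6483 / 400 * (t + (-(16172 / 54025)) * (u) + (-(47777 / 162075)) * (v)) ^ 2 +
      1291890323 / 3038906250000 * (u + (-(10844164 / 30043961)) * (v)) ^ 2 +
      486163649479 / 22532970750000 * (v) ^ 2)
      + (g * (8 / 15 - t)) * (23761 / 10000 * (t + 2302 / 23761 * (u)) ^ 2 +
      94543 / 237610000 * (u) ^ 2) := by
    rw [ha1, hb1, ha2, hb2, hgd, hgd']
    unfold pa pb qa qb
    ring
  have h1 := mul_nonneg hr hQ1
  have h2 := mul_nonneg hu hQ2
  have h3 := mul_nonneg hv hQ3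
  have h4 := mul_nonneg (mul_nonneg hu hρ) hQ4
  have h5 := mul_nonneg (mul_nonneg hv hρ) hQ5
  have h6 := mul_nonneg (mul_nonneg hu hr) hQ6
  have h7 := mul_nonneg (mul_nonneg hv hr) hQ7
  have h8 := mul_nonneg (mul_nonneg hg hv) hQ8
  have h9 := mul_nonneg (mul_nonneg hg' hu) hQ9
  have h10 := mul_nonneg (mul_nonneg hu hv) hQ10
  have h11 := mul_nonneg (mul_nonneg hg hg') hQ11
  have h12 := mul_nonneg (mul_nonneg hg hρ) hQ12
  have h13 := mul_nonneg (mul_nonneg hg hr) hQ13
  rw [← sub_nonneg, e]
  exact add_nonneg (add_nonneg (add_nonneg (add_nonneg (add_nonneg (add_nonneg (add_nonneg (add_nonneg (add_nonneg (add_nonneg (add_nonneg (add_nonneg (add_nonneg hQ0 h1) h2) h3) h4) h5) h6) h7) h8) h9) h10) h11) h12) h13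

/-- the first block -/
noncomputable def uQ (ρ σ ν : ℝ) : ℝ := ν + 2 / 7 * √56 * σ + 8 / 7 * ρ

/-- the second block -/
noncomputable def vQ (ρ σ ν : ℝ) : ℝ := 1 - ν + 1 / 4 * √56 * σ + 7 / 8 * (1 - ρ)

/-- the integrand, for a coordinate -/
noncomputable def Ps (k : Prop) [Decidable k] (ρ σ ν x n : ℝ) : ℝ :=
  if k then -(√56 * qa (ρ - 7 / 15) (uQ ρ σ ν) (vQ ρ σ ν)) * x
      + qb (ρ - 7 / 15) (uQ ρ σ ν) (vQ ρ σ ν) * (n - √56 / 8 * x)
    else -(√56 * pa (ρ - 7 / 15) (uQ ρ σ ν) (vQ ρ σ ν)) * x
      + pb (ρ - 7 / 15) (uQ ρ σ ν) (vQ ρ σ ν) * (n + √56 / 7 * x)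

lemma Ps_in {k : Prop} [Decidable k] (hk : k) (ρ σ ν x n : ℝ) : Ps k ρ σ ν x n
    = n + (28460879 / 168000000 * √56) * x + (21781337 / 168000000 * √56) * (17 * (ρ * x) + 2 * (σ * n))
      + ((-(11497333 / 28000000)) * √56) * (ν * x - σ * n) + 18667 / 100000 * (16 * (ρ * n - σ * x) - 8 * n)
      + (24889 / 100000 * √56) * (4 * (ρ * (0 * x)) - 19 * (ρ ^ 2 * x) - 4 * (ρ * σ * n))
      + ((-(5709 / 25000)) * √56) * ((10 * ρ - ρ * ν - 2 * σ ^ 2 - 19 * ρ ^ 2) * x
        - ρ * σ * n + ρ * (0))
      + 4419 / 12500 * (18 * (ρ * σ) * x + (10 * ρ - 18 * ρ ^ 2) * n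
        - ρ * (0) - 2 * (σ * (0))) := by
  unfold Ps qa qb uQ vQ
  rw [if_pos hk]
  linear_combination ((-(18667 / 350000)) * σ * x + 39771 / 350000 * ρ * σ * x + 5709 / 700000 * √56 * σ ^ 2 * x) * sqK

lemma Ps_out {k : Prop} [Decidable k] (hk : ¬k) (ρ σ ν x n : ℝ) : Ps k ρ σ ν x n
    = n + ((-(4589281 / 23520000)) * √56) * x + ((-(9448487 / 588000000)) * √56) * (17 * (ρ * x) + 2 * (σ * n))
      + ((-(664437 / 3062500)) * √56) * (ν * x - σ * n) + 24697 / 100000 * (16 * (ρ * n - σ * x) - 7 * n)
      + ((-(11001 / 100000)) * √56) * (4 * (ρ * (1 * x)) - 19 * (ρ ^ 2 * x) - 4 * (ρ * σ * n))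
      + (7667 / 50000 * √56) * ((10 * ρ - ρ * ν - 2 * σ ^ 2 - 19 * ρ ^ 2) * x
        - ρ * σ * n + ρ * (x))
      + 5303 / 20000 * (18 * (ρ * σ) * x + (10 * ρ - 18 * ρ ^ 2) * n
        - ρ * (n) - 2 * (σ * (x))) := by
  unfold Ps pa pb uQ vQ
  rw [if_neg hk]
  linear_combination ((-(32013 / 400000)) * σ * x + 47727 / 560000 * ρ * σ * x + (-(7667 / 1400000)) * √56 * σ ^ 2 * x) * sqK

/-- the pointwise inequality -/
lemma pointwise' (S : Finset (Fin 17)) (x N u : Fin 17 → ℝ) (hx : ∑ i, x i ^ 2 = 1)
    (hN : ∑ i, N i ^ 2 = 1) (hu : ∑ i, u i ^ 2 = 1) (hxN : ∑ i, x i * N i = 0) :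
    ∑ k, Ps (k ∈ S) (∑ i ∈ Finset.univ \ S, x i ^ 2) (∑ i ∈ Finset.univ \ S, x i * N i)
        (∑ i ∈ Finset.univ \ S, N i ^ 2) (x k) (N k) * u k
      ≤ 77 / 100 * ∑ i, (if i ∈ S then 1 else 2)
        * (N i - (if i ∈ S then √56 / 8 else -(√56 / 7)) * x i) ^ 2 := by
  obtain ⟨ρ, hρ⟩ : ∃ ρ, ρ = ∑ i ∈ Finset.univ \ S, x i ^ 2 := ⟨_, rfl⟩
  obtain ⟨ν, hν⟩ : ∃ ν, ν = ∑ i ∈ Finset.univ \ S, N i ^ 2 := ⟨_, rfl⟩
  obtain ⟨σ, hσ⟩ : ∃ σ, σ = ∑ i ∈ Finset.univ \ S, x i * N i := ⟨_, rfl⟩
  rw [← hρ, ← hν, ← hσ]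
  have spl : ∀ f : Fin 17 → ℝ, ∑ i, f i = ∑ i ∈ S, f i + ∑ i ∈ Finset.univ \ S, f i := fun f => by
    rw [add_comm, Finset.sum_sdiff (Finset.subset_univ S)]
  have hρ2 : ∑ i ∈ S, x i ^ 2 = 1 - ρ := by
    have := spl fun i => x i ^ 2
    rw [hx, ← hρ] at this
    linarith
  have hν2 : ∑ i ∈ S, N i ^ 2 = 1 - ν := by
    have := spl fun i => N i ^ 2
    rw [hN, ← hν] at this
    linarith
  have hσ2 : ∑ i ∈ S, x i * N i = -σ := by
    have := spl fun i => x i * N i
    rw [hxN, ← hσ] at this
    linarith
  have q6 := sqK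
  have hA : ∑ i ∈ Finset.univ \ S, (N i + √56 / 7 * x i) ^ 2 = uQ ρ σ ν := by
    have : ∑ i ∈ Finset.univ \ S, (N i + √56 / 7 * x i) ^ 2 = ∑ i ∈ Finset.univ \ S,
        (N i ^ 2 + (2 / 7 * √56) * (x i * N i) + 8 / 7 * x i ^ 2) :=
      Finset.sum_congr rfl fun i _ => by linear_combination (x i ^ 2 / 49) * q6
    rw [this, Finset.sum_add_distrib, Finset.sum_add_distrib, ← Finset.mul_sum,
      ← Finset.mul_sum, ← hρ, ← hν, ← hσ]
    rfl
  have hB : ∑ i ∈ S, (N i - √56 / 8 * x i) ^ 2 = vQ ρ σ ν := by
    have : ∑ i ∈ S, (N i - √56 / 8 * x i) ^ 2 = ∑ i ∈ S,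
        (N i ^ 2 + (-(1 / 4 * √56)) * (x i * N i) + 7 / 8 * x i ^ 2) :=
      Finset.sum_congr rfl fun i _ => by linear_combination (x i ^ 2 / 64) * q6
    rw [this, Finset.sum_add_distrib, Finset.sum_add_distrib, ← Finset.mul_sum,
      ← Finset.mul_sum, hρ2, hν2, hσ2]
    unfold vQ
    ring
  obtain ⟨U, hU⟩ : ∃ U, U = uQ ρ σ ν := ⟨_, rfl⟩
  obtain ⟨V, hV⟩ : ∃ V, V = vQ ρ σ ν := ⟨_, rfl⟩
  obtain ⟨t, ht⟩ : ∃ t, t = ρ - 7 / 15 := ⟨_, rfl⟩
  obtain ⟨a, ha⟩ : ∃ a, a = pa t U V := ⟨_, rfl⟩
  obtain ⟨α, hα⟩ : ∃ α, α = pb t U V := ⟨_, rfl⟩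
  obtain ⟨b, hb⟩ : ∃ b, b = qa t U V := ⟨_, rfl⟩
  obtain ⟨β, hβ⟩ : ∃ β, β = qb t U V := ⟨_, rfl⟩
  obtain ⟨y, hy⟩ : ∃ y, y = 15 / 2 * t + 28 / 15 * (U + V) := ⟨_, rfl⟩
  obtain ⟨z, hz⟩ : ∃ z, z = 15 / 2 * t - 28 / 15 * (U + V) := ⟨_, rfl⟩
  obtain ⟨g, hg⟩ : ∃ g, g = (7 / 15 + t) * U - (15 / 2 * t + 28 / 15 * (U + V)) ^ 2 / 56 := ⟨_, rfl⟩
  obtain ⟨g', hg'⟩ : ∃ g', g' = (8 / 15 - t) * V - (15 / 2 * t - 28 / 15 * (U + V)) ^ 2 / 56 := ⟨_, rfl⟩
  have hU0 : 0 ≤ U := by
    rw [hU, ← hA]
    exact Finset.sum_nonneg fun i _ => sq_nonneg _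
  have hV0 : 0 ≤ V := by
    rw [hV, ← hB]
    exact Finset.sum_nonneg fun i _ => sq_nonneg _
  have hρ0 : 0 ≤ ρ := by
    rw [hρ]
    exact Finset.sum_nonneg fun i _ => sq_nonneg _
  have hρ1 : 0 ≤ 1 - ρ := by
    rw [← hρ2]
    exact Finset.sum_nonneg fun i _ => sq_nonneg _
  have hp1 : √56 * (σ + √56 / 7 * ρ) = y := by
    rw [hy, hU, hV, ht]
    unfold uQ vQ
    linear_combination (ρ / 7) * q6
  have hp1' : ∑ i ∈ Finset.univ \ S, x i * (N i + √56 / 7 * x i) = σ + √56 / 7 * ρ := by
    rw [hσ, hρ, Finset.mul_sum, ← Finset.sum_add_distrib]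
    exact Finset.sum_congr rfl fun i _ => by ring
  have hp2' : ∑ i ∈ S, x i * (N i - √56 / 8 * x i) = -σ - √56 / 8 * (1 - ρ) := by
    rw [← hσ2, ← hρ2, Finset.mul_sum, ← Finset.sum_sub_distrib]
    exact Finset.sum_congr rfl fun i _ => by ring
  have hp2 : √56 * (-σ - √56 / 8 * (1 - ρ)) = z := by
    rw [hz, hU, hV, ht]
    unfold uQ vQ
    linear_combination (-(1 - ρ) / 8) * q6
  have hcs := Finset.sum_mul_sq_le_sq_mul_sq (Finset.univ \ S) x fun i => N i + √56 / 7 * x i
  rw [hp1', ← hρ, hA, ← hU] at hcs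
  have hcs' := Finset.sum_mul_sq_le_sq_mul_sq S x fun i => N i - √56 / 8 * x i
  rw [hp2', hρ2, hB, ← hV] at hcs'
  have hg0 : 0 ≤ g := by
    have e : y ^ 2 = 56 * (σ + √56 / 7 * ρ) ^ 2 := by
      rw [← hp1]
      linear_combination ((σ + √56 / 7 * ρ) ^ 2) * q6
    rw [hg, ← hy, e, ht]
    linarith
  have hg0' : 0 ≤ g' := by
    have e : z ^ 2 = 56 * (-σ - √56 / 8 * (1 - ρ)) ^ 2 := by
      rw [← hp2]
      linear_combination ((-σ - √56 / 8 * (1 - ρ)) ^ 2) * q6
    rw [hg', ← hz, e, ht]
    linarith
  have hρt : 0 ≤ 7 / 15 + t := by rw [ht]; linarith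
  have hρt' : 0 ≤ 8 / 15 - t := by rw [ht]; linarith
  have key := cert hρt hρt' hU0 hV0 hg0 hg0' hg hg' ha hα hb hβ
  rw [← hy, ← hz] at key
  have hPs : ∀ k, Ps (k ∈ S) ρ σ ν (x k) (N k)
      = if k ∈ S then -(√56 * b) * x k + β * (N k - √56 / 8 * x k)
        else -(√56 * a) * x k + α * (N k + √56 / 7 * x k) := by
    intro k
    unfold Ps
    rw [← hU, ← hV, ← ht, ← ha, ← hβ, ← hα, ← hb]
  have nS : ∑ k ∈ S, (-(√56 * b) * x k + β * (N k - √56 / 8 * x k)) ^ 2
      = 56 * b ^ 2 * (8 / 15 - t) - 2 * b * β * z + β ^ 2 * V := by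
    have : ∑ k ∈ S, (-(√56 * b) * x k + β * (N k - √56 / 8 * x k)) ^ 2
        = ∑ k ∈ S, (56 * b ^ 2 * x k ^ 2 + (-2 * √56 * b * β) * (x k * (N k - √56 / 8 * x k))
          + β ^ 2 * (N k - √56 / 8 * x k) ^ 2) :=
      Finset.sum_congr rfl fun i _ => by linear_combination (b ^ 2 * x i ^ 2) * q6
    rw [this, Finset.sum_add_distrib, Finset.sum_add_distrib, ← Finset.mul_sum,
      ← Finset.mul_sum, ← Finset.mul_sum, hρ2, hB, ← hV, hp2', ht]
    linear_combination (-2 * b * β) * hp2
  have nA : ∑ k ∈ Finset.univ \ S, (-(√56 * a) * x k + α * (N k + √56 / 7 * x k)) ^ 2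
      = 56 * a ^ 2 * (7 / 15 + t) - 2 * a * α * y + α ^ 2 * U := by
    have : ∑ k ∈ Finset.univ \ S, (-(√56 * a) * x k + α * (N k + √56 / 7 * x k)) ^ 2
        = ∑ k ∈ Finset.univ \ S, (56 * a ^ 2 * x k ^ 2
          + (-2 * √56 * a * α) * (x k * (N k + √56 / 7 * x k))
          + α ^ 2 * (N k + √56 / 7 * x k) ^ 2) :=
      Finset.sum_congr rfl fun i _ => by linear_combination (a ^ 2 * x i ^ 2) * q6
    rw [this, Finset.sum_add_distrib, Finset.sum_add_distrib, ← Finset.mul_sum,
      ← Finset.mul_sum, ← Finset.mul_sum, ← hρ, hA, ← hU, hp1', ht]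
    linear_combination (-2 * a * α) * hp1
  have hn2 : ∑ k, Ps (k ∈ S) ρ σ ν (x k) (N k) ^ 2 ≤ (77 / 100 * (2 * U + V)) ^ 2 := by
    refine le_trans (le_of_eq ?_) key
    rw [spl, ← nS, ← nA, add_comm]
    congr 1
    · refine Finset.sum_congr rfl fun i hi => ?_
      rw [hPs, if_neg (Finset.mem_sdiff.1 hi).2]
    · refine Finset.sum_congr rfl fun i hi => ?_
      rw [hPs, if_pos hi]
  have hfin : ∑ i, (if i ∈ S then (1 : ℝ) else 2)
      * (N i - (if i ∈ S then √56 / 8 else -(√56 / 7)) * x i) ^ 2 = 2 * U + V := by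
    rw [spl, hU, hV, ← hA, ← hB, Finset.mul_sum, add_comm]
    congr 1
    · refine Finset.sum_congr rfl fun i hi => ?_
      have := (Finset.mem_sdiff.1 hi).2
      rw [if_neg this, if_neg this]
      ring
    · refine Finset.sum_congr rfl fun i hi => ?_
      rw [if_pos hi, if_pos hi, one_mul]
  rw [hfin]
  have hcs2 := Finset.sum_mul_sq_le_sq_mul_sq Finset.univ
    (fun k => Ps (k ∈ S) ρ σ ν (x k) (N k)) u
  rw [hu, mul_one] at hcs2
  exact (abs_le_of_sq_le_sq' (hcs2.trans hn2) (by positivity)).2

section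

variable {X : Type*} [MeasurableSpace X] {E : Type*} [NormedAddCommGroup E]
  [InnerProductSpace ℝ E] [FiniteDimensional ℝ E] [MeasurableSpace E] [BorelSpace E]
  {μ : Measure X} [IsFiniteMeasure μ] {p n : X → E}

/-- the integrand differs from the normal by a null function -/
lemma coord' (h : TwoG μ 15 p n) (hp : UF p) (hn : UF n) [Nonempty X]
    (hsp : ∀ w, (∀ x, ⟪p x, w⟫ = 0) → w = 0) (b : OrthonormalBasis (Fin 17) ℝ E)
    (S : Finset (Fin 17)) (hS : S.card = 9) (k : Fin 17) :
    Nul μ (fun x => Ps (k ∈ S) (bρ p b (Finset.univ \ S) x) (bσ p n b (Finset.univ \ S) x)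
      (bρ n b (Finset.univ \ S) x) ⟪p x, b k⟫ ⟪n x, b k⟫ - ⟪n x, b k⟫) := by
  have hc : (Finset.univ \ S).card = 8 := by
    rw [Finset.card_sdiff_of_subset (Finset.subset_univ S), hS]
    simp
  have n0 := nul0 h (by norm_num) hp (b k) (μ := μ)
  have n1 := blk1 h (by norm_num) hp hn hsp b (Finset.univ \ S) (b k)
  have n2 := blk2 h (by norm_num) hp hn hsp b (Finset.univ \ S) (b k)
  have n3 := blk3 h hp hn hsp b (Finset.univ \ S) k
  have n4 := blk4 h hp hn hsp b (Finset.univ \ S) k
  have n5 := blk5 h hp hn hsp b (Finset.univ \ S) k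
  have n6 := blk6 h hp hn hsp b (Finset.univ \ S) k
  by_cases hk : k ∈ S
  · have hk' : k ∉ Finset.univ \ S := fun hh => (Finset.mem_sdiff.1 hh).2 hk
    refine (((((((n0.cmul (28460879 / 168000000 * √56)).add (n1.cmul (21781337 / 168000000 * √56))).add
      (n2.cmul ((-(11497333 / 28000000)) * √56))).add (n3.cmul (18667 / 100000))).add
      (n4.cmul (24889 / 100000 * √56))).add (n5.cmul ((-(5709 / 25000)) * √56))).add
      (n6.cmul (4419 / 12500))).congr fun x => ?_
    rw [Ps_in hk, hc]
    simp only [if_neg hk']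
    push_cast
    ring
  · have hk' : k ∈ Finset.univ \ S := Finset.mem_sdiff.2 ⟨Finset.mem_univ k, hk⟩
    refine (((((((n0.cmul ((-(4589281 / 23520000)) * √56)).add (n1.cmul ((-(9448487 / 588000000)) * √56))).add
      (n2.cmul ((-(664437 / 3062500)) * √56))).add (n3.cmul (24697 / 100000))).add
      (n4.cmul ((-(11001 / 100000)) * √56))).add (n5.cmul (7667 / 50000 * √56))).add
      (n6.cmul (5303 / 20000))).congr fun x => ?_
    rw [Ps_out hk, hc]
    simp only [if_pos hk']
    push_cast
    ring

/-- the one point identity -/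
theorem one (h : TwoG μ 15 p n) [Nonempty X]
    (hsp : ∀ w, (∀ x, ⟪p x, w⟫ = 0) → w = 0) (b : OrthonormalBasis (Fin 17) ℝ E)
    (S : Finset (Fin 17)) (hS : S.card = 9) :
    ‖∫ x, n x ∂μ‖ ≤ 77 / 100 * ∫ x, ∑ i, (if i ∈ S then 1 else 2)
      * (⟪n x, b i⟫ - (if i ∈ S then √56 / 8 else -(√56 / 7)) * ⟪p x, b i⟫) ^ 2 ∂μ :=
  one_abs h b (Cc := 77 / 100) (by norm_num) (fun i => if i ∈ S then (1 : ℝ) else 2)
    (fun i => by split_ifs <;> norm_num) (fun i => if i ∈ S then √56 / 8 else -(√56 / 7))
    (fun k x => Ps (k ∈ S) (bρ p b (Finset.univ \ S) x) (bσ p n b (Finset.univ \ S) x)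
      (bρ n b (Finset.univ \ S) x) ⟪p x, b k⟫ ⟪n x, b k⟫)
    (fun k => coord' h ⟨h.mp, h.np⟩ ⟨h.mn, h.nn⟩ hsp b S hS k)
    (fun x u hx hN hu hxN => pointwise' S (fun i => ⟪p x, b i⟫) (fun i => ⟪n x, b i⟫) u hx hN
      hu hxN)

/-- the one point identity with a general name for the eigenvalue -/
theorem one_dev (h : TwoG μ 15 p n) [Nonempty X]
    (hsp : ∀ w, (∀ x, ⟪p x, w⟫ = 0) → w = 0) {α : ℝ} (hα : 0 < α) (hα2 : α ^ 2 = 7 / 8)
    (b : OrthonormalBasis (Fin 17) ℝ E) (S : Finset (Fin 17)) (hS : S.card = 9) :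
    ‖∫ x, n x ∂μ‖ ≤ 77 / 100 * ∫ x, ∑ i, (if i ∈ S then 1 else 2)
      * (⟪n x, b i⟫ - (if i ∈ S then α else -(1 / α)) * ⟪p x, b i⟫) ^ 2 ∂μ := by
  have h1 : α = √56 / 8 := by
    have h2 : (√56 / 8 : ℝ) ^ 2 = α ^ 2 := by
      rw [hα2, div_pow, sqK]
      norm_num
    exact ((sq_eq_sq₀ (by positivity) hα.le).1 h2).symm
  have h3 : 1 / α = √56 / 7 := by
    rw [h1, one_div_div, div_eq_div_iff (by positivity) (by norm_num)]
    linear_combination -sqK
  have h4 := one h hsp b S hS
  rw [h3, h1]
  exact h4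

end

end Vale.Agent.P224.SO.One15Z
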