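import Vale.Agent.P224.SO.ClsG

/-!
Dimension 15: the number of points on the right from the value of the scalar functionals.
-/

namespace Vale.Agent.P224.SO.M15W

open Vale.Agent.P224.SO Vale.Agent.P224.SO.Rg

lemma A1 (d x : ℝ) (h : 14 * x ^ 2 ≤ d - d ^ 2) (hz : (1 / 50) ≤ x) :
    (3233 / 50000) ≤ QP 113 224 42 14 (9 / 2) (47 / 200) 17 (225 / 7) (-(7 / 125)) (-(1442 / 125)) 0 d x := by
  unfold QP Q
  nlinarith [mul_nonneg (sub_nonneg.2 hz) (lin_q (q := 14) (by norm_num) h (20 / 387) (51 / 862)),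
    sq_nonneg (d + (-(91677607 / 96484518)) * x + (3885871 / 1206056475)),
    sq_nonneg (x + (-(12389568928888138451 / 213179525094664324685)))]

lemma A2 (d x : ℝ) (h : 14 * x ^ 2 ≤ d - d ^ 2) :
    (-(108201 / 100000)) ≤ QP 113 224 42 14 (9 / 2) (47 / 200) 17 (225 / 7) (-(7 / 125)) (-(1442 / 125)) 0 d x := by
  unfold QP Q
  nlinarith [sq_nonneg (d + (-(9107 / 141177)) * x + (-(200903 / 2823540))),
    sq_nonneg (x + (1234536689 / 18869931040))]

lemma L1 (d x : ℝ) (h : 14 * x ^ 2 ≤ d - d ^ 2) (hz' : x ≤ -(1 / 50)) :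
    (31671 / 50000) ≤ QP 113 224 42 14 (9 / 2) (47 / 200) 17 (225 / 7) (6 / 5) (267 / 10) (1693 / 10) d x := by
  unfold QP Q
  nlinarith [mul_nonneg (sub_nonneg.2 hz') (lin_q (q := 14) (by norm_num) h (47 / 703) (-(51 / 764))),
    sq_nonneg (d + (220416483 / 168457078) * x + (16377507 / 842285390)),
    sq_nonneg (x + (2642156204108212691 / 80014940887192197300))]

lemma L2 (d x : ℝ) (h : 14 * x ^ 2 ≤ d - d ^ 2) :
    (-(177811 / 100000)) ≤ QP 113 224 42 14 (9 / 2) (47 / 200) 17 (225 / 7) (6 / 5) (267 / 10) (1693 / 10) d x := by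
  unfold QP Q
  nlinarith [sq_nonneg (d + (8358 / 24163) * x + (-(49541 / 579912))),
    sq_nonneg (x + (-(7442111 / 114928574)))]

lemma M1 (d x : ℝ) (h : 14 * x ^ 2 ≤ d - d ^ 2) :
    (-(15633 / 25000)) ≤ QP 113 224 42 14 (9 / 2) (47 / 200) 17 (225 / 7) (41 / 20) (-(19 / 20)) 26 d x := by
  unfold QP Q
  nlinarith [sq_nonneg (d + (-(7 / 137817)) * x + (-(36409 / 551268))),
    sq_nonneg (x + (239225 / 25909568))]

lemma M2 (d x : ℝ) (h : 14 * x ^ 2 ≤ d - d ^ 2) (hz : -(1 / 50) ≤ x) (hz' : x ≤ (1 / 50)) :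
    (9177 / 100000) ≤ QP 113 224 42 14 (9 / 2) (47 / 200) 17 (225 / 7) (41 / 20) (-(19 / 20)) 26 d x := by
  unfold QP Q
  nlinarith [mul_nonneg (sub_nonneg.2 hz) (sub_nonneg.2 hz'),
    sq_nonneg (d + (-(7 / 121059)) * x + (-(2893 / 484236))),
    sq_nonneg (x + (239225 / 195631316))]

lemma P1 (d x : ℝ) (h : 14 * x ^ 2 ≤ d - d ^ 2) (hz : (1 / 50) ≤ x) :
    (-(1011 / 5000)) ≤ QP 113 224 42 14 (9 / 2) (47 / 200) 17 (225 / 7) (6747 / 10000) (-(77007 / 10000)) 0 d x := by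
  unfold QP Q
  nlinarith [mul_nonneg (sub_nonneg.2 hz) (lin_q (q := 14) (by norm_num) h (37 / 617) (54 / 851)),
    sq_nonneg (d + (-(25165357 / 31238710)) * x + (-(141009549 / 15619355000))),
    sq_nonneg (x + (-(3442206330040266129269 / 54135173526676818374500)))]

lemma P2 (d x : ℝ) (h : 14 * x ^ 2 ≤ d - d ^ 2) (hz' : x ≤ -(1 / 50)) :
    (-(86629 / 100000)) ≤ QP 113 224 42 14 (9 / 2) (47 / 200) 17 (225 / 7) (6747 / 10000) (-(77007 / 10000)) 0 d x := by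
  unfold QP Q
  nlinarith [sq_nonneg (d + (-(9107 / 139735)) * x + (-(1915979 / 27947000))),
    sq_nonneg (x + (3477187733 / 53074279800))]

lemma P3 (d x : ℝ) (h : 14 * x ^ 2 ≤ d - d ^ 2) (hz : 0 ≤ x) (hz' : x ≤ (1 / 50)) :
    (23431 / 100000) ≤ QP 113 224 42 14 (9 / 2) (47 / 200) 17 (225 / 7) (6747 / 10000) (-(77007 / 10000)) 0 d x := by
  unfold QP Q
  nlinarith [mul_nonneg (sub_nonneg.2 hz) (lin_q (q := 14) (by norm_num) h (34 / 845) (1 / 50)),
    mul_nonneg (sub_nonneg.2 hz) (sub_nonneg.2 hz'),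
    sq_nonneg (d + (-(1885541 / 15736760)) * x + (-(47679 / 24210400))),
    sq_nonneg (x + (-(235855756129 / 18231339194900)))]

lemma N1 (d x : ℝ) (h : 14 * x ^ 2 ≤ d - d ^ 2) (hz : (1 / 50) ≤ x) :
    (-(119747 / 100000)) ≤ QP 113 224 42 14 (9 / 2) (47 / 200) 17 (225 / 7) (6831 / 10000) (141027 / 10000) (1026011 / 10000) d x := by
  unfold QP Q
  nlinarith [sq_nonneg (d + (5360677 / 28351600) * x + (-(2118867 / 28351600))),
    sq_nonneg (x + (-(2642194477063 / 40854701865953)))]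

lemma N2 (d x : ℝ) (h : 14 * x ^ 2 ≤ d - d ^ 2) (hz' : x ≤ -(1 / 50)) :
    (12957 / 100000) ≤ QP 113 224 42 14 (9 / 2) (47 / 200) 17 (225 / 7) (6831 / 10000) (141027 / 10000) (1026011 / 10000) d x := by
  unfold QP Q
  nlinarith [mul_nonneg (sub_nonneg.2 hz') (lin_q (q := 14) (by norm_num) h (37 / 591) (-(9 / 139))),
    sq_nonneg (d + (14198148307 / 14690605200) * x + (944567 / 14690605200)),
    sq_nonneg (x + (25278186027182125365893 / 391032024734412513746153))]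

lemma N3 (d x : ℝ) (h : 14 * x ^ 2 ≤ d - d ^ 2) (hz : -(1 / 50) ≤ x) (hz' : x ≤ 0) :
    (11749 / 50000) ≤ QP 113 224 42 14 (9 / 2) (47 / 200) 17 (225 / 7) (6831 / 10000) (141027 / 10000) (1026011 / 10000) d x := by
  unfold QP Q
  nlinarith [mul_nonneg (sub_nonneg.2 hz) (sub_nonneg.2 hz'),
    sq_nonneg (d + (5360677 / 24113800) * x + (33 / 24113800)),
    sq_nonneg (x + (208600279 / 64185747288651))]

/-- the one point inequalities -/
noncomputable def dat : CDat 8 14 113 224 42 (199 / 25) (9 / 2) (47 / 200) 17 (225 / 7) (321 / 1000) where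
  Z := (1 / 50)
  aA := (-(7 / 125))
  bA := (-(1442 / 125))
  ap := (3233 / 50000)
  an := (-(108201 / 100000))
  aL := (6 / 5)
  bL := (267 / 10)
  sL := (1693 / 10)
  lp := (31671 / 50000)
  ln := (-(177811 / 100000))
  aM := (41 / 20)
  bM := (-(19 / 20))
  sM := 26
  mp := (-(15633 / 25000))
  mm := (9177 / 100000)
  aP := (6747 / 10000)
  bP := (-(77007 / 10000))
  sP := 0
  pp := (-(1011 / 5000))
  pn := (-(86629 / 100000))
  p0 := (23431 / 100000)
  aN := (6831 / 10000)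
  bN := (141027 / 10000)
  sN := (1026011 / 10000)
  np := (-(119747 / 100000))
  nn := (12957 / 100000)
  n0 := (11749 / 50000)
  Zpos := by norm_num
  sL0 := by norm_num
  sM0 := by norm_num
  sP0 := by norm_num
  sN0 := by norm_num
  A3 := by norm_num
  A4 := by norm_num
  L3 := by norm_num
  L4 := by norm_num
  M3 := by norm_num
  M4 := by norm_num
  P4 := by norm_num
  N4 := by norm_num
  A1 := A1
  A2 := A2
  L1 := L1
  L2 := L2
  M1 := M1
  M2 := M2
  P1 := P1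
  P2 := P2
  P3 := P3
  N1 := N1
  N2 := N2
  N3 := N3

end Vale.Agent.P224.SO.M15W

namespace Vale.Agent.P224.SO.F15

open Finset Vale.Agent.P224.SO Vale.Agent.P224.SO.Rg

/-- the functional with a parameter -/
theorem cls_T {d x : Fin 17 → ℝ}
    (h : ∀ i, 14 * x i ^ 2 ≤ d i - d i ^ 2) (h1 : ∑ i, d i = 1) (h0 : ∑ i, x i = 0)
    (hv : ∑ i, d i * x i ≤ 0)
    (hS : 199 / 25 + (113 * ∑ i, d i ^ 2 - 224 * ∑ i, x i ^ 2 - 42 * ∑ i, d i * x i)
      + ∑ i, (9 / 2 * (d i - d i ^ 2 - 14 * x i ^ 2) + 47 / 200 * ((1 - 17 * d i - 2 * x i) ^ 2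
        + 225 / 7 * (d i - d i ^ 2 - 14 * x i ^ 2))) < 3210 / 10000) :
    (Rt (1 / 50) x).card = 9 :=
  CDat.cls M15W.dat (by norm_num) h h1 h0 hv (hS.trans_le (by norm_num))

end Vale.Agent.P224.SO.F15
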