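import Vale.Agent.P224.SO.ClsG

/-!
Dimension 15: the number of points on the right from the value of the scalar functionals.
-/

namespace Vale.Agent.P224.SO.G15_115_41

open Vale.Agent.P224.SO Vale.Agent.P224.SO.Rg

lemma A1 (d x : ℝ) (h : 14 * x ^ 2 ≤ d - d ^ 2) (hz : (1 / 50) ≤ x) :
    (337 / 6250) ≤ QP 115 224 41 14 4 0 17 (225 / 7) (72767 / 425250) (-(346607 / 30375)) 0 d x := by
  unfold QP Q
  nlinarith [mul_nonneg (sub_nonneg.2 hz) (lin_q (q := 14) (by norm_num) h (20 / 387) (51 / 862)),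
    sq_nonneg (d + (-(4843187 / 4520160)) * x + (404985883 / 42715512000)),
    sq_nonneg (x + (-(923124265140186911839 / 16519688133449285146950)))]

lemma A2 (d x : ℝ) (h : 14 * x ^ 2 ≤ d - d ^ 2) :
    (-(27109 / 25000)) ≤ QP 115 224 41 14 4 0 17 (225 / 7) (72767 / 425250) (-(346607 / 30375)) 0 d x := by
  unfold QP Q
  nlinarith [sq_nonneg (d + (-(2050 / 13573)) * x + (-(17776399 / 230876730))),
    sq_nonneg (x + (47642146379 / 728690590530))]

lemma L1 (d x : ℝ) (h : 14 * x ^ 2 ≤ d - d ^ 2) (hz' : x ≤ -(1 / 50)) :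
    (26437 / 100000) ≤ QP 115 224 41 14 4 0 17 (225 / 7) (7 / 10) (92 / 5) (1363 / 10) d x := by
  unfold QP Q
  nlinarith [mul_nonneg (sub_nonneg.2 hz') (lin_q (q := 14) (by norm_num) h (22 / 331) (-(47 / 706))),
    sq_nonneg (d + (10013443 / 7537532) * x + (7587213 / 376876600)),
    sq_nonneg (x + (471806082261531861 / 14228250271628528350))]

lemma L2 (d x : ℝ) (h : 14 * x ^ 2 ≤ d - d ^ 2) :
    (-(13401 / 10000)) ≤ QP 115 224 41 14 4 0 17 (225 / 7) (7 / 10) (92 / 5) (1363 / 10) d x := by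
  unfold QP Q
  nlinarith [sq_nonneg (d + (953 / 2757) * x + (-(157 / 1838))),
    sq_nonneg (x + (-(565713 / 8759434)))]

lemma M1 (d x : ℝ) (h : 14 * x ^ 2 ≤ d - d ^ 2) :
    (-(57087 / 100000)) ≤ QP 115 224 41 14 4 0 17 (225 / 7) (5 / 4) 0 41 d x := by
  unfold QP Q
  nlinarith [sq_nonneg (d + 0 * x + (-(1727 / 26204))),
    sq_nonneg (x + 0)]

lemma M2 (d x : ℝ) (h : 14 * x ^ 2 ≤ d - d ^ 2) (hz : -(1 / 50) ≤ x) (hz' : x ≤ (1 / 50)) :
    (-(12 / 125)) ≤ QP 115 224 41 14 4 0 17 (225 / 7) (5 / 4) 0 41 d x := by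
  unfold QP Q
  nlinarith [mul_nonneg (sub_nonneg.2 hz) (sub_nonneg.2 hz'),
    sq_nonneg (d + 0 * x + (-(68 / 11511))),
    sq_nonneg (x + 0)]

lemma P1 (d x : ℝ) (h : 14 * x ^ 2 ≤ d - d ^ 2) (hz : (1 / 50) ≤ x) :
    (-(17383 / 100000)) ≤ QP 115 224 41 14 4 0 17 (225 / 7) (3 / 8) (-(429 / 56)) 2 d x := by
  unfold QP Q
  nlinarith [mul_nonneg (sub_nonneg.2 hz) (lin_q (q := 14) (by norm_num) h (37 / 591) (9 / 139)),
    sq_nonneg (d + (-(13843823 / 13962966)) * x + (295412 / 174537075)),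
    sq_nonneg (x + (-(39090070037790524553 / 604518905133103001825)))]

lemma P2 (d x : ℝ) (h : 14 * x ^ 2 ≤ d - d ^ 2) (hz' : x ≤ -(1 / 50)) :
    (-(21241 / 25000)) ≤ QP 115 224 41 14 4 0 17 (225 / 7) (3 / 8) (-(429 / 56)) 2 d x := by
  unfold QP Q
  nlinarith [sq_nonneg (d + (-(975 / 6694)) * x + (-(3851 / 53552))),
    sq_nonneg (x + (5056675 / 78054536))]

lemma P3 (d x : ℝ) (h : 14 * x ^ 2 ≤ d - d ^ 2) (hz : 0 ≤ x) (hz' : x ≤ (1 / 50)) :
    (-(1 / 50000)) ≤ QP 115 224 41 14 4 0 17 (225 / 7) (3 / 8) (-(429 / 56)) 2 d x := by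
  unfold QP Q
  nlinarith [mul_nonneg (sub_nonneg.2 hz) (sub_nonneg.2 hz'),
    sq_nonneg (d + (-(650 / 3821)) * x + (-(1 / 45852))),
    sq_nonneg (x + (-(446177 / 40297780600)))]

lemma N1 (d x : ℝ) (h : 14 * x ^ 2 ≤ d - d ^ 2) (hz : (1 / 50) ≤ x) :
    (-(21241 / 25000)) ≤ QP 115 224 41 14 4 0 17 (225 / 7) (3 / 8) (429 / 56) 80 d x := by
  unfold QP Q
  nlinarith [sq_nonneg (d + (975 / 6694) * x + (-(3851 / 53552))),
    sq_nonneg (x + (-(5056675 / 78054536)))]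

lemma N2 (d x : ℝ) (h : 14 * x ^ 2 ≤ d - d ^ 2) (hz' : x ≤ -(1 / 50)) :
    (-(17383 / 100000)) ≤ QP 115 224 41 14 4 0 17 (225 / 7) (3 / 8) (429 / 56) 80 d x := by
  unfold QP Q
  nlinarith [mul_nonneg (sub_nonneg.2 hz') (lin_q (q := 14) (by norm_num) h (37 / 591) (-(9 / 139))),
    sq_nonneg (d + (13843823 / 13962966) * x + (295412 / 174537075)),
    sq_nonneg (x + (39090070037790524553 / 604518905133103001825))]

lemma N3 (d x : ℝ) (h : 14 * x ^ 2 ≤ d - d ^ 2) (hz : -(1 / 50) ≤ x) (hz' : x ≤ 0) :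
    (-(1 / 50000)) ≤ QP 115 224 41 14 4 0 17 (225 / 7) (3 / 8) (429 / 56) 80 d x := by
  unfold QP Q
  nlinarith [mul_nonneg (sub_nonneg.2 hz) (sub_nonneg.2 hz'),
    sq_nonneg (d + (650 / 3821) * x + (-(1 / 45852))),
    sq_nonneg (x + (446177 / 40297780600))]

/-- the one point inequalities -/
noncomputable def dat : CDat 8 14 115 224 41 (15893 / 2025) 4 0 17 (225 / 7) (89 / 2500) where
  Z := (1 / 50)
  aA := (72767 / 425250)
  bA := (-(346607 / 30375))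
  ap := (337 / 6250)
  an := (-(27109 / 25000))
  aL := (7 / 10)
  bL := (92 / 5)
  sL := (1363 / 10)
  lp := (26437 / 100000)
  ln := (-(13401 / 10000))
  aM := (5 / 4)
  bM := 0
  sM := 41
  mp := (-(57087 / 100000))
  mm := (-(12 / 125))
  aP := (3 / 8)
  bP := (-(429 / 56))
  sP := 2
  pp := (-(17383 / 100000))
  pn := (-(21241 / 25000))
  p0 := (-(1 / 50000))
  aN := (3 / 8)
  bN := (429 / 56)
  sN := 80
  np := (-(21241 / 25000))
  nn := (-(17383 / 100000))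
  n0 := (-(1 / 50000))
  Zpos := by norm_num
  sL0 := by norm_num
  sM0 := by norm_num
  sP0 := by norm_num
  sN0 := by norm_num
  A3 := by norm_num
  A4 := by norm_num
  L3 := by norm_num
  L4 := by norm_num
  M3 := by norm_num
  M4 := by norm_num
  P4 := by norm_num
  N4 := by norm_num
  A1 := A1
  A2 := A2
  L1 := L1
  L2 := L2
  M1 := M1
  M2 := M2
  P1 := P1
  P2 := P2
  P3 := P3
  N1 := N1
  N2 := N2
  N3 := N3

end Vale.Agent.P224.SO.G15_115_41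

namespace Vale.Agent.P224.SO.G15a

open Finset Vale.Agent.P224.SO Vale.Agent.P224.SO.Rg

/-- the static functional -/
theorem cls_S {d x : Fin 17 → ℝ}
    (h : ∀ i, 14 * x i ^ 2 ≤ d i - d i ^ 2) (h1 : ∑ i, d i = 1) (h0 : ∑ i, x i = 0)
    (hv : ∑ i, d i * x i ≤ 0)
    (hS : 15893 / 2025 + (115 * ∑ i, d i ^ 2 - 224 * ∑ i, x i ^ 2 - 41 * ∑ i, d i * x i)
      + ∑ i, 4 * (d i - d i ^ 2 - 14 * x i ^ 2) < 356 / 10000) :
    (Rt (1 / 50) x).card = 9 := by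
  refine CDat.cls G15_115_41.dat (by norm_num) h h1 h0 hv ?_
  simp only [zero_mul, add_zero]
  exact hS.trans_le (by norm_num)

end Vale.Agent.P224.SO.G15a
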