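import Vale.Agent.P224.SO.OneA

/-!
The one point identity in dimension 7, blocks 4 and 5: the mean normal is at most 139/100
times the mean square distance of the normal to a Clifford point, with the weight 1 on the
block of dimension 4.
-/

namespace Vale.Agent.P224.SO.One7

open MeasureTheory Set Filter Function Module Vale.Agent.P224.UE Vale.Agent.P224.SO
open scoped Topology RealInnerProductSpace ContDiff

set_option linter.unusedSectionVars false
set_option linter.unusedVariables false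

lemma sqK : √12 ^ 2 = (12 : ℝ) := Real.sq_sqrt (by norm_num)

/-- the coefficients in the block of dimension 4 -/
noncomputable def pa (t u v : ℝ) : ℝ := (-(53 / 180)) * (v) + 49 / 100 * (u) + (-(2 / 105)) * (t * v) + (-(2 / 105)) * (t * u) + 7 / 36 * (t ^ 2)

/-- the coefficients in the block of dimension 4 -/
noncomputable def pb (t u v : ℝ) : ℝ := 347 / 700 * (v) + 347 / 700 * (u) + (-(2813 / 8400)) * (t) + (-(2 / 35)) * (t * v) + (-(2 / 35)) * (t * u) + 1 / 30 * (t ^ 2)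

/-- the coefficients in the block of dimension 5 -/
noncomputable def qa (t u v : ℝ) : ℝ := (-(11 / 24)) * (v) + 5 / 16 * (u) + 3 / 140 * (t * v) + 3 / 140 * (t * u) + 21 / 80 * (t ^ 2)

/-- the coefficients in the block of dimension 5 -/
noncomputable def qb (t u v : ℝ) : ℝ := 19 / 42 * (v) + 19 / 42 * (u) + 3127 / 2520 * (t) + (-(3 / 35)) * (t * v) + (-(3 / 35)) * (t * u) + 1 / 20 * (t ^ 2)

/-- the certificate -/
lemma cert {t u v g g' a1 B1 a2 B2 : ℝ} (hρ : 0 ≤ 3 / 7 + t) (hr : 0 ≤ 4 / 7 - t)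
    (hu : 0 ≤ u) (hv : 0 ≤ v) (hg : 0 ≤ g) (hg' : 0 ≤ g')
    (hgd : g = (3 / 7 + t) * u - (7 / 2 * t + 6 / 7 * (u + v)) ^ 2 / 12)
    (hgd' : g' = (4 / 7 - t) * v - (7 / 2 * t - 6 / 7 * (u + v)) ^ 2 / 12)
    (ha1 : a1 = pa t u v) (hb1 : B1 = pb t u v) (ha2 : a2 = qa t u v) (hb2 : B2 = qb t u v) :
    (12 * a1 ^ 2 * (3 / 7 + t) - 2 * a1 * B1 * (7 / 2 * t + 6 / 7 * (u + v)) + B1 ^ 2 * u
      + (12 * a2 ^ 2 * (4 / 7 - t) - 2 * a2 * B2 * (7 / 2 * t - 6 / 7 * (u + v)) + B2 ^ 2 * v))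
      ≤ (139 / 100 * (1 * u + v)) ^ 2 := by
  have hQ0 : 0 ≤ 121 / 4375 * (u + (-(105 / 121)) * (t ^ 2) + (-(175 / 88)) * (t * u)) ^ 2 +
      9594767 / 10454400 * (t ^ 2 + (-(1192752 / 6853405)) * (t * u)) ^ 2 +
      5253897353 / 54827240000 * (t * u) ^ 2 := by positivity
  have hQ1 : 0 ≤ 28823 / 270000 * (v + (-(345995 / 403522)) * (t ^ 2) + 5399655 / 1412327 * (t * v)) ^ 2 +
      26353308749 / 61012526400 * (t ^ 2 + 569038642911 / 1844731612430 * (t * v)) ^ 2 +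
      830935015943695633 / 619829821776480000 * (t * v) ^ 2 := by positivity
  have hQ2 : 0 ≤ 106848389 / 14112000 * (t + (-(124302774 / 534241945)) * (u) + 689514 / 106848389 * (t ^ 2) + (-(1191600 / 747938723)) * (t * u)) ^ 2 +
      9128986127619 / 1047114212200000 * (u + 104050009411355 / 9128986127619 * (t ^ 2) + (-(178643615783600 / 63902902893333)) * (t * u)) ^ 2 +
      198108726847544309 / 24343963006984000 * (t ^ 2 + (-(7119442613869855084 / 29121982846589013423)) * (t * u)) ^ 2 +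
      481227416388120915482 / 107023286961214624329525 * (t * u) ^ 2 := by positivity
  have hQ3 : 0 ≤ 1271613463 / 317520000 * (t + 416919210 / 1271613463 * (u) + 2046666660 / 8901294241 * (v) + (-(633769920 / 1271613463)) * (t ^ 2) + (-(2809050480 / 8901294241)) * (t * u) + (-(254016000 / 1271613463)) * (t * v)) ^ 2 +
      870096575979223 / 1246181193740000 * (u + 5205107404829485 / 18272028095563683 * (v) + (-(2056920323273900 / 870096575979223)) * (t ^ 2) + 1004722329559700 / 2610289727937669 * (t * u) + 4965613540911740 / 18272028095563683 * (t * v)) ^ 2 +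
      8693316766999305904529 / 376038338206700596140000 * (v + (-(39057292036132451157720 / 8693316766999305904529)) * (t ^ 2) + 22575534399346138658740 / 8693316766999305904529 * (t * u) + 936679767302772000920 / 790301524272664173139 * (t * v)) ^ 2 +
      21607768122827960126408501 / 8693316766999305904529000 * (t ^ 2 + 955705604622795081578373652 / 3176341914055710138582049647 * (t * u) + 32492348554147514321457003 / 151254376859795720884859507 * (t * v)) ^ 2 +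
      158420724974730986201974374004007 / 233461130683094695185780649054500 * (t * u + 77485603076676957174455105268087 / 316841449949461972403948748008014 * (t * v)) ^ 2 +
      101822456693516938314039585404580883883 / 2282208963985974587225642831901724842000 * (t * v) ^ 2 := by positivity
  have hQ4 : 0 ≤ 95777 / 15000 * (1 + (-(25875 / 95777)) * (t)) ^ 2 +
      653196847 / 95777000 * (t) ^ 2 := by positivity
  have hQ5 : 0 ≤ 1001 / 125 * (1 + (-(265 / 4004)) * (t)) ^ 2 +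
      18151979 / 2002000 * (t) ^ 2 := by positivity
  have e : (139 / 100 * (1 * u + v)) ^ 2 - (12 * a1 ^ 2 * (3 / 7 + t) - 2 * a1 * B1 * (7 / 2 * t + 6 / 7 * (u + v)) + B1 ^ 2 * u
      + (12 * a2 ^ 2 * (4 / 7 - t) - 2 * a2 * B2 * (7 / 2 * t - 6 / 7 * (u + v)) + B2 ^ 2 * v))
      = (121 / 4375 * (u + (-(105 / 121)) * (t ^ 2) + (-(175 / 88)) * (t * u)) ^ 2 +
      9594767 / 10454400 * (t ^ 2 + (-(1192752 / 6853405)) * (t * u)) ^ 2 +
      5253897353 / 54827240000 * (t * u) ^ 2)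
      + (3 / 7 + t) * (28823 / 270000 * (v + (-(345995 / 403522)) * (t ^ 2) + 5399655 / 1412327 * (t * v)) ^ 2 +
      26353308749 / 61012526400 * (t ^ 2 + 569038642911 / 1844731612430 * (t * v)) ^ 2 +
      830935015943695633 / 619829821776480000 * (t * v) ^ 2)
      + u * (106848389 / 14112000 * (t + (-(124302774 / 534241945)) * (u) + 689514 / 106848389 * (t ^ 2) + (-(1191600 / 747938723)) * (t * u)) ^ 2 +
      9128986127619 / 1047114212200000 * (u + 104050009411355 / 9128986127619 * (t ^ 2) + (-(178643615783600 / 63902902893333)) * (t * u)) ^ 2 +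
      198108726847544309 / 24343963006984000 * (t ^ 2 + (-(7119442613869855084 / 29121982846589013423)) * (t * u)) ^ 2 +
      481227416388120915482 / 107023286961214624329525 * (t * u) ^ 2)
      + v * (1271613463 / 317520000 * (t + 416919210 / 1271613463 * (u) + 2046666660 / 8901294241 * (v) + (-(633769920 / 1271613463)) * (t ^ 2) + (-(2809050480 / 8901294241)) * (t * u) + (-(254016000 / 1271613463)) * (t * v)) ^ 2 +
      870096575979223 / 1246181193740000 * (u + 5205107404829485 / 18272028095563683 * (v) + (-(2056920323273900 / 870096575979223)) * (t ^ 2) + 1004722329559700 / 2610289727937669 * (t * u) + 4965613540911740 / 18272028095563683 * (t * v)) ^ 2 +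
      8693316766999305904529 / 376038338206700596140000 * (v + (-(39057292036132451157720 / 8693316766999305904529)) * (t ^ 2) + 22575534399346138658740 / 8693316766999305904529 * (t * u) + 936679767302772000920 / 790301524272664173139 * (t * v)) ^ 2 +
      21607768122827960126408501 / 8693316766999305904529000 * (t ^ 2 + 955705604622795081578373652 / 3176341914055710138582049647 * (t * u) + 32492348554147514321457003 / 151254376859795720884859507 * (t * v)) ^ 2 +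
      158420724974730986201974374004007 / 233461130683094695185780649054500 * (t * u + 77485603076676957174455105268087 / 316841449949461972403948748008014 * (t * v)) ^ 2 +
      101822456693516938314039585404580883883 / 2282208963985974587225642831901724842000 * (t * v) ^ 2)
      + (g * v) * (95777 / 15000 * (1 + (-(25875 / 95777)) * (t)) ^ 2 +
      653196847 / 95777000 * (t) ^ 2)
      + (g' * u) * (1001 / 125 * (1 + (-(265 / 4004)) * (t)) ^ 2 +
      18151979 / 2002000 * (t) ^ 2) := by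
    rw [ha1, hb1, ha2, hb2, hgd, hgd']
    unfold pa pb qa qb
    ring
  have h1 := mul_nonneg hρ hQ1
  have h2 := mul_nonneg hu hQ2
  have h3 := mul_nonneg hv hQ3
  have h4 := mul_nonneg (mul_nonneg hg hv) hQ4
  have h5 := mul_nonneg (mul_nonneg hg' hu) hQ5
  rw [← sub_nonneg, e]
  exact add_nonneg (add_nonneg (add_nonneg (add_nonneg (add_nonneg hQ0 h1) h2) h3) h4) h5

/-- the first block -/
noncomputable def uQ (ρ σ ν : ℝ) : ℝ := ν + 2 / 3 * √12 * σ + 4 / 3 * ρ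

/-- the second block -/
noncomputable def vQ (ρ σ ν : ℝ) : ℝ := 1 - ν + 1 / 2 * √12 * σ + 3 / 4 * (1 - ρ)

/-- the integrand, for a coordinate -/
noncomputable def Ps (k : Prop) [Decidable k] (ρ σ ν x n : ℝ) : ℝ :=
  if k then -(√12 * qa (ρ - 3 / 7) (uQ ρ σ ν) (vQ ρ σ ν)) * x
      + qb (ρ - 3 / 7) (uQ ρ σ ν) (vQ ρ σ ν) * (n - √12 / 4 * x)
    else -(√12 * pa (ρ - 3 / 7) (uQ ρ σ ν) (vQ ρ σ ν)) * x
      + pb (ρ - 3 / 7) (uQ ρ σ ν) (vQ ρ σ ν) * (n + √12 / 3 * x)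

lemma Ps_in {k : Prop} [Decidable k] (hk : k) (ρ σ ν x n : ℝ) : Ps k ρ σ ν x n
    = n + (769 / 1120 * √12) * x + ((-(1009 / 10080)) * √12) * (9 * (ρ * x) + 2 * (σ * n))
      + ((-(37 / 48)) * √12) * (ν * x - σ * n) + 1 / 6 * (8 * (ρ * n - σ * x) - 4 * n)
      + (1 / 40 * √12) * (4 * (ρ * (0 * x)) - 11 * (ρ ^ 2 * x) - 4 * (ρ * σ * n)) := by
  unfold Ps qa qb uQ vQ
  rw [if_pos hk]
  linear_combination ((-(1 / 9)) * σ * x) * sqK

lemma Ps_out {k : Prop} [Decidable k] (hk : ¬k) (ρ σ ν x n : ℝ) : Ps k ρ σ ν x n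
    = n + (2947 / 3600 * √12) * x + ((-(2237 / 25200)) * √12) * (9 * (ρ * x) + 2 * (σ * n))
      + ((-(353 / 450)) * √12) * (ν * x - σ * n) + (-(1 / 50)) * (8 * (ρ * n - σ * x) - 3 * n)
      + (1 / 60 * √12) * (4 * (ρ * (1 * x)) - 11 * (ρ ^ 2 * x) - 4 * (ρ * σ * n)) := by
  unfold Ps pa pb uQ vQ
  rw [if_neg hk]
  linear_combination (1 / 75 * σ * x) * sqK

/-- the pointwise inequality -/
lemma pointwise' (S : Finset (Fin 9)) (x N u : Fin 9 → ℝ) (hx : ∑ i, x i ^ 2 = 1)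
    (hN : ∑ i, N i ^ 2 = 1) (hu : ∑ i, u i ^ 2 = 1) (hxN : ∑ i, x i * N i = 0) :
    ∑ k, Ps (k ∈ S) (∑ i ∈ Finset.univ \ S, x i ^ 2) (∑ i ∈ Finset.univ \ S, x i * N i)
        (∑ i ∈ Finset.univ \ S, N i ^ 2) (x k) (N k) * u k
      ≤ 139 / 100 * ∑ i, (if i ∈ S then 1 else 1)
        * (N i - (if i ∈ S then √12 / 4 else -(√12 / 3)) * x i) ^ 2 := by
  obtain ⟨ρ, hρ⟩ : ∃ ρ, ρ = ∑ i ∈ Finset.univ \ S, x i ^ 2 := ⟨_, rfl⟩
  obtain ⟨ν, hν⟩ : ∃ ν, ν = ∑ i ∈ Finset.univ \ S, N i ^ 2 := ⟨_, rfl⟩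
  obtain ⟨σ, hσ⟩ : ∃ σ, σ = ∑ i ∈ Finset.univ \ S, x i * N i := ⟨_, rfl⟩
  rw [← hρ, ← hν, ← hσ]
  have spl : ∀ f : Fin 9 → ℝ, ∑ i, f i = ∑ i ∈ S, f i + ∑ i ∈ Finset.univ \ S, f i := fun f => by
    rw [add_comm, Finset.sum_sdiff (Finset.subset_univ S)]
  have hρ2 : ∑ i ∈ S, x i ^ 2 = 1 - ρ := by
    have := spl fun i => x i ^ 2
    rw [hx, ← hρ] at this
    linarith
  have hν2 : ∑ i ∈ S, N i ^ 2 = 1 - ν := by
    have := spl fun i => N i ^ 2
    rw [hN, ← hν] at this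
    linarith
  have hσ2 : ∑ i ∈ S, x i * N i = -σ := by
    have := spl fun i => x i * N i
    rw [hxN, ← hσ] at this
    linarith
  have q6 := sqK
  have hA : ∑ i ∈ Finset.univ \ S, (N i + √12 / 3 * x i) ^ 2 = uQ ρ σ ν := by
    have : ∑ i ∈ Finset.univ \ S, (N i + √12 / 3 * x i) ^ 2 = ∑ i ∈ Finset.univ \ S,
        (N i ^ 2 + (2 / 3 * √12) * (x i * N i) + 4 / 3 * x i ^ 2) :=
      Finset.sum_congr rfl fun i _ => by linear_combination (x i ^ 2 / 9) * q6
    rw [this, Finset.sum_add_distrib, Finset.sum_add_distrib, ← Finset.mul_sum,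
      ← Finset.mul_sum, ← hρ, ← hν, ← hσ]
    rfl
  have hB : ∑ i ∈ S, (N i - √12 / 4 * x i) ^ 2 = vQ ρ σ ν := by
    have : ∑ i ∈ S, (N i - √12 / 4 * x i) ^ 2 = ∑ i ∈ S,
        (N i ^ 2 + (-(1 / 2 * √12)) * (x i * N i) + 3 / 4 * x i ^ 2) :=
      Finset.sum_congr rfl fun i _ => by linear_combination (x i ^ 2 / 16) * q6
    rw [this, Finset.sum_add_distrib, Finset.sum_add_distrib, ← Finset.mul_sum,
      ← Finset.mul_sum, hρ2, hν2, hσ2]
    unfold vQ
    ring
  obtain ⟨U, hU⟩ : ∃ U, U = uQ ρ σ ν := ⟨_, rfl⟩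
  obtain ⟨V, hV⟩ : ∃ V, V = vQ ρ σ ν := ⟨_, rfl⟩
  obtain ⟨t, ht⟩ : ∃ t, t = ρ - 3 / 7 := ⟨_, rfl⟩
  obtain ⟨a, ha⟩ : ∃ a, a = pa t U V := ⟨_, rfl⟩
  obtain ⟨α, hα⟩ : ∃ α, α = pb t U V := ⟨_, rfl⟩
  obtain ⟨b, hb⟩ : ∃ b, b = qa t U V := ⟨_, rfl⟩
  obtain ⟨β, hβ⟩ : ∃ β, β = qb t U V := ⟨_, rfl⟩
  obtain ⟨y, hy⟩ : ∃ y, y = 7 / 2 * t + 6 / 7 * (U + V) := ⟨_, rfl⟩
  obtain ⟨z, hz⟩ : ∃ z, z = 7 / 2 * t - 6 / 7 * (U + V) := ⟨_, rfl⟩
  obtain ⟨g, hg⟩ : ∃ g, g = (3 / 7 + t) * U - (7 / 2 * t + 6 / 7 * (U + V)) ^ 2 / 12 := ⟨_, rfl⟩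
  obtain ⟨g', hg'⟩ : ∃ g', g' = (4 / 7 - t) * V - (7 / 2 * t - 6 / 7 * (U + V)) ^ 2 / 12 := ⟨_, rfl⟩
  have hU0 : 0 ≤ U := by
    rw [hU, ← hA]
    exact Finset.sum_nonneg fun i _ => sq_nonneg _
  have hV0 : 0 ≤ V := by
    rw [hV, ← hB]
    exact Finset.sum_nonneg fun i _ => sq_nonneg _
  have hρ0 : 0 ≤ ρ := by
    rw [hρ]
    exact Finset.sum_nonneg fun i _ => sq_nonneg _
  have hρ1 : 0 ≤ 1 - ρ := by
    rw [← hρ2]
    exact Finset.sum_nonneg fun i _ => sq_nonneg _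
  have hp1 : √12 * (σ + √12 / 3 * ρ) = y := by
    rw [hy, hU, hV, ht]
    unfold uQ vQ
    linear_combination (ρ / 3) * q6
  have hp1' : ∑ i ∈ Finset.univ \ S, x i * (N i + √12 / 3 * x i) = σ + √12 / 3 * ρ := by
    rw [hσ, hρ, Finset.mul_sum, ← Finset.sum_add_distrib]
    exact Finset.sum_congr rfl fun i _ => by ring
  have hp2' : ∑ i ∈ S, x i * (N i - √12 / 4 * x i) = -σ - √12 / 4 * (1 - ρ) := by
    rw [← hσ2, ← hρ2, Finset.mul_sum, ← Finset.sum_sub_distrib]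
    exact Finset.sum_congr rfl fun i _ => by ring
  have hp2 : √12 * (-σ - √12 / 4 * (1 - ρ)) = z := by
    rw [hz, hU, hV, ht]
    unfold uQ vQ
    linear_combination (-(1 - ρ) / 4) * q6
  have hcs := Finset.sum_mul_sq_le_sq_mul_sq (Finset.univ \ S) x fun i => N i + √12 / 3 * x i
  rw [hp1', ← hρ, hA, ← hU] at hcs
  have hcs' := Finset.sum_mul_sq_le_sq_mul_sq S x fun i => N i - √12 / 4 * x i
  rw [hp2', hρ2, hB, ← hV] at hcs'
  have hg0 : 0 ≤ g := by
    have e : y ^ 2 = 12 * (σ + √12 / 3 * ρ) ^ 2 := by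
      rw [← hp1]
      linear_combination ((σ + √12 / 3 * ρ) ^ 2) * q6
    rw [hg, ← hy, e, ht]
    linarith
  have hg0' : 0 ≤ g' := by
    have e : z ^ 2 = 12 * (-σ - √12 / 4 * (1 - ρ)) ^ 2 := by
      rw [← hp2]
      linear_combination ((-σ - √12 / 4 * (1 - ρ)) ^ 2) * q6
    rw [hg', ← hz, e, ht]
    linarith
  have hρt : 0 ≤ 3 / 7 + t := by rw [ht]; linarith
  have hρt' : 0 ≤ 4 / 7 - t := by rw [ht]; linarith
  have key := cert hρt hρt' hU0 hV0 hg0 hg0' hg hg' ha hα hb hβ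
  rw [← hy, ← hz] at key
  have hPs : ∀ k, Ps (k ∈ S) ρ σ ν (x k) (N k)
      = if k ∈ S then -(√12 * b) * x k + β * (N k - √12 / 4 * x k)
        else -(√12 * a) * x k + α * (N k + √12 / 3 * x k) := by
    intro k
    unfold Ps
    rw [← hU, ← hV, ← ht, ← ha, ← hβ, ← hα, ← hb]
  have nS : ∑ k ∈ S, (-(√12 * b) * x k + β * (N k - √12 / 4 * x k)) ^ 2
      = 12 * b ^ 2 * (4 / 7 - t) - 2 * b * β * z + β ^ 2 * V := by
    have : ∑ k ∈ S, (-(√12 * b) * x k + β * (N k - √12 / 4 * x k)) ^ 2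
        = ∑ k ∈ S, (12 * b ^ 2 * x k ^ 2 + (-2 * √12 * b * β) * (x k * (N k - √12 / 4 * x k))
          + β ^ 2 * (N k - √12 / 4 * x k) ^ 2) :=
      Finset.sum_congr rfl fun i _ => by linear_combination (b ^ 2 * x i ^ 2) * q6
    rw [this, Finset.sum_add_distrib, Finset.sum_add_distrib, ← Finset.mul_sum,
      ← Finset.mul_sum, ← Finset.mul_sum, hρ2, hB, ← hV, hp2', ht]
    linear_combination (-2 * b * β) * hp2
  have nA : ∑ k ∈ Finset.univ \ S, (-(√12 * a) * x k + α * (N k + √12 / 3 * x k)) ^ 2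
      = 12 * a ^ 2 * (3 / 7 + t) - 2 * a * α * y + α ^ 2 * U := by
    have : ∑ k ∈ Finset.univ \ S, (-(√12 * a) * x k + α * (N k + √12 / 3 * x k)) ^ 2
        = ∑ k ∈ Finset.univ \ S, (12 * a ^ 2 * x k ^ 2
          + (-2 * √12 * a * α) * (x k * (N k + √12 / 3 * x k))
          + α ^ 2 * (N k + √12 / 3 * x k) ^ 2) :=
      Finset.sum_congr rfl fun i _ => by linear_combination (a ^ 2 * x i ^ 2) * q6
    rw [this, Finset.sum_add_distrib, Finset.sum_add_distrib, ← Finset.mul_sum,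
      ← Finset.mul_sum, ← Finset.mul_sum, ← hρ, hA, ← hU, hp1', ht]
    linear_combination (-2 * a * α) * hp1
  have hn2 : ∑ k, Ps (k ∈ S) ρ σ ν (x k) (N k) ^ 2 ≤ (139 / 100 * (1 * U + V)) ^ 2 := by
    refine le_trans (le_of_eq ?_) key
    rw [spl, ← nS, ← nA, add_comm]
    congr 1
    · refine Finset.sum_congr rfl fun i hi => ?_
      rw [hPs, if_neg (Finset.mem_sdiff.1 hi).2]
    · refine Finset.sum_congr rfl fun i hi => ?_
      rw [hPs, if_pos hi]
  have hfin : ∑ i, (if i ∈ S then (1 : ℝ) else 1)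
      * (N i - (if i ∈ S then √12 / 4 else -(√12 / 3)) * x i) ^ 2 = 1 * U + V := by
    rw [spl, hU, hV, ← hA, ← hB, Finset.mul_sum, add_comm]
    congr 1
    · refine Finset.sum_congr rfl fun i hi => ?_
      have := (Finset.mem_sdiff.1 hi).2
      rw [if_neg this, if_neg this]
      ring
    · refine Finset.sum_congr rfl fun i hi => ?_
      rw [if_pos hi, if_pos hi, one_mul]
  rw [hfin]
  have hcs2 := Finset.sum_mul_sq_le_sq_mul_sq Finset.univ
    (fun k => Ps (k ∈ S) ρ σ ν (x k) (N k)) u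
  rw [hu, mul_one] at hcs2
  exact (abs_le_of_sq_le_sq' (hcs2.trans hn2) (by positivity)).2

section

variable {X : Type*} [MeasurableSpace X] {E : Type*} [NormedAddCommGroup E]
  [InnerProductSpace ℝ E] [FiniteDimensional ℝ E] [MeasurableSpace E] [BorelSpace E]
  {μ : Measure X} [IsFiniteMeasure μ] {p n : X → E}

/-- the integrand differs from the normal by a null function -/
lemma coord' (h : TwoG μ 7 p n) (hp : UF p) (hn : UF n) [Nonempty X]
    (hsp : ∀ w, (∀ x, ⟪p x, w⟫ = 0) → w = 0) (b : OrthonormalBasis (Fin 9) ℝ E)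
    (S : Finset (Fin 9)) (hS : S.card = 5) (k : Fin 9) :
    Nul μ (fun x => Ps (k ∈ S) (bρ p b (Finset.univ \ S) x) (bσ p n b (Finset.univ \ S) x)
      (bρ n b (Finset.univ \ S) x) ⟪p x, b k⟫ ⟪n x, b k⟫ - ⟪n x, b k⟫) := by
  have hc : (Finset.univ \ S).card = 4 := by
    rw [Finset.card_sdiff_of_subset (Finset.subset_univ S), hS]
    simp
  have n0 := nul0 h (by norm_num) hp (b k) (μ := μ)
  have n1 := blk1 h (by norm_num) hp hn hsp b (Finset.univ \ S) (b k)
  have n2 := blk2 h (by norm_num) hp hn hsp b (Finset.univ \ S) (b k)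
  have n3 := blk3 h hp hn hsp b (Finset.univ \ S) k
  have n4 := blk4 h hp hn hsp b (Finset.univ \ S) k
  by_cases hk : k ∈ S
  · have hk' : k ∉ Finset.univ \ S := fun hh => (Finset.mem_sdiff.1 hh).2 hk
    refine (((((n0.cmul (769 / 1120 * √12)).add (n1.cmul ((-(1009 / 10080)) * √12))).add
      (n2.cmul ((-(37 / 48)) * √12))).add (n3.cmul (1 / 6))).add
      (n4.cmul (1 / 40 * √12))).congr fun x => ?_
    rw [Ps_in hk, hc, if_neg hk']
    push_cast
    ring
  · have hk' : k ∈ Finset.univ \ S := Finset.mem_sdiff.2 ⟨Finset.mem_univ k, hk⟩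
    refine (((((n0.cmul (2947 / 3600 * √12)).add (n1.cmul ((-(2237 / 25200)) * √12))).add
      (n2.cmul ((-(353 / 450)) * √12))).add (n3.cmul ((-(1 / 50))))).add
      (n4.cmul (1 / 60 * √12))).congr fun x => ?_
    rw [Ps_out hk, hc, if_pos hk']
    push_cast
    ring

/-- the one point identity -/
theorem one (h : TwoG μ 7 p n) [Nonempty X]
    (hsp : ∀ w, (∀ x, ⟪p x, w⟫ = 0) → w = 0) (b : OrthonormalBasis (Fin 9) ℝ E)
    (S : Finset (Fin 9)) (hS : S.card = 5) :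
    ‖∫ x, n x ∂μ‖ ≤ 139 / 100 * ∫ x, ∑ i, (if i ∈ S then 1 else 1)
      * (⟪n x, b i⟫ - (if i ∈ S then √12 / 4 else -(√12 / 3)) * ⟪p x, b i⟫) ^ 2 ∂μ :=
  one_abs h b (Cc := 139 / 100) (by norm_num) (fun i => if i ∈ S then (1 : ℝ) else 1)
    (fun i => by split_ifs <;> norm_num) (fun i => if i ∈ S then √12 / 4 else -(√12 / 3))
    (fun k x => Ps (k ∈ S) (bρ p b (Finset.univ \ S) x) (bσ p n b (Finset.univ \ S) x)
      (bρ n b (Finset.univ \ S) x) ⟪p x, b k⟫ ⟪n x, b k⟫)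
    (fun k => coord' h ⟨h.mp, h.np⟩ ⟨h.mn, h.nn⟩ hsp b S hS k)
    (fun x u hx hN hu hxN => pointwise' S (fun i => ⟪p x, b i⟫) (fun i => ⟪n x, b i⟫) u hx hN
      hu hxN)

/-- the one point identity with the norm -/
theorem one_norm (h : TwoG μ 7 p n) [Nonempty X]
    (hsp : ∀ w, (∀ x, ⟪p x, w⟫ = 0) → w = 0) {α : ℝ} (hα : 0 < α) (hα2 : α ^ 2 = 3 / 4)
    (b : OrthonormalBasis (Fin 9) ℝ E) (S : Finset (Fin 9)) (hS : S.card = 5) :
    ‖∫ x, n x ∂μ‖ ≤ 139 / 100 * ∫ x, ‖n x - ∑ i, ((if i ∈ S then α else -(1 / α))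
      * ⟪p x, b i⟫) • b i‖ ^ 2 ∂μ := by
  have h1 : α = √12 / 4 := by
    have h2 : (√12 / 4 : ℝ) ^ 2 = α ^ 2 := by
      rw [hα2, div_pow, sqK]
      norm_num
    exact ((sq_eq_sq₀ (by positivity) hα.le).1 h2).symm
  have h3 : 1 / α = √12 / 3 := by
    rw [h1, one_div_div, div_eq_div_iff (by positivity) (by norm_num)]
    linear_combination -sqK
  have h4 := one h hsp b S hS
  rw [h1] at *
  rw [h3]
  refine h4.trans (le_of_eq ?_)
  congr 1
  refine integral_congr_ae (Eventually.of_forall fun x => ?_)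
  simp only
  rw [norm_dev]
  exact Finset.sum_congr rfl fun i _ => by rw [ite_self, one_mul]

end

end Vale.Agent.P224.SO.One7
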