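import Vale.Agent.P224.SO.NearG

/-!
Dimension seven: the stable scalar inequalities near the Clifford configuration.
-/

namespace Vale.Agent.P224.SO.S7

open Finset Vale.Agent.P224.SO

section

variable {d x : ℝ}

/-- the functional of one index with multipliers -/
noncomputable def q7 (d x : ℝ) : ℝ :=
  34 * d ^ 2 - 48 * x ^ 2 - 7 * (d * x) - 101 / 42 * d + 253 / 35 * x

/-- the additional term of the static functional -/
noncomputable def pS (d x : ℝ) : ℝ := 4 * (d - d ^ 2 - 6 * x ^ 2)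

/-- the additional terms of the functional with a parameter -/
noncomputable def pT (d x : ℝ) : ℝ :=
  4 * (d - d ^ 2 - 6 * x ^ 2)
    + 7 / 100 * ((1 - 9 * d - 2 * x) ^ 2 + 49 / 3 * (d - d ^ 2 - 6 * x ^ 2))

/-- the distance from the tangent line on the right -/
noncomputable def e2 (d x : ℝ) : ℝ := 29 / 32 * d - 3 / 2 * x + 3 / 32

/-- the distance from the tangent line on the left -/
noncomputable def e1 (d x : ℝ) : ℝ := 5 / 6 * d + 2 * x + 1 / 6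

lemma lin6 (h : 6 * x ^ 2 ≤ d - d ^ 2) (u v : ℝ) :
    0 ≤ (1 - 2 * u) * d - 12 * v * x + u ^ 2 + 6 * v ^ 2 := by
  nlinarith [sq_nonneg (d - u), sq_nonneg (x - v)]

lemma e2_nonneg (h : 6 * x ^ 2 ≤ d - d ^ 2) : 0 ≤ e2 d x := by
  have := lin6 h (3 / 35) (4 / 35)
  unfold e2
  linarith

lemma e1_nonneg (h : 6 * x ^ 2 ≤ d - d ^ 2) : 0 ≤ e1 d x := by
  have := lin6 h (1 / 7) (-(1 / 7))
  unfold e1
  linarith

lemma pS_nonneg (h : 6 * x ^ 2 ≤ d - d ^ 2) : 0 ≤ pS d x := by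
  unfold pS
  linarith

lemma pT_nonneg (h : 6 * x ^ 2 ≤ d - d ^ 2) : 0 ≤ pT d x := by
  unfold pT
  nlinarith [sq_nonneg (1 - 9 * d - 2 * x)]

lemma aS (h : 6 * x ^ 2 ≤ d - d ^ 2) (hx : 875 / 10000 ≤ x) :
    61 / 350 + 385 / 100 * e2 d x ≤ q7 d x + pS d x := by
  have hs := lin6 h (3 / 35) (4 / 35)
  unfold q7 e2 pS
  nlinarith [mul_nonneg (sub_nonneg.2 hx) hs,
    sq_nonneg ((8 / 35 * (d - 3 / 35) + 29 / 35 * (x - 4 / 35))
      + 451 / 100 * (29 / 35 * (d - 3 / 35) - 48 / 35 * (x - 4 / 35))),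
    sq_nonneg (29 / 35 * (d - 3 / 35) - 48 / 35 * (x - 4 / 35))]

lemma aT (h : 6 * x ^ 2 ≤ d - d ^ 2) (hx : 857 / 10000 ≤ x) :
    61 / 350 + 52 / 10 * e2 d x ≤ q7 d x + pT d x := by
  have hs := lin6 h (3 / 35) (4 / 35)
  unfold q7 e2 pT
  nlinarith [mul_nonneg (sub_nonneg.2 hx) hs,
    sq_nonneg ((8 / 35 * (d - 3 / 35) + 29 / 35 * (x - 4 / 35))
      + 259 / 100 * (29 / 35 * (d - 3 / 35) - 48 / 35 * (x - 4 / 35))),
    sq_nonneg (29 / 35 * (d - 3 / 35) - 48 / 35 * (x - 4 / 35))]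

lemma bS (h : 6 * x ^ 2 ≤ d - d ^ 2) (hx : 1 / 20 ≤ x) (hx' : x ≤ 875 / 10000) :
    61 / 350 + 24 / 1000 ≤ q7 d x + pS d x := by
  unfold q7 pS
  nlinarith [mul_nonneg (sub_nonneg.2 hx) (sub_nonneg.2 hx'),
    mul_nonneg (sub_nonneg.2 hx') (lin6 h (483 / 10000) (875 / 10000)),
    sq_nonneg (d - 483 / 10000), sq_nonneg (x - 875 / 10000),
    sq_nonneg ((d - 483 / 10000) - (x - 875 / 10000))]

lemma bT (h : 6 * x ^ 2 ≤ d - d ^ 2) (hx : 1 / 20 ≤ x) (hx' : x ≤ 857 / 10000) :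
    61 / 350 + 38 / 1000 ≤ q7 d x + pT d x := by
  unfold q7 pT
  nlinarith [mul_nonneg (sub_nonneg.2 hx) (sub_nonneg.2 hx'),
    mul_nonneg (sub_nonneg.2 hx') (lin6 h (462 / 10000) (857 / 10000)),
    sq_nonneg (d - 462 / 10000), sq_nonneg (x - 857 / 10000),
    sq_nonneg ((d - 462 / 10000) - (x - 857 / 10000))]

lemma lS (h : 6 * x ^ 2 ≤ d - d ^ 2) (hx : x ≤ -(9 / 100)) :
    -(319 / 210) + 11 * e1 d x ≤ q7 d x + pS d x := by
  have hs := lin6 h (1 / 7) (-(1 / 7))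
  unfold q7 e1 pS
  nlinarith [mul_nonneg (sub_nonneg.2 hx) hs,
    sq_nonneg ((2 / 7 * (d - 1 / 7) - 5 / 7 * (x + 1 / 7))
      + 55 / 100 * (5 / 7 * (d - 1 / 7) + 12 / 7 * (x + 1 / 7))),
    sq_nonneg (5 / 7 * (d - 1 / 7) + 12 / 7 * (x + 1 / 7))]

lemma lT (h : 6 * x ^ 2 ≤ d - d ^ 2) (hx : x ≤ -(9 / 100)) :
    -(319 / 210) + 12 * e1 d x ≤ q7 d x + pT d x := by
  have hs := lin6 h (1 / 7) (-(1 / 7))
  unfold q7 e1 pT
  nlinarith [mul_nonneg (sub_nonneg.2 hx) hs]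

lemma mS (h : 6 * x ^ 2 ≤ d - d ^ 2) (hx : -(9 / 100) ≤ x) (hx' : x ≤ 1 / 20) :
    -(319 / 210) + 1 / 10 ≤ q7 d x + pS d x := by
  unfold q7 pS
  nlinarith [mul_nonneg (sub_nonneg.2 hx) (sub_nonneg.2 hx')]

lemma mT (h : 6 * x ^ 2 ≤ d - d ^ 2) (hx : -(9 / 100) ≤ x) (hx' : x ≤ 1 / 20) :
    -(319 / 210) + 1 / 10 ≤ q7 d x + pT d x := by
  have := mS h hx hx'
  have : pS d x ≤ pT d x := by
    unfold pS pT
    nlinarith [sq_nonneg (1 - 9 * d - 2 * x)]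
  linarith

end

section

variable {d x : Fin 9 → ℝ}

/-- the static functional, weight `w` on the small block -/
theorem nearSw (h : ∀ i, 6 * x i ^ 2 ≤ d i - d i ^ 2) (h1 : ∑ i, d i = 1) (h0 : ∑ i, x i = 0)
    (hc : (Rt (1 / 20) x).card = 5) {w : ℝ} (hw0 : 0 ≤ w) (hw : w ≤ 2)
    (hS : 14 / 5 + (34 * ∑ i, d i ^ 2 - 48 * ∑ i, x i ^ 2 - 7 * ∑ i, d i * x i)
      + ∑ i, 4 * (d i - d i ^ 2 - 6 * x i ^ 2) < 24 / 1000) :
    385 / 100 * ∑ i, (if 1 / 20 ≤ x i then 29 / 32 * d i - 3 / 2 * x i + 3 / 32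
        else w * (5 / 6 * d i + 2 * x i + 1 / 6))
      ≤ 14 / 5 + (34 * ∑ i, d i ^ 2 - 48 * ∑ i, x i ^ 2 - 7 * ∑ i, d i * x i)
        + ∑ i, 4 * (d i - d i ^ 2 - 6 * x i ^ 2) := by
  refine near_of (a := -(101 / 42)) (b := 253 / 35) (qR := 61 / 350) (qL := -(319 / 210))
    (P := fun i => 4 * (d i - d i ^ 2 - 6 * x i ^ 2)) (r := 5) (l := 4) (t := 24 / 1000)
    (by norm_num) h1 h0 hc (by norm_num) (fun i => ?_) (by norm_num) (by norm_num)
    (fun i hi => ?_) (fun i hi => ?_) hS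
  · split_ifs
    · exact e2_nonneg (h i)
    · exact mul_nonneg hw0 (e1_nonneg (h i))
  · rw [if_pos hi]
    rcases le_total (875 / 10000) (x i) with hx | hx
    · left
      have := aS (h i) hx
      unfold q7 pS e2 at this
      linarith
    · right
      have := bS (h i) hi hx
      unfold q7 pS at this
      linarith
  · rw [if_neg hi]
    rcases le_total (x i) (-(9 / 100)) with hx | hx
    · left
      have := lS (h i) hx
      have h2 := mul_nonneg (sub_nonneg.2 hw) (e1_nonneg (h i))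
      have h3 := e1_nonneg (h i)
      unfold q7 pS at this
      unfold e1 at this h2 h3
      linarith
    · right
      have := mS (h i) hx (not_le.1 hi).le
      unfold q7 pS at this
      linarith

/-- the functional with a parameter, weight `w` on the small block -/
theorem nearTw (h : ∀ i, 6 * x i ^ 2 ≤ d i - d i ^ 2) (h1 : ∑ i, d i = 1) (h0 : ∑ i, x i = 0)
    (hc : (Rt (1 / 20) x).card = 5) {w : ℝ} (hw0 : 0 ≤ w) (hw : w ≤ 2)
    (hS : 14 / 5 + (34 * ∑ i, d i ^ 2 - 48 * ∑ i, x i ^ 2 - 7 * ∑ i, d i * x i)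
      + ∑ i, (4 * (d i - d i ^ 2 - 6 * x i ^ 2) + 7 / 100 * ((1 - 9 * d i - 2 * x i) ^ 2
        + 49 / 3 * (d i - d i ^ 2 - 6 * x i ^ 2))) < 38 / 1000) :
    52 / 10 * ∑ i, (if 1 / 20 ≤ x i then 29 / 32 * d i - 3 / 2 * x i + 3 / 32
        else w * (5 / 6 * d i + 2 * x i + 1 / 6))
      ≤ 14 / 5 + (34 * ∑ i, d i ^ 2 - 48 * ∑ i, x i ^ 2 - 7 * ∑ i, d i * x i)
        + ∑ i, (4 * (d i - d i ^ 2 - 6 * x i ^ 2) + 7 / 100 * ((1 - 9 * d i - 2 * x i) ^ 2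
          + 49 / 3 * (d i - d i ^ 2 - 6 * x i ^ 2))) := by
  refine near_of (a := -(101 / 42)) (b := 253 / 35) (qR := 61 / 350) (qL := -(319 / 210))
    (P := fun i => (4 * (d i - d i ^ 2 - 6 * x i ^ 2) + 7 / 100 * ((1 - 9 * d i - 2 * x i) ^ 2
        + 49 / 3 * (d i - d i ^ 2 - 6 * x i ^ 2)))) (r := 5) (l := 4) (t := 38 / 1000)
    (by norm_num) h1 h0 hc (by norm_num) (fun i => ?_) (by norm_num) (by norm_num)
    (fun i hi => ?_) (fun i hi => ?_) hS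
  · split_ifs
    · exact e2_nonneg (h i)
    · exact mul_nonneg hw0 (e1_nonneg (h i))
  · rw [if_pos hi]
    rcases le_total (857 / 10000) (x i) with hx | hx
    · left
      have := aT (h i) hx
      unfold q7 pT e2 at this
      linarith
    · right
      have := bT (h i) hi hx
      unfold q7 pT at this
      linarith
  · rw [if_neg hi]
    rcases le_total (x i) (-(9 / 100)) with hx | hx
    · left
      have := lT (h i) hx
      have h2 := mul_nonneg (sub_nonneg.2 hw) (e1_nonneg (h i))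
      have h3 := e1_nonneg (h i)
      unfold q7 pT at this
      unfold e1 at this h2 h3
      linarith
    · right
      have := mT (h i) hx (not_le.1 hi).le
      unfold q7 pT at this
      linarith

/-- **The static functional near the minimum.** -/
theorem nearS (h : ∀ i, 6 * x i ^ 2 ≤ d i - d i ^ 2) (h1 : ∑ i, d i = 1) (h0 : ∑ i, x i = 0)
    (hc : (Rt (1 / 20) x).card = 5)
    (hS : 14 / 5 + (34 * ∑ i, d i ^ 2 - 48 * ∑ i, x i ^ 2 - 7 * ∑ i, d i * x i)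
      + ∑ i, 4 * (d i - d i ^ 2 - 6 * x i ^ 2) < 24 / 1000) :
    385 / 100 * ∑ i, (if 1 / 20 ≤ x i then 29 / 32 * d i - 3 / 2 * x i + 3 / 32
        else 5 / 6 * d i + 2 * x i + 1 / 6)
      ≤ 14 / 5 + (34 * ∑ i, d i ^ 2 - 48 * ∑ i, x i ^ 2 - 7 * ∑ i, d i * x i)
        + ∑ i, 4 * (d i - d i ^ 2 - 6 * x i ^ 2) := by
  have := nearSw h h1 h0 hc (w := 1) (by norm_num) (by norm_num) hS
  simpa only [one_mul] using this

/-- **The functional with a parameter near the minimum.** -/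
theorem nearT (h : ∀ i, 6 * x i ^ 2 ≤ d i - d i ^ 2) (h1 : ∑ i, d i = 1) (h0 : ∑ i, x i = 0)
    (hc : (Rt (1 / 20) x).card = 5)
    (hS : 14 / 5 + (34 * ∑ i, d i ^ 2 - 48 * ∑ i, x i ^ 2 - 7 * ∑ i, d i * x i)
      + ∑ i, (4 * (d i - d i ^ 2 - 6 * x i ^ 2) + 7 / 100 * ((1 - 9 * d i - 2 * x i) ^ 2
        + 49 / 3 * (d i - d i ^ 2 - 6 * x i ^ 2))) < 38 / 1000) :
    52 / 10 * ∑ i, (if 1 / 20 ≤ x i then 29 / 32 * d i - 3 / 2 * x i + 3 / 32
        else 5 / 6 * d i + 2 * x i + 1 / 6)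
      ≤ 14 / 5 + (34 * ∑ i, d i ^ 2 - 48 * ∑ i, x i ^ 2 - 7 * ∑ i, d i * x i)
        + ∑ i, (4 * (d i - d i ^ 2 - 6 * x i ^ 2) + 7 / 100 * ((1 - 9 * d i - 2 * x i) ^ 2
          + 49 / 3 * (d i - d i ^ 2 - 6 * x i ^ 2))) := by
  have := nearTw h h1 h0 hc (w := 1) (by norm_num) (by norm_num) hS
  simpa only [one_mul] using this

end

end Vale.Agent.P224.SO.S7
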