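import Vale.Agent.P224.SO.RgC
import Vale.Agent.P224.SO.Rc7
import Vale.Agent.P224.SO.Stab7U

/-!
Dimension 7: a configuration with a small value has five points on the right.
-/

namespace Vale.Agent.P224.SO.M7

open Finset Vale.Agent.P224.SO Vale.Agent.P224.SO.Rg

lemma L1 (d x : ℝ) (h : 6 * x ^ 2 ≤ d - d ^ 2) (hz : (1 / 20) ≤ x) :
    (23 / 100) ≤ Q 34 48 7 (5 / 2) (-9) (-12) d x := by
  unfold Q
  nlinarith [sq_nonneg (d + (-(2687 / 3400)) * x + (-(763 / 68000))),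
    sq_nonneg (x + (-(886769 / 6560620))),
    mul_nonneg (sub_nonneg.2 hz) (lin_q (q := 6) (by norm_num) h (57 / 500) (13 / 100))]

lemma L2 (d x : ℝ) (h : 6 * x ^ 2 ≤ d - d ^ 2) :
    (-(39 / 25)) ≤ Q 34 48 7 (5 / 2) (-9) (-12) d x := by
  unfold Q
  nlinarith [sq_nonneg (d + (-(19 / 92)) * x + (-(29 / 184))),
    sq_nonneg (x + (221 / 1622))]

/-- the additional term without a parameter -/
noncomputable def pS (d x : ℝ) : ℝ := 4 * (d - d ^ 2 - 6 * x ^ 2)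

/-- the additional term -/
noncomputable def pT (d x : ℝ) : ℝ :=
  4 * (d - d ^ 2 - 6 * x ^ 2) + 7 / 100 * ((1 - 9 * d - 2 * x) ^ 2
    + 49 / 3 * (d - d ^ 2 - 6 * x ^ 2))

lemma pS_nn (d x : ℝ) (h : 6 * x ^ 2 ≤ d - d ^ 2) : 0 ≤ pS d x := by
  unfold pS
  linarith

lemma pT_nn (d x : ℝ) (h : 6 * x ^ 2 ≤ d - d ^ 2) : 0 ≤ pT d x := by
  unfold pT
  nlinarith [sq_nonneg (1 - 9 * d - 2 * x)]

lemma MS (d x : ℝ) (h : 6 * x ^ 2 ≤ d - d ^ 2) (hx : 0 ≤ x) (hz : x ≤ (1 / 20)) :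
    (-(1 / 125)) ≤ Q 34 48 7 (43 / 20) (-((57 / 20))) 0 d x + pS d x := by
  unfold Q pS
  nlinarith [sq_nonneg (d + (-(7 / 65)) * x + (-(1 / 100))), sq_nonneg (x + (-(169 / 3680))),
    mul_nonneg hx (sub_nonneg.2 hz)]

lemma MS' (d x : ℝ) (h : 6 * x ^ 2 ≤ d - d ^ 2) (hx : 0 ≤ x) (hz : x ≤ (1 / 20)) :
    (-(1 / 125)) ≤ Q 34 48 7 (43 / 20) (-((57 / 20))) 0 d x + pS d (-x) := by
  have := MS d x h hx hz
  have e : pS d (-x) = pS d x := by unfold pS; ring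
  rw [e]
  exact this

lemma MT (d x : ℝ) (h : 6 * x ^ 2 ≤ d - d ^ 2) (hx : 0 ≤ x) (hz : x ≤ (1 / 20)) :
    (323 / 10000) ≤ Q 34 48 7 (43 / 20) (-((57 / 20))) 0 d x + pT d x := by
  unfold Q pT
  nlinarith [sq_nonneg (d + (-(168 / 2777)) * x + (-(115 / 11108))),
    sq_nonneg (x + (-(695017 / 13090208))), mul_nonneg hx (sub_nonneg.2 hz)]

lemma MT' (d x : ℝ) (h : 6 * x ^ 2 ≤ d - d ^ 2) (hx : 0 ≤ x) (hz : x ≤ (1 / 20)) :
    (323 / 10000) ≤ Q 34 48 7 (43 / 20) (-((57 / 20))) 0 d x + pT d (-x) := by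
  unfold Q pT
  nlinarith [sq_nonneg (d + (-(357 / 2777)) * x + (-(115 / 11108))),
    sq_nonneg (x + (-(58117 / 1335202))), mul_nonneg hx (sub_nonneg.2 hz)]

section

variable {d x : Fin 9 → ℝ}

/-- **Five points on the right, the functional without a parameter.** -/
theorem card_S (h : ∀ i, 6 * x i ^ 2 ≤ d i - d i ^ 2) (h1 : ∑ i, d i = 1) (h0 : ∑ i, x i = 0)
    (hv : ∑ i, d i * x i ≤ 0)
    (hS : 14 / 5 + (34 * ∑ i, d i ^ 2 - 48 * ∑ i, x i ^ 2 - 7 * ∑ i, d i * x i)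
      + ∑ i, 4 * (d i - d i ^ 2 - 6 * x i ^ 2) < 24 / 1000) : (Rt (1 / 20) x).card = 5 := by
  refine dat.cls (by norm_num) (by norm_num) h h1 h0 hv pS_nn (t := 24 / 1000) ?_ ?_ ?_ L1 L2 ?_ ?_
    MS MS' ?_ ?_
  · simp only [dat]; norm_num
  · simp only [dat]; norm_num
  · norm_num
  · norm_num
  · norm_num
  · simp only [dat]; norm_num
  · simp only [pS]
    linarith

/-- **Five points on the right.** -/
theorem card_T (h : ∀ i, 6 * x i ^ 2 ≤ d i - d i ^ 2) (h1 : ∑ i, d i = 1) (h0 : ∑ i, x i = 0)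
    (hv : ∑ i, d i * x i ≤ 0)
    (hS : 14 / 5 + (34 * ∑ i, d i ^ 2 - 48 * ∑ i, x i ^ 2 - 7 * ∑ i, d i * x i)
      + ∑ i, (4 * (d i - d i ^ 2 - 6 * x i ^ 2) + 7 / 100 * ((1 - 9 * d i - 2 * x i) ^ 2
        + 49 / 3 * (d i - d i ^ 2 - 6 * x i ^ 2))) < 38 / 1000) : (Rt (1 / 20) x).card = 5 := by
  refine dat.cls (by norm_num) (by norm_num) h h1 h0 hv pT_nn (t := 38 / 1000) ?_ ?_ ?_ L1 L2 ?_ ?_
    MT MT' ?_ ?_
  · simp only [dat]; norm_num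
  · simp only [dat]; norm_num
  · norm_num
  · norm_num
  · norm_num
  · simp only [dat]; norm_num
  · simp only [pT]
    linarith

/-- the functional without a parameter, weight `w` on the small block -/
theorem stabS (w : ℝ) (hw0 : 0 ≤ w) (hw : w ≤ 2) (d x : Fin 9 → ℝ)
    (h : ∀ i, 6 * x i ^ 2 ≤ d i - d i ^ 2) (h1 : ∑ i, d i = 1) (h0 : ∑ i, x i = 0)
    (hv : ∑ i, d i * x i ≤ 0)
    (hS : 14 / 5 + (34 * ∑ i, d i ^ 2 - 48 * ∑ i, x i ^ 2 - 7 * ∑ i, d i * x i)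
      + ∑ i, 4 * (d i - d i ^ 2 - 6 * x i ^ 2) < 24 / 1000) :
    (Rt (1 / 20) x).card = 5 ∧
    385 / 100 * ∑ i, (if 1 / 20 ≤ x i then 29 / 32 * d i - 3 / 2 * x i + 3 / 32
        else w * (5 / 6 * d i + 2 * x i + 1 / 6))
      ≤ 14 / 5 + (34 * ∑ i, d i ^ 2 - 48 * ∑ i, x i ^ 2 - 7 * ∑ i, d i * x i)
        + ∑ i, 4 * (d i - d i ^ 2 - 6 * x i ^ 2) := by
  have hc := card_S h h1 h0 hv hS
  exact ⟨hc, S7.nearSw h h1 h0 hc hw0 hw hS⟩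

/-- the functional with a parameter, weight `w` on the small block -/
theorem stabT (w : ℝ) (hw0 : 0 ≤ w) (hw : w ≤ 2) (d x : Fin 9 → ℝ)
    (h : ∀ i, 6 * x i ^ 2 ≤ d i - d i ^ 2) (h1 : ∑ i, d i = 1) (h0 : ∑ i, x i = 0)
    (hv : ∑ i, d i * x i ≤ 0)
    (hS : 14 / 5 + (34 * ∑ i, d i ^ 2 - 48 * ∑ i, x i ^ 2 - 7 * ∑ i, d i * x i)
      + ∑ i, (4 * (d i - d i ^ 2 - 6 * x i ^ 2) + 7 / 100 * ((1 - 9 * d i - 2 * x i) ^ 2
        + 49 / 3 * (d i - d i ^ 2 - 6 * x i ^ 2))) < 38 / 1000) :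
    (Rt (1 / 20) x).card = 5 ∧
    52 / 10 * ∑ i, (if 1 / 20 ≤ x i then 29 / 32 * d i - 3 / 2 * x i + 3 / 32
        else w * (5 / 6 * d i + 2 * x i + 1 / 6))
      ≤ 14 / 5 + (34 * ∑ i, d i ^ 2 - 48 * ∑ i, x i ^ 2 - 7 * ∑ i, d i * x i)
        + ∑ i, (4 * (d i - d i ^ 2 - 6 * x i ^ 2) + 7 / 100 * ((1 - 9 * d i - 2 * x i) ^ 2
          + 49 / 3 * (d i - d i ^ 2 - 6 * x i ^ 2))) := by
  have hc := card_T h h1 h0 hv hS
  exact ⟨hc, S7.nearTw h h1 h0 hc hw0 hw hS⟩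

end

end Vale.Agent.P224.SO.M7
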