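import Vale.Agent.P224.SO.ClsG

/-!
Dimension 9: the number of points on the right from the value of the scalar functionals.
-/

namespace Vale.Agent.P224.SO.M9S

open Vale.Agent.P224.SO Vale.Agent.P224.SO.Rg

lemma A1 (d x : ℝ) (h : 8 * x ^ 2 ≤ d - d ^ 2) (hz : (1 / 25) ≤ x) :
    (13197 / 100000) ≤ QP 48 80 14 8 (49 / 10) 0 11 (81 / 4) (481 / 324) (-(674 / 81)) 0 d x := by
  unfold QP Q
  nlinarith [mul_nonneg (sub_nonneg.2 hz) (lin_q (q := 8) (by norm_num) h (2 / 27) (5 / 54)),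
    sq_nonneg (d + (-(293491 / 257472)) * x + (33203 / 1206900)),
    sq_nonneg (x + (-(183068553712 / 2104585043325)))]

lemma A2 (d x : ℝ) (h : 8 * x ^ 2 ≤ d - d ^ 2) :
    (-(132173 / 100000)) ≤ QP 48 80 14 8 (49 / 10) 0 11 (81 / 4) (481 / 324) (-(674 / 81)) 0 d x := by
  unfold QP Q
  nlinarith [sq_nonneg (d + (-(350 / 3093)) * x + (-(124291 / 1002132))),
    sq_nonneg (x + (82483175 / 753800904))]

lemma L1 (d x : ℝ) (h : 8 * x ^ 2 ≤ d - d ^ 2) (hz' : x ≤ -(1 / 25)) :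
    (40971 / 100000) ≤ QP 48 80 14 8 (49 / 10) 0 11 (81 / 4) (21 / 10) (73 / 5) (121 / 2) d x := by
  unfold QP Q
  nlinarith [mul_nonneg (sub_nonneg.2 hz') (lin_q (q := 8) (by norm_num) h (93 / 800) (-(74 / 653))),
    sq_nonneg (d + (5186959 / 3624800) * x + (3916959 / 90620000)),
    sq_nonneg (x + (21123864653781841 / 366581408863314150))]

lemma L2 (d x : ℝ) (h : 8 * x ^ 2 ≤ d - d ^ 2) :
    (-(84427 / 50000)) ≤ QP 48 80 14 8 (49 / 10) 0 11 (81 / 4) (21 / 10) (73 / 5) (121 / 2) d x := by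
  unfold QP Q
  nlinarith [sq_nonneg (d + (775 / 2127) * x + (-(199 / 1418))),
    sq_nonneg (x + (-(572465 / 5389614)))]

lemma M1 (d x : ℝ) (h : 8 * x ^ 2 ≤ d - d ^ 2) :
    (-(6819 / 10000)) ≤ QP 48 80 14 8 (49 / 10) 0 11 (81 / 4) (51 / 20) 0 14 d x := by
  unfold QP Q
  nlinarith [sq_nonneg (d + 0 * x + (-(419 / 3868))),
    sq_nonneg (x + 0)]

lemma M2 (d x : ℝ) (h : 8 * x ^ 2 ≤ d - d ^ 2) (hz : -(1 / 25) ≤ x) (hz' : x ≤ (1 / 25)) :
    (-(39 / 250)) ≤ QP 48 80 14 8 (49 / 10) 0 11 (81 / 4) (51 / 20) 0 14 d x := by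
  unfold QP Q
  nlinarith [mul_nonneg (sub_nonneg.2 hz) (sub_nonneg.2 hz'),
    sq_nonneg (d + 0 * x + (-(62 / 4669))),
    sq_nonneg (x + 0)]

lemma P1 (d x : ℝ) (h : 8 * x ^ 2 ≤ d - d ^ 2) (hz : (1 / 25) ≤ x) :
    (-(7341 / 25000)) ≤ QP 48 80 14 8 (49 / 10) 0 11 (81 / 4) (8 / 5) (-(39 / 10)) 2 d x := by
  unfold QP Q
  nlinarith [mul_nonneg (sub_nonneg.2 hz) (lin_q (q := 8) (by norm_num) h (64 / 639) (102 / 961)),
    sq_nonneg (d + (-(179199 / 174163)) * x + (79723 / 8708150)),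
    sq_nonneg (x + (-(59412725345568118 / 560598513825390345)))]

lemma P2 (d x : ℝ) (h : 8 * x ^ 2 ≤ d - d ^ 2) (hz' : x ≤ -(1 / 25)) :
    (-(86639 / 100000)) ≤ QP 48 80 14 8 (49 / 10) 0 11 (81 / 4) (8 / 5) (-(39 / 10)) 2 d x := by
  unfold QP Q
  nlinarith [sq_nonneg (d + (-(600 / 5959)) * x + (-(1319 / 11918))),
    sq_nonneg (x + (255435 / 2406616))]

lemma P3 (d x : ℝ) (h : 8 * x ^ 2 ≤ d - d ^ 2) (hz : 0 ≤ x) (hz' : x ≤ (1 / 25)) :
    (-(1 / 50000)) ≤ QP 48 80 14 8 (49 / 10) 0 11 (81 / 4) (8 / 5) (-(39 / 10)) 2 d x := by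
  unfold QP Q
  nlinarith [mul_nonneg (sub_nonneg.2 hz) (sub_nonneg.2 hz'),
    sq_nonneg (d + (-(15 / 116)) * x + 0),
    sq_nonneg (x + (-(29 / 285950)))]

lemma N1 (d x : ℝ) (h : 8 * x ^ 2 ≤ d - d ^ 2) (hz : (1 / 25) ≤ x) :
    (-(86639 / 100000)) ≤ QP 48 80 14 8 (49 / 10) 0 11 (81 / 4) (8 / 5) (39 / 10) 26 d x := by
  unfold QP Q
  nlinarith [sq_nonneg (d + (600 / 5959) * x + (-(1319 / 11918))),
    sq_nonneg (x + (-(255435 / 2406616)))]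

lemma N2 (d x : ℝ) (h : 8 * x ^ 2 ≤ d - d ^ 2) (hz' : x ≤ -(1 / 25)) :
    (-(7341 / 25000)) ≤ QP 48 80 14 8 (49 / 10) 0 11 (81 / 4) (8 / 5) (39 / 10) 26 d x := by
  unfold QP Q
  nlinarith [mul_nonneg (sub_nonneg.2 hz') (lin_q (q := 8) (by norm_num) h (64 / 639) (-(102 / 961))),
    sq_nonneg (d + (179199 / 174163) * x + (79723 / 8708150)),
    sq_nonneg (x + (59412725345568118 / 560598513825390345))]

lemma N3 (d x : ℝ) (h : 8 * x ^ 2 ≤ d - d ^ 2) (hz : -(1 / 25) ≤ x) (hz' : x ≤ 0) :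
    (-(1 / 50000)) ≤ QP 48 80 14 8 (49 / 10) 0 11 (81 / 4) (8 / 5) (39 / 10) 26 d x := by
  unfold QP Q
  nlinarith [mul_nonneg (sub_nonneg.2 hz) (sub_nonneg.2 hz'),
    sq_nonneg (d + (15 / 116) * x + 0),
    sq_nonneg (x + (29 / 285950))]

/-- the one point inequalities -/
noncomputable def dat : CDat 5 8 48 80 14 (38 / 9) (49 / 10) 0 11 (81 / 4) (11 / 500) where
  Z := (1 / 25)
  aA := (481 / 324)
  bA := (-(674 / 81))
  ap := (13197 / 100000)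
  an := (-(132173 / 100000))
  aL := (21 / 10)
  bL := (73 / 5)
  sL := (121 / 2)
  lp := (40971 / 100000)
  ln := (-(84427 / 50000))
  aM := (51 / 20)
  bM := 0
  sM := 14
  mp := (-(6819 / 10000))
  mm := (-(39 / 250))
  aP := (8 / 5)
  bP := (-(39 / 10))
  sP := 2
  pp := (-(7341 / 25000))
  pn := (-(86639 / 100000))
  p0 := (-(1 / 50000))
  aN := (8 / 5)
  bN := (39 / 10)
  sN := 26
  np := (-(86639 / 100000))
  nn := (-(7341 / 25000))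
  n0 := (-(1 / 50000))
  Zpos := by norm_num
  sL0 := by norm_num
  sM0 := by norm_num
  sP0 := by norm_num
  sN0 := by norm_num
  A3 := by norm_num
  A4 := by norm_num
  L3 := by norm_num
  L4 := by norm_num
  M3 := by norm_num
  M4 := by norm_num
  P4 := by norm_num
  N4 := by norm_num
  A1 := A1
  A2 := A2
  L1 := L1
  L2 := L2
  M1 := M1
  M2 := M2
  P1 := P1
  P2 := P2
  P3 := P3
  N1 := N1
  N2 := N2
  N3 := N3

end Vale.Agent.P224.SO.M9S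

namespace Vale.Agent.P224.SO.M9T

open Vale.Agent.P224.SO Vale.Agent.P224.SO.Rg

lemma A1 (d x : ℝ) (h : 8 * x ^ 2 ≤ d - d ^ 2) (hz : (1 / 25) ≤ x) :
    (13197 / 100000) ≤ QP 48 80 14 8 (9 / 2) (9 / 100) 11 (81 / 4) (481 / 324) (-(674 / 81)) 0 d x := by
  unfold QP Q
  nlinarith [mul_nonneg (sub_nonneg.2 hz) (lin_q (q := 8) (by norm_num) h (2 / 27) (5 / 54)),
    sq_nonneg (d + (-(130342 / 124281)) * x + (1874189 / 93210750)),
    sq_nonneg (x + (-(348864819341 / 3894150045900)))]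

lemma A2 (d x : ℝ) (h : 8 * x ^ 2 ≤ d - d ^ 2) :
    (-(132173 / 100000)) ≤ QP 48 80 14 8 (9 / 2) (9 / 100) 11 (81 / 4) (481 / 324) (-(674 / 81)) 0 d x := by
  unfold QP Q
  nlinarith [sq_nonneg (d + (-(2008 / 29099)) * x + (-(561235 / 4714038))),
    sq_nonneg (x + (265779991 / 2425654674))]

lemma L1 (d x : ℝ) (h : 8 * x ^ 2 ≤ d - d ^ 2) (hz' : x ≤ -(1 / 25)) :
    (28359 / 50000) ≤ QP 48 80 14 8 (9 / 2) (9 / 100) 11 (81 / 4) (5 / 2) (169 / 10) (653 / 10) d x := by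
  unfold QP Q
  nlinarith [mul_nonneg (sub_nonneg.2 hz') (lin_q (q := 8) (by norm_num) h (59 / 501) (-(40 / 351))),
    sq_nonneg (d + (14828632 / 10841139) * x + (4029757 / 108411390)),
    sq_nonneg (x + (2297104885209221 / 24564971914971930))]

lemma L2 (d x : ℝ) (h : 8 * x ^ 2 ≤ d - d ^ 2) :
    (-(23911 / 12500)) ≤ QP 48 80 14 8 (9 / 2) (9 / 100) 11 (81 / 4) (5 / 2) (169 / 10) (653 / 10) d x := by
  unfold QP Q
  nlinarith [sq_nonneg (d + (11052 / 30271) * x + (-(8507 / 60542))),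
    sq_nonneg (x + (-(5748581 / 53969844)))]

lemma M1 (d x : ℝ) (h : 8 * x ^ 2 ≤ d - d ^ 2) :
    (-(4491 / 6250)) ≤ QP 48 80 14 8 (9 / 2) (9 / 100) 11 (81 / 4) (59 / 20) (-(7 / 20)) (201 / 20) d x := by
  unfold QP Q
  nlinarith [sq_nonneg (d + (2 / 27547) * x + (-(5963 / 55094))),
    sq_nonneg (x + (-(49131 / 1983380)))]

lemma M2 (d x : ℝ) (h : 8 * x ^ 2 ≤ d - d ^ 2) (hz : -(1 / 25) ≤ x) (hz' : x ≤ (1 / 25)) :
    (-(1897 / 20000)) ≤ QP 48 80 14 8 (9 / 2) (9 / 100) 11 (81 / 4) (59 / 20) (-(7 / 20)) (201 / 20) d x := by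
  unfold QP Q
  nlinarith [mul_nonneg (sub_nonneg.2 hz) (sub_nonneg.2 hz'),
    sq_nonneg (d + (2 / 22183) * x + (-(599 / 44366))),
    sq_nonneg (x + (-(43767 / 9760516)))]

lemma P1 (d x : ℝ) (h : 8 * x ^ 2 ≤ d - d ^ 2) (hz : (1 / 25) ≤ x) :
    (-(24933 / 100000)) ≤ QP 48 80 14 8 (9 / 2) (9 / 100) 11 (81 / 4) (9157 / 5000) (-(46639 / 10000)) 0 d x := by
  unfold QP Q
  nlinarith [mul_nonneg (sub_nonneg.2 hz) (lin_q (q := 8) (by norm_num) h (83 / 865) (63 / 605)),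
    sq_nonneg (d + (-(19670464 / 20281655)) * x + (5255603 / 1014082750)),
    sq_nonneg (x + (-(41007479257837269143 / 394384812324811585200)))]

lemma P2 (d x : ℝ) (h : 8 * x ^ 2 ≤ d - d ^ 2) (hz' : x ≤ -(1 / 25)) :
    (-(47453 / 50000)) ≤ QP 48 80 14 8 (9 / 2) (9 / 100) 11 (81 / 4) (9157 / 5000) (-(46639 / 10000)) 0 d x := by
  unfold QP Q
  nlinarith [sq_nonneg (d + (-(2008 / 28299)) * x + (-(156689 / 1414950))),
    sq_nonneg (x + (903329149 / 8412612400))]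

lemma P3 (d x : ℝ) (h : 8 * x ^ 2 ≤ d - d ^ 2) (hz : 0 ≤ x) (hz' : x ≤ (1 / 25)) :
    (8989 / 100000) ≤ QP 48 80 14 8 (9 / 2) (9 / 100) 11 (81 / 4) (9157 / 5000) (-(46639 / 10000)) 0 d x := by
  unfold QP Q
  nlinarith [mul_nonneg (sub_nonneg.2 hz) (lin_q (q := 8) (by norm_num) h (9 / 694) (1 / 25)),
    mul_nonneg (sub_nonneg.2 hz) (sub_nonneg.2 hz'),
    sq_nonneg (d + (-(2507780 / 7643369)) * x + (111 / 1101350)),
    sq_nonneg (x + (-(214144798417 / 10791271354200)))]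

lemma N1 (d x : ℝ) (h : 8 * x ^ 2 ≤ d - d ^ 2) (hz : (1 / 25) ≤ x) :
    (-(107899 / 100000)) ≤ QP 48 80 14 8 (9 / 2) (9 / 100) 11 (81 / 4) (917 / 500) (15457 / 2500) (150859 / 5000) d x := by
  unfold QP Q
  nlinarith [sq_nonneg (d + (100659 / 715175) * x + (-(32883 / 286070))),
    sq_nonneg (x + (-(4320374345 / 40792051634)))]

lemma N2 (d x : ℝ) (h : 8 * x ^ 2 ≤ d - d ^ 2) (hz' : x ≤ -(1 / 25)) :
    (-(2953 / 25000)) ≤ QP 48 80 14 8 (9 / 2) (9 / 100) 11 (81 / 4) (917 / 500) (15457 / 2500) (150859 / 5000) d x := by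
  unfold QP Q
  nlinarith [mul_nonneg (sub_nonneg.2 hz') (lin_q (q := 8) (by norm_num) h (64 / 639) (-(102 / 961))),
    sq_nonneg (d + (124739017 / 123875475) * x + (1700297 / 247750950)),
    sq_nonneg (x + (9532895381808383573513 / 89926864531481119628586))]

lemma N3 (d x : ℝ) (h : 8 * x ^ 2 ≤ d - d ^ 2) (hz : -(1 / 25) ≤ x) (hz' : x ≤ 0) :
    (8989 / 100000) ≤ QP 48 80 14 8 (9 / 2) (9 / 100) 11 (81 / 4) (917 / 500) (15457 / 2500) (150859 / 5000) d x := by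
  unfold QP Q
  nlinarith [mul_nonneg (sub_nonneg.2 hz) (sub_nonneg.2 hz'),
    sq_nonneg (d + (100659 / 550775) * x + (-(3 / 220310))),
    sq_nonneg (x + (5251355 / 81436596634))]

/-- the one point inequalities -/
noncomputable def dat : CDat 5 8 48 80 14 (38 / 9) (9 / 2) (9 / 100) 11 (81 / 4) (3 / 20) where
  Z := (1 / 25)
  aA := (481 / 324)
  bA := (-(674 / 81))
  ap := (13197 / 100000)
  an := (-(132173 / 100000))
  aL := (5 / 2)
  bL := (169 / 10)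
  sL := (653 / 10)
  lp := (28359 / 50000)
  ln := (-(23911 / 12500))
  aM := (59 / 20)
  bM := (-(7 / 20))
  sM := (201 / 20)
  mp := (-(4491 / 6250))
  mm := (-(1897 / 20000))
  aP := (9157 / 5000)
  bP := (-(46639 / 10000))
  sP := 0
  pp := (-(24933 / 100000))
  pn := (-(47453 / 50000))
  p0 := (8989 / 100000)
  aN := (917 / 500)
  bN := (15457 / 2500)
  sN := (150859 / 5000)
  np := (-(107899 / 100000))
  nn := (-(2953 / 25000))
  n0 := (8989 / 100000)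
  Zpos := by norm_num
  sL0 := by norm_num
  sM0 := by norm_num
  sP0 := by norm_num
  sN0 := by norm_num
  A3 := by norm_num
  A4 := by norm_num
  L3 := by norm_num
  L4 := by norm_num
  M3 := by norm_num
  M4 := by norm_num
  P4 := by norm_num
  N4 := by norm_num
  A1 := A1
  A2 := A2
  L1 := L1
  L2 := L2
  M1 := M1
  M2 := M2
  P1 := P1
  P2 := P2
  P3 := P3
  N1 := N1
  N2 := N2
  N3 := N3

end Vale.Agent.P224.SO.M9T

namespace Vale.Agent.P224.SO.C9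

open Finset Vale.Agent.P224.SO Vale.Agent.P224.SO.Rg

/-- the static functional -/
theorem cls_S {d x : Fin 11 → ℝ}
    (h : ∀ i, 8 * x i ^ 2 ≤ d i - d i ^ 2) (h1 : ∑ i, d i = 1) (h0 : ∑ i, x i = 0)
    (hv : ∑ i, d i * x i ≤ 0)
    (hS : 38 / 9 + (48 * ∑ i, d i ^ 2 - 80 * ∑ i, x i ^ 2 - 14 * ∑ i, d i * x i)
      + ∑ i, 49 / 10 * (d i - d i ^ 2 - 8 * x i ^ 2) < 22 / 1000) :
    (Rt (1 / 25) x).card = 6 := by
  refine CDat.cls M9S.dat (by norm_num) h h1 h0 hv ?_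
  simp only [zero_mul, add_zero]
  exact hS.trans_le (by norm_num)

/-- the functional with a parameter -/
theorem cls_T {d x : Fin 11 → ℝ}
    (h : ∀ i, 8 * x i ^ 2 ≤ d i - d i ^ 2) (h1 : ∑ i, d i = 1) (h0 : ∑ i, x i = 0)
    (hv : ∑ i, d i * x i ≤ 0)
    (hS : 38 / 9 + (48 * ∑ i, d i ^ 2 - 80 * ∑ i, x i ^ 2 - 14 * ∑ i, d i * x i)
      + ∑ i, (9 / 2 * (d i - d i ^ 2 - 8 * x i ^ 2) + 9 / 100 * ((1 - 11 * d i - 2 * x i) ^ 2
        + 81 / 4 * (d i - d i ^ 2 - 8 * x i ^ 2))) < 150 / 1000) :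
    (Rt (1 / 25) x).card = 6 :=
  CDat.cls M9T.dat (by norm_num) h h1 h0 hv (hS.trans_le (by norm_num))

end Vale.Agent.P224.SO.C9
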