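import Vale.Agent.P224.SO.NearG

/-!
Dimension nine: the stable scalar inequalities near the Clifford configuration (file written by a
program).
-/

namespace Vale.Agent.P224.SO.S9

open Finset Vale.Agent.P224.SO

section

variable {d x : ℝ}

lemma lin (h : 8 * x ^ 2 ≤ d - d ^ 2) (u v : ℝ) :
    0 ≤ (1 - 2 * u) * d - 16 * v * x + u ^ 2 + 8 * v ^ 2 := by
  nlinarith [sq_nonneg (d - u), sq_nonneg (x - v)]

lemma e2_nonneg (h : 8 * x ^ 2 ≤ d - d ^ 2) : 0 ≤ 23 / 25 * d - 8 / 5 * x + 2 / 25 := by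
  have := lin h (2 / 27) (5 / 54)
  linarith

lemma e1_nonneg (h : 8 * x ^ 2 ≤ d - d ^ 2) : 0 ≤ 7 / 8 * d + 2 * x + 1 / 8 := by
  have := lin h (1 / 9) (-(1 / 9))
  linarith

/-- the right block, near the minimum -/
lemma aS (h : 8 * x ^ 2 ≤ d - d ^ 2) (hx : 1 / 16 ≤ x) :
    23 / 162 + 4 * (23 / 25 * d - 8 / 5 * x + 2 / 25) ≤ 48 * d ^ 2 - 80 * x ^ 2 - 14 * (d * x) + (-(481 / 324)) * d + 674 / 81 * x
      + (49 / 10 * (d - d ^ 2 - 8 * x ^ 2)) := by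
  have hs := lin (d := d) (x := x) h (2 / 27) (5 / 54)
  nlinarith [mul_nonneg (sub_nonneg.2 hx) hs,
    sq_nonneg ((5 / 27 * (d - 2 / 27) + 23 / 27 * (x - 5 / 54)) + 329 / 100 * (23 / 27 * (d - 2 / 27) - 40 / 27 * (x - 5 / 54))),
    sq_nonneg (23 / 27 * (d - 2 / 27) - 40 / 27 * (x - 5 / 54))]

/-- the right block, far from the minimum -/
lemma bS (h : 8 * x ^ 2 ≤ d - d ^ 2) (hx : 1 / 25 ≤ x) (hx' : x ≤ 1 / 16) :
    23 / 162 + 19 / 500 ≤ 48 * d ^ 2 - 80 * x ^ 2 - 14 * (d * x) + (-(481 / 324)) * d + 674 / 81 * x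
      + (49 / 10 * (d - d ^ 2 - 8 * x ^ 2)) := by
  have hs := lin (d := d) (x := x) h (3229 / 100000) (1 / 16)
  nlinarith [mul_nonneg (sub_nonneg.2 hx) (sub_nonneg.2 hx'),
    mul_nonneg (sub_nonneg.2 hx') hs, sq_nonneg (d - 3229 / 100000), sq_nonneg (x - 1 / 16),
    sq_nonneg ((d - 3229 / 100000) - (x - 1 / 16))]

/-- the left block, near the minimum -/
lemma lS (h : 8 * x ^ 2 ≤ d - d ^ 2) (hx : x ≤ -(12 / 125)) :
    -(425 / 324) + 8 * (7 / 8 * d + 2 * x + 1 / 8) ≤ 48 * d ^ 2 - 80 * x ^ 2 - 14 * (d * x) + (-(481 / 324)) * d + 674 / 81 * x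
      + (49 / 10 * (d - d ^ 2 - 8 * x ^ 2)) := by
  have hs := lin (d := d) (x := x) h (1 / 9) (-(1 / 9))
  nlinarith [mul_nonneg (sub_nonneg.2 hx) hs,
    sq_nonneg ((7 / 9 * (x + 1 / 9) - 2 / 9 * (d - 1 / 9)) + 13 / 100 * (7 / 9 * (d - 1 / 9) + 16 / 9 * (x + 1 / 9))),
    sq_nonneg (7 / 9 * (d - 1 / 9) + 16 / 9 * (x + 1 / 9))]

/-- the left block, far from the minimum -/
lemma mS (h : 8 * x ^ 2 ≤ d - d ^ 2) (hx : -(12 / 125) ≤ x) (hx' : x ≤ 1 / 25) :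
    -(425 / 324) + 19 / 500 ≤ 48 * d ^ 2 - 80 * x ^ 2 - 14 * (d * x) + (-(481 / 324)) * d + 674 / 81 * x
      + (49 / 10 * (d - d ^ 2 - 8 * x ^ 2)) := by
  nlinarith [mul_nonneg (sub_nonneg.2 hx) (sub_nonneg.2 hx'),
    sq_nonneg (7 / 9 * (x + 1 / 9) - 2 / 9 * (d - 1 / 9)), sq_nonneg (7 / 9 * (d - 1 / 9) + 16 / 9 * (x + 1 / 9))]

/-- the right block, near the minimum -/
lemma aT (h : 8 * x ^ 2 ≤ d - d ^ 2) (hx : 583 / 10000 ≤ x) :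
    23 / 162 + 59 / 10 * (23 / 25 * d - 8 / 5 * x + 2 / 25) ≤ 48 * d ^ 2 - 80 * x ^ 2 - 14 * (d * x) + (-(481 / 324)) * d + 674 / 81 * x
      + (9 / 2 * (d - d ^ 2 - 8 * x ^ 2)
      + 9 / 100 * ((1 - 11 * d - 2 * x) ^ 2 + 81 / 4 * (d - d ^ 2 - 8 * x ^ 2))) := by
  have hs := lin (d := d) (x := x) h (2 / 27) (5 / 54)
  nlinarith [mul_nonneg (sub_nonneg.2 hx) hs,
    sq_nonneg ((5 / 27 * (d - 2 / 27) + 23 / 27 * (x - 5 / 54)) + 269 / 100 * (23 / 27 * (d - 2 / 27) - 40 / 27 * (x - 5 / 54))),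
    sq_nonneg (23 / 27 * (d - 2 / 27) - 40 / 27 * (x - 5 / 54))]

/-- the right block, far from the minimum -/
lemma bT (h : 8 * x ^ 2 ≤ d - d ^ 2) (hx : 1 / 25 ≤ x) (hx' : x ≤ 583 / 10000) :
    23 / 162 + 91 / 1250 ≤ 48 * d ^ 2 - 80 * x ^ 2 - 14 * (d * x) + (-(481 / 324)) * d + 674 / 81 * x
      + (9 / 2 * (d - d ^ 2 - 8 * x ^ 2)
      + 9 / 100 * ((1 - 11 * d - 2 * x) ^ 2 + 81 / 4 * (d - d ^ 2 - 8 * x ^ 2))) := by
  have hs := lin (d := d) (x := x) h (2797 / 100000) (583 / 10000)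
  nlinarith [mul_nonneg (sub_nonneg.2 hx) (sub_nonneg.2 hx'),
    mul_nonneg (sub_nonneg.2 hx') hs, sq_nonneg (d - 2797 / 100000), sq_nonneg (x - 583 / 10000),
    sq_nonneg ((d - 2797 / 100000) - (x - 583 / 10000))]

/-- the left block, near the minimum -/
lemma lT (h : 8 * x ^ 2 ≤ d - d ^ 2) (hx : x ≤ -(47 / 500)) :
    -(425 / 324) + 59 / 5 * (7 / 8 * d + 2 * x + 1 / 8) ≤ 48 * d ^ 2 - 80 * x ^ 2 - 14 * (d * x) + (-(481 / 324)) * d + 674 / 81 * x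
      + (9 / 2 * (d - d ^ 2 - 8 * x ^ 2)
      + 9 / 100 * ((1 - 11 * d - 2 * x) ^ 2 + 81 / 4 * (d - d ^ 2 - 8 * x ^ 2))) := by
  have hs := lin (d := d) (x := x) h (1 / 9) (-(1 / 9))
  nlinarith [mul_nonneg (sub_nonneg.2 hx) hs,
    sq_nonneg ((7 / 9 * (x + 1 / 9) - 2 / 9 * (d - 1 / 9)) + 1 / 10 * (7 / 9 * (d - 1 / 9) + 16 / 9 * (x + 1 / 9))),
    sq_nonneg (7 / 9 * (d - 1 / 9) + 16 / 9 * (x + 1 / 9))]

/-- the left block, far from the minimum -/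
lemma mT (h : 8 * x ^ 2 ≤ d - d ^ 2) (hx : -(47 / 500) ≤ x) (hx' : x ≤ 1 / 25) :
    -(425 / 324) + 91 / 1250 ≤ 48 * d ^ 2 - 80 * x ^ 2 - 14 * (d * x) + (-(481 / 324)) * d + 674 / 81 * x
      + (9 / 2 * (d - d ^ 2 - 8 * x ^ 2)
      + 9 / 100 * ((1 - 11 * d - 2 * x) ^ 2 + 81 / 4 * (d - d ^ 2 - 8 * x ^ 2))) := by
  nlinarith [mul_nonneg (sub_nonneg.2 hx) (sub_nonneg.2 hx'),
    sq_nonneg (7 / 9 * (x + 1 / 9) - 2 / 9 * (d - 1 / 9)), sq_nonneg (7 / 9 * (d - 1 / 9) + 16 / 9 * (x + 1 / 9))]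

end

section

variable {d x : Fin 11 → ℝ}

/-- the functional near the minimum, weight `w` on the small block -/
theorem nearSg {lu : ℝ} (hu : 49 / 10 ≤ lu)
    (h : ∀ i, 8 * x i ^ 2 ≤ d i - d i ^ 2) (h1 : ∑ i, d i = 1)
    (h0 : ∑ i, x i = 0) (hc : (Rt (1 / 25) x).card = 6) {w : ℝ} (hw0 : 0 ≤ w) (hw : w ≤ 2)
    (hS : 38 / 9 + (48 * ∑ i, d i ^ 2 - 80 * ∑ i, x i ^ 2 - 14 * ∑ i, d i * x i)
      + ∑ i, lu * (d i - d i ^ 2 - 8 * x i ^ 2) < 19 / 500) :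
    4 * ∑ i, (if 1 / 25 ≤ x i then 23 / 25 * d i - 8 / 5 * x i + 2 / 25
        else w * (7 / 8 * d i + 2 * x i + 1 / 8))
      ≤ 38 / 9 + (48 * ∑ i, d i ^ 2 - 80 * ∑ i, x i ^ 2 - 14 * ∑ i, d i * x i)
      + ∑ i, lu * (d i - d i ^ 2 - 8 * x i ^ 2) := by
  refine near_of (a := -(481 / 324)) (b := 674 / 81) (qR := 23 / 162) (qL := -(425 / 324))
    (P := fun i => lu * (d i - d i ^ 2 - 8 * x i ^ 2)) (r := 6) (l := 5) (t := 19 / 500)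
    (by norm_num) h1 h0 hc (by norm_num) (fun i => ?_) (by norm_num) (by norm_num)
    (fun i hi => ?_) (fun i hi => ?_) hS
  · split_ifs
    · exact e2_nonneg (h i)
    · exact mul_nonneg hw0 (e1_nonneg (h i))
  · rw [if_pos hi]
    have hw2 : 0 ≤ (lu - 49 / 10) * (d i - d i ^ 2 - 8 * x i ^ 2) :=
      mul_nonneg (sub_nonneg.2 hu) (by linarith [h i])
    rcases le_total (1 / 16) (x i) with hx | hx
    · left
      have := aS (h i) hx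
      linarith
    · right
      have := bS (h i) hi hx
      linarith
  · rw [if_neg hi]
    have hw2 : 0 ≤ (lu - 49 / 10) * (d i - d i ^ 2 - 8 * x i ^ 2) :=
      mul_nonneg (sub_nonneg.2 hu) (by linarith [h i])
    rcases le_total (x i) (-(12 / 125)) with hx | hx
    · left
      have := lS (h i) hx
      have h2 := mul_nonneg (sub_nonneg.2 hw) (e1_nonneg (h i))
      linarith
    · right
      have := mS (h i) hx (not_le.1 hi).le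
      linarith

/-- **The functional near the minimum.** -/
theorem nearS (h : ∀ i, 8 * x i ^ 2 ≤ d i - d i ^ 2) (h1 : ∑ i, d i = 1)
    (h0 : ∑ i, x i = 0) (hc : (Rt (1 / 25) x).card = 6)
    (hS : 38 / 9 + (48 * ∑ i, d i ^ 2 - 80 * ∑ i, x i ^ 2 - 14 * ∑ i, d i * x i)
      + ∑ i, 49 / 10 * (d i - d i ^ 2 - 8 * x i ^ 2) < 19 / 500) :
    4 * ∑ i, (if 1 / 25 ≤ x i then 23 / 25 * d i - 8 / 5 * x i + 2 / 25
        else 7 / 8 * d i + 2 * x i + 1 / 8)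
      ≤ 38 / 9 + (48 * ∑ i, d i ^ 2 - 80 * ∑ i, x i ^ 2 - 14 * ∑ i, d i * x i)
      + ∑ i, 49 / 10 * (d i - d i ^ 2 - 8 * x i ^ 2) := by
  have := nearSg le_rfl h h1 h0 hc (w := 1) (by norm_num) (by norm_num) hS
  simpa only [one_mul] using this

/-- the functional near the minimum, weight `w` on the small block -/
theorem nearTg {lu lv : ℝ} (hu : 9 / 2 ≤ lu) (hv : 9 / 100 ≤ lv)
    (h : ∀ i, 8 * x i ^ 2 ≤ d i - d i ^ 2) (h1 : ∑ i, d i = 1)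
    (h0 : ∑ i, x i = 0) (hc : (Rt (1 / 25) x).card = 6) {w : ℝ} (hw0 : 0 ≤ w) (hw : w ≤ 2)
    (hS : 38 / 9 + (48 * ∑ i, d i ^ 2 - 80 * ∑ i, x i ^ 2 - 14 * ∑ i, d i * x i)
      + ∑ i, (lu * (d i - d i ^ 2 - 8 * x i ^ 2) + lv * ((1 - 11 * d i - 2 * x i) ^ 2
        + 81 / 4 * (d i - d i ^ 2 - 8 * x i ^ 2))) < 91 / 1250) :
    59 / 10 * ∑ i, (if 1 / 25 ≤ x i then 23 / 25 * d i - 8 / 5 * x i + 2 / 25
        else w * (7 / 8 * d i + 2 * x i + 1 / 8))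
      ≤ 38 / 9 + (48 * ∑ i, d i ^ 2 - 80 * ∑ i, x i ^ 2 - 14 * ∑ i, d i * x i)
      + ∑ i, (lu * (d i - d i ^ 2 - 8 * x i ^ 2) + lv * ((1 - 11 * d i - 2 * x i) ^ 2
        + 81 / 4 * (d i - d i ^ 2 - 8 * x i ^ 2))) := by
  refine near_of (a := -(481 / 324)) (b := 674 / 81) (qR := 23 / 162) (qL := -(425 / 324))
    (P := fun i => (lu * (d i - d i ^ 2 - 8 * x i ^ 2) + lv * ((1 - 11 * d i - 2 * x i) ^ 2
        + 81 / 4 * (d i - d i ^ 2 - 8 * x i ^ 2)))) (r := 6) (l := 5) (t := 91 / 1250)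
    (by norm_num) h1 h0 hc (by norm_num) (fun i => ?_) (by norm_num) (by norm_num)
    (fun i hi => ?_) (fun i hi => ?_) hS
  · split_ifs
    · exact e2_nonneg (h i)
    · exact mul_nonneg hw0 (e1_nonneg (h i))
  · rw [if_pos hi]
    have hw2 : 0 ≤ (lu - 9 / 2) * (d i - d i ^ 2 - 8 * x i ^ 2) :=
      mul_nonneg (sub_nonneg.2 hu) (by linarith [h i])
    have hG2 : 0 ≤ (lv - 9 / 100) * ((1 - 11 * d i - 2 * x i) ^ 2 + 81 / 4 * (d i - d i ^ 2 - 8 * x i ^ 2)) :=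
      mul_nonneg (sub_nonneg.2 hv) (add_nonneg (sq_nonneg _) (mul_nonneg (by norm_num)
        (by linarith [h i])))
    rcases le_total (583 / 10000) (x i) with hx | hx
    · left
      have := aT (h i) hx
      linarith
    · right
      have := bT (h i) hi hx
      linarith
  · rw [if_neg hi]
    have hw2 : 0 ≤ (lu - 9 / 2) * (d i - d i ^ 2 - 8 * x i ^ 2) :=
      mul_nonneg (sub_nonneg.2 hu) (by linarith [h i])
    have hG2 : 0 ≤ (lv - 9 / 100) * ((1 - 11 * d i - 2 * x i) ^ 2 + 81 / 4 * (d i - d i ^ 2 - 8 * x i ^ 2)) :=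
      mul_nonneg (sub_nonneg.2 hv) (add_nonneg (sq_nonneg _) (mul_nonneg (by norm_num)
        (by linarith [h i])))
    rcases le_total (x i) (-(47 / 500)) with hx | hx
    · left
      have := lT (h i) hx
      have h2 := mul_nonneg (sub_nonneg.2 hw) (e1_nonneg (h i))
      linarith
    · right
      have := mT (h i) hx (not_le.1 hi).le
      linarith

/-- **The functional near the minimum.** -/
theorem nearT (h : ∀ i, 8 * x i ^ 2 ≤ d i - d i ^ 2) (h1 : ∑ i, d i = 1)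
    (h0 : ∑ i, x i = 0) (hc : (Rt (1 / 25) x).card = 6)
    (hS : 38 / 9 + (48 * ∑ i, d i ^ 2 - 80 * ∑ i, x i ^ 2 - 14 * ∑ i, d i * x i)
      + ∑ i, (9 / 2 * (d i - d i ^ 2 - 8 * x i ^ 2) + 9 / 100 * ((1 - 11 * d i - 2 * x i) ^ 2
        + 81 / 4 * (d i - d i ^ 2 - 8 * x i ^ 2))) < 91 / 1250) :
    59 / 10 * ∑ i, (if 1 / 25 ≤ x i then 23 / 25 * d i - 8 / 5 * x i + 2 / 25
        else 7 / 8 * d i + 2 * x i + 1 / 8)
      ≤ 38 / 9 + (48 * ∑ i, d i ^ 2 - 80 * ∑ i, x i ^ 2 - 14 * ∑ i, d i * x i)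
      + ∑ i, (9 / 2 * (d i - d i ^ 2 - 8 * x i ^ 2) + 9 / 100 * ((1 - 11 * d i - 2 * x i) ^ 2
        + 81 / 4 * (d i - d i ^ 2 - 8 * x i ^ 2))) := by
  have := nearTg le_rfl le_rfl h h1 h0 hc (w := 1) (by norm_num) (by norm_num) hS
  simpa only [one_mul] using this

end

end Vale.Agent.P224.SO.S9
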