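import Vale.Agent.P224.SO.Stab5

/-!
Dimension five: the stable scalar inequalities with better constants, with and without the
additional terms of the functional with a parameter.
-/

namespace Vale.Agent.P224.SO.St

open Finset Vale.Agent.P224.SO

section

variable {d z : ℝ}

/-- the additional terms -/
noncomputable def pT (d z : ℝ) : ℝ :=
  95 / 100 * (d - d ^ 2 - z ^ 2) + 95 / 10000 * ((1 - 7 * d - z) ^ 2 + 25 / 2 * (d - d ^ 2 - z ^ 2))

lemma pT_nonneg (h : z ^ 2 ≤ d - d ^ 2) : 0 ≤ pT d z := by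
  unfold pT
  nlinarith [sq_nonneg (1 - 7 * d - z)]

lemma aS (h : z ^ 2 ≤ d - d ^ 2) (hz : 255 / 1000 ≤ z) :
    212 / 1000 + 134 / 100 * de2 d z ≤ q5 (756 / 1000) (-(2392 / 1000)) 0 d z := by
  unfold q5 de2
  nlinarith [mul_nonneg (sub_nonneg.2 hz) (lin_nonneg h (1 / 10) (3 / 10)),
    sq_nonneg ((d - 1 / 10) - 464 / 1000 * (z - 3 / 10)), sq_nonneg (z - 3 / 10)]

lemma bS (h : z ^ 2 ≤ d - d ^ 2) (hz : 1 / 5 ≤ z) (hz' : z ≤ 255 / 1000) :
    212 / 1000 + 55 / 10000 ≤ q5 (756 / 1000) (-(2392 / 1000)) 0 d z := by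
  unfold q5
  nlinarith [mul_nonneg (sub_nonneg.2 hz) (sub_nonneg.2 hz'),
    mul_nonneg (sub_nonneg.2 hz') (lin_nonneg h (7 / 100) (255 / 1000)),
    sq_nonneg (d - 7 / 100), sq_nonneg (z - 255 / 1000),
    sq_nonneg ((d - 7 / 100) - (z - 255 / 1000))]

lemma aT (h : z ^ 2 ≤ d - d ^ 2) (hz : 2415 / 10000 ≤ z) :
    212 / 1000 + 163 / 100 * de2 d z ≤ q5 (756 / 1000) (-(2392 / 1000)) 0 d z + pT d z := by
  unfold q5 de2 pT
  nlinarith [mul_nonneg (sub_nonneg.2 hz) (lin_nonneg h (1 / 10) (3 / 10)),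
    sq_nonneg (3 * (d - 1 / 10) - 2 * (z - 3 / 10)), sq_nonneg (2 * (d - 1 / 10) - (z - 3 / 10)),
    sq_nonneg (z - 3 / 10)]

lemma bT (h : z ^ 2 ≤ d - d ^ 2) (hz : 1 / 5 ≤ z) (hz' : z ≤ 2415 / 10000) :
    212 / 1000 + 88 / 10000 ≤ q5 (756 / 1000) (-(2392 / 1000)) 0 d z + pT d z := by
  unfold q5 pT
  nlinarith [mul_nonneg (sub_nonneg.2 hz) (sub_nonneg.2 hz'),
    mul_nonneg (sub_nonneg.2 hz') (lin_nonneg h (62 / 1000) (2415 / 10000)),
    sq_nonneg (d - 62 / 1000), sq_nonneg (z - 2415 / 10000),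
    sq_nonneg ((d - 62 / 1000) - (z - 2415 / 10000))]

lemma midT (h : z ^ 2 ≤ d - d ^ 2) (hz0 : 0 ≤ z) (hz : z ≤ 9 / 100) :
    -(3 / 1000) ≤ q5 (54 / 100) (-(57 / 100)) 0 d z + pT d z := by
  unfold q5 pT
  nlinarith [sq_nonneg (28 * d - z - 54 / 100), mul_nonneg hz0 (sub_nonneg.2 hz),
    sq_nonneg (d - 2 / 100)]

lemma midT' (h : z ^ 2 ≤ d - d ^ 2) (hz0 : 0 ≤ z) (hz : z ≤ 9 / 100) :
    -(3 / 1000) ≤ q5 (54 / 100) (-(57 / 100)) 0 d z + pT d (-z) := by
  unfold q5 pT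
  nlinarith [sq_nonneg (28 * d - z - 54 / 100), mul_nonneg hz0 (sub_nonneg.2 hz),
    sq_nonneg (d - 2 / 100)]

end

section

variable {d z : Fin 7 → ℝ}

/-- at least two middle points -/
lemma s_mid' (h : ∀ i, z i ^ 2 ≤ d i - d i ^ 2) (h1 : ∑ i, d i = 1) (h0 : ∑ i, z i = 0)
    (hv : ∑ i, d i * z i ≤ 0) (hc : (Rt (1 / 5) z).card + (Lt (1 / 5) z).card ≤ 5) :
    3 / 100 ≤ Sv d z := by
  have e := sum_lev (Z := 1 / 5) (z := z) (by norm_num) (fun i => q5 2 0 1 (d i) (z i))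
    (fun i _ => b_all (h i)) (fun i _ => b_all (h i)) (fun i hi hi' => b_mid hi.le hi'.le)
  rw [sum_q5 _ _ _ h1 h0] at e
  have hc' : ((Rt (1 / 5) z).card : ℝ) + ((Lt (1 / 5) z).card : ℝ) ≤ 5 := by exact_mod_cast hc
  push_cast at e
  unfold Sv
  linarith

/-- at least four points on the left -/
lemma s_left' (h : ∀ i, z i ^ 2 ≤ d i - d i ^ 2) (h1 : ∑ i, d i = 1) (h0 : ∑ i, z i = 0)
    (hv : ∑ i, d i * z i ≤ 0) (hc : 4 ≤ (Lt (1 / 5) z).card) :
    3 / 100 ≤ Sv d z := by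
  have h' : ∀ i, (-z i) ^ 2 ≤ d i - d i ^ 2 := fun i => by rw [neg_sq]; exact h i
  have h0' : ∑ i, -z i = 0 := by rw [sum_neg', h0, neg_zero]
  have e := sum_lev (Z := 1 / 5) (z := fun i => -z i) (by norm_num)
    (fun i => q5 (8 / 10) (-(25 / 10)) (-(3 / 10)) (d i) (-z i))
    (fun i hi => m_pos (h' i) hi) (fun i _ => m_all (h' i)) (fun i hi hi' => m_all (h' i))
  rw [sum_q5 (z := fun i => -z i) _ _ _ h1 h0', Rt_neg] at e
  have hc' : (4 : ℝ) ≤ ((Lt (1 / 5) z).card : ℝ) := by exact_mod_cast hc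
  simp only [neg_sq, mul_neg, sum_neg'] at e
  push_cast at e
  unfold Sv
  nlinarith

/-- three points on each side -/
lemma s_three' (h : ∀ i, z i ^ 2 ≤ d i - d i ^ 2) (h1 : ∑ i, d i = 1) (h0 : ∑ i, z i = 0)
    (hc : (Rt (1 / 5) z).card = 3) (hc' : (Lt (1 / 5) z).card = 3) (i₀ : Fin 7)
    (hi : ∀ i, z i < 1 / 5 → -(1 / 5) < z i → z i = z i₀) (hi0 : 0 ≤ z i₀) {P : Fin 7 → ℝ}
    (hP : ∀ i, 0 ≤ P i) (hPm : ∀ i, 0 ≤ z i → z i ≤ 9 / 100 →
      -(3 / 1000) ≤ q5 (54 / 100) (-(57 / 100)) 0 (d i) (z i) + P i) :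
    88 / 10000 ≤ Sv d z + ∑ i, P i := by
  unfold Sv
  rcases le_total (z i₀) (9 / 100) with hy | hy
  · have e := sum_lev (Z := 1 / 5) (z := z) (by norm_num)
      (fun i => q5 (54 / 100) (-(57 / 100)) 0 (d i) (z i) + P i)
      (ap := -(3844 / 10000)) (an := -(685 / 1000)) (am := -(3 / 1000))
      (fun i hi => by have := c1_pos (h i) hi; have := hP i; linarith)
      (fun i _ => by have := c1_all (h i); have := hP i; linarith)
      (fun i h1 h2 => hPm i (by rw [hi i h1 h2]; exact hi0) (by rw [hi i h1 h2]; exact hy))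
    rw [sum_add_distrib, sum_q5 _ _ _ h1 h0, hc, hc'] at e
    push_cast at e
    linarith
  · have e := sum_lev (Z := 1 / 5) (z := z) (by norm_num)
      (fun i => q5 (7 / 10) (-(17 / 10)) 0 (d i) (z i))
      (fun i hi => c2_pos (h i) hi) (fun i _ => c2_all (h i))
      (fun i h1 h2 => c2_mid (by rw [hi i h1 h2]; exact hy) h1.le)
    have hP' : 0 ≤ ∑ i, P i := sum_nonneg fun i _ => hP i
    rw [sum_q5 _ _ _ h1 h0, hc, hc'] at e
    push_cast at e
    linarith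

lemma Sv_neg (hv : ∑ i, d i * z i ≤ 0) : Sv d (fun i => -z i) ≤ Sv d z := by
  unfold Sv
  simp only [neg_sq, mul_neg, sum_neg']
  linarith

/-- at least four points on the right -/
lemma four_le (h : ∀ i, z i ^ 2 ≤ d i - d i ^ 2) (h1 : ∑ i, d i = 1) (h0 : ∑ i, z i = 0)
    (hv : ∑ i, d i * z i ≤ 0) (hS : Sv d z + ∑ i, pT (d i) (z i) < 88 / 10000) :
    4 ≤ (Rt (1 / 5) z).card := by
  have h' : ∀ i, (-z i) ^ 2 ≤ d i - d i ^ 2 := fun i => by rw [neg_sq]; exact h i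
  have h0' : ∑ i, -z i = 0 := by rw [sum_neg', h0, neg_zero]
  have hP : 0 ≤ ∑ i, pT (d i) (z i) := sum_nonneg fun i _ => pT_nonneg (h i)
  by_contra hR
  push Not at hR
  by_cases c1 : (Rt (1 / 5) z).card + (Lt (1 / 5) z).card ≤ 5
  · have := s_mid' h h1 h0 hv c1
    linarith
  by_cases c3 : 4 ≤ (Lt (1 / 5) z).card
  · have := s_left' h h1 h0 hv c3
    linarith
  have cP : (Rt (1 / 5) z).card = 3 := by omega
  have cN : (Lt (1 / 5) z).card = 3 := by omega
  obtain ⟨i₀, hi⟩ := exists_mid (z := z) (Z := 1 / 5) (by norm_num) (by norm_num) cP cN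
  rcases le_total 0 (z i₀) with hy | hy
  · have := s_three' h h1 h0 cP cN i₀ hi hy (P := fun i => pT (d i) (z i))
      (fun i => pT_nonneg (h i)) (fun i a b => midT (h i) a b)
    linarith
  · have := s_three' (z := fun i => -z i) h' h1 h0' (by rw [Rt_neg]; exact cN)
      (by rw [Lt_neg]; exact cP) i₀ (fun i a b => by rw [hi i (by linarith) (by linarith)])
      (by linarith) (P := fun i => pT (d i) (z i)) (fun i => pT_nonneg (h i))
      (fun i a b => by have := midT' (h' i) a b; rwa [neg_neg] at this)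
    have := Sv_neg hv
    linarith

/-- the sum over the points of the functional above its minimum -/
lemma sum_term (h1 : ∑ i, d i = 1) (h0 : ∑ i, z i = 0) (hc : (Rt (1 / 5) z).card = 4) :
    ∑ i, (q5 (756 / 1000) (-(2392 / 1000)) 0 (d i) (z i)
      + if 1 / 5 ≤ z i then -(212 / 1000) else 1428 / 1000) = Sv d z := by
  have e : ∀ i, (if 1 / 5 ≤ z i then -(212 / 1000) else 1428 / 1000 : ℝ)
      = (if 1 / 5 ≤ z i then -(1640 / 1000) else 0) + 1428 / 1000 := by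
    intro i
    split_ifs <;> norm_num
  rw [sum_add_distrib, sum_q5 _ _ _ h1 h0]
  simp only [e, sum_add_distrib, sum_const, card_univ, Fintype.card_fin, ← sum_filter,
    nsmul_eq_mul]
  have : ((univ.filter fun i => 1 / 5 ≤ z i).card : ℝ) = 4 := by
    have : (univ.filter fun i => 1 / 5 ≤ z i) = Rt (1 / 5) z := rfl
    rw [this, hc]
    norm_num
  rw [this]
  unfold Sv
  push_cast
  ring

/-- the stable inequality from the inequality at each point -/
lemma of_term (h : ∀ i, z i ^ 2 ≤ d i - d i ^ 2) (h1 : ∑ i, d i = 1) (h0 : ∑ i, z i = 0)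
    (hc : (Rt (1 / 5) z).card = 4) {P : ℝ → ℝ → ℝ} (hP : ∀ i, 0 ≤ P (d i) (z i))
    {t k Z : ℝ} (hk : k ≤ 2)
    (hS : Sv d z + ∑ i, P (d i) (z i) < t)
    (ha : ∀ i, Z ≤ z i → 212 / 1000 + k * de2 (d i) (z i)
      ≤ q5 (756 / 1000) (-(2392 / 1000)) 0 (d i) (z i) + P (d i) (z i))
    (hb : ∀ i, 1 / 5 ≤ z i → z i ≤ Z → 212 / 1000 + t
      ≤ q5 (756 / 1000) (-(2392 / 1000)) 0 (d i) (z i) + P (d i) (z i)) :
    k * ∑ i, dl d z i ≤ Sv d z + ∑ i, P (d i) (z i) := by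
  have key : ∀ i, 0 ≤ q5 (756 / 1000) (-(2392 / 1000)) 0 (d i) (z i)
      + (if 1 / 5 ≤ z i then -(212 / 1000) else 1428 / 1000) := by
    intro i
    split_ifs with hz
    · have := a_pos (h i) hz
      have := de2_nonneg (h i)
      linarith
    · have := a_all (h i)
      have := de1_nonneg (h i)
      linarith
  rw [← sum_term h1 h0 hc, ← sum_add_distrib] at hS ⊢
  rw [mul_sum]
  refine sum_le_sum fun i _ => ?_
  have hi : q5 (756 / 1000) (-(2392 / 1000)) 0 (d i) (z i)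
      + (if 1 / 5 ≤ z i then -(212 / 1000) else 1428 / 1000) + P (d i) (z i) < t :=
    lt_of_le_of_lt (single_le_sum (f := fun i => q5 (756 / 1000) (-(2392 / 1000)) 0 (d i) (z i)
      + (if 1 / 5 ≤ z i then -(212 / 1000) else 1428 / 1000) + P (d i) (z i))
      (fun j _ => add_nonneg (key j) (hP j)) (mem_univ i)) hS
  unfold dl
  by_cases hz : 1 / 5 ≤ z i
  · rw [if_pos hz] at hi
    rw [if_pos hz, if_pos hz]
    rcases le_total Z (z i) with hZ | hZ
    · have := ha i hZ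
      linarith
    · have := hb i hz hZ
      linarith
  · rw [if_neg hz, if_neg hz]
    have h3 := a_all (h i)
    have h4 := de1_nonneg (h i)
    have h5 := hP i
    nlinarith

/-- the stable scalar inequality with the additional terms -/
theorem stabT (h : ∀ i, z i ^ 2 ≤ d i - d i ^ 2) (h1 : ∑ i, d i = 1) (h0 : ∑ i, z i = 0)
    (hv : ∑ i, d i * z i ≤ 0) (hS : Sv d z + ∑ i, pT (d i) (z i) < 88 / 10000) :
    (Rt (1 / 5) z).card = 4 ∧
      163 / 100 * ∑ i, dl d z i ≤ Sv d z + ∑ i, pT (d i) (z i) := by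
  have hR := four_le h h1 h0 hv hS
  have hP : 0 ≤ ∑ i, pT (d i) (z i) := sum_nonneg fun i _ => pT_nonneg (h i)
  have hR4 : (Rt (1 / 5) z).card = 4 := by
    by_contra h4
    have h5 : 5 ≤ (Rt (1 / 5) z).card := by omega
    have h5' : (5 : ℝ) ≤ ((Rt (1 / 5) z).card : ℝ) := by exact_mod_cast h5
    have e := sum_lev (Z := 1 / 5) (z := z) (by norm_num)
      (fun i => q5 (756 / 1000) (-(2392 / 1000)) 0 (d i) (z i))
      (ap := 212 / 1000) (an := -(1428 / 1000)) (am := -(1428 / 1000))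
      (fun i hz => by have := a_pos (h i) hz; have := de2_nonneg (h i); linarith)
      (fun i _ => by have := a_all (h i); have := de1_nonneg (h i); linarith)
      (fun i _ _ => by have := a_all (h i); have := de1_nonneg (h i); linarith)
    rw [sum_q5 _ _ _ h1 h0] at e
    push_cast at e
    unfold Sv at hS
    linarith
  exact ⟨hR4, of_term h h1 h0 hR4 (P := pT) (fun i => pT_nonneg (h i)) (by norm_num) hS
    (fun i hz => aT (h i) hz) (fun i hz hz' => bT (h i) hz hz')⟩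

/-- the stable scalar inequality with a better constant -/
theorem stabS (h : ∀ i, z i ^ 2 ≤ d i - d i ^ 2) (h1 : ∑ i, d i = 1) (h0 : ∑ i, z i = 0)
    (hv : ∑ i, d i * z i ≤ 0) (hS : Sv d z < 55 / 10000) :
    (Rt (1 / 5) z).card = 4 ∧ 134 / 100 * ∑ i, dl d z i ≤ Sv d z := by
  have hR4 := (stab h h1 h0 hv (by linarith)).1
  have h6 : Sv d z + ∑ i, (fun _ _ : ℝ => (0 : ℝ)) (d i) (z i) = Sv d z := by simp
  have := of_term h h1 h0 hR4 (P := fun _ _ => 0) (fun i => le_refl 0) (t := 55 / 10000)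
    (k := 134 / 100) (Z := 255 / 1000) (by norm_num) (by rw [h6]; exact hS) (fun i hz => by have := aS (h i) hz; simpa using this)
    (fun i hz hz' => by have := bS (h i) hz hz'; linarith)
  rw [h6] at this
  exact ⟨hR4, this⟩

end

end Vale.Agent.P224.SO.St
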