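import Vale.Agent.P224.SO.StabR
import Vale.Agent.P224.SO.Stab5T

/-!
The pair integrals of every product of two inner products in terms of the diagonal moments, and the
stable orientation resource in dimension five with additional terms.
-/

namespace Vale.Agent.P224.SO

open MeasureTheory Set Filter Function Module Vale.Agent.P224.UE
open scoped Topology RealInnerProductSpace ContDiff

set_option linter.unusedSectionVars false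

section

variable {X : Type*} [MeasurableSpace X] {E : Type*} [NormedAddCommGroup E]
  [InnerProductSpace ℝ E] [FiniteDimensional ℝ E] [MeasurableSpace E] [BorelSpace E]
  {μ : Measure X} [IsFiniteMeasure μ] {p n : X → E} {m : ℕ}

lemma mom_comm (f g : X → E) (u v : E) : mom μ f g u v = mom μ g f v u := by
  unfold mom
  exact integral_congr_ae (Eventually.of_forall fun x => mul_comm _ _)

lemma sum_diag {k : ℕ} (c : Fin k → ℝ) (f : Fin k → Fin k → ℝ) :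
    ∑ i, ∑ j, (if i = j then c i else 0) * f i j = ∑ i, c i * f i i := by
  refine Finset.sum_congr rfl fun i _ => ?_
  simp only [ite_mul, zero_mul, Finset.sum_ite_eq, Finset.mem_univ, if_true]

lemma sum_diag' {k : ℕ} (c : Fin k → ℝ) (f : Fin k → Fin k → ℝ) :
    ∑ i, ∑ j, f i j * (if i = j then c i else 0) = ∑ i, c i * f i i := by
  refine Finset.sum_congr rfl fun i _ => ?_
  simp only [mul_ite, mul_zero, Finset.sum_ite_eq, Finset.mem_univ, if_true]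
  ring

lemma sum_off {k : ℕ} (f : Fin k → Fin k → ℝ) :
    ∑ i, ∑ j, f i j = ∑ i, f i i + ∑ i, ∑ j, (if i = j then 0 else f i j) := by
  rw [← Finset.sum_add_distrib]
  refine Finset.sum_congr rfl fun i _ => ?_
  have : ∀ j, f i j = (if i = j then f i i else 0) + (if i = j then 0 else f i j) := by
    intro j
    split_ifs with h
    · subst h; ring
    · ring
  rw [Finset.sum_congr rfl fun j _ => this j, Finset.sum_add_distrib, Finset.sum_ite_eq]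
  simp

/-- every pair integral in terms of the diagonal moments -/
theorem moments (hE : finrank ℝ E = m + 2) (hp : UF p) (hn : UF n)
    (pn : ∀ x, ⟪p x, n x⟫ = 0)
    (hrow : ∀ e : E, ∫ x, (⟪e, e⟫ - ⟪n x, e⟫ ^ 2 - (m + 1) * ⟪p x, e⟫ ^ 2) ∂μ = 0)
    (hsym : ∀ (z : X) (e : E), ∫ x, (⟪n x, p z⟫ * ⟪p x, e⟫ - ⟪n x, e⟫ * ⟪p x, p z⟫) ∂μ = 0)
    (hsp : ∀ w, (∀ x, ⟪p x, w⟫ = 0) → w = 0) :
    ∃ (b : OrthonormalBasis (Fin (m + 2)) ℝ E) (ξ β : Fin (m + 2) → ℝ) (o : ℝ), 0 ≤ o ∧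
      (∀ i, mom μ p p (b i) (b i) = ξ i) ∧ (∀ i, mom μ p n (b i) (b i) = β i) ∧
      (∀ i, mom μ n n (b i) (b i) = μ.real univ - (m + 1) * ξ i) ∧
      ∑ i, ξ i = μ.real univ ∧ ∑ i, β i = 0 ∧
      (∀ i, β i ^ 2 ≤ ξ i * (μ.real univ - (m + 1) * ξ i)) ∧
      ∫ q : X × X, ⟪p q.1, p q.2⟫ * ⟪p q.1, p q.2⟫ ∂(μ.prod μ) = ∑ i, ξ i ^ 2 + o ∧
      ∫ q : X × X, ⟪p q.1, p q.2⟫ * ⟪n q.1, n q.2⟫ ∂(μ.prod μ) = ∑ i, β i ^ 2 ∧
      ∫ q : X × X, ⟪p q.1, p q.2⟫ * ⟪p q.1, n q.2⟫ ∂(μ.prod μ) = ∑ i, ξ i * β i ∧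
      ∫ q : X × X, ⟪p q.1, p q.2⟫ * ⟪n q.1, p q.2⟫ ∂(μ.prod μ) = ∑ i, ξ i * β i ∧
      ∫ q : X × X, ⟪p q.1, n q.2⟫ * ⟪p q.1, n q.2⟫ ∂(μ.prod μ)
        = ∑ i, ξ i * (μ.real univ - (m + 1) * ξ i) - (m + 1) * o ∧
      ∫ q : X × X, ⟪n q.1, p q.2⟫ * ⟪n q.1, p q.2⟫ ∂(μ.prod μ)
        = ∑ i, ξ i * (μ.real univ - (m + 1) * ξ i) - (m + 1) * o ∧
      ∫ q : X × X, ⟪p q.1, n q.2⟫ * ⟪n q.1, p q.2⟫ ∂(μ.prod μ) = ∑ i, β i ^ 2 ∧
      ∫ q : X × X, ⟪n q.1, n q.2⟫ * ⟪n q.1, n q.2⟫ ∂(μ.prod μ)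
        = ∑ i, (μ.real univ - (m + 1) * ξ i) ^ 2 + (m + 1) ^ 2 * o ∧
      ∫ q : X × X, ⟪n q.1, n q.2⟫ * ⟪p q.1, n q.2⟫ ∂(μ.prod μ)
        = ∑ i, β i * (μ.real univ - (m + 1) * ξ i) ∧
      ∫ q : X × X, ⟪n q.1, n q.2⟫ * ⟪n q.1, p q.2⟫ ∂(μ.prod μ)
        = ∑ i, β i * (μ.real univ - (m + 1) * ξ i) := by
  have hB := momL_symm hp hn hsym hsp
  set B := momL μ hp hn with hBd
  set b := hB.eigenvectorBasis hE with hb
  set β := hB.eigenvalues hE with hβ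
  set A := μ.real univ with hA
  set ξ : Fin (m + 2) → ℝ := fun i => mom μ p p (b i) (b i) with hξ
  have hpn : ∀ i j, mom μ p n (b i) (b j) = if i = j then β i else 0 := by
    intro i j
    rw [← inner_momL hp hn, ← hBd, hb, hB.apply_eigenvectorBasis hE i, ← hb, ← hβ]
    rw [RCLike.ofReal_real_eq_id, id, real_inner_smul_left, orthonormal_iff_ite.1 b.orthonormal i j]
    split_ifs <;> simp
  have hnp : ∀ i j, mom μ n p (b i) (b j) = if i = j then β i else 0 := by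
    intro i j
    rw [mom_comm, hpn]
    by_cases h : i = j
    · subst h; rfl
    · rw [if_neg h, if_neg (fun h' => h h'.symm)]
  have s1 : ∑ i, ξ i = A := by
    rw [hξ, sum_mom b hp hp]
    have : ∀ x, ⟪p x, p x⟫ = (1 : ℝ) := fun x => by
      rw [real_inner_self_eq_norm_sq, hp.unit, one_pow]
    simp only [this, integral_const, smul_eq_mul, mul_one, hA]
  have s2 : ∑ i, β i = 0 := by
    have h1 := sum_mom (μ := μ) b hp hn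
    simp only [hpn, if_true, pn, integral_zero] at h1
    exact h1
  -- the quadratic form of the normals
  have key : ∀ e : E, mom μ n n e e = A * ⟪e, e⟫ - (m + 1) * mom μ p p e e := by
    intro e
    have h1 := hrow e
    have e1 : ∀ x, ⟪e, e⟫ - ⟪n x, e⟫ ^ 2 - (m + 1) * ⟪p x, e⟫ ^ 2
        = ⟪e, e⟫ - ⟪n x, e⟫ * ⟪n x, e⟫ - (m + 1) * (⟪p x, e⟫ * ⟪p x, e⟫) := fun x => by ring
    simp only [e1] at h1
    have i1 : Integrable (fun x => ⟪e, e⟫ - ⟪n x, e⟫ * ⟪n x, e⟫) μ :=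
      (integrable_const _).sub (hn.integrable_mul hn _ _)
    have i2 : Integrable (fun x => ((m : ℝ) + 1) * (⟪p x, e⟫ * ⟪p x, e⟫)) μ :=
      (hp.integrable_mul hp _ _).const_mul _
    rw [integral_sub i1 i2, integral_sub (integrable_const _) (hn.integrable_mul hn _ _),
      integral_const_mul, integral_const, smul_eq_mul] at h1
    unfold mom
    linarith
  have hadd : ∀ {f : X → E} (_ : UF f) (u v : E),
      mom μ f f (u + v) (u + v) = mom μ f f u u + mom μ f f v v + 2 * mom μ f f u v := by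
    intro f hf u v
    unfold mom
    have i1 : Integrable (fun x => ⟪f x, u⟫ * ⟪f x, u⟫ + ⟪f x, v⟫ * ⟪f x, v⟫) μ :=
      (hf.integrable_mul hf _ _).add (hf.integrable_mul hf _ _)
    have i2 : Integrable (fun x => 2 * (⟪f x, u⟫ * ⟪f x, v⟫)) μ :=
      (hf.integrable_mul hf _ _).const_mul _
    rw [← integral_const_mul, ← integral_add (hf.integrable_mul hf _ _)
      (hf.integrable_mul hf _ _), ← integral_add i1 i2]
    refine integral_congr_ae (Eventually.of_forall fun x => ?_)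
    simp only [inner_add_right]
    ring
  have hnn : ∀ i j, mom μ n n (b i) (b j)
      = (if i = j then A else 0) - (m + 1) * mom μ p p (b i) (b j) := by
    intro i j
    have k1 := key (b i + b j)
    have k2 := key (b i)
    have k3 := key (b j)
    rw [hadd hn, hadd hp] at k1
    have k4 : ⟪b i + b j, b i + b j⟫ = ⟪b i, b i⟫ + ⟪b j, b j⟫ + 2 * (if i = j then (1 : ℝ) else 0) := by
      rw [inner_add_left, inner_add_right, inner_add_right, real_inner_comm (b i) (b j),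
        orthonormal_iff_ite.1 b.orthonormal i j]
      ring
    rw [k4] at k1
    have k5 : (if i = j then A else 0) = A * (if i = j then (1 : ℝ) else 0) := by
      split_ifs <;> simp
    rw [k5]
    linarith
  have s3 : ∀ i, mom μ n n (b i) (b i) = A - (m + 1) * ξ i := by
    intro i
    rw [hnn, if_pos rfl]
  have s4 : ∀ i, β i ^ 2 ≤ ξ i * (A - (m + 1) * ξ i) := by
    intro i
    have h1 := mom_sq_le (μ := μ) hp hn (b i) (b i)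
    rw [s3, hpn, if_pos rfl] at h1
    exact h1
  set o : ℝ := ∑ i, ∑ j, (if i = j then 0
    else mom μ p p (b i) (b j) * mom μ p p (b i) (b j)) with ho
  have ho0 : 0 ≤ o := by
    refine Finset.sum_nonneg fun i _ => Finset.sum_nonneg fun j _ => ?_
    split_ifs
    · exact le_refl 0
    · exact mul_self_nonneg _
  refine ⟨b, ξ, β, o, ho0, fun i => rfl, fun i => by rw [hpn, if_pos rfl], s3, s1, s2, s4,
    ?_, ?_, ?_, ?_, ?_, ?_, ?_, ?_, ?_, ?_⟩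
  · rw [integral_pair b hp hp hp hp, sum_off]
    congr 1
    refine Finset.sum_congr rfl fun i _ => ?_
    rw [sq]
  · rw [integral_pair b hp hn hp hn]
    simp only [hpn]
    rw [sum_diag]
    refine Finset.sum_congr rfl fun i _ => ?_
    rw [if_pos rfl, sq]
  · rw [integral_pair b hp hp hp hn]
    simp only [hpn]
    rw [sum_diag']
    refine Finset.sum_congr rfl fun i _ => ?_
    rw [mul_comm]
  · rw [integral_pair b hp hn hp hp]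
    simp only [hpn]
    rw [sum_diag]
    refine Finset.sum_congr rfl fun i _ => ?_
    rw [mul_comm]
  · rw [integral_pair b hp hp hn hn, sum_off]
    have e1 : ∀ i j, (if i = j then 0 else mom μ p p (b i) (b j) * mom μ n n (b i) (b j))
        = -(m + 1) * (if i = j then 0
          else mom μ p p (b i) (b j) * mom μ p p (b i) (b j)) := by
      intro i j
      split_ifs with h
      · ring
      · rw [hnn, if_neg h]; ring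
    simp only [e1, ← Finset.mul_sum, ← ho, s3]
    ring
  · rw [integral_pair b hn hn hp hp, sum_off]
    have e1 : ∀ i j, (if i = j then 0 else mom μ n n (b i) (b j) * mom μ p p (b i) (b j))
        = -(m + 1) * (if i = j then 0
          else mom μ p p (b i) (b j) * mom μ p p (b i) (b j)) := by
      intro i j
      split_ifs with h
      · ring
      · rw [hnn, if_neg h]; ring
    simp only [e1, ← Finset.mul_sum, ← ho, s3]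
    have e2 : ∀ i, (A - (m + 1) * ξ i) * mom μ p p (b i) (b i)
        = ξ i * (A - (m + 1) * ξ i) := fun i => mul_comm _ _
    simp only [e2]
    ring
  · rw [integral_pair b hp hn hn hp]
    simp only [hpn, hnp]
    rw [sum_diag]
    refine Finset.sum_congr rfl fun i _ => ?_
    rw [if_pos rfl, sq]
  · rw [integral_pair b hn hn hn hn, sum_off]
    have e1 : ∀ i j, (if i = j then 0 else mom μ n n (b i) (b j) * mom μ n n (b i) (b j))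
        = (m + 1) ^ 2 * (if i = j then 0
          else mom μ p p (b i) (b j) * mom μ p p (b i) (b j)) := by
      intro i j
      split_ifs with h
      · ring
      · rw [hnn, if_neg h]; ring
    simp only [e1, ← Finset.mul_sum, ← ho, s3]
    congr 1
    refine Finset.sum_congr rfl fun i _ => ?_
    rw [sq]
  · rw [integral_pair b hn hp hn hn]
    simp only [hnp]
    rw [sum_diag]
    refine Finset.sum_congr rfl fun i _ => ?_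
    rw [s3]
  · rw [integral_pair b hn hn hn hp]
    simp only [hnp]
    rw [sum_diag']
    refine Finset.sum_congr rfl fun i _ => ?_
    rw [s3]

lemma int_step {Y : Type*} [MeasurableSpace Y] {ν : Measure Y} {f g : Y → ℝ} {a : ℝ}
    (hf : Integrable f ν ∧ ∫ q, f q ∂ν = a) (hg : Integrable g ν) (c : ℝ) :
    Integrable (fun q => f q + c * g q) ν ∧ ∫ q, (f q + c * g q) ∂ν = a + c * ∫ q, g q ∂ν := by
  refine ⟨hf.1.add (hg.const_mul c), ?_⟩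
  rw [integral_add hf.1 (hg.const_mul c), integral_const_mul, hf.2]

/-- the integral of a linear combination of the ten pair products -/
lemma int_lin (hp : UF p) (hn : UF n) (c0 c1 c2 c3 c4 c5 c6 c7 c8 c9 c10 : ℝ) :
    ∫ q : X × X, (c0 + c1 * (⟪p q.1, p q.2⟫ * ⟪p q.1, p q.2⟫)
      + c2 * (⟪p q.1, p q.2⟫ * ⟪n q.1, n q.2⟫) + c3 * (⟪p q.1, p q.2⟫ * ⟪p q.1, n q.2⟫)
      + c4 * (⟪p q.1, p q.2⟫ * ⟪n q.1, p q.2⟫) + c5 * (⟪p q.1, n q.2⟫ * ⟪p q.1, n q.2⟫)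
      + c6 * (⟪n q.1, p q.2⟫ * ⟪n q.1, p q.2⟫) + c7 * (⟪p q.1, n q.2⟫ * ⟪n q.1, p q.2⟫)
      + c8 * (⟪n q.1, n q.2⟫ * ⟪n q.1, n q.2⟫) + c9 * (⟪n q.1, n q.2⟫ * ⟪p q.1, n q.2⟫)
      + c10 * (⟪n q.1, n q.2⟫ * ⟪n q.1, p q.2⟫)) ∂(μ.prod μ)
      = μ.real univ ^ 2 * c0
        + c1 * ∫ q : X × X, ⟪p q.1, p q.2⟫ * ⟪p q.1, p q.2⟫ ∂(μ.prod μ)
        + c2 * ∫ q : X × X, ⟪p q.1, p q.2⟫ * ⟪n q.1, n q.2⟫ ∂(μ.prod μ)
        + c3 * ∫ q : X × X, ⟪p q.1, p q.2⟫ * ⟪p q.1, n q.2⟫ ∂(μ.prod μ)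
        + c4 * ∫ q : X × X, ⟪p q.1, p q.2⟫ * ⟪n q.1, p q.2⟫ ∂(μ.prod μ)
        + c5 * ∫ q : X × X, ⟪p q.1, n q.2⟫ * ⟪p q.1, n q.2⟫ ∂(μ.prod μ)
        + c6 * ∫ q : X × X, ⟪n q.1, p q.2⟫ * ⟪n q.1, p q.2⟫ ∂(μ.prod μ)
        + c7 * ∫ q : X × X, ⟪p q.1, n q.2⟫ * ⟪n q.1, p q.2⟫ ∂(μ.prod μ)
        + c8 * ∫ q : X × X, ⟪n q.1, n q.2⟫ * ⟪n q.1, n q.2⟫ ∂(μ.prod μ)
        + c9 * ∫ q : X × X, ⟪n q.1, n q.2⟫ * ⟪p q.1, n q.2⟫ ∂(μ.prod μ)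
        + c10 * ∫ q : X × X, ⟪n q.1, n q.2⟫ * ⟪n q.1, p q.2⟫ ∂(μ.prod μ) := by
  have hAA : (μ.prod μ).real univ = μ.real univ ^ 2 := by
    rw [sq, measureReal_def, measureReal_def, ← univ_prod_univ, Measure.prod_prod,
      ENNReal.toReal_mul]
  have h0 : Integrable (fun _ : X × X => c0) (μ.prod μ) ∧
      ∫ _ : X × X, c0 ∂(μ.prod μ) = μ.real univ ^ 2 * c0 :=
    ⟨integrable_const _, by rw [integral_const, smul_eq_mul, hAA]⟩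
  exact (int_step (int_step (int_step (int_step (int_step (int_step (int_step (int_step
    (int_step (int_step h0 (integrable_pair hp hp hp hp) c1) (integrable_pair hp hn hp hn) c2)
    (integrable_pair hp hp hp hn) c3) (integrable_pair hp hn hp hp) c4)
    (integrable_pair hp hp hn hn) c5) (integrable_pair hn hn hp hp) c6)
    (integrable_pair hp hn hn hp) c7) (integrable_pair hn hn hn hn) c8)
    (integrable_pair hn hp hn hn) c9) (integrable_pair hn hn hn hp) c10).2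

/-- the distance in terms of the scalar data -/
lemma integral_dev_eq (hp : UF p) (hn : UF n) (b : OrthonormalBasis (Fin 7) ℝ E)
    {d z : Fin 7 → ℝ}
    (m1 : ∀ i, mom μ p p (b i) (b i) = μ.real univ * (1 - d i) / 6)
    (m2 : ∀ i, mom μ p n (b i) (b i) = √6 / 6 * μ.real univ * z i)
    (m3 : ∀ i, mom μ n n (b i) (b i) = μ.real univ * d i) :
    ∫ x, ‖dev b (Rt (1 / 5) z) (p x) (n x)‖ ^ 2 ∂μ = μ.real univ * ∑ i, St.dl d z i := by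
  have hr : √6 * √6 = (6 : ℝ) := Real.mul_self_sqrt (by norm_num)
  rw [integral_dev hp hn, Finset.mul_sum]
  refine Finset.sum_congr rfl fun i _ => ?_
  rw [m1, m2, m3]
  unfold St.dl zt
  by_cases hi : 1 / 5 ≤ z i
  · rw [if_pos hi, if_pos (mem_Rt.2 hi)]
    unfold St.de2
    linear_combination (μ.real univ * (1 - d i) / 54 - μ.real univ * z i / 9) * hr
  · rw [if_neg hi, if_neg (fun hh => hi (mem_Rt.1 hh))]
    unfold St.de1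
    linear_combination (μ.real univ * (1 - d i) / 24 + μ.real univ * z i / 6) * hr

lemma Sv_nonneg {d z : Fin 7 → ℝ} (h : ∀ i, z i ^ 2 ≤ d i - d i ^ 2) (h1 : ∑ i, d i = 1)
    (h0 : ∑ i, z i = 0) (hv : ∑ i, d i * z i ≤ 0) : 0 ≤ St.Sv d z := by
  by_contra hc
  rw [not_le] at hc
  have h2 := (St.stab h h1 h0 hv (by linarith)).2
  have h3 : 0 ≤ ∑ i, St.dl d z i := Finset.sum_nonneg fun i _ => St.dl_nonneg h i
  linarith

/-- the pair integrals in dimension five in terms of the scalar data -/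
theorem scalV (hE : finrank ℝ E = 7) (h : TwoG μ 5 p n) [Nonempty X]
    (hsp : ∀ w, (∀ x, ⟪p x, w⟫ = 0) → w = 0)
    (hor : 0 ≤ ∫ q : X × X, ⟪p q.1, p q.2⟫ * ⟪p q.1, n q.2⟫ ∂(μ.prod μ))
    (hA : 0 < μ.real univ) :
    ∃ (b : OrthonormalBasis (Fin 7) ℝ E) (d z : Fin 7 → ℝ) (o : ℝ), 0 ≤ o ∧
      (∀ i, z i ^ 2 ≤ d i - d i ^ 2) ∧ ∑ i, d i = 1 ∧ ∑ i, z i = 0 ∧ ∑ i, d i * z i ≤ 0 ∧
      ∫ x, ‖dev b (Rt (1 / 5) z) (p x) (n x)‖ ^ 2 ∂μ = μ.real univ * ∑ i, St.dl d z i ∧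
      ∫ q : X × X, ⟪p q.1, p q.2⟫ * ⟪p q.1, p q.2⟫ ∂(μ.prod μ)
        = μ.real univ ^ 2 / 36 * (5 + ∑ i, d i ^ 2) + o ∧
      ∫ q : X × X, ⟪p q.1, p q.2⟫ * ⟪n q.1, n q.2⟫ ∂(μ.prod μ)
        = μ.real univ ^ 2 / 6 * ∑ i, z i ^ 2 ∧
      ∫ q : X × X, ⟪p q.1, p q.2⟫ * ⟪p q.1, n q.2⟫ ∂(μ.prod μ)
        = -(μ.real univ ^ 2 * √6 / 36 * ∑ i, d i * z i) ∧
      ∫ q : X × X, ⟪p q.1, p q.2⟫ * ⟪n q.1, p q.2⟫ ∂(μ.prod μ)
        = -(μ.real univ ^ 2 * √6 / 36 * ∑ i, d i * z i) ∧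
      ∫ q : X × X, ⟪p q.1, n q.2⟫ * ⟪p q.1, n q.2⟫ ∂(μ.prod μ)
        = μ.real univ ^ 2 / 6 * (1 - ∑ i, d i ^ 2) - 6 * o ∧
      ∫ q : X × X, ⟪n q.1, p q.2⟫ * ⟪n q.1, p q.2⟫ ∂(μ.prod μ)
        = μ.real univ ^ 2 / 6 * (1 - ∑ i, d i ^ 2) - 6 * o ∧
      ∫ q : X × X, ⟪p q.1, n q.2⟫ * ⟪n q.1, p q.2⟫ ∂(μ.prod μ)
        = μ.real univ ^ 2 / 6 * ∑ i, z i ^ 2 ∧
      ∫ q : X × X, ⟪n q.1, n q.2⟫ * ⟪n q.1, n q.2⟫ ∂(μ.prod μ)
        = μ.real univ ^ 2 * ∑ i, d i ^ 2 + 6 ^ 2 * o ∧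
      ∫ q : X × X, ⟪n q.1, n q.2⟫ * ⟪p q.1, n q.2⟫ ∂(μ.prod μ)
        = √6 / 6 * μ.real univ ^ 2 * ∑ i, d i * z i ∧
      ∫ q : X × X, ⟪n q.1, n q.2⟫ * ⟪n q.1, p q.2⟫ ∂(μ.prod μ)
        = √6 / 6 * μ.real univ ^ 2 * ∑ i, d i * z i := by
  have hp : UF p := ⟨h.mp, h.np⟩
  have hn : UF n := ⟨h.mn, h.nn⟩
  obtain ⟨b, ξ, β, o, ho, m1, m2, m3, s1, s2, s4, I1, I2, I3, I4, I5, I6, I7, I8, I9, I10⟩ :=
    moments (m := 5) hE hp hn h.pn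
      (fun e => row_xi h (Classical.arbitrary X) e) (row_sym (by norm_num) h) hsp
  have e6 : (((5 : ℕ) : ℝ) + 1) = 6 := by norm_num
  rw [e6] at I5 I6 I8
  simp only [e6] at m3 s4 I5 I6 I8 I9 I10
  have hr : √6 * √6 = (6 : ℝ) := Real.mul_self_sqrt (by norm_num)
  have hr0 : (0 : ℝ) < √6 := Real.sqrt_pos.2 (by norm_num)
  set A := μ.real univ with hAd
  have hA' : A ≠ 0 := hA.ne'
  have hA2 : 0 < A ^ 2 := by positivity
  obtain ⟨d, hd⟩ : ∃ d : Fin 7 → ℝ, ∀ i, ξ i = A * (1 - d i) / 6 :=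
    ⟨fun i => 1 - 6 * (ξ i / A), fun i => by field_simp; ring⟩
  obtain ⟨z, hz⟩ : ∃ z : Fin 7 → ℝ, ∀ i, β i = √6 / 6 * A * z i :=
    ⟨fun i => √6 * (β i / A), fun i => by
      field_simp
      linear_combination (-(β i)) * hr⟩
  simp only [hd, hz] at m1 m2 m3 s1 s2 s4 I1 I2 I3 I4 I5 I6 I7 I8 I9 I10
  have hd1 : ∑ i, d i = 1 := by
    have : ∑ i : Fin 7, A * (1 - d i) / 6 = A / 6 * (7 - ∑ i, d i) := by
      have e : ∀ i, A * (1 - d i) / 6 = A / 6 * (1 - d i) := fun i => by ring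
      simp only [e, ← Finset.mul_sum, Finset.sum_sub_distrib]
      simp
    rw [this] at s1
    have : A * (∑ i, d i - 1) = 0 := by linear_combination (-6) * s1
    rcases mul_eq_zero.1 this with h' | h'
    · exact absurd h' hA'
    · linarith
  have hz0 : ∑ i, z i = 0 := by
    rw [← Finset.mul_sum] at s2
    rcases mul_eq_zero.1 s2 with h' | h'
    · exact absurd h' (by positivity)
    · exact h'
  have hzd : ∀ i, z i ^ 2 ≤ d i - d i ^ 2 := by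
    intro i
    have h1 := s4 i
    have h2 : (√6 / 6 * A * z i) ^ 2 = A ^ 2 / 6 * z i ^ 2 := by
      linear_combination (A ^ 2 * z i ^ 2 / 36) * hr
    have h3 : A * (1 - d i) / 6 * (A - 6 * (A * (1 - d i) / 6))
        = A ^ 2 / 6 * (d i - d i ^ 2) := by ring
    rw [h2, h3] at h1
    exact le_of_mul_le_mul_left h1 (by positivity)
  -- the sums
  set D2 := ∑ i, d i ^ 2 with hD2
  set Z2 := ∑ i, z i ^ 2 with hZ2
  set DZ := ∑ i, d i * z i with hDZ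
  have J1 : ∑ i : Fin 7, (A * (1 - d i) / 6) ^ 2 = A ^ 2 / 36 * (5 + D2) := by
    have e : ∀ i, (A * (1 - d i) / 6) ^ 2 = A ^ 2 / 36 * (1 - 2 * d i + d i ^ 2) :=
      fun i => by ring
    simp only [e, ← Finset.mul_sum, Finset.sum_add_distrib, Finset.sum_sub_distrib, hd1]
    simp only [Finset.sum_const, Finset.card_univ, Fintype.card_fin, nsmul_eq_mul, ← hD2]
    ring
  have J2 : ∑ i : Fin 7, (√6 / 6 * A * z i) ^ 2 = A ^ 2 / 6 * Z2 := by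
    have e : ∀ i, (√6 / 6 * A * z i) ^ 2 = A ^ 2 / 6 * z i ^ 2 := fun i => by
      linear_combination (A ^ 2 * z i ^ 2 / 36) * hr
    simp only [e, ← Finset.mul_sum, ← hZ2]
  have J3 : ∑ i : Fin 7, A * (1 - d i) / 6 * (√6 / 6 * A * z i) = -(A ^ 2 * √6 / 36 * DZ) := by
    have e : ∀ i, A * (1 - d i) / 6 * (√6 / 6 * A * z i)
        = A ^ 2 * √6 / 36 * (z i - d i * z i) := fun i => by ring
    simp only [e, ← Finset.mul_sum, Finset.sum_sub_distrib, hz0, ← hDZ]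
    ring
  have J4 : ∑ i : Fin 7, A * (1 - d i) / 6 * (A - 6 * (A * (1 - d i) / 6))
      = A ^ 2 / 6 * (1 - D2) := by
    have e : ∀ i, A * (1 - d i) / 6 * (A - 6 * (A * (1 - d i) / 6))
        = A ^ 2 / 6 * (d i - d i ^ 2) := fun i => by ring
    simp only [e, ← Finset.mul_sum, Finset.sum_sub_distrib, hd1, ← hD2]
  have J5 : ∑ i : Fin 7, (A - 6 * (A * (1 - d i) / 6)) ^ 2 = A ^ 2 * D2 := by
    have e : ∀ i, (A - 6 * (A * (1 - d i) / 6)) ^ 2 = A ^ 2 * d i ^ 2 := fun i => by ring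
    simp only [e, ← Finset.mul_sum, ← hD2]
  have J6 : ∑ i : Fin 7, √6 / 6 * A * z i * (A - 6 * (A * (1 - d i) / 6))
      = √6 / 6 * A ^ 2 * DZ := by
    have e : ∀ i, √6 / 6 * A * z i * (A - 6 * (A * (1 - d i) / 6))
        = √6 / 6 * A ^ 2 * (d i * z i) := fun i => by ring
    simp only [e, ← Finset.mul_sum, ← hDZ]
  rw [J1] at I1
  rw [J2] at I2 I7
  rw [J3] at I3 I4
  rw [J4] at I5 I6
  rw [J5] at I8
  rw [J6] at I9 I10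
  have hDZ0 : DZ ≤ 0 := by
    rw [I3] at hor
    by_contra hc
    rw [not_le] at hc
    have : 0 < A ^ 2 * √6 / 36 * DZ := by positivity
    linarith
  exact ⟨b, d, z, o, ho, hzd, hd1, hz0, hDZ0, integral_dev_eq hp hn b m1 m2
    (fun i => by rw [m3, hAd]; ring), I1, I2, I3, I4, I5, I6, I7, I8, I9, I10⟩

/-- the scalar data of the resources in dimension five -/
theorem resV (hE : finrank ℝ E = 7) (h : TwoG μ 5 p n) [Nonempty X]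
    (hsp : ∀ w, (∀ x, ⟪p x, w⟫ = 0) → w = 0)
    (hor : 0 ≤ ∫ q : X × X, ⟪p q.1, p q.2⟫ * ⟪p q.1, n q.2⟫ ∂(μ.prod μ))
    (hA : 0 < μ.real univ) :
    ∃ (b : OrthonormalBasis (Fin 7) ℝ E) (d z : Fin 7 → ℝ),
      (∀ i, z i ^ 2 ≤ d i - d i ^ 2) ∧ ∑ i, d i = 1 ∧ ∑ i, z i = 0 ∧ ∑ i, d i * z i ≤ 0 ∧
      ∫ x, ‖dev b (Rt (1 / 5) z) (p x) (n x)‖ ^ 2 ∂μ = μ.real univ * ∑ i, St.dl d z i ∧
      (∀ ρ lu lv : ℝ, 3 * lu ≤ 14 * ρ + 73 / 2 * lv →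
        μ.real univ ^ 2 * (ρ * St.Sv d z + 3 * lu * ∑ i, (d i - d i ^ 2 - z i ^ 2)
            + lv * ∑ i, ((1 - 7 * d i - z i) ^ 2 + 25 / 2 * (d i - d i ^ 2 - z i ^ 2)))
          ≤ 36 * ∫ q : X × X, (ρ * (-(187 / 100) + 14 * ⟪p q.1, p q.2⟫ ^ 2
              - ⟪p q.1, p q.2⟫ * ⟪n q.1, n q.2⟫
              + √6 / 6 * (⟪p q.1, p q.2⟫ * ((⟪p q.1, n q.2⟫ + ⟪n q.1, p q.2⟫) / 2)))
            + lu * ((⟪p q.1, n q.2⟫ - ⟪n q.1, p q.2⟫) / 2) ^ 2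
            + lv * (⟪n q.1, n q.2⟫ - ⟪p q.1, p q.2⟫
              + √6 / 6 * ((⟪p q.1, n q.2⟫ + ⟪n q.1, p q.2⟫) / 2)) ^ 2) ∂(μ.prod μ)) ∧
      (∀ ρ lu c : ℝ, 0 ≤ ρ → 3 * lu ≤ 14 * ρ → 0 ≤ c → 1 ≤ 6 * c ^ 2 →
        μ.real univ ^ 2 * (ρ * St.Sv d z + 3 * lu * ∑ i, (d i - d i ^ 2 - z i ^ 2))
          ≤ 36 * ∫ q : X × X, (ρ * (-(187 / 100) + 14 * ⟪p q.1, p q.2⟫ ^ 2
              - ⟪p q.1, p q.2⟫ * ⟪n q.1, n q.2⟫
              + c * (⟪p q.1, p q.2⟫ * ((⟪p q.1, n q.2⟫ + ⟪n q.1, p q.2⟫) / 2)))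
            + lu * ((⟪p q.1, n q.2⟫ - ⟪n q.1, p q.2⟫) / 2) ^ 2) ∂(μ.prod μ)) := by
  have hp : UF p := ⟨h.mp, h.np⟩
  have hn : UF n := ⟨h.mn, h.nn⟩
  obtain ⟨b, d, z, o, ho, hzd, hd1, hz0, hDZ0, hdev, I1, I2, I3, I4, I5, I6, I7, I8, I9, I10⟩ :=
    scalV hE h hsp hor hA
  have hr : √6 * √6 = (6 : ℝ) := Real.mul_self_sqrt (by norm_num)
  set A := μ.real univ with hAd
  have hA2 : 0 < A ^ 2 := by positivity
  set D2 := ∑ i, d i ^ 2 with hD2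
  set Z2 := ∑ i, z i ^ 2 with hZ2
  set DZ := ∑ i, d i * z i with hDZ
  have K1 : ∑ i, (d i - d i ^ 2 - z i ^ 2) = 1 - D2 - Z2 := by
    simp only [Finset.sum_sub_distrib, hd1, ← hD2, ← hZ2]
  have K2 : ∑ i, ((1 - 7 * d i - z i) ^ 2 + 25 / 2 * (d i - d i ^ 2 - z i ^ 2))
      = 11 / 2 + 73 / 2 * D2 - 23 / 2 * Z2 + 14 * DZ := by
    have e : ∀ i, ((1 - 7 * d i - z i) ^ 2 + 25 / 2 * (d i - d i ^ 2 - z i ^ 2))
        = 1 - 3 / 2 * d i - 2 * z i + 73 / 2 * d i ^ 2 - 23 / 2 * z i ^ 2 + 14 * (d i * z i) :=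
      fun i => by ring
    simp only [e, ← Finset.mul_sum, Finset.sum_add_distrib, Finset.sum_sub_distrib, hd1, hz0,
      ← hD2, ← hZ2, ← hDZ]
    simp only [Finset.sum_const, Finset.card_univ, Fintype.card_fin, nsmul_eq_mul]
    ring
  refine ⟨b, d, z, hzd, hd1, hz0, hDZ0, hdev, ?_, ?_⟩
  · intro ρ lu lv h3
    have hcast : ∀ q : X × X, (ρ * (-(187 / 100) + 14 * ⟪p q.1, p q.2⟫ ^ 2
              - ⟪p q.1, p q.2⟫ * ⟪n q.1, n q.2⟫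
              + √6 / 6 * (⟪p q.1, p q.2⟫ * ((⟪p q.1, n q.2⟫ + ⟪n q.1, p q.2⟫) / 2)))
            + lu * ((⟪p q.1, n q.2⟫ - ⟪n q.1, p q.2⟫) / 2) ^ 2
            + lv * (⟪n q.1, n q.2⟫ - ⟪p q.1, p q.2⟫
              + √6 / 6 * ((⟪p q.1, n q.2⟫ + ⟪n q.1, p q.2⟫) / 2)) ^ 2)
        = (-(187 / 100) * ρ) + (14 * ρ + lv) * (⟪p q.1, p q.2⟫ * ⟪p q.1, p q.2⟫)
      + (-ρ - 2 * lv) * (⟪p q.1, p q.2⟫ * ⟪n q.1, n q.2⟫)
      + (ρ * √6 / 12 - lv * √6 / 6) * (⟪p q.1, p q.2⟫ * ⟪p q.1, n q.2⟫)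
      + (ρ * √6 / 12 - lv * √6 / 6) * (⟪p q.1, p q.2⟫ * ⟪n q.1, p q.2⟫)
      + (lu / 4 + lv / 24) * (⟪p q.1, n q.2⟫ * ⟪p q.1, n q.2⟫)
      + (lu / 4 + lv / 24) * (⟪n q.1, p q.2⟫ * ⟪n q.1, p q.2⟫)
      + (-(lu / 2) + lv / 12) * (⟪p q.1, n q.2⟫ * ⟪n q.1, p q.2⟫)
      + lv * (⟪n q.1, n q.2⟫ * ⟪n q.1, n q.2⟫)
      + (lv * √6 / 6) * (⟪n q.1, n q.2⟫ * ⟪p q.1, n q.2⟫)
      + (lv * √6 / 6) * (⟪n q.1, n q.2⟫ * ⟪n q.1, p q.2⟫) := by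
      intro q
      linear_combination (lv * (⟪p q.1, n q.2⟫ + ⟪n q.1, p q.2⟫) ^ 2 / 144) * hr
    simp only [hcast]
    rw [int_lin hp hn, I1, I2, I3, I4, I5, I6, I7, I8, I9, I10, K1, K2]
    unfold St.Sv
    rw [← hD2, ← hZ2, ← hDZ]
    have h4 : 0 ≤ 36 * o * (14 * ρ + 73 / 2 * lv - 3 * lu) :=
      mul_nonneg (by positivity) (by linarith)
    refine sub_nonneg.1 (h4.trans_eq ?_)
    linear_combination (-(A ^ 2 * DZ * (-ρ / 6 + 7 / 3 * lv))) * hr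
  · intro ρ lu c hρ h3 hc0 hc
    have hc1 : 1 ≤ √6 * c := by
      by_contra hc1
      rw [not_le] at hc1
      have h9 : 0 ≤ √6 * c := by positivity
      have : (√6 * c) ^ 2 < 1 := by nlinarith
      have : (√6 * c) ^ 2 = 6 * c ^ 2 := by rw [mul_pow, sq √6, hr]
      linarith
    have hcast : ∀ q : X × X, (ρ * (-(187 / 100) + 14 * ⟪p q.1, p q.2⟫ ^ 2
              - ⟪p q.1, p q.2⟫ * ⟪n q.1, n q.2⟫
              + c * (⟪p q.1, p q.2⟫ * ((⟪p q.1, n q.2⟫ + ⟪n q.1, p q.2⟫) / 2)))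
            + lu * ((⟪p q.1, n q.2⟫ - ⟪n q.1, p q.2⟫) / 2) ^ 2)
        = (-(187 / 100) * ρ) + (14 * ρ) * (⟪p q.1, p q.2⟫ * ⟪p q.1, p q.2⟫)
      + (-ρ) * (⟪p q.1, p q.2⟫ * ⟪n q.1, n q.2⟫)
      + (ρ * c / 2) * (⟪p q.1, p q.2⟫ * ⟪p q.1, n q.2⟫)
      + (ρ * c / 2) * (⟪p q.1, p q.2⟫ * ⟪n q.1, p q.2⟫)
      + (lu / 4) * (⟪p q.1, n q.2⟫ * ⟪p q.1, n q.2⟫)
      + (lu / 4) * (⟪n q.1, p q.2⟫ * ⟪n q.1, p q.2⟫)
      + (-(lu / 2)) * (⟪p q.1, n q.2⟫ * ⟪n q.1, p q.2⟫)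
      + 0 * (⟪n q.1, n q.2⟫ * ⟪n q.1, n q.2⟫)
      + 0 * (⟪n q.1, n q.2⟫ * ⟪p q.1, n q.2⟫)
      + 0 * (⟪n q.1, n q.2⟫ * ⟪n q.1, p q.2⟫) := by
      intro q
      ring
    simp only [hcast]
    rw [int_lin hp hn, I1, I2, I3, I4, I5, I6, I7, I8, I9, I10, K1]
    unfold St.Sv
    rw [← hD2, ← hZ2, ← hDZ]
    have h4 : 0 ≤ 36 * o * (14 * ρ - 3 * lu) := mul_nonneg (by positivity) (by linarith)
    have h5 : 0 ≤ A ^ 2 * (ρ * ((√6 * c - 1) * (-DZ))) :=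
      mul_nonneg hA2.le (mul_nonneg hρ (mul_nonneg (by linarith) (by linarith)))
    refine sub_nonneg.1 ((add_nonneg h4 h5).trans_eq ?_)
    ring

/-- the sum of the additional terms is below the two quadratic terms -/
lemma sum_pT_le {d z : Fin 7 → ℝ} (hd : ∀ i, z i ^ 2 ≤ d i - d i ^ 2) {ρ lu lv : ℝ}
    (h1 : 95 / 100 * ρ ≤ 3 * lu) (h2 : 95 / 10000 * ρ ≤ lv) :
    ρ * ∑ i, St.pT (d i) (z i) ≤ 3 * lu * ∑ i, (d i - d i ^ 2 - z i ^ 2)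
      + lv * ∑ i, ((1 - 7 * d i - z i) ^ 2 + 25 / 2 * (d i - d i ^ 2 - z i ^ 2)) := by
  rw [Finset.mul_sum, Finset.mul_sum, Finset.mul_sum, ← Finset.sum_add_distrib]
  refine Finset.sum_le_sum fun i _ => ?_
  have h3 : 0 ≤ d i - d i ^ 2 - z i ^ 2 := by linarith [hd i]
  have h4 : 0 ≤ (1 - 7 * d i - z i) ^ 2 + 25 / 2 * (d i - d i ^ 2 - z i ^ 2) := by positivity
  have h5 := mul_le_mul_of_nonneg_right h1 h3
  have h6 := mul_le_mul_of_nonneg_right h2 h4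
  unfold St.pT
  linarith

/-- the resource with the additional terms is nonnegative -/
theorem resRT (hE : finrank ℝ E = 7) (h : TwoG μ 5 p n) [Nonempty X]
    (hsp : ∀ w, (∀ x, ⟪p x, w⟫ = 0) → w = 0)
    (hor : 0 ≤ ∫ q : X × X, ⟪p q.1, p q.2⟫ * ⟪p q.1, n q.2⟫ ∂(μ.prod μ))
    (hA : 0 < μ.real univ) {ρ lu lv : ℝ} (hr : 0 ≤ ρ) (hu : 0 ≤ lu) (hv : 0 ≤ lv)
    (h3 : 3 * lu ≤ 14 * ρ + 73 / 2 * lv) :
    0 ≤ ∫ q : X × X, (ρ * (-(187 / 100) + 14 * ⟪p q.1, p q.2⟫ ^ 2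
              - ⟪p q.1, p q.2⟫ * ⟪n q.1, n q.2⟫
              + √6 / 6 * (⟪p q.1, p q.2⟫ * ((⟪p q.1, n q.2⟫ + ⟪n q.1, p q.2⟫) / 2)))
            + lu * ((⟪p q.1, n q.2⟫ - ⟪n q.1, p q.2⟫) / 2) ^ 2
            + lv * (⟪n q.1, n q.2⟫ - ⟪p q.1, p q.2⟫
              + √6 / 6 * ((⟪p q.1, n q.2⟫ + ⟪n q.1, p q.2⟫) / 2)) ^ 2) ∂(μ.prod μ) := by
  obtain ⟨b, d, z, hd, hd1, hz0, hDZ, -, hT, -⟩ := resV hE h hsp hor hA
  have h4 := hT ρ lu lv h3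
  have h5 := Sv_nonneg hd hd1 hz0 hDZ
  have h6 : 0 ≤ ∑ i, (d i - d i ^ 2 - z i ^ 2) :=
    Finset.sum_nonneg fun i _ => by linarith [hd i]
  have h7 : 0 ≤ ∑ i, ((1 - 7 * d i - z i) ^ 2 + 25 / 2 * (d i - d i ^ 2 - z i ^ 2)) :=
    Finset.sum_nonneg fun i _ => by nlinarith [hd i, sq_nonneg (1 - 7 * d i - z i)]
  have h8 : 0 ≤ μ.real univ ^ 2 * (ρ * St.Sv d z + 3 * lu * ∑ i, (d i - d i ^ 2 - z i ^ 2)
            + lv * ∑ i, ((1 - 7 * d i - z i) ^ 2 + 25 / 2 * (d i - d i ^ 2 - z i ^ 2))) := by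
    positivity
  linarith

/-- the resource without the second additional term is nonnegative -/
theorem resRS (hE : finrank ℝ E = 7) (h : TwoG μ 5 p n) [Nonempty X]
    (hsp : ∀ w, (∀ x, ⟪p x, w⟫ = 0) → w = 0)
    (hor : 0 ≤ ∫ q : X × X, ⟪p q.1, p q.2⟫ * ⟪p q.1, n q.2⟫ ∂(μ.prod μ))
    (hA : 0 < μ.real univ) {ρ lu c : ℝ} (hr : 0 ≤ ρ) (hu : 0 ≤ lu)
    (h3 : 3 * lu ≤ 14 * ρ) (hc0 : 0 ≤ c) (hc : 1 ≤ 6 * c ^ 2) :
    0 ≤ ∫ q : X × X, (ρ * (-(187 / 100) + 14 * ⟪p q.1, p q.2⟫ ^ 2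
              - ⟪p q.1, p q.2⟫ * ⟪n q.1, n q.2⟫
              + c * (⟪p q.1, p q.2⟫ * ((⟪p q.1, n q.2⟫ + ⟪n q.1, p q.2⟫) / 2)))
            + lu * ((⟪p q.1, n q.2⟫ - ⟪n q.1, p q.2⟫) / 2) ^ 2) ∂(μ.prod μ) := by
  obtain ⟨b, d, z, hd, hd1, hz0, hDZ, -, -, hT⟩ := resV hE h hsp hor hA
  have h4 := hT ρ lu c hr h3 hc0 hc
  have h5 := Sv_nonneg hd hd1 hz0 hDZ
  have h6 : 0 ≤ ∑ i, (d i - d i ^ 2 - z i ^ 2) :=
    Finset.sum_nonneg fun i _ => by linarith [hd i]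
  have h8 : 0 ≤ μ.real univ ^ 2
      * (ρ * St.Sv d z + 3 * lu * ∑ i, (d i - d i ^ 2 - z i ^ 2)) := by positivity
  linarith

/-- the stable resource with the additional terms from a stable scalar inequality -/
theorem stabRT {t k : ℝ} (hst : ∀ d z : Fin 7 → ℝ, (∀ i, z i ^ 2 ≤ d i - d i ^ 2) →
      ∑ i, d i = 1 → ∑ i, z i = 0 → ∑ i, d i * z i ≤ 0 →
      St.Sv d z + ∑ i, St.pT (d i) (z i) < t → (Rt (1 / 5) z).card = 4 ∧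
        k * ∑ i, St.dl d z i ≤ St.Sv d z + ∑ i, St.pT (d i) (z i))
    (hE : finrank ℝ E = 7) (h : TwoG μ 5 p n) [Nonempty X]
    (hsp : ∀ w, (∀ x, ⟪p x, w⟫ = 0) → w = 0)
    (hor : 0 ≤ ∫ q : X × X, ⟪p q.1, p q.2⟫ * ⟪p q.1, n q.2⟫ ∂(μ.prod μ))
    (hA : 0 < μ.real univ) {ρ lu lv : ℝ} (hr : 0 < ρ)
    (h1 : 95 / 100 * ρ ≤ 3 * lu) (h2 : 95 / 10000 * ρ ≤ lv)
    (h3 : 3 * lu ≤ 14 * ρ + 73 / 2 * lv)
    (hR : 36 * ∫ q : X × X, (ρ * (-(187 / 100) + 14 * ⟪p q.1, p q.2⟫ ^ 2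
              - ⟪p q.1, p q.2⟫ * ⟪n q.1, n q.2⟫
              + √6 / 6 * (⟪p q.1, p q.2⟫ * ((⟪p q.1, n q.2⟫ + ⟪n q.1, p q.2⟫) / 2)))
            + lu * ((⟪p q.1, n q.2⟫ - ⟪n q.1, p q.2⟫) / 2) ^ 2
            + lv * (⟪n q.1, n q.2⟫ - ⟪p q.1, p q.2⟫
              + √6 / 6 * ((⟪p q.1, n q.2⟫ + ⟪n q.1, p q.2⟫) / 2)) ^ 2) ∂(μ.prod μ)
        < t * ρ * μ.real univ ^ 2) :
    ∃ (b : OrthonormalBasis (Fin 7) ℝ E) (S : Finset (Fin 7)), S.card = 4 ∧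
      k * ρ * (μ.real univ * ∫ x, ‖dev b S (p x) (n x)‖ ^ 2 ∂μ)
        ≤ 36 * ∫ q : X × X, (ρ * (-(187 / 100) + 14 * ⟪p q.1, p q.2⟫ ^ 2
              - ⟪p q.1, p q.2⟫ * ⟪n q.1, n q.2⟫
              + √6 / 6 * (⟪p q.1, p q.2⟫ * ((⟪p q.1, n q.2⟫ + ⟪n q.1, p q.2⟫) / 2)))
            + lu * ((⟪p q.1, n q.2⟫ - ⟪n q.1, p q.2⟫) / 2) ^ 2
            + lv * (⟪n q.1, n q.2⟫ - ⟪p q.1, p q.2⟫
              + √6 / 6 * ((⟪p q.1, n q.2⟫ + ⟪n q.1, p q.2⟫) / 2)) ^ 2) ∂(μ.prod μ) := by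
  obtain ⟨b, d, z, hd, hd1, hz0, hDZ, hdev, hT, -⟩ := resV hE h hsp hor hA
  have h4 := hT ρ lu lv h3
  have h5 := sum_pT_le hd h1 h2
  have hA2 : 0 < μ.real univ ^ 2 * ρ := by positivity
  have h6 : μ.real univ ^ 2 * ρ * (St.Sv d z + ∑ i, St.pT (d i) (z i))
      ≤ μ.real univ ^ 2 * (ρ * St.Sv d z + 3 * lu * ∑ i, (d i - d i ^ 2 - z i ^ 2)
            + lv * ∑ i, ((1 - 7 * d i - z i) ^ 2 + 25 / 2 * (d i - d i ^ 2 - z i ^ 2))) := by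
    rw [mul_assoc]
    refine mul_le_mul_of_nonneg_left ?_ (sq_nonneg _)
    linarith
  have hS : St.Sv d z + ∑ i, St.pT (d i) (z i) < t := by
    refine lt_of_mul_lt_mul_left (a := μ.real univ ^ 2 * ρ) ?_ hA2.le
    calc μ.real univ ^ 2 * ρ * (St.Sv d z + ∑ i, St.pT (d i) (z i)) ≤ _ := h6
      _ ≤ _ := h4
      _ < t * ρ * μ.real univ ^ 2 := hR
      _ = μ.real univ ^ 2 * ρ * t := by ring
  obtain ⟨q1, q2⟩ := hst d z hd hd1 hz0 hDZ hS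
  refine ⟨b, Rt (1 / 5) z, q1, ?_⟩
  rw [hdev]
  calc k * ρ * (μ.real univ * (μ.real univ * ∑ i, St.dl d z i))
      = μ.real univ ^ 2 * ρ * (k * ∑ i, St.dl d z i) := by ring
    _ ≤ μ.real univ ^ 2 * ρ * (St.Sv d z + ∑ i, St.pT (d i) (z i)) :=
        mul_le_mul_of_nonneg_left q2 hA2.le
    _ ≤ _ := h6
    _ ≤ _ := h4

/-- the stable resource from a stable scalar inequality -/
theorem stabRS {a t k : ℝ} (_ha : 0 ≤ a) (hst : ∀ d z : Fin 7 → ℝ,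
      (∀ i, z i ^ 2 ≤ d i - d i ^ 2) → ∑ i, d i = 1 → ∑ i, z i = 0 → ∑ i, d i * z i ≤ 0 →
      St.Sv d z + a * ∑ i, (d i - d i ^ 2 - z i ^ 2) < t → (Rt (1 / 5) z).card = 4 ∧
        k * ∑ i, St.dl d z i ≤ St.Sv d z + a * ∑ i, (d i - d i ^ 2 - z i ^ 2))
    (hE : finrank ℝ E = 7) (h : TwoG μ 5 p n) [Nonempty X]
    (hsp : ∀ w, (∀ x, ⟪p x, w⟫ = 0) → w = 0)
    (hor : 0 ≤ ∫ q : X × X, ⟪p q.1, p q.2⟫ * ⟪p q.1, n q.2⟫ ∂(μ.prod μ))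
    (hA : 0 < μ.real univ) {ρ lu c : ℝ} (hr : 0 < ρ) (hu : a * ρ ≤ 3 * lu)
    (h3 : 3 * lu ≤ 14 * ρ) (hc0 : 0 ≤ c) (hc : 1 ≤ 6 * c ^ 2)
    (hR : 36 * ∫ q : X × X, (ρ * (-(187 / 100) + 14 * ⟪p q.1, p q.2⟫ ^ 2
              - ⟪p q.1, p q.2⟫ * ⟪n q.1, n q.2⟫
              + c * (⟪p q.1, p q.2⟫ * ((⟪p q.1, n q.2⟫ + ⟪n q.1, p q.2⟫) / 2)))
            + lu * ((⟪p q.1, n q.2⟫ - ⟪n q.1, p q.2⟫) / 2) ^ 2) ∂(μ.prod μ)
        < t * ρ * μ.real univ ^ 2) :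
    ∃ (b : OrthonormalBasis (Fin 7) ℝ E) (S : Finset (Fin 7)), S.card = 4 ∧
      k * ρ * (μ.real univ * ∫ x, ‖dev b S (p x) (n x)‖ ^ 2 ∂μ)
        ≤ 36 * ∫ q : X × X, (ρ * (-(187 / 100) + 14 * ⟪p q.1, p q.2⟫ ^ 2
              - ⟪p q.1, p q.2⟫ * ⟪n q.1, n q.2⟫
              + c * (⟪p q.1, p q.2⟫ * ((⟪p q.1, n q.2⟫ + ⟪n q.1, p q.2⟫) / 2)))
            + lu * ((⟪p q.1, n q.2⟫ - ⟪n q.1, p q.2⟫) / 2) ^ 2) ∂(μ.prod μ) := by
  obtain ⟨b, d, z, hd, hd1, hz0, hDZ, hdev, -, hT⟩ := resV hE h hsp hor hA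
  have h4 := hT ρ lu c hr.le h3 hc0 hc
  have hA2 : 0 < μ.real univ ^ 2 * ρ := by positivity
  have h5 : a * ρ * ∑ i, (d i - d i ^ 2 - z i ^ 2)
      ≤ 3 * lu * ∑ i, (d i - d i ^ 2 - z i ^ 2) :=
    mul_le_mul_of_nonneg_right hu (Finset.sum_nonneg fun i _ => by linarith [hd i])
  have h6 : μ.real univ ^ 2 * ρ * (St.Sv d z + a * ∑ i, (d i - d i ^ 2 - z i ^ 2))
      ≤ μ.real univ ^ 2 * (ρ * St.Sv d z + 3 * lu * ∑ i, (d i - d i ^ 2 - z i ^ 2)) := by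
    rw [mul_assoc]
    refine mul_le_mul_of_nonneg_left ?_ (sq_nonneg _)
    linarith
  have hS : St.Sv d z + a * ∑ i, (d i - d i ^ 2 - z i ^ 2) < t := by
    refine lt_of_mul_lt_mul_left (a := μ.real univ ^ 2 * ρ) ?_ hA2.le
    calc μ.real univ ^ 2 * ρ * (St.Sv d z + a * ∑ i, (d i - d i ^ 2 - z i ^ 2)) ≤ _ := h6
      _ ≤ _ := h4
      _ < t * ρ * μ.real univ ^ 2 := hR
      _ = μ.real univ ^ 2 * ρ * t := by ring
  obtain ⟨q1, q2⟩ := hst d z hd hd1 hz0 hDZ hS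
  refine ⟨b, Rt (1 / 5) z, q1, ?_⟩
  rw [hdev]
  calc k * ρ * (μ.real univ * (μ.real univ * ∑ i, St.dl d z i))
      = μ.real univ ^ 2 * ρ * (k * ∑ i, St.dl d z i) := by ring
    _ ≤ μ.real univ ^ 2 * ρ * (St.Sv d z + a * ∑ i, (d i - d i ^ 2 - z i ^ 2)) :=
        mul_le_mul_of_nonneg_left q2 hA2.le
    _ ≤ _ := h6
    _ ≤ _ := h4

/-- the stable resource with the additional terms -/
theorem stabRT0 (hE : finrank ℝ E = 7) (h : TwoG μ 5 p n) [Nonempty X]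
    (hsp : ∀ w, (∀ x, ⟪p x, w⟫ = 0) → w = 0)
    (hor : 0 ≤ ∫ q : X × X, ⟪p q.1, p q.2⟫ * ⟪p q.1, n q.2⟫ ∂(μ.prod μ))
    (hA : 0 < μ.real univ) {ρ lu lv : ℝ} (hr : 0 < ρ)
    (h1 : 95 / 100 * ρ ≤ 3 * lu) (h2 : 95 / 10000 * ρ ≤ lv)
    (h3 : 3 * lu ≤ 14 * ρ + 73 / 2 * lv)
    (hR : 36 * ∫ q : X × X, (ρ * (-(187 / 100) + 14 * ⟪p q.1, p q.2⟫ ^ 2
              - ⟪p q.1, p q.2⟫ * ⟪n q.1, n q.2⟫
              + √6 / 6 * (⟪p q.1, p q.2⟫ * ((⟪p q.1, n q.2⟫ + ⟪n q.1, p q.2⟫) / 2)))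
            + lu * ((⟪p q.1, n q.2⟫ - ⟪n q.1, p q.2⟫) / 2) ^ 2
            + lv * (⟪n q.1, n q.2⟫ - ⟪p q.1, p q.2⟫
              + √6 / 6 * ((⟪p q.1, n q.2⟫ + ⟪n q.1, p q.2⟫) / 2)) ^ 2) ∂(μ.prod μ)
        < 88 / 10000 * ρ * μ.real univ ^ 2) :
    ∃ (b : OrthonormalBasis (Fin 7) ℝ E) (S : Finset (Fin 7)), S.card = 4 ∧
      163 / 100 * ρ * (μ.real univ * ∫ x, ‖dev b S (p x) (n x)‖ ^ 2 ∂μ)
        ≤ 36 * ∫ q : X × X, (ρ * (-(187 / 100) + 14 * ⟪p q.1, p q.2⟫ ^ 2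
              - ⟪p q.1, p q.2⟫ * ⟪n q.1, n q.2⟫
              + √6 / 6 * (⟪p q.1, p q.2⟫ * ((⟪p q.1, n q.2⟫ + ⟪n q.1, p q.2⟫) / 2)))
            + lu * ((⟪p q.1, n q.2⟫ - ⟪n q.1, p q.2⟫) / 2) ^ 2
            + lv * (⟪n q.1, n q.2⟫ - ⟪p q.1, p q.2⟫
              + √6 / 6 * ((⟪p q.1, n q.2⟫ + ⟪n q.1, p q.2⟫) / 2)) ^ 2) ∂(μ.prod μ) :=
  stabRT (fun _ _ a1 a2 a3 a4 a5 => St.stabT a1 a2 a3 a4 a5) hE h hsp hor hA hr h1 h2 h3 hR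

/-- the stable resource without the second additional term -/
theorem stabRS0 (hE : finrank ℝ E = 7) (h : TwoG μ 5 p n) [Nonempty X]
    (hsp : ∀ w, (∀ x, ⟪p x, w⟫ = 0) → w = 0)
    (hor : 0 ≤ ∫ q : X × X, ⟪p q.1, p q.2⟫ * ⟪p q.1, n q.2⟫ ∂(μ.prod μ))
    (hA : 0 < μ.real univ) {ρ lu c : ℝ} (hr : 0 < ρ) (hu : 0 ≤ lu)
    (h3 : 3 * lu ≤ 14 * ρ) (hc0 : 0 ≤ c) (hc : 1 ≤ 6 * c ^ 2)
    (hR : 36 * ∫ q : X × X, (ρ * (-(187 / 100) + 14 * ⟪p q.1, p q.2⟫ ^ 2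
              - ⟪p q.1, p q.2⟫ * ⟪n q.1, n q.2⟫
              + c * (⟪p q.1, p q.2⟫ * ((⟪p q.1, n q.2⟫ + ⟪n q.1, p q.2⟫) / 2)))
            + lu * ((⟪p q.1, n q.2⟫ - ⟪n q.1, p q.2⟫) / 2) ^ 2) ∂(μ.prod μ)
        < 55 / 10000 * ρ * μ.real univ ^ 2) :
    ∃ (b : OrthonormalBasis (Fin 7) ℝ E) (S : Finset (Fin 7)), S.card = 4 ∧
      134 / 100 * ρ * (μ.real univ * ∫ x, ‖dev b S (p x) (n x)‖ ^ 2 ∂μ)
        ≤ 36 * ∫ q : X × X, (ρ * (-(187 / 100) + 14 * ⟪p q.1, p q.2⟫ ^ 2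
              - ⟪p q.1, p q.2⟫ * ⟪n q.1, n q.2⟫
              + c * (⟪p q.1, p q.2⟫ * ((⟪p q.1, n q.2⟫ + ⟪n q.1, p q.2⟫) / 2)))
            + lu * ((⟪p q.1, n q.2⟫ - ⟪n q.1, p q.2⟫) / 2) ^ 2) ∂(μ.prod μ) :=
  stabRS (a := 0) (le_refl 0) (fun _ _ a1 a2 a3 a4 a5 => by
    rw [zero_mul, add_zero] at a5 ⊢
    exact St.stabS a1 a2 a3 a4 a5) hE h hsp hor hA hr (by linarith) h3 hc0 hc hR

end

end Vale.Agent.P224.SO
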