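import Vale.Agent.P224.OT.Sharp

/-!
The law with general coefficient functions and a static functional.
-/

namespace Vale.Agent.P224.SO

open MeasureTheory Set Filter Function
open Vale.Agent.P224.UE Vale.Agent.P224.UG Vale.Agent.P224.OT
open Vale.Agent.P224.SM2 hiding ker
open scoped Topology RealInnerProductSpace

set_option linter.unusedSectionVars false

/-- a general term which vanishes at `T = 0`, with its `T` derivative and its limit -/
structure HReg (H H' : ℝ → R9 → ℝ) (L : R9 → ℝ) : Prop where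
  hm : ∀ T, Measurable (H T)
  hm' : ∀ T, Measurable (H' T)
  hc : ContinuousOn (uncurry H) (Ico 0 1 ×ˢ {d | d 0 ∈ Icc (-1 : ℝ) 1})
  hc' : ContinuousOn (uncurry H') (Ioo 0 1 ×ˢ {d | d 0 ∈ Icc (-1 : ℝ) 1})
  hd : ∀ T ∈ Ioo (0 : ℝ) 1, ∀ d : R9, d 0 ∈ Icc (-1 : ℝ) 1 →
    HasDerivAt (fun T => H T d) (H' T d) T
  h0 : ∀ d, H 0 d = 0
  hl : ∀ d : R9, -1 ≤ d 0 → d 0 < 1 → Tendsto (fun T => H T d) (𝓝[<] 1) (𝓝 (L d))
  hb : ∃ B : ℝ, ∀ T ∈ Ioo (0 : ℝ) 1, ∀ d : R9, -1 ≤ d 0 → d 0 < 1 → (∀ i, |d i| ≤ 1) →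
    |H T d| * (1 - d 0) ^ 4 ≤ B * (|d 1| + |d 2| + |d 3 - d 0|) ^ 2

section

variable {X : Type*} [MeasurableSpace X]
  {E : Type*} [NormedAddCommGroup E]
  [InnerProductSpace ℝ E] [MeasurableSpace E] [BorelSpace E] [SecondCountableTopology E]
  {μ : Measure X} [IsFiniteMeasure μ] {m h : ℕ} {p n : X → E} {C S : ℝ}

lemma dat_abs_le (hP : FV.Pts p n) (q : X × X) (i : Fin 9) : |dat p n (0 : E) q i| ≤ 1 := by
  have h1 := (dat_mem hP (0 : E) q).1
  have h2 : bE (0 : E) = 1 := by unfold bE; simp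
  rw [h2] at h1
  exact abs_le.2 ⟨h1.1 i, h1.2 i⟩

/-- the bound of a general term on the pair data -/
lemma HReg.bound {H H' : ℝ → R9 → ℝ} {L : R9 → ℝ} (hH : HReg H H' L) (hD : EmbD μ m p n C S) :
    ∃ B : ℝ, ∀ T ∈ Ioo (0 : ℝ) 1, ∀ q : X × X, dat p n (0 : E) q 0 < 1 →
      |H T (dat p n 0 q)| ≤ B * sg 4 (dat p n 0 q 0) := by
  obtain ⟨B, hB⟩ := hH.hb
  have hP := hD.toTwoG.toPts
  refine ⟨|B| * (3 * |C| + 1) ^ 2, fun T hT q hs1 => ?_⟩
  have hs := dat0_mem hP (0 : E) q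
  have h0 : 0 < 1 - dat p n (0 : E) q 0 := by linarith
  have h1 : |dat p n (0 : E) q 1| ≤ |C| * (1 - dat p n (0 : E) q 0) := by
    have := (hD.contact q.2 q.1).1
    have e1 : dat p n (0 : E) q 1 = ⟪n q.2, p q.1⟫ := real_inner_comm _ _
    have e2 : dat p n (0 : E) q 0 = ⟪p q.2, p q.1⟫ := real_inner_comm _ _
    rw [e1, e2]
    rw [e2] at h0
    exact this.trans (mul_le_mul_of_nonneg_right (le_abs_self C) h0.le)
  have h2 : |dat p n (0 : E) q 2| ≤ |C| * (1 - dat p n (0 : E) q 0) := by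
    have := (hD.contact q.1 q.2).1
    have e1 : dat p n (0 : E) q 2 = ⟪n q.1, p q.2⟫ := rfl
    have e2 : dat p n (0 : E) q 0 = ⟪p q.1, p q.2⟫ := rfl
    rw [e1, e2]
    rw [e2] at h0
    exact this.trans (mul_le_mul_of_nonneg_right (le_abs_self C) h0.le)
  have h3 : |dat p n (0 : E) q 3 - dat p n (0 : E) q 0|
      ≤ (|C| + 1) * (1 - dat p n (0 : E) q 0) := by
    have h4 := (hD.contact q.1 q.2).2
    have e1 : dat p n (0 : E) q 3 = ⟪n q.1, n q.2⟫ := rfl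
    have e2 : dat p n (0 : E) q 0 = ⟪p q.1, p q.2⟫ := rfl
    have h5 : ‖n q.1 - n q.2‖ ^ 2 = 2 - 2 * ⟪n q.1, n q.2⟫ := by
      rw [norm_sub_sq_real, hD.nn, hD.nn]
      ring
    rw [h5] at h4
    have h6 : C * (1 - ⟪p q.1, p q.2⟫) ≤ |C| * (1 - ⟪p q.1, p q.2⟫) := by
      rw [e2] at h0
      exact mul_le_mul_of_nonneg_right (le_abs_self C) h0.le
    have h7 : ⟪n q.1, n q.2⟫ ≤ 1 := by
      have := real_inner_le_norm (n q.1) (n q.2)
      rwa [hD.nn, hD.nn, mul_one] at this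
    rw [e1, e2]
    rw [e2] at h0
    have h8 : 0 ≤ |C| * (1 - ⟪p q.1, p q.2⟫) := by positivity
    rw [abs_le]
    constructor <;> nlinarith
  have h4 := hB T hT (dat p n 0 q) hs.1 hs1 (dat_abs_le hP q)
  set s := dat p n (0 : E) q 0 with hsd
  have h5 : |dat p n (0 : E) q 1| + |dat p n (0 : E) q 2| + |dat p n (0 : E) q 3 - s|
      ≤ (3 * |C| + 1) * (1 - s) := by linarith
  have h6 : (|dat p n (0 : E) q 1| + |dat p n (0 : E) q 2| + |dat p n (0 : E) q 3 - s|) ^ 2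
      ≤ ((3 * |C| + 1) * (1 - s)) ^ 2 := pow_le_pow_left₀ (by positivity) h5 2
  have h7 : B * (|dat p n (0 : E) q 1| + |dat p n (0 : E) q 2|
      + |dat p n (0 : E) q 3 - s|) ^ 2 ≤ |B| * ((3 * |C| + 1) * (1 - s)) ^ 2 :=
    mul_le_mul (le_abs_self B) h6 (sq_nonneg _) (abs_nonneg B)
  have h8 : sg 4 s = ((1 - s) ^ 2)⁻¹ := by
    unfold sg
    rw [show √(1 - s) ^ 4 = (√(1 - s) ^ 2) ^ 2 by ring, Real.sq_sqrt h0.le]
  rw [h8, ← div_eq_mul_inv, le_div_iff₀ (by positivity)]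
  have h9 : |H T (dat p n 0 q)| * (1 - s) ^ 2 * (1 - s) ^ 2
      ≤ |B| * (3 * |C| + 1) ^ 2 * (1 - s) ^ 2 := by
    calc |H T (dat p n 0 q)| * (1 - s) ^ 2 * (1 - s) ^ 2
        = |H T (dat p n 0 q)| * (1 - s) ^ 4 := by ring
      _ ≤ |B| * ((3 * |C| + 1) * (1 - s)) ^ 2 := h4.trans h7
      _ = _ := by ring
  exact le_of_mul_le_mul_right h9 (by positivity)

/-- the limit of a general term -/
theorem HReg.lim {H H' : ℝ → R9 → ℝ} {L : R9 → ℝ} (hH : HReg H H' L) (hD : EmbD μ m p n C S)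
    (hm : 4 < m) : Integrable (fun q => L (dat p n 0 q)) (μ.prod μ) ∧
      Tendsto (fun T => ∫ q, H T (dat p n 0 q) ∂(μ.prod μ)) (𝓝[<] 1)
        (𝓝 (∫ q, L (dat p n 0 q) ∂(μ.prod μ))) := by
  have hG := hD.toTwoG
  have hP := hG.toPts
  obtain ⟨B, hB⟩ := hH.bound hD
  have hae := hG.ae_lt (by omega) (0 : E)
  have hsg : Integrable (fun q => B * sg 4 (dat p n 0 q 0)) (μ.prod μ) :=
    (hG.integrable_sg (by omega) (0 : E) hm).const_mul B
  have h0 : ∀ᶠ T in 𝓝[<] (1 : ℝ), T ∈ Ioo (0 : ℝ) 1 := Ioo_mem_nhdsLT one_pos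
  have hms : ∀ T, AEStronglyMeasurable (fun q => H T (dat p n 0 q)) (μ.prod μ) := fun T =>
    ((hH.hm T).comp (measurable_dat hP (0 : E))).aestronglyMeasurable
  have hlim : ∀ᵐ q ∂(μ.prod μ), Tendsto (fun T => H T (dat p n 0 q)) (𝓝[<] 1)
      (𝓝 (L (dat p n 0 q))) := by
    filter_upwards [hae] with q hq
    exact hH.hl _ (dat0_mem hP (0 : E) q).1 hq
  have hbd : ∀ᶠ T in 𝓝[<] (1 : ℝ), ∀ᵐ q ∂(μ.prod μ),
      ‖H T (dat p n 0 q)‖ ≤ B * sg 4 (dat p n 0 q 0) := by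
    filter_upwards [h0] with T hT
    filter_upwards [hae] with q hq
    rw [Real.norm_eq_abs]
    exact hB T hT q hq
  refine ⟨?_, tendsto_integral_filter_of_dominated_convergence _
    (Eventually.of_forall hms) hbd hsg hlim⟩
  refine hsg.mono' (aestronglyMeasurable_of_tendsto_ae (𝓝[<] (1 : ℝ)) hms hlim) ?_
  filter_upwards [hae, hlim] with q hq hq2
  refine le_of_tendsto hq2.norm ?_
  filter_upwards [h0] with T hT
  rw [Real.norm_eq_abs]
  exact hB T hT q hq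

/-- the law with a static functional -/
theorem law_GL (hD : EmbD μ m p n C S) (hmh : m = 2 * h + 1) (hm : 4 < m) (l : List GT)
    (hr : ∀ t ∈ l, t.Reg) (hok : ∀ t ∈ l, t.ok h) {H H' : ℝ → R9 → ℝ} {L : R9 → ℝ}
    (hH : HReg H H' L)
    (hR : ∀ T ∈ Ioo (0 : ℝ) 1, ∃ R : R9 → ℝ, Null μ p n 0 R ∧
      ∀ x N y w : E, ‖x‖ = 1 → ‖N‖ = 1 → ‖y‖ = 1 → ‖w‖ = 1 → ⟪x, N⟫ = 0 → ⟪y, w⟫ = 0 →
        gS' (l.map GT.v) T (dv x N y w 0) + H' T (dv x N y w 0) ≤ R (dv x N y w 0)) :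
    (l.map fun t => if t.fl h then t.c * (kap2 m t.a t.q
        * (S * ∫ y, t.w (dat p n (0 : E) (y, y)) ∂μ)) else 0).sum
        + ∫ q, L (dat p n 0 q) ∂(μ.prod μ)
      ≤ ∫ y, (l.map fun t => t.φ 0 * t.Q (dat p n (0 : E) y)).sum ∂(μ.prod μ) := by
  have hP := hD.toTwoG.toPts
  have hKE : KE (bE (0 : E)) ⊆ {d | d 0 ∈ Icc (-1 : ℝ) 1} := fun d hd => hd.2
  have hr' : ∀ t ∈ l.map GT.v, t.Reg := by
    intro t ht
    obtain ⟨u, hu, rfl⟩ := List.mem_map.1 ht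
    exact (hr u hu).v
  have hanti := hD.toTwoG.toTwoE.antitone (0 : E)
    (g := fun T d => gS (l.map GT.v) T d + H T d)
    (g' := fun T d => gS' (l.map GT.v) T d + H' T d)
    (fun T => (measurable_gS hr' T).add (hH.hm T))
    (fun T => (measurable_gS' hr' T).add (hH.hm' T))
    ((contOn_gS hr' _).add (hH.hc.mono (prod_mono subset_rfl hKE)))
    ((contOn_gS' hr' _).add (hH.hc'.mono (prod_mono subset_rfl hKE)))
    (fun T hT k hk => (hasDerivAt_gS hr' hT hk).add (hH.hd T hT k (hKE hk))) hR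
  have hHi : ∀ T ∈ Ico (0 : ℝ) 1, Integrable (fun q => H T (dat p n 0 q)) (μ.prod μ) := by
    intro T hT
    refine integrable_param (f := H T) _ (measurable_dat hP 0) (isCompact_KE (bE (0 : E)))
      (dat_mem hP 0) (hH.hm T) ?_
    have h1 : ContinuousOn (fun d : R9 => (T, d)) (KE (bE (0 : E))) := by fun_prop
    exact (hH.hc.mono (prod_mono subset_rfl hKE)).comp h1 fun d hd => ⟨hT, hd⟩
  have hGi : ∀ T ∈ Ico (0 : ℝ) 1, Integrable (fun q => gS (l.map GT.v) T (dat p n 0 q))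
      (μ.prod μ) := fun T hT => integrable_gS hr' hP 0 hT
  have hspl : ∀ T ∈ Ico (0 : ℝ) 1, ∫ q, (gS (l.map GT.v) T (dat p n 0 q)
      + H T (dat p n 0 q)) ∂(μ.prod μ)
      = ∫ q, gS (l.map GT.v) T (dat p n 0 q) ∂(μ.prod μ)
        + ∫ q, H T (dat p n 0 q) ∂(μ.prod μ) := fun T hT =>
    integral_add (hGi T hT) (hHi T hT)
  have e0 : ∀ y, (l.map fun t => t.φ 0 * t.Q (dat p n (0 : E) y)).sum
      = gS (l.map GT.v) 0 (dat p n 0 y) + H 0 (dat p n 0 y) := by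
    intro y
    rw [hH.h0, add_zero]
    unfold gS VTm.g
    rw [List.map_map]
    congr 1
    refine List.map_congr_left fun t _ => ?_
    simp [SM2.ker, GT.v]
  simp only [e0]
  have hlG : Tendsto (fun T => ∫ q, gS (l.map GT.v) T (dat p n 0 q) ∂(μ.prod μ)) (𝓝[<] 1)
      (𝓝 (l.map fun t => if t.fl h then t.c * (kap2 m t.a t.q
        * (S * ∫ y, t.w (dat p n (0 : E) (y, y)) ∂μ)) else 0).sum) := by
    have h2 : Tendsto (fun T => (l.map fun t => t.φ T * ∫ y, t.Q (dat p n (0 : E) y)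
        * SM2.ker T t.q (dat p n 0 y 0) ∂(μ.prod μ)).sum) (𝓝[<] 1)
        (𝓝 (l.map fun t => if t.fl h then t.c * (kap2 m t.a t.q
        * (S * ∫ y, t.w (dat p n (0 : E) (y, y)) ∂μ)) else 0).sum) := by
      have h3 := tendsto_list_sum (f := fun (t : GT) T => t.φ T * ∫ y, t.Q (dat p n (0 : E) y)
        * SM2.ker T t.q (dat p n 0 y 0) ∂(μ.prod μ))
        (a := fun t : GT => if t.fl h then t.c * (kap2 m t.a t.q
          * (S * ∫ y, t.w (dat p n (0 : E) (y, y)) ∂μ)) else 0) (x := 𝓝[<] (1 : ℝ)) l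
        (fun t ht => by
          by_cases hf : t.fl h
          · simp only [if_pos hf]
            exact GT.lim_flux hD hmh 0 (hr t ht) hf
          · simp only [if_neg hf]
            rcases hok t ht with h3 | h3
            · exact absurd h3 hf
            · exact GT.lim_null hD hmh 0 (hr t ht) h3)
      exact h3
    refine h2.congr' ?_
    have h0 : ∀ᶠ T in 𝓝[<] (1 : ℝ), T ∈ Ioo (0 : ℝ) 1 := Ioo_mem_nhdsLT one_pos
    filter_upwards [h0] with T hT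
    rw [integral_gS hr' hP 0 ⟨hT.1.le, hT.2⟩, List.map_map]
    rfl
  have hlim := hlG.add (hH.lim hD hm).2
  refine le_of_tendsto hlim ?_
  have h0 : ∀ᶠ T in 𝓝[<] (1 : ℝ), T ∈ Ioo (0 : ℝ) 1 := Ioo_mem_nhdsLT one_pos
  filter_upwards [h0] with T hT
  have h1 := hanti ⟨le_rfl, one_pos⟩ ⟨hT.1.le, hT.2⟩ hT.1.le
  simp only at h1
  rw [← hspl T ⟨hT.1.le, hT.2⟩]
  exact h1

/-- the double integral of `c` -/
lemma int_c_eq [CompleteSpace E] (hG : TwoG μ m p n) :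
    ∫ q, dat p n (0 : E) q 3 ∂(μ.prod μ) = ‖∫ x, n x ∂μ‖ ^ 2 := by
  have hP := hG.toPts
  have i3 : Integrable (fun q => dat p n (0 : E) q 3) (μ.prod μ) :=
    integrable_param (f := fun d : R9 => d 3) _ (measurable_dat hP 0) (isCompact_KE (bE (0 : E)))
      (dat_mem hP 0) (by fun_prop) (by fun_prop)
  rw [integral_prod_symm _ i3]
  have e2 : ∀ z, ∫ x, dat p n (0 : E) (x, z) 3 ∂μ = ⟪n z, ∫ x, n x ∂μ⟫ := by
    intro z
    have := integral_in (μ := μ) hG.mn hG.nn (n z)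
    refine Eq.trans ?_ (this.trans ?_)
    · rfl
    · exact real_inner_comm _ _
  simp only [e2]
  have e3 := integral_in (μ := μ) hG.mn hG.nn (∫ x, n x ∂μ)
  rw [e3, real_inner_self_eq_norm_sq]

/-- the inequality of a certificate with a parameter and a static functional -/
theorem law_PL [CompleteSpace E] (hD : EmbD μ m p n C S) (hmh : m = 2 * h + 1) (hm : 4 < m)
    (l : List GT) (hr : ∀ t ∈ l, t.Reg) (hok : ∀ t ∈ l, t.ok h)
    (hw : ∀ t ∈ l, t.fl h → ∀ x N : E, ‖x‖ = 1 → ‖N‖ = 1 → ⟪x, N⟫ = 0 →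
      t.w (dv x N x N 0) = 1)
    {Ro : ℝ → R9 → ℝ} (hRn : ∀ T ∈ Ico (0 : ℝ) 1, Null μ p n 0 (Ro T))
    {H H' : ℝ → R9 → ℝ} {L : R9 → ℝ} (hH : HReg H H' L)
    (hpos : ∀ T ∈ Ioo (0 : ℝ) 1, ∀ x N y w : E, ‖x‖ = 1 → ‖N‖ = 1 → ‖y‖ = 1 → ‖w‖ = 1 →
      ⟪x, N⟫ = 0 → ⟪y, w⟫ = 0 →
        gS' (l.map GT.v) T (dv x N y w 0) + H' T (dv x N y w 0) ≤ Ro T (dv x N y w 0))
    {c0 γ : ℝ} {R : R9 → ℝ} (hRc : Continuous R) (hR : 0 ≤ ∫ q, R (dat p n 0 q) ∂(μ.prod μ))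
    (h0 : ∀ x N y w : E, ‖x‖ = 1 → ‖N‖ = 1 → ‖y‖ = 1 → ‖w‖ = 1 → ⟪x, N⟫ = 0 → ⟪y, w⟫ = 0 →
      (l.map fun t => t.φ 0 * t.Q (dv x N y w 0)).sum
        ≤ c0 + γ * dv x N y w (0 : E) 3 - R (dv x N y w 0) + Ro 0 (dv x N y w 0)) :
    Integrable (fun q => L (dat p n 0 q)) (μ.prod μ) ∧
      ∫ q, L (dat p n 0 q) ∂(μ.prod μ) + fluxC m h l * S * μ.real univ
        ≤ c0 * μ.real univ ^ 2 + γ * ‖∫ x, n x ∂μ‖ ^ 2 := by
  have hG := hD.toTwoG
  have hP := hG.toPts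
  refine ⟨(hH.lim hD hm).1, ?_⟩
  have key := law_GL hD hmh hm l hr hok hH (fun T hT => ⟨_, hRn T ⟨hT.1.le, hT.2⟩,
    fun x N y w a1 a2 a3 a4 a5 a6 => hpos T hT x N y w a1 a2 a3 a4 a5 a6⟩)
  rw [flux_sum (S := S) h (0 : E) (fun x => ⟨hD.np x, hD.nn x, hD.pn x⟩) hw] at key
  have hint : ∀ {G : R9 → ℝ}, Continuous G → Integrable (fun q => G (dat p n 0 q)) (μ.prod μ) :=
    fun hG' => integrable_param _ (measurable_dat hP 0) (isCompact_KE (bE (0 : E)))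
      (dat_mem hP 0) hG'.measurable hG'.continuousOn
  have iR : Integrable (fun q => R (dat p n 0 q)) (μ.prod μ) := hint hRc
  have i3 : Integrable (fun q => dat p n (0 : E) q 3) (μ.prod μ) :=
    hint (G := fun d => d 3) (by fun_prop)
  have iN := hRn 0 ⟨le_rfl, one_pos⟩
  have iG : Integrable (fun q => (l.map fun t => t.φ 0 * t.Q (dat p n 0 q)).sum)
      (μ.prod μ) := by
    have hcont : Continuous fun d : R9 => (l.map fun t => t.φ 0 * t.Q d).sum := by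
      clear key hint iR i3 iN h0 hpos hok hw
      induction l with
      | nil => simpa using continuous_const
      | cons t l ih =>
        simp only [List.map_cons, List.sum_cons]
        exact (continuous_const.mul (GT.continuous_Q (hr t List.mem_cons_self).hw)).add
          (ih fun u hu => hr u (List.mem_cons_of_mem _ hu))
    exact hint hcont
  have hK := int_c_eq hG
  have hle : ∫ q, (l.map fun t => t.φ 0 * t.Q (dat p n 0 q)).sum ∂(μ.prod μ)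
      ≤ ∫ q, (c0 + γ * dat p n (0 : E) q 3 - R (dat p n 0 q)
          + Ro 0 (dat p n 0 q)) ∂(μ.prod μ) := by
    refine integral_mono iG ?_ fun q => ?_
    · exact (((integrable_const _).add (i3.const_mul _)).sub iR).add iN.1
    · exact h0 _ _ _ _ (hD.np _) (hD.nn _) (hD.np _) (hD.nn _) (hD.pn _) (hD.pn _)
  have hAA : (μ.prod μ).real univ = μ.real univ ^ 2 := by
    rw [measureReal_def, measureReal_def, ← univ_prod_univ, Measure.prod_prod,
      ENNReal.toReal_mul, sq]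
  have j2 : Integrable (fun q => γ * dat p n (0 : E) q 3) (μ.prod μ) := i3.const_mul _
  have j3 : Integrable (fun q => c0 + γ * dat p n (0 : E) q 3) (μ.prod μ) :=
    (integrable_const _).add j2
  have j4 : Integrable (fun q => c0 + γ * dat p n (0 : E) q 3 - R (dat p n 0 q))
    (μ.prod μ) := j3.sub iR
  rw [integral_add j4 iN.1, iN.2, integral_sub j3 iR, integral_add (integrable_const _) j2,
    integral_const_mul, integral_const, smul_eq_mul, hAA, hK] at hle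
  linarith

end

end Vale.Agent.P224.SO
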