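import Vale.Agent.P224.SO.Rg

/-!
The number of points on the right from the value of the functional with additional terms, every
case with its own multipliers.
-/

namespace Vale.Agent.P224.SO.Rg

open Finset Vale.Agent.P224.SO

/-- the functional of one point with multipliers and additional terms -/
noncomputable def QP (A B c q lu lv g1 g' a b s d x : ℝ) : ℝ :=
  Q A B c a b s d x + (lu * (d - d ^ 2 - q * x ^ 2)
    + lv * ((1 - g1 * d - 2 * x) ^ 2 + g' * (d - d ^ 2 - q * x ^ 2)))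

/-- the one point inequalities of the classification -/
structure CDat (K : ℕ) (q A B c T0 lu lv g1 g' t : ℝ) where
  Z : ℝ
  (aA bA ap an aL bL sL lp ln aM bM sM mp mm aP bP sP pp pn p0 aN bN sN np nn n0 : ℝ)
  Zpos : 0 < Z
  sL0 : 0 ≤ sL
  sM0 : 0 ≤ sM
  sP0 : 0 ≤ sP
  sN0 : 0 ≤ sN
  A1 : ∀ d x : ℝ, q * x ^ 2 ≤ d - d ^ 2 → Z ≤ x → ap ≤ QP A B c q lu lv g1 g' aA bA 0 d x
  A2 : ∀ d x : ℝ, q * x ^ 2 ≤ d - d ^ 2 → an ≤ QP A B c q lu lv g1 g' aA bA 0 d x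
  A3 : an ≤ ap
  A4 : t ≤ T0 + (K + 2) * ap + (K - 1) * an + aA
  L1 : ∀ d x : ℝ, q * x ^ 2 ≤ d - d ^ 2 → x ≤ -Z → lp ≤ QP A B c q lu lv g1 g' aL bL sL d x
  L2 : ∀ d x : ℝ, q * x ^ 2 ≤ d - d ^ 2 → ln ≤ QP A B c q lu lv g1 g' aL bL sL d x
  L3 : ln ≤ lp
  L4 : t ≤ T0 + (K + 1) * lp + K * ln + aL
  M1 : ∀ d x : ℝ, q * x ^ 2 ≤ d - d ^ 2 → mp ≤ QP A B c q lu lv g1 g' aM bM sM d x
  M2 : ∀ d x : ℝ, q * x ^ 2 ≤ d - d ^ 2 → -Z ≤ x → x ≤ Z →
    mm ≤ QP A B c q lu lv g1 g' aM bM sM d x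
  M3 : mp ≤ mm
  M4 : t ≤ T0 + (2 * K - 1) * mp + 2 * mm + aM
  P1 : ∀ d x : ℝ, q * x ^ 2 ≤ d - d ^ 2 → Z ≤ x → pp ≤ QP A B c q lu lv g1 g' aP bP sP d x
  P2 : ∀ d x : ℝ, q * x ^ 2 ≤ d - d ^ 2 → x ≤ -Z → pn ≤ QP A B c q lu lv g1 g' aP bP sP d x
  P3 : ∀ d x : ℝ, q * x ^ 2 ≤ d - d ^ 2 → 0 ≤ x → x ≤ Z →
    p0 ≤ QP A B c q lu lv g1 g' aP bP sP d x
  P4 : t ≤ T0 + K * pp + K * pn + p0 + aP
  N1 : ∀ d x : ℝ, q * x ^ 2 ≤ d - d ^ 2 → Z ≤ x → np ≤ QP A B c q lu lv g1 g' aN bN sN d x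
  N2 : ∀ d x : ℝ, q * x ^ 2 ≤ d - d ^ 2 → x ≤ -Z → nn ≤ QP A B c q lu lv g1 g' aN bN sN d x
  N3 : ∀ d x : ℝ, q * x ^ 2 ≤ d - d ^ 2 → -Z ≤ x → x ≤ 0 →
    n0 ≤ QP A B c q lu lv g1 g' aN bN sN d x
  N4 : t ≤ T0 + K * np + K * nn + n0 + aN

section

variable {n : ℕ} {d x : Fin n → ℝ} {K : ℕ} {q A B c T0 lu lv g1 g' t : ℝ}

lemma sum_QP {a b s : ℝ} (h1 : ∑ i, d i = 1) (h0 : ∑ i, x i = 0)
    (hv : ∑ i, d i * x i ≤ 0) (hs : 0 ≤ s) :
    ∑ i, QP A B c q lu lv g1 g' a b s (d i) (x i) + a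
      ≤ (A * ∑ i, d i ^ 2 - B * ∑ i, x i ^ 2 - c * ∑ i, d i * x i)
        + ∑ i, (lu * (d i - d i ^ 2 - q * x i ^ 2) + lv * ((1 - g1 * d i - 2 * x i) ^ 2
          + g' * (d i - d i ^ 2 - q * x i ^ 2))) := by
  unfold QP
  rw [sum_add_distrib, sum_Q _ _ _ _ _ _ h1 h0]
  have := mul_nonneg hs (neg_nonneg.2 hv)
  linarith

/-- classification of the configurations with a small value -/
theorem CDat.cls (D : CDat K q A B c T0 lu lv g1 g' t) (hn : n = 2 * K + 1)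
    (h : ∀ i, q * x i ^ 2 ≤ d i - d i ^ 2) (h1 : ∑ i, d i = 1) (h0 : ∑ i, x i = 0)
    (hv : ∑ i, d i * x i ≤ 0)
    (hS : T0 + (A * ∑ i, d i ^ 2 - B * ∑ i, x i ^ 2 - c * ∑ i, d i * x i)
        + ∑ i, (lu * (d i - d i ^ 2 - q * x i ^ 2) + lv * ((1 - g1 * d i - 2 * x i) ^ 2
          + g' * (d i - d i ^ 2 - q * x i ^ 2))) < t) : (Rt D.Z x).card = K + 1 := by
  have h3 : (n : ℝ) = 2 * K + 1 := by rw [hn]; push_cast; ring
  have hge : K + 1 ≤ (Rt D.Z x).card := by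
    by_contra c2
    by_cases c1 : (Rt D.Z x).card + (Lt D.Z x).card + 2 ≤ n
    · have e := sum_lev D.Zpos
        (fun i => QP A B c q lu lv g1 g' D.aM D.bM D.sM (d i) (x i)) (ap := D.mp) (an := D.mp)
        (am := D.mm) (fun i hi => D.M1 _ _ (h i)) (fun i _ => D.M1 _ _ (h i))
        (fun i hi hi' => D.M2 _ _ (h i) hi'.le hi.le)
      have e2 := sum_QP (A := A) (B := B) (c := c) (q := q) (lu := lu) (lv := lv) (g1 := g1)
        (g' := g') (a := D.aM) (b := D.bM) h1 h0 hv D.sM0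
      have h4 : ((Rt D.Z x).card : ℝ) + ((Lt D.Z x).card : ℝ) + 2 ≤ n := by exact_mod_cast c1
      rw [h3] at e h4
      have h5 := mul_nonneg (sub_nonneg.2 h4) (sub_nonneg.2 D.M3)
      have h6 := D.M4
      nlinarith
    by_cases c3 : K + 1 ≤ (Lt D.Z x).card
    · have e := sum_lev D.Zpos
        (fun i => QP A B c q lu lv g1 g' D.aL D.bL D.sL (d i) (x i)) (ap := D.ln) (an := D.lp)
        (am := D.ln) (fun i _ => D.L2 _ _ (h i)) (fun i hi => D.L1 _ _ (h i) hi)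
        (fun i _ _ => D.L2 _ _ (h i))
      have e2 := sum_QP (A := A) (B := B) (c := c) (q := q) (lu := lu) (lv := lv) (g1 := g1)
        (g' := g') (a := D.aL) (b := D.bL) h1 h0 hv D.sL0
      have h4 : (K : ℝ) + 1 ≤ ((Lt D.Z x).card : ℝ) := by exact_mod_cast c3
      rw [h3] at e
      have h5 := mul_nonneg (sub_nonneg.2 h4) (sub_nonneg.2 D.L3)
      have h6 := D.L4
      nlinarith
    have cP : (Rt D.Z x).card = K := by omega
    have cN : (Lt D.Z x).card = K := by omega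
    obtain ⟨i₀, hi⟩ := exists_mid (k := K) (l := K) D.Zpos (by omega) cP cN
    rcases le_total 0 (x i₀) with hy | hy
    · have e := sum_lev D.Zpos
        (fun i => QP A B c q lu lv g1 g' D.aP D.bP D.sP (d i) (x i)) (ap := D.pp) (an := D.pn)
        (am := D.p0) (fun i hi => D.P1 _ _ (h i) hi) (fun i hi => D.P2 _ _ (h i) hi)
        (fun i h1 h2 => D.P3 _ _ (h i) (by rw [hi i h1 h2]; exact hy) h1.le)
      have e2 := sum_QP (A := A) (B := B) (c := c) (q := q) (lu := lu) (lv := lv) (g1 := g1)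
        (g' := g') (a := D.aP) (b := D.bP) h1 h0 hv D.sP0
      rw [cP, cN, h3] at e
      have h6 := D.P4
      linarith
    · have e := sum_lev D.Zpos
        (fun i => QP A B c q lu lv g1 g' D.aN D.bN D.sN (d i) (x i)) (ap := D.np) (an := D.nn)
        (am := D.n0) (fun i hi => D.N1 _ _ (h i) hi) (fun i hi => D.N2 _ _ (h i) hi)
        (fun i h1 h2 => D.N3 _ _ (h i) h2.le (by rw [hi i h1 h2]; exact hy))
      have e2 := sum_QP (A := A) (B := B) (c := c) (q := q) (lu := lu) (lv := lv) (g1 := g1)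
        (g' := g') (a := D.aN) (b := D.bN) h1 h0 hv D.sN0
      rw [cP, cN, h3] at e
      have h6 := D.N4
      linarith
  by_contra hne
  have h5 : K + 2 ≤ (Rt D.Z x).card := by omega
  have e := sum_lev D.Zpos
    (fun i => QP A B c q lu lv g1 g' D.aA D.bA 0 (d i) (x i)) (ap := D.ap) (an := D.an)
    (am := D.an) (fun i hi => D.A1 _ _ (h i) hi) (fun i _ => D.A2 _ _ (h i))
    (fun i _ _ => D.A2 _ _ (h i))
  have e2 := sum_QP (A := A) (B := B) (c := c) (q := q) (lu := lu) (lv := lv) (g1 := g1)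
    (g' := g') (a := D.aA) (b := D.bA) h1 h0 hv le_rfl
  have h4 : (K : ℝ) + 2 ≤ ((Rt D.Z x).card : ℝ) := by exact_mod_cast h5
  have h6 := mul_nonneg (sub_nonneg.2 h4) (sub_nonneg.2 D.A3)
  have h7 := D.A4
  rw [h3] at e
  nlinarith

end

end Vale.Agent.P224.SO.Rg
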