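import Vale.Agent.P224.SO.ClsG

/-!
The classification with larger coefficients of the additional terms.
-/

namespace Vale.Agent.P224.SO.Rg

open Finset Vale.Agent.P224.SO

section

variable {n : ℕ} {d x : Fin n → ℝ} {K : ℕ} {q A B c T0 lu lv g1 g' t : ℝ}

/-- classification with larger coefficients of the additional terms -/
theorem CDat.cls_mono (D : CDat K q A B c T0 lu lv g1 g' t) (hn : n = 2 * K + 1)
    (h : ∀ i, q * x i ^ 2 ≤ d i - d i ^ 2) (h1 : ∑ i, d i = 1) (h0 : ∑ i, x i = 0)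
    (hv : ∑ i, d i * x i ≤ 0) {lu' lv' t' : ℝ} (hlu : lu ≤ lu') (hlv : lv ≤ lv') (hg : 0 ≤ g')
    (ht : t' ≤ t)
    (hS : T0 + (A * ∑ i, d i ^ 2 - B * ∑ i, x i ^ 2 - c * ∑ i, d i * x i)
        + ∑ i, (lu' * (d i - d i ^ 2 - q * x i ^ 2) + lv' * ((1 - g1 * d i - 2 * x i) ^ 2
          + g' * (d i - d i ^ 2 - q * x i ^ 2))) < t') : (Rt D.Z x).card = K + 1 := by
  refine D.cls hn h h1 h0 hv (lt_of_le_of_lt ?_ (hS.trans_le ht))
  refine add_le_add_right (sum_le_sum fun i _ => ?_) _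
  have h3 : 0 ≤ d i - d i ^ 2 - q * x i ^ 2 := by linarith [h i]
  have h4 : 0 ≤ (1 - g1 * d i - 2 * x i) ^ 2 + g' * (d i - d i ^ 2 - q * x i ^ 2) :=
    add_nonneg (sq_nonneg _) (mul_nonneg hg h3)
  exact add_le_add (mul_le_mul_of_nonneg_right hlu h3) (mul_le_mul_of_nonneg_right hlv h4)

/-- the same for a functional without the second additional term -/
theorem CDat.cls_mono0 (D : CDat K q A B c T0 lu 0 g1 g' t) (hn : n = 2 * K + 1)
    (h : ∀ i, q * x i ^ 2 ≤ d i - d i ^ 2) (h1 : ∑ i, d i = 1) (h0 : ∑ i, x i = 0)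
    (hv : ∑ i, d i * x i ≤ 0) {lu' t' : ℝ} (hlu : lu ≤ lu') (ht : t' ≤ t)
    (hS : T0 + (A * ∑ i, d i ^ 2 - B * ∑ i, x i ^ 2 - c * ∑ i, d i * x i)
        + ∑ i, lu' * (d i - d i ^ 2 - q * x i ^ 2) < t') : (Rt D.Z x).card = K + 1 := by
  refine D.cls hn h h1 h0 hv (lt_of_le_of_lt ?_ (hS.trans_le ht))
  refine add_le_add_right (sum_le_sum fun i _ => ?_) _
  have h3 : 0 ≤ d i - d i ^ 2 - q * x i ^ 2 := by linarith [h i]
  have h4 := mul_le_mul_of_nonneg_right hlu h3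
  linarith

end

end Vale.Agent.P224.SO.Rg
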