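import Vale.Agent.P224.SO.LawT
import Vale.Agent.P224.SH.HD

/-!
The law with the coefficients `√((1 - T) (c₁ + c₂ T)) (1 - T) ^ k P(T)`, odd dimension.
-/

namespace Vale.Agent.P224.SO

open MeasureTheory Set Filter Function
open Vale.Agent.P224.UE Vale.Agent.P224.UG
open Vale.Agent.P224.SH (pv pv')
open scoped Topology RealInnerProductSpace

set_option linter.unusedSectionVars false

/-- `(1 - T) (c₁ + c₂ T)` -/
noncomputable def aA (c1 c2 T : ℝ) : ℝ := (1 - T) * (c1 + c2 * T)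

/-- its derivative -/
noncomputable def aA' (c1 c2 T : ℝ) : ℝ := -(c1 + c2 * T) + (1 - T) * c2

/-- `(1 - T) ^ k P(T)` -/
noncomputable def pk (k : ℕ) (l : List ℤ) (T : ℝ) : ℝ := (1 - T) ^ k * pv l T

/-- its derivative -/
noncomputable def pk' (k : ℕ) (l : List ℤ) (T : ℝ) : ℝ :=
  -(k * (1 - T) ^ (k - 1)) * pv l T + (1 - T) ^ k * pv' l T

/-- the coefficient -/
noncomputable def co (c1 c2 D : ℝ) (k : ℕ) (l : List ℤ) (T : ℝ) : ℝ :=
  √(aA c1 c2 T) * (pk k l T / D)

/-- its derivative -/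
noncomputable def co' (c1 c2 D : ℝ) (k : ℕ) (l : List ℤ) (T : ℝ) : ℝ :=
  √(aA c1 c2 T) * (aA' c1 c2 T / (2 * aA c1 c2 T) * (pk k l T / D) + pk' k l T / D)

lemma continuous_pv (l : List ℤ) : Continuous (pv l) := by
  induction l with
  | nil => exact continuous_const
  | cons a l ih =>
    have e : pv (a :: l) = fun T => (a : ℝ) + T * pv l T := by
      funext T
      rfl
    rw [e]
    fun_prop

lemma continuous_pv' (l : List ℤ) : Continuous (pv' l) := by
  induction l with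
  | nil => exact continuous_const
  | cons a l ih =>
    have e : pv' (a :: l) = fun T => pv l T + T * pv' l T := by
      funext T
      rfl
    have := continuous_pv l
    rw [e]
    fun_prop

lemma hasDerivAt_pv (l : List ℤ) (T : ℝ) : HasDerivAt (pv l) (pv' l T) T := by
  induction l with
  | nil => exact hasDerivAt_const T (0 : ℝ)
  | cons a l ih =>
    have e : pv (a :: l) = fun T => (a : ℝ) + T * pv l T := by
      funext T
      rfl
    have e' : pv' (a :: l) T = pv l T + T * pv' l T := rfl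
    rw [e, e']
    refine (((hasDerivAt_id T).mul ih).const_add (a : ℝ)).congr_deriv ?_
    simp

lemma continuous_pk (k : ℕ) (l : List ℤ) : Continuous (pk k l) := by
  have := continuous_pv l
  unfold pk
  fun_prop

lemma continuous_pk' (k : ℕ) (l : List ℤ) : Continuous (pk' k l) := by
  have := continuous_pv l
  have := continuous_pv' l
  unfold pk'
  fun_prop

lemma hasDerivAt_pk (k : ℕ) (l : List ℤ) (T : ℝ) : HasDerivAt (pk k l) (pk' k l T) T := by
  have h1 : HasDerivAt (fun T : ℝ => 1 - T) (-1) T := by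
    simpa using (hasDerivAt_id T).const_sub 1
  have h2 := (h1.fun_pow k).mul (hasDerivAt_pv l T)
  refine h2.congr_deriv ?_
  unfold pk'
  ring

section

variable {c1 c2 D : ℝ}

lemma aA_pos (h1 : 0 < c1) (h2 : 0 < c1 + c2) {T : ℝ} (hT : T ∈ Ico (0 : ℝ) 1) :
    0 < aA c1 c2 T := by
  have h3 : 0 < 1 - T := by linarith [hT.2]
  have h4 : 0 < c1 + c2 * T := by
    have e : c1 + c2 * T = c1 * (1 - T) + (c1 + c2) * T := by ring
    rw [e]
    have := mul_pos h1 h3
    have := mul_nonneg h2.le hT.1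
    linarith
  exact mul_pos h3 h4

lemma continuous_aA : Continuous (aA c1 c2) := by
  unfold aA
  fun_prop

lemma continuous_co (k : ℕ) (l : List ℤ) : Continuous (co c1 c2 D k l) := by
  have h1 := continuous_aA (c1 := c1) (c2 := c2)
  have h2 := continuous_pk k l
  unfold co
  exact h1.sqrt.mul (h2.div_const D)

lemma contOn_co' (h1 : 0 < c1) (h2 : 0 < c1 + c2) (k : ℕ) (l : List ℤ) :
    ContinuousOn (co' c1 c2 D k l) (Ioo 0 1) := by
  have h3 := continuous_aA (c1 := c1) (c2 := c2)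
  have h4 := continuous_pk k l
  have h5 := continuous_pk' k l
  have h6 : Continuous (aA' c1 c2) := by
    unfold aA'
    fun_prop
  unfold co'
  refine h3.sqrt.continuousOn.mul (ContinuousOn.add (ContinuousOn.mul ?_
    (h4.div_const D).continuousOn) (h5.div_const D).continuousOn)
  refine h6.continuousOn.div (h3.const_mul 2).continuousOn fun T hT => ?_
  have := aA_pos h1 h2 (T := T) ⟨hT.1.le, hT.2⟩
  positivity

lemma measurable_co' (k : ℕ) (l : List ℤ) : Measurable (co' c1 c2 D k l) := by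
  have h3 := (continuous_aA (c1 := c1) (c2 := c2)).measurable
  have h4 := (continuous_pk k l).measurable
  have h5 := (continuous_pk' k l).measurable
  have h6 : Measurable (aA' c1 c2) := by
    have : Continuous (aA' c1 c2) := by
      unfold aA'
      fun_prop
    exact this.measurable
  unfold co'
  exact h3.sqrt.mul (((h6.div (h3.const_mul 2)).mul (h4.div_const D)).add (h5.div_const D))

lemma hasDerivAt_co (h1 : 0 < c1) (h2 : 0 < c1 + c2) (k : ℕ) (l : List ℤ) {T : ℝ}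
    (hT : T ∈ Ioo (0 : ℝ) 1) : HasDerivAt (co c1 c2 D k l) (co' c1 c2 D k l T) T := by
  have hA := aA_pos h1 h2 (T := T) ⟨hT.1.le, hT.2⟩
  have h3 : HasDerivAt (aA c1 c2) (aA' c1 c2 T) T := by
    have h4 : HasDerivAt (fun T : ℝ => 1 - T) (-1) T := by
      simpa using (hasDerivAt_id T).const_sub 1
    have h5 : HasDerivAt (fun T : ℝ => c1 + c2 * T) c2 T := by
      simpa using ((hasDerivAt_id T).const_mul c2).const_add c1
    refine (h4.mul h5).congr_deriv ?_
    unfold aA'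
    ring
  have h6 := (h3.sqrt hA.ne').mul ((hasDerivAt_pk k l T).div_const D)
  refine h6.congr_deriv ?_
  unfold co'
  have h7 : √(aA c1 c2 T) ≠ 0 := (Real.sqrt_pos.2 hA).ne'
  have h8 : aA c1 c2 T = √(aA c1 c2 T) * √(aA c1 c2 T) := (Real.mul_self_sqrt hA.le).symm
  have e1 : aA' c1 c2 T / (2 * √(aA c1 c2 T))
      = √(aA c1 c2 T) * (aA' c1 c2 T / (2 * aA c1 c2 T)) := by
    nth_rewrite 3 [h8]
    field_simp
  rw [e1]
  ring

/-- the value term with the coefficient `co` -/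
noncomputable def coT (c1 c2 D : ℝ) (k : ℕ) (l : List ℤ) (q : ℕ) (Q : R9 → ℝ) : VTm :=
  ⟨co c1 c2 D k l, co' c1 c2 D k l, q, Q⟩

lemma coT_reg (h1 : 0 < c1) (h2 : 0 < c1 + c2) (k : ℕ) (l : List ℤ) (q : ℕ) {Q : R9 → ℝ}
    (hQ : Continuous Q) : (coT c1 c2 D k l q Q).Reg :=
  ⟨hQ, (continuous_co k l).measurable, measurable_co' k l, (continuous_co k l).continuousOn,
    contOn_co' h1 h2 k l, fun _ hT => hasDerivAt_co h1 h2 k l hT⟩

lemma rpow_half {x : ℝ} (hx : 0 < x) (k : ℕ) : x ^ ((k : ℝ) + 1 / 2) = √x * x ^ k := by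
  rw [Real.rpow_add hx, Real.rpow_natCast, ← Real.sqrt_eq_rpow]
  ring

lemma co_eq (k : ℕ) (l : List ℤ) {T : ℝ} (hT : T ∈ Ico (0 : ℝ) 1) :
    co c1 c2 D k l T = √(c1 + c2 * T) * (pv l T / D) * (1 - T) ^ ((k : ℝ) + 1 / 2) := by
  have h3 : 0 < 1 - T := by linarith [hT.2]
  rw [rpow_half h3]
  unfold co aA pk
  rw [Real.sqrt_mul h3.le]
  ring

end

section

variable {X : Type*} [MeasurableSpace X]
  {E : Type*} [NormedAddCommGroup E]
  [InnerProductSpace ℝ E] [MeasurableSpace E] [BorelSpace E] [SecondCountableTopology E]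
  {μ : Measure X} [IsFiniteMeasure μ] {m h : ℕ} {p n : X → E} {C S : ℝ} {c1 c2 D : ℝ}

/-- the limit of a flux term -/
theorem co_flux (hD : EmbD μ m p n C S) (hmh : m = 2 * h + 1) (e : E) {w : R9 → ℝ} (hw : Continuous w) {k a q : ℕ} (hq : q = k + h + 1 + a) (l : List ℤ) :
    Tendsto (fun T => co c1 c2 D k l T * ∫ y, ((1 - dat p n e y 0) ^ a * w (dat p n e y))
      * SM2.ker T q (dat p n e y 0) ∂(μ.prod μ)) (𝓝[<] 1)
      (𝓝 (√(c1 + c2) * (pv l 1 / D) * (kap2 m a q * (S * ∫ y, w (dat p n e (y, y)) ∂μ)))) := by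
  have hm : 0 < m := by omega
  have h3 := flux_aq hD hm e hw a (q := q) (by omega)
  have h4 : Tendsto (fun T => √(c1 + c2 * T) * (pv l T / D)) (𝓝[<] 1)
      (𝓝 (√(c1 + c2 * 1) * (pv l 1 / D))) := by
    have hc : Continuous fun T => √(c1 + c2 * T) * (pv l T / D) := by
      have := continuous_pv l
      fun_prop
    exact (hc.tendsto 1).mono_left nhdsWithin_le_nhds
  rw [mul_one] at h4
  refine (h4.mul h3).congr' ?_
  have h0 : ∀ᶠ T in 𝓝[<] (1 : ℝ), T ∈ Ioo (0 : ℝ) 1 := Ioo_mem_nhdsLT one_pos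
  filter_upwards [h0] with T hT
  rw [co_eq k l ⟨hT.1.le, hT.2⟩]
  have e1 : (q : ℝ) - a - (m : ℝ) / 2 = (k : ℝ) + 1 / 2 := by
    rw [hq, hmh]
    push_cast
    ring
  rw [e1]
  ring

/-- the limit of a null term -/
theorem co_null (hD : EmbD μ m p n C S) (hmh : m = 2 * h + 1) (e : E) {Q : R9 → ℝ} {k r q : ℕ} {B : ℝ}
    (hB : ∀ y, |Q (dat p n e y)| ≤ B * (1 - dat p n e y 0) ^ r) (hq : q ≤ k + h + r)
    (l : List ℤ) :
    Tendsto (fun T => co c1 c2 D k l T * ∫ y, Q (dat p n e y)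
      * SM2.ker T q (dat p n e y 0) ∂(μ.prod μ)) (𝓝[<] 1) (𝓝 0) := by
  have hm : 0 < m := by omega
  have hc : Continuous fun T => √(c1 + c2 * T) * (pv l T / D) := by
    have := continuous_pv l
    fun_prop
  obtain ⟨K, hK⟩ := (isCompact_Icc (a := (0 : ℝ)) (b := 1)).exists_bound_of_continuousOn
    hc.continuousOn
  refine null_aq hD hm e (b := k + h) hB (by omega) (by omega) (K := K) ?_
  have h0 : ∀ᶠ T in 𝓝[<] (1 : ℝ), T ∈ Ioo (0 : ℝ) 1 := Ioo_mem_nhdsLT one_pos
  filter_upwards [h0] with T hT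
  have h3 : 0 < 1 - T := by linarith [hT.2]
  rw [co_eq k l ⟨hT.1.le, hT.2⟩, abs_mul]
  have e1 : ((k + h : ℕ) : ℝ) + 1 - (m : ℝ) / 2 = (k : ℝ) + 1 / 2 := by
    rw [hmh]
    push_cast
    ring
  rw [e1, abs_of_pos (Real.rpow_pos_of_pos h3 _)]
  refine mul_le_mul_of_nonneg_right ?_ (Real.rpow_pos_of_pos h3 _).le
  have := hK T ⟨hT.1.le, hT.2.le⟩
  rwa [Real.norm_eq_abs] at this

/-- a value term of the law: coefficient `(1 - T) ^ k P(T)`, kernel
`(1 - s) ^ a (1 - T s) ^ (-q) t ^ i p ^ j w` -/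
structure ST where
  /-- the power of `1 - T` -/
  k : ℕ
  /-- the polynomial in `T` -/
  P : List ℤ
  /-- the exponent of the kernel -/
  q : ℕ
  /-- the power of `1 - s` -/
  a : ℕ
  /-- the power of `t` -/
  i : ℕ
  /-- the power of `p` -/
  j : ℕ
  /-- the weight -/
  w : R9 → ℝ

/-- the polynomial of the term -/
noncomputable def ST.Q (t : ST) (d : R9) : ℝ := (1 - d 0) ^ t.a * (d 1 ^ t.i * d 2 ^ t.j * t.w d)

/-- the term is a flux term -/
def ST.fl (h : ℕ) (t : ST) : Prop := t.i = 0 ∧ t.j = 0 ∧ t.q = t.k + h + 1 + t.a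

instance (h : ℕ) (t : ST) : Decidable (t.fl h) := by unfold ST.fl; infer_instance

/-- the term has a limit -/
def ST.ok (h : ℕ) (t : ST) : Prop := t.fl h ∨ t.q ≤ t.k + h + (t.a + t.i + t.j)

instance (h : ℕ) (t : ST) : Decidable (t.ok h) := by unfold ST.ok; infer_instance

/-- the term as a value term -/
noncomputable def ST.v (c1 c2 D : ℝ) (t : ST) : VTm := coT c1 c2 D t.k t.P t.q t.Q

lemma ST.continuous_Q {t : ST} (hw : Continuous t.w) : Continuous t.Q := by
  unfold ST.Q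
  fun_prop

lemma ST.bound (hD : EmbD μ m p n C S) (e : E) {t : ST} (hw : Continuous t.w) :
    ∃ B : ℝ, ∀ y, |t.Q (dat p n e y)| ≤ B * (1 - dat p n e y 0) ^ (t.a + t.i + t.j) := by
  have hP := hD.toTwoG.toPts
  obtain ⟨W, hW⟩ := (isCompact_KE (bE e)).exists_bound_of_continuousOn hw.continuousOn
  refine ⟨|C| ^ t.i * |C| ^ t.j * |W|, fun y => ?_⟩
  have hs := dat0_mem hP e y
  have h0 : 0 ≤ 1 - dat p n e y 0 := by linarith [hs.2]
  have h1 : |dat p n e y 1| ≤ |C| * (1 - dat p n e y 0) := by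
    have := (hD.contact y.2 y.1).1
    have e1 : dat p n e y 1 = ⟪n y.2, p y.1⟫ := real_inner_comm _ _
    have e2 : dat p n e y 0 = ⟪p y.2, p y.1⟫ := real_inner_comm _ _
    rw [e1, e2]
    rw [e2] at h0
    exact this.trans (mul_le_mul_of_nonneg_right (le_abs_self C) h0)
  have h2 : |dat p n e y 2| ≤ |C| * (1 - dat p n e y 0) := by
    have := (hD.contact y.1 y.2).1
    have e1 : dat p n e y 2 = ⟪n y.1, p y.2⟫ := rfl
    have e2 : dat p n e y 0 = ⟪p y.1, p y.2⟫ := rfl
    rw [e1, e2]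
    rw [e2] at h0
    exact this.trans (mul_le_mul_of_nonneg_right (le_abs_self C) h0)
  have h3 : |t.w (dat p n e y)| ≤ |W| := by
    have := hW _ (dat_mem hP e y)
    rw [Real.norm_eq_abs] at this
    exact this.trans (le_abs_self W)
  unfold ST.Q
  rw [abs_mul, abs_mul, abs_mul, abs_pow, abs_pow, abs_pow, abs_of_nonneg h0]
  calc (1 - dat p n e y 0) ^ t.a * (|dat p n e y 1| ^ t.i * |dat p n e y 2| ^ t.j
        * |t.w (dat p n e y)|)
      ≤ (1 - dat p n e y 0) ^ t.a * ((|C| * (1 - dat p n e y 0)) ^ t.i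
        * (|C| * (1 - dat p n e y 0)) ^ t.j * |W|) := by
        gcongr
    _ = _ := by
      rw [mul_pow, mul_pow, pow_add, pow_add]
      ring

/-- the law in odd dimension -/
theorem law_ST (hD : EmbD μ m p n C S) (hmh : m = 2 * h + 1) (h1 : 0 < c1) (h2 : 0 < c1 + c2)
    (e : E) (l : List ST) (hw : ∀ t ∈ l, Continuous t.w) (hok : ∀ t ∈ l, t.ok h)
    (hR : ∀ T ∈ Ioo (0 : ℝ) 1, ∃ R : R9 → ℝ, Null μ p n e R ∧
      ∀ x N y w : E, ‖x‖ = 1 → ‖N‖ = 1 → ‖y‖ = 1 → ‖w‖ = 1 → ⟪x, N⟫ = 0 → ⟪y, w⟫ = 0 →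
        gS' (l.map fun t => t.v c1 c2 D) T (dv x N y w e) ≤ R (dv x N y w e)) :
    (l.map fun t => if t.fl h then √(c1 + c2) * (pv t.P 1 / D) * (kap2 m t.a t.q
        * (S * ∫ y, t.w (dat p n e (y, y)) ∂μ)) else 0).sum
      ≤ ∫ y, (l.map fun t => √c1 * (pv t.P 0 / D) * t.Q (dat p n e y)).sum ∂(μ.prod μ) := by
  have key := law_S hD.toTwoG.toTwoE e (l.map fun t => (t.v c1 c2 D,
    if t.fl h then √(c1 + c2) * (pv t.P 1 / D) * (kap2 m t.a t.q
        * (S * ∫ y, t.w (dat p n e (y, y)) ∂μ)) else 0))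
    (fun u hu => by
      obtain ⟨t, ht, rfl⟩ := List.mem_map.1 hu
      exact coT_reg h1 h2 _ _ _ (ST.continuous_Q (hw t ht)))
    (fun u hu => by
      obtain ⟨t, ht, rfl⟩ := List.mem_map.1 hu
      simp only
      by_cases hf : t.fl h
      · rw [if_pos hf]
        obtain ⟨hi, hj, hq⟩ := hf
        have h3 := co_flux (c1 := c1) (c2 := c2) (D := D) hD hmh e (hw t ht) hq t.P
        refine h3.congr fun T => ?_
        simp only [ST.v, coT, ST.Q, hi, hj, pow_zero, one_mul]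
      · rw [if_neg hf]
        rcases hok t ht with h3 | h3
        · exact absurd h3 hf
        · obtain ⟨B, hB⟩ := ST.bound hD e (hw t ht)
          exact co_null hD hmh e hB h3 t.P)
    (by
      have e1 : (l.map fun t => (t.v c1 c2 D,
          if t.fl h then √(c1 + c2) * (pv t.P 1 / D) * (kap2 m t.a t.q
            * (S * ∫ y, t.w (dat p n e (y, y)) ∂μ)) else 0)).map Prod.fst
          = l.map fun t => t.v c1 c2 D := by
        rw [List.map_map]
        rfl
      rw [e1]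
      exact hR)
  rw [List.map_map] at key
  refine (le_of_eq ?_).trans (key.trans (le_of_eq ?_))
  · rfl
  · refine integral_congr_ae (Eventually.of_forall fun y => ?_)
    simp only
    rw [List.map_map]
    congr 1
    refine List.map_congr_left fun t _ => ?_
    simp only [comp_apply, ST.v, coT, co, aA, pk]
    simp

end

end Vale.Agent.P224.SO
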