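import Vale.Agent.P224.UG.FluxW

/-!
The limits of all kernel integrals at the diagonal.
-/

namespace Vale.Agent.P224.SO

open MeasureTheory Set Filter Function
open Vale.Agent.P224.UE Vale.Agent.P224.UG
open scoped Topology RealInnerProductSpace

set_option linter.unusedSectionVars false

/-- integration of an asymptotic equality, upper half -/
lemma int_upper {F F1 : ℝ → ℝ} {α c q : ℝ} (hα : 0 < α) (hq : 0 < q)
    (hd : ∀ h : ℝ, 0 < h → HasDerivAt F (-(q * F1 h)) h)
    (hF : Tendsto (fun h => h ^ (α + 1) * F1 h) (𝓝[>] 0) (𝓝 c)) {a : ℝ} (ha : q * c / α < a) :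
    ∀ᶠ h in 𝓝[>] (0 : ℝ), h ^ α * F h < a := by
  -- a number in between
  obtain ⟨b, hb1, hb2⟩ := exists_between ha
  have hc' : c < b * α / q := by
    rw [lt_div_iff₀ hq]
    rw [div_lt_iff₀ hα] at hb1
    linarith
  have h1 : ∀ᶠ h in 𝓝[>] (0 : ℝ), h ^ (α + 1) * F1 h < b * α / q := hF.eventually (gt_mem_nhds hc')
  obtain ⟨δ, hδ0, hδ⟩ := mem_nhdsGT_iff_exists_Ioo_subset.1 h1
  have hδ0' : (0 : ℝ) < δ := hδ0
  set D : ℝ → ℝ := fun h => F h - b * h ^ (-α) with hD
  have hder : ∀ h : ℝ, 0 < h → HasDerivAt D (-(q * F1 h) - b * (-α * h ^ (-α - 1))) h := by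
    intro h hh
    exact (hd h hh).sub ((Real.hasDerivAt_rpow_const (Or.inl hh.ne')).const_mul b)
  have hmono : MonotoneOn D (Ioo 0 δ) := by
    refine monotoneOn_of_deriv_nonneg (convex_Ioo 0 δ)
      (fun h hh => (hder h hh.1).continuousAt.continuousWithinAt)
      (fun h hh => by
        rw [interior_Ioo] at hh
        exact (hder h hh.1).differentiableAt.differentiableWithinAt) ?_
    intro h hh
    rw [interior_Ioo] at hh
    rw [(hder h hh.1).deriv]
    have h2 : h ^ (α + 1) * F1 h < b * α / q := hδ hh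
    have h3 : 0 < h ^ (-α - 1) := Real.rpow_pos_of_pos hh.1 _
    have h4 : h ^ (-α - 1) * h ^ (α + 1) = 1 := by
      rw [← Real.rpow_add hh.1]
      have : -α - 1 + (α + 1) = 0 := by ring
      rw [this, Real.rpow_zero]
    have h5 : F1 h < b * α / q * h ^ (-α - 1) := by
      calc F1 h = h ^ (-α - 1) * (h ^ (α + 1) * F1 h) := by rw [← mul_assoc, h4, one_mul]
        _ < h ^ (-α - 1) * (b * α / q) := mul_lt_mul_of_pos_left h2 h3
        _ = _ := by ring
    have h6 : q * F1 h < b * α * h ^ (-α - 1) := by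
      calc q * F1 h < q * (b * α / q * h ^ (-α - 1)) := mul_lt_mul_of_pos_left h5 hq
        _ = _ := by field_simp
    linarith
  have hhalf : δ / 2 ∈ Ioo 0 δ := ⟨by linarith, by linarith⟩
  have hle : ∀ h ∈ Ioo (0 : ℝ) (δ / 2), F h ≤ D (δ / 2) + b * h ^ (-α) := by
    intro h hh
    have := hmono ⟨hh.1, by linarith [hh.2]⟩ hhalf hh.2.le
    have e : D h = F h - b * h ^ (-α) := rfl
    linarith
  have hlim : Tendsto (fun h : ℝ => h ^ α * D (δ / 2) + b) (𝓝[>] 0) (𝓝 (0 * D (δ / 2) + b)) := by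
    refine (Tendsto.mul_const _ ?_).add_const _
    have h7 : ContinuousAt (fun x : ℝ => x ^ α) 0 :=
      Real.continuousAt_rpow_const _ _ (Or.inr hα.le)
    have h8 := h7.tendsto
    rw [Real.zero_rpow hα.ne'] at h8
    exact h8.mono_left nhdsWithin_le_nhds
  rw [zero_mul, zero_add] at hlim
  filter_upwards [hlim.eventually (gt_mem_nhds hb2),
    Ioo_mem_nhdsGT (by linarith : (0 : ℝ) < δ / 2)] with h h9 hh
  refine lt_of_le_of_lt ?_ h9
  have h10 : 0 < h ^ α := Real.rpow_pos_of_pos hh.1 _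
  calc h ^ α * F h ≤ h ^ α * (D (δ / 2) + b * h ^ (-α)) :=
        mul_le_mul_of_nonneg_left (hle h hh) h10.le
    _ = h ^ α * D (δ / 2) + b * (h ^ α * h ^ (-α)) := by ring
    _ = h ^ α * D (δ / 2) + b := by
      rw [← Real.rpow_add hh.1, add_neg_cancel, Real.rpow_zero, mul_one]

/-- integration of an asymptotic equality -/
theorem int_tendsto {F F1 : ℝ → ℝ} {α c q : ℝ} (hα : 0 < α) (hq : 0 < q)
    (hd : ∀ h : ℝ, 0 < h → HasDerivAt F (-(q * F1 h)) h)
    (hF : Tendsto (fun h => h ^ (α + 1) * F1 h) (𝓝[>] 0) (𝓝 c)) :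
    Tendsto (fun h => h ^ α * F h) (𝓝[>] 0) (𝓝 (q * c / α)) := by
  rw [tendsto_order]
  constructor
  · intro a ha
    have h1 := int_upper (F := fun h => -F h) (F1 := fun h => -F1 h) (c := -c) hα hq
      (fun h hh => by
        have := (hd h hh).neg
        exact this.congr_deriv (by ring))
      (by
        have := hF.neg
        exact this.congr fun h => by ring) (a := -a) (by
        have : q * -c / α = -(q * c / α) := by ring
        rw [this]
        linarith)
    filter_upwards [h1] with h hh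
    linarith
  · intro a ha
    exact int_upper hα hq hd hF ha

section

variable {Y : Type*} [MeasurableSpace Y] {ρ : Measure Y} [IsFiniteMeasure ρ] {Q s : Y → ℝ} {B : ℝ}

/-- the derivative of a Stieltjes integral -/
theorem hasDerivAt_Ph (hd : PD ρ Q s B) (q : ℕ) {h : ℝ} (hh : 0 < h) :
    HasDerivAt (Ph ρ Q s q) (-(q * Ph ρ Q s (q + 1) h)) h := by
  have hpos : ∀ x ∈ Ioo (h / 2) (2 * h), ∀ y, h / 2 ≤ x + 1 - s y := fun x hx y => by
    have := hd.s1 y
    linarith [hx.1]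
  have hmF : ∀ x, ∀ k : ℕ, AEStronglyMeasurable (fun y => Q y * ((x + 1 - s y) ^ k)⁻¹) ρ := by
    intro x k
    have := hd.mQ
    have := hd.ms
    have hm : Measurable fun y => Q y * ((x + 1 - s y) ^ k)⁻¹ := by fun_prop
    exact hm.aestronglyMeasurable
  have key := hasDerivAt_integral_of_dominated_loc_of_deriv_le (μ := ρ)
    (F := fun (x : ℝ) (y : Y) => Q y * ((x + 1 - s y) ^ q)⁻¹)
    (F' := fun (x : ℝ) (y : Y) => Q y * (-(q * ((x + 1 - s y) ^ (q + 1))⁻¹)))
    (x₀ := h) (s := Ioo (h / 2) (2 * h))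
    (bound := fun _ => |B| * (q * ((h / 2) ^ (q + 1))⁻¹))
    (Ioo_mem_nhds (by linarith) (by linarith))
    (Eventually.of_forall fun x => hmF x q)
    (hd.integrable q hh)
    (by
      have h1 := (hmF h (q + 1)).const_mul (-(q : ℝ))
      refine h1.congr (Eventually.of_forall fun y => ?_)
      simp only
      ring)
    (Eventually.of_forall fun y x hx => by
      have h1 := hpos x hx y
      have h2 : 0 < h / 2 := by linarith
      rw [Real.norm_eq_abs, abs_mul, abs_neg, abs_mul, Nat.abs_cast,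
        abs_of_nonneg (inv_nonneg.2 (pow_nonneg (h2.le.trans h1) _))]
      refine mul_le_mul ?_ ?_ (by
        have := pow_nonneg (h2.le.trans h1) (q + 1)
        positivity) (abs_nonneg _)
      · rw [abs_of_nonneg (hd.Q0 y)]
        exact (hd.QB y).trans (le_abs_self B)
      · exact mul_le_mul_of_nonneg_left
          (inv_anti₀ (by positivity) (pow_le_pow_left₀ h2.le h1 _)) (Nat.cast_nonneg _))
    (integrable_const _)
    (Eventually.of_forall fun y x hx => by
      have h1 := hpos x hx y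
      have h2 : 0 < x + 1 - s y := by linarith
      have h3 : HasDerivAt (fun x : ℝ => x + 1 - s y) 1 x := by
        simpa using ((hasDerivAt_id x).add_const 1).sub_const (s y)
      have h4 := ((h3.pow q).inv (pow_ne_zero q h2.ne')).const_mul (Q y)
      refine h4.congr_deriv ?_
      rcases Nat.eq_zero_or_pos q with hq | hq
      · subst hq
        simp
      · obtain ⟨r, rfl⟩ : ∃ r, q = r + 1 := ⟨q - 1, by omega⟩
        simp only [Nat.add_sub_cancel, mul_one, Pi.pow_apply]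
        field_simp
        ring)
  have h5 := key.2
  refine h5.congr_deriv ?_
  unfold Ph
  rw [← integral_const_mul, ← integral_neg]
  refine integral_congr_ae (Eventually.of_forall fun y => ?_)
  simp only
  ring

/-- the asymptotics of the previous integral -/
theorem Ph_pred (hd : PD ρ Q s B) {q : ℕ} (hq : 0 < q) {α c : ℝ} (hα : 0 < α)
    (hF : Tendsto (fun h => h ^ (α + 1) * Ph ρ Q s (q + 1) h) (𝓝[>] 0) (𝓝 c)) :
    Tendsto (fun h => h ^ α * Ph ρ Q s q h) (𝓝[>] 0) (𝓝 (q * c / α)) :=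
  int_tendsto hα (by exact_mod_cast hq) (fun _ hh => hasDerivAt_Ph hd q hh) hF

/-- the constant of the kernel of exponent `q` -/
noncomputable def kap (m q : ℕ) : ℝ :=
  2 ^ (-((m : ℝ) / 2)) * (Real.Gamma m / Real.Gamma ((m : ℝ) / 2))
    * (Real.Gamma ((q : ℝ) - (m : ℝ) / 2) / Real.Gamma q)

lemma kap_self {m : ℕ} (hm : 0 < m) : kap m m = 2 ^ (-((m : ℝ) / 2)) := by
  have h0 : (0 : ℝ) < m := by exact_mod_cast hm
  have h1 : Real.Gamma m ≠ 0 := (Real.Gamma_pos_of_pos h0).ne'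
  have h2 : Real.Gamma ((m : ℝ) / 2) ≠ 0 := (Real.Gamma_pos_of_pos (by linarith)).ne'
  unfold kap
  have e : (m : ℝ) - (m : ℝ) / 2 = (m : ℝ) / 2 := by ring
  rw [e]
  field_simp

lemma kap_succ {m q : ℕ} (hq : m < 2 * q) :
    kap m (q + 1) = ((q : ℝ) - (m : ℝ) / 2) * kap m q / q := by
  have hq' : (m : ℝ) < 2 * q := by exact_mod_cast hq
  have hm0 : (0 : ℝ) ≤ m := Nat.cast_nonneg m
  have h0 : (0 : ℝ) < q := by linarith
  have h1 : (0 : ℝ) < (q : ℝ) - (m : ℝ) / 2 := by linarith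
  have h2 : Real.Gamma q ≠ 0 := (Real.Gamma_pos_of_pos h0).ne'
  unfold kap
  have e1 : ((q + 1 : ℕ) : ℝ) - (m : ℝ) / 2 = ((q : ℝ) - (m : ℝ) / 2) + 1 := by
    push_cast
    ring
  rw [e1, Real.Gamma_add_one h1.ne']
  push_cast
  rw [Real.Gamma_add_one h0.ne']
  field_simp

lemma kap_pos {m q : ℕ} (hm : 0 < m) (hq : m < 2 * q) : 0 < kap m q := by
  have hq' : (m : ℝ) < 2 * q := by exact_mod_cast hq
  have hm0 : (0 : ℝ) < m := by exact_mod_cast hm
  have h1 := Real.Gamma_pos_of_pos hm0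
  have h2 := Real.Gamma_pos_of_pos (by linarith : (0 : ℝ) < (m : ℝ) / 2)
  have h3 := Real.Gamma_pos_of_pos (by linarith : (0 : ℝ) < (q : ℝ) - (m : ℝ) / 2)
  have h4 := Real.Gamma_pos_of_pos (by linarith : (0 : ℝ) < (q : ℝ))
  unfold kap
  positivity

/-- the asymptotics of all Stieltjes integrals -/
theorem Ph_all (hd : PD ρ Q s B) {m : ℕ} (hm : 0 < m) {A : ℝ}
    (h : Tendsto (fun T => ∫ y, Q y * cv m T (s y) ∂ρ) (𝓝[<] 1) (𝓝 A)) {q : ℕ}
    (hq : m < 2 * q) :
    Tendsto (fun h => h ^ ((q : ℝ) - (m : ℝ) / 2) * Ph ρ Q s q h) (𝓝[>] 0)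
      (𝓝 (kap m q * A)) := by
  have hbase : Tendsto (fun h => h ^ ((m : ℝ) - (m : ℝ) / 2) * Ph ρ Q s m h) (𝓝[>] 0)
      (𝓝 (kap m m * A)) := by
    have e : (m : ℝ) - (m : ℝ) / 2 = (m : ℝ) / 2 := by ring
    rw [e, kap_self hm]
    exact Ph_of_cv h
  rcases le_total m q with hmq | hqm
  · -- upwards
    induction q, hmq using Nat.le_induction with
    | base => exact hbase
    | succ q hmq ih =>
      have hq' : m < 2 * q := by omega
      have h1 := hd.Ph_succ (by omega : 0 < q) (ih hq')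
      have e1 : ((q : ℝ) - (m : ℝ) / 2) * (kap m q * A) / q = kap m (q + 1) * A := by
        rw [kap_succ hq']
        ring
      rw [e1] at h1
      have e2 : ((q + 1 : ℕ) : ℝ) - (m : ℝ) / 2 = (q : ℝ) - (m : ℝ) / 2 + 1 := by
        push_cast
        ring
      rw [e2]
      exact h1
  · -- downwards
    induction hqm using Nat.decreasingInduction with
    | self => exact hbase
    | of_succ q hqm ih =>
      have h1 := ih (by omega)
      have hq' : (m : ℝ) < 2 * q := by exact_mod_cast hq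
      have hm0 : (0 : ℝ) < m := by exact_mod_cast hm
      have hq0 : (0 : ℝ) < q := by linarith
      have hα : (0 : ℝ) < (q : ℝ) - (m : ℝ) / 2 := by linarith
      have e2 : ((q + 1 : ℕ) : ℝ) - (m : ℝ) / 2 = (q : ℝ) - (m : ℝ) / 2 + 1 := by
        push_cast
        ring
      rw [e2] at h1
      have h2 := Ph_pred hd (by exact_mod_cast hq0 : 0 < q) hα h1
      have e1 : q * (kap m (q + 1) * A) / ((q : ℝ) - (m : ℝ) / 2) = kap m q * A := by
        rw [kap_succ hq]
        have h3 := hα.ne'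
        have h4 := hq0.ne'
        generalize (q : ℝ) - (m : ℝ) / 2 = β at h3
        field_simp
      rw [e1] at h2
      exact h2

lemma inv_sub_tendsto : Tendsto (fun τ : ℝ => τ⁻¹ - 1) (𝓝[<] 1) (𝓝[>] 0) := by
  refine tendsto_nhdsWithin_iff.2 ⟨?_, ?_⟩
  · have h1 : Tendsto (fun τ : ℝ => τ⁻¹ - 1) (𝓝 1) (𝓝 ((1 : ℝ)⁻¹ - 1)) :=
      (tendsto_inv₀ one_ne_zero).sub_const 1
    rw [inv_one, sub_self] at h1
    exact h1.mono_left nhdsWithin_le_nhds
  · have h0 : ∀ᶠ T in 𝓝[<] (1 : ℝ), T ∈ Ioo (0 : ℝ) 1 := Ioo_mem_nhdsLT one_pos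
    filter_upwards [h0] with τ hτ
    have := (one_lt_inv₀ hτ.1).2 hτ.2
    exact sub_pos.2 this

/-- the limit of the kernel integrals of exponent `q`, nonnegative data -/
theorem ker_tendsto (hd : PD ρ Q s B) {m : ℕ} (hm : 0 < m) {A : ℝ}
    (h : Tendsto (fun T => ∫ y, Q y * cv m T (s y) ∂ρ) (𝓝[<] 1) (𝓝 A)) {q : ℕ}
    (hq : m < 2 * q) :
    Tendsto (fun T => (1 - T) ^ ((q : ℝ) - (m : ℝ) / 2) * ∫ y, Q y * SM2.ker T q (s y) ∂ρ)
      (𝓝[<] 1) (𝓝 (kap m q * A)) := by
  have h1 := (Ph_all hd hm h hq).comp inv_sub_tendsto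
  have h3 : Tendsto (fun τ : ℝ => τ ^ ((q : ℝ) - (m : ℝ) / 2) * (τ ^ q)⁻¹) (𝓝[<] 1)
      (𝓝 (1 ^ ((q : ℝ) - (m : ℝ) / 2) * ((1 : ℝ) ^ q)⁻¹)) := by
    have hc : ContinuousAt (fun τ : ℝ => τ ^ ((q : ℝ) - (m : ℝ) / 2) * (τ ^ q)⁻¹) 1 := by
      refine ContinuousAt.mul (Real.continuousAt_rpow_const _ _ (Or.inl one_ne_zero)) ?_
      exact ContinuousAt.inv₀ (by fun_prop) (by norm_num)
    exact hc.tendsto.mono_left nhdsWithin_le_nhds
  rw [Real.one_rpow, one_pow, inv_one, one_mul] at h3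
  have h4 := h3.mul h1
  rw [one_mul] at h4
  refine h4.congr' ?_
  have h0 : ∀ᶠ T in 𝓝[<] (1 : ℝ), T ∈ Ioo (0 : ℝ) 1 := Ioo_mem_nhdsLT one_pos
  filter_upwards [h0] with τ hτ
  simp only [comp_apply]
  have h5 : 0 < τ⁻¹ - 1 := by
    have := (one_lt_inv₀ hτ.1).2 hτ.2
    linarith
  have e1 : (1 - τ) ^ ((q : ℝ) - (m : ℝ) / 2)
      = τ ^ ((q : ℝ) - (m : ℝ) / 2) * (τ⁻¹ - 1) ^ ((q : ℝ) - (m : ℝ) / 2) := by
    rw [← Real.mul_rpow hτ.1.le h5.le]
    congr 1
    have := hτ.1.ne'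
    field_simp
  have e2 : ∫ y, Q y * SM2.ker τ q (s y) ∂ρ = (τ ^ q)⁻¹ * Ph ρ Q s q (τ⁻¹ - 1) := by
    unfold Ph
    rw [← integral_const_mul]
    refine integral_congr_ae (Eventually.of_forall fun y => ?_)
    simp only
    unfold SM2.ker
    have e3 : 1 - τ * s y = τ * (τ⁻¹ - 1 + 1 - s y) := by
      have := hτ.1.ne'
      field_simp
      ring
    rw [e3, mul_pow, mul_inv]
    ring
  rw [e1, e2]
  ring

end

section

variable {X : Type*} [MeasurableSpace X]
  {E : Type*} [NormedAddCommGroup E]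
  [InnerProductSpace ℝ E] [MeasurableSpace E] [BorelSpace E] [SecondCountableTopology E]
  {μ : Measure X} [IsFiniteMeasure μ] {m : ℕ} {p n : X → E} {C S : ℝ}

lemma int_ker_Q (h : FV.Pts p n) (e : E) {Q : R9 → ℝ} (hQ : Continuous Q) {T : ℝ}
    (hT : T ∈ Ico (0 : ℝ) 1) (q : ℕ) :
    Integrable (fun y => Q (dat p n e y) * SM2.ker T q (dat p n e y 0)) (μ.prod μ) := by
  have hmk := SM2.measurable_ker T q
  have h0 : Continuous fun d : R9 => d 0 := continuous_apply 0
  exact SM2.integrable_param (μ.prod μ) (measurable_dat h e) (isCompact_KE (bE e))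
    (dat_mem h e) (f := fun d => Q d * SM2.ker T q (d 0))
    (hQ.measurable.mul (hmk.comp h0.measurable))
    (hQ.continuousOn.mul (contOn_kerE hT q _))

/-- the limit of the kernel integrals of exponent `q` -/
theorem flux_q (hD : EmbD μ m p n C S) (hm : 0 < m) (e : E) {Q : R9 → ℝ} (hQ : Continuous Q)
    {q : ℕ} (hq : m < 2 * q) :
    Tendsto (fun T => (1 - T) ^ ((q : ℝ) - (m : ℝ) / 2)
        * ∫ y, Q (dat p n e y) * SM2.ker T q (dat p n e y 0) ∂(μ.prod μ)) (𝓝[<] 1)
      (𝓝 (kap m q * (S * ∫ y, Q (dat p n e (y, y)) ∂μ))) := by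
  have hP := hD.toTwoG.toPts
  have hmd := measurable_dat hP e
  obtain ⟨B, hB⟩ := (isCompact_KE (bE e)).exists_bound_of_continuousOn hQ.continuousOn
  have hB' : ∀ q, |Q (dat p n e q)| ≤ |B| := fun q => by
    have := hB _ (dat_mem hP e q)
    rw [Real.norm_eq_abs] at this
    exact this.trans (le_abs_self B)
  have hs0 : ∀ q, dat p n e q 0 ∈ Icc (-1 : ℝ) 1 := dat0_mem hP e
  have hd1 : PD (μ.prod μ) (fun q => Q (dat p n e q) + |B|) (fun q => dat p n e q 0) (2 * |B|) :=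
    ⟨(hQ.measurable.comp hmd).add_const _, measurable_dat0 hP e,
      fun q => by have := abs_le.1 (hB' q); linarith [this.1],
      fun q => by have := abs_le.1 (hB' q); linarith [this.2],
      fun q => (hs0 q).2, fun q => (hs0 q).1⟩
  have hd2 : PD (μ.prod μ) (fun _ => |B|) (fun q => dat p n e q 0) |B| :=
    ⟨measurable_const, measurable_dat0 hP e, fun _ => abs_nonneg _, fun _ => le_rfl,
      fun q => (hs0 q).2, fun q => (hs0 q).1⟩
  have f1 := ker_tendsto hd1 hm (hD.flux e (fun d => Q d + |B|) (hQ.add continuous_const)) hq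
  have f2 := ker_tendsto hd2 hm (hD.flux e (fun _ => |B|) continuous_const) hq
  have hmd1 : Measurable fun y => dat p n e (y, y) :=
    hmd.comp (measurable_id.prodMk measurable_id)
  have hiQ : Integrable (fun y => Q (dat p n e (y, y))) μ :=
    Integrable.of_bound (hQ.measurable.comp hmd1).aestronglyMeasurable |B|
      (Eventually.of_forall fun y => by rw [Real.norm_eq_abs]; exact hB' _)
  have f3 := f1.sub f2
  have e1 : kap m q * (S * ∫ y, (Q (dat p n e (y, y)) + |B|) ∂μ) - kap m q * (S * ∫ _, |B| ∂μ)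
      = kap m q * (S * ∫ y, Q (dat p n e (y, y)) ∂μ) := by
    rw [integral_add hiQ (integrable_const _)]
    ring
  rw [e1] at f3
  refine f3.congr' ?_
  have h0 : ∀ᶠ T in 𝓝[<] (1 : ℝ), T ∈ Ioo (0 : ℝ) 1 := Ioo_mem_nhdsLT one_pos
  filter_upwards [h0] with τ hτ
  have hτ' : τ ∈ Ico (0 : ℝ) 1 := ⟨hτ.1.le, hτ.2⟩
  have hi1 : Integrable (fun y => (Q (dat p n e y) + |B|) * SM2.ker τ q (dat p n e y 0))
      (μ.prod μ) := int_ker_Q (Q := fun d => Q d + |B|) hP e (hQ.add continuous_const) hτ' q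
  have hi2 : Integrable (fun y => |B| * SM2.ker τ q (dat p n e y 0)) (μ.prod μ) :=
    int_ker_Q (Q := fun _ => |B|) hP e continuous_const hτ' q
  rw [← mul_sub, ← integral_sub hi1 hi2]
  congr 1
  refine integral_congr_ae (Eventually.of_forall fun q => ?_)
  simp only
  ring

end

end Vale.Agent.P224.SO
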