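import Vale.Agent.P224.SO.Flux

/-!
The law of the two point method with a list of kernels of integer exponents.
-/

namespace Vale.Agent.P224.SO

open MeasureTheory Set Filter Function
open Vale.Agent.P224.UE Vale.Agent.P224.UG
open scoped Topology RealInnerProductSpace

set_option linter.unusedSectionVars false

/-- the constant of the kernel `(1 - s) ^ a (1 - T s) ^ (-q)` -/
noncomputable def kap2 (m : ℕ) : ℕ → ℕ → ℝ
  | 0, q => kap m q
  | a + 1, q => kap2 m a (q - 1) - kap2 m a q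

lemma ker_mul_sub {T s : ℝ} (hT : T ∈ Ico (0 : ℝ) 1) (hs : s ∈ Icc (-1 : ℝ) 1) (q : ℕ) :
    SM2.ker T (q + 1) s * (1 - T * s) = SM2.ker T q s := by
  have h := (SM2.one_sub_pos' hT hs.2).ne'
  unfold SM2.ker
  rw [pow_succ]
  field_simp

lemma ker_nonneg {T s : ℝ} (hT : T ∈ Ico (0 : ℝ) 1) (hs : s ∈ Icc (-1 : ℝ) 1) (q : ℕ) :
    0 ≤ SM2.ker T q s := by
  have h := SM2.one_sub_pos' hT hs.2
  unfold SM2.ker
  positivity

lemma one_sub_le {T s : ℝ} (hT : T ∈ Ico (0 : ℝ) 1) (hs : s ∈ Icc (-1 : ℝ) 1) :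
    1 - s ≤ 2 * (1 - T * s) := by
  rcases le_or_gt 0 s with h | h
  · nlinarith [hT.2, hs.2, mul_nonneg h (sub_nonneg.2 hT.2.le)]
  · nlinarith [hT.1, hs.1, mul_nonneg hT.1 (neg_pos.2 h).le]

lemma one_sub_mul_le {T s : ℝ} (hT : T ∈ Ico (0 : ℝ) 1) (hs : s ∈ Icc (-1 : ℝ) 1) :
    1 - T * s ≤ 2 := by
  nlinarith [hT.1, hT.2, hs.1, mul_nonneg hT.1 (by linarith [hs.1] : 0 ≤ 1 + s)]

/-- `(1 - T s) ^ a ker_q <= 2 ^ (b + a - q) ker_b` -/
lemma ker_pow_le {T s : ℝ} (hT : T ∈ Ico (0 : ℝ) 1) (hs : s ∈ Icc (-1 : ℝ) 1) {a b q : ℕ}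
    (h : q ≤ b + a) :
    (1 - T * s) ^ a * SM2.ker T q s ≤ 2 ^ (b + a - q) * SM2.ker T b s := by
  have h0 := SM2.one_sub_pos' hT hs.2
  have h2 := one_sub_mul_le hT hs
  obtain ⟨r, hr⟩ : ∃ r, b + a = q + r := ⟨b + a - q, by omega⟩
  have e : b + a - q = r := by omega
  rw [e]
  unfold SM2.ker
  have e1 : (1 - T * s) ^ a * ((1 - T * s) ^ q)⁻¹ = (1 - T * s) ^ r * ((1 - T * s) ^ b)⁻¹ := by
    rw [← div_eq_mul_inv, ← div_eq_mul_inv, div_eq_div_iff (pow_pos h0 _).ne' (pow_pos h0 _).ne',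
      ← pow_add, ← pow_add, add_comm a b, hr, add_comm q r]
  rw [e1]
  exact mul_le_mul_of_nonneg_right (pow_le_pow_left₀ h0.le h2 r) (by positivity)

section

variable {X : Type*} [MeasurableSpace X]
  {E : Type*} [NormedAddCommGroup E]
  [InnerProductSpace ℝ E] [MeasurableSpace E] [BorelSpace E] [SecondCountableTopology E]
  {μ : Measure X} [IsFiniteMeasure μ] {m : ℕ} {p n : X → E} {C S : ℝ}

/-- the limit for the kernels `(1 - s) ^ a (1 - T s) ^ (-q)` -/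
theorem flux_aq (hD : EmbD μ m p n C S) (hm : 0 < m) (e : E) {Q : R9 → ℝ} (hQ : Continuous Q)
    (a : ℕ) {q : ℕ} (hq : m + 2 * a < 2 * q) :
    Tendsto (fun T => (1 - T) ^ ((q : ℝ) - a - (m : ℝ) / 2)
        * ∫ y, (1 - dat p n e y 0) ^ a * Q (dat p n e y) * SM2.ker T q (dat p n e y 0)
          ∂(μ.prod μ)) (𝓝[<] 1)
      (𝓝 (kap2 m a q * (S * ∫ y, Q (dat p n e (y, y)) ∂μ))) := by
  have hP := hD.toTwoG.toPts
  induction a generalizing q with
  | zero =>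
    have h1 := flux_q hD hm e hQ (q := q) (by omega)
    simpa [kap2] using h1
  | succ a ih =>
    obtain ⟨q, rfl⟩ : ∃ r, q = r + 1 := ⟨q - 1, by omega⟩
    have i1 := ih (q := q) (by omega)
    have i2 := ih (q := q + 1) (by omega)
    have hT1 : Tendsto (fun T : ℝ => T⁻¹) (𝓝[<] 1) (𝓝 1⁻¹) :=
      (tendsto_inv₀ one_ne_zero).mono_left nhdsWithin_le_nhds
    have h1 := hT1.mul (i1.sub i2)
    rw [inv_one, one_mul, ← sub_mul] at h1
    refine Tendsto.congr' ?_ h1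
    have h0 : ∀ᶠ T in 𝓝[<] (1 : ℝ), T ∈ Ioo (0 : ℝ) 1 := Ioo_mem_nhdsLT one_pos
    filter_upwards [h0] with T hT
    have hT' : T ∈ Ico (0 : ℝ) 1 := ⟨hT.1.le, hT.2⟩
    have hQa : Continuous fun d : R9 => (1 - d 0) ^ a * Q d := by fun_prop
    have j1 := int_ker_Q (μ := μ) hP e hQa hT' q
    have j2 := int_ker_Q (μ := μ) hP e hQa hT' (q + 1)
    have e1 : ∀ y, (1 - dat p n e y 0) ^ (a + 1) * Q (dat p n e y)
          * SM2.ker T (q + 1) (dat p n e y 0)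
        = T⁻¹ * ((1 - dat p n e y 0) ^ a * Q (dat p n e y) * SM2.ker T q (dat p n e y 0)
          - (1 - T) * ((1 - dat p n e y 0) ^ a * Q (dat p n e y)
            * SM2.ker T (q + 1) (dat p n e y 0))) := by
      intro y
      have h3 := ker_mul_sub hT' (dat0_mem hP e y) q
      rw [← h3]
      have := hT.1.ne'
      field_simp
      ring
    simp only [e1]
    rw [integral_const_mul, integral_sub j1 (j2.const_mul _), integral_const_mul]
    have e2 : (1 - T) ^ (((q + 1 : ℕ) : ℝ) - a - (m : ℝ) / 2)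
        = (1 - T) ^ ((q : ℝ) - a - (m : ℝ) / 2) * (1 - T) := by
      rw [← Real.rpow_add_one (by linarith [hT.2])]
      congr 1
      push_cast
      ring
    have e3 : ((q + 1 : ℕ) : ℝ) - ((a + 1 : ℕ) : ℝ) - (m : ℝ) / 2
        = (q : ℝ) - a - (m : ℝ) / 2 := by
      push_cast
      ring
    rw [e2, e3]
    ring

/-- the critical kernel integrals with a smaller exponent vanish -/
theorem ker_null (hD : EmbD μ m p n C S) (hm : 0 < m) (e : E) {q : ℕ} (hq : m < 2 * (q + 1)) :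
    Tendsto (fun T => (1 - T) ^ ((q : ℝ) + 1 - (m : ℝ) / 2)
        * ∫ y, SM2.ker T q (dat p n e y 0) ∂(μ.prod μ)) (𝓝[<] 1) (𝓝 0) := by
  have hP := hD.toTwoG.toPts
  have hα : (0 : ℝ) < (q : ℝ) + 1 - (m : ℝ) / 2 := by
    have : (m : ℝ) < 2 * ((q : ℝ) + 1) := by exact_mod_cast hq
    linarith
  have h1 := flux_q hD hm e (Q := fun _ => 1) continuous_const (q := q + 1) hq
  set L := kap m (q + 1) * (S * ∫ _, (1 : ℝ) ∂μ) with hL
  have h1' : Tendsto (fun T => (1 - T) ^ ((q : ℝ) + 1 - (m : ℝ) / 2)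
      * ∫ y, SM2.ker T (q + 1) (dat p n e y 0) ∂(μ.prod μ)) (𝓝[<] 1) (𝓝 L) := by
    simpa using h1
  have hz : Tendsto (fun T : ℝ => (1 - T) ^ ((q : ℝ) + 1 - (m : ℝ) / 2)) (𝓝[<] 1) (𝓝 0) := by
    have hc : ContinuousAt (fun x : ℝ => (1 - x) ^ ((q : ℝ) + 1 - (m : ℝ) / 2)) 1 := by
      have h2 : ContinuousAt (fun x : ℝ => x ^ ((q : ℝ) + 1 - (m : ℝ) / 2)) (1 - 1) :=
        Real.continuousAt_rpow_const _ _ (Or.inr hα.le)
      exact ContinuousAt.comp (f := fun x : ℝ => 1 - x) h2 (by fun_prop)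
    have h3 := hc.tendsto
    rw [sub_self, Real.zero_rpow hα.ne'] at h3
    exact h3.mono_left nhdsWithin_le_nhds
  have h0 : ∀ᶠ T in 𝓝[<] (1 : ℝ), T ∈ Ioo (0 : ℝ) 1 := Ioo_mem_nhdsLT one_pos
  rw [Metric.tendsto_nhds]
  intro ε hε
  set δ : ℝ := ε / (2 * (|L| + 1)) with hδ
  have hδ0 : 0 < δ := by positivity
  set K : ℝ := 2 * (δ ^ (q + 1))⁻¹ * (μ.prod μ).real univ with hK
  have hK0 : 0 ≤ K := by positivity
  have e1 : ∀ᶠ T in 𝓝[<] (1 : ℝ), (1 - T) ^ ((q : ℝ) + 1 - (m : ℝ) / 2)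
      * ∫ y, SM2.ker T (q + 1) (dat p n e y 0) ∂(μ.prod μ) < |L| + 1 :=
    h1'.eventually (gt_mem_nhds (by linarith [le_abs_self L]))
  have e2 : ∀ᶠ T in 𝓝[<] (1 : ℝ), (1 - T) ^ ((q : ℝ) + 1 - (m : ℝ) / 2) * K < ε / 2 := by
    have := hz.mul_const K
    rw [zero_mul] at this
    exact this.eventually (gt_mem_nhds (by linarith))
  filter_upwards [h0, e1, e2] with T hT h4 h5
  have hT' : T ∈ Ico (0 : ℝ) 1 := ⟨hT.1.le, hT.2⟩
  have hr : 0 < (1 - T) ^ ((q : ℝ) + 1 - (m : ℝ) / 2) :=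
    Real.rpow_pos_of_pos (by linarith [hT.2]) _
  have hk : ∀ r : ℕ, Integrable (fun y => SM2.ker T r (dat p n e y 0)) (μ.prod μ) := fun r => by
    have := int_ker_Q (Q := fun _ => 1) (μ := μ) hP e continuous_const hT' r
    simpa using this
  have hi0 : 0 ≤ ∫ y, SM2.ker T q (dat p n e y 0) ∂(μ.prod μ) :=
    integral_nonneg fun y => ker_nonneg hT' (dat0_mem hP e y) q
  have hle : ∫ y, SM2.ker T q (dat p n e y 0) ∂(μ.prod μ)
      ≤ δ * (∫ y, SM2.ker T (q + 1) (dat p n e y 0) ∂(μ.prod μ)) + K := by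
    have h6 : ∫ y, SM2.ker T q (dat p n e y 0) ∂(μ.prod μ)
        ≤ ∫ y, (δ * SM2.ker T (q + 1) (dat p n e y 0) + 2 * (δ ^ (q + 1))⁻¹) ∂(μ.prod μ) := by
      refine integral_mono (hk q) (((hk (q + 1)).const_mul δ).add (integrable_const _)) fun y => ?_
      simp only
      have hs := dat0_mem hP e y
      have h7 := SM2.one_sub_pos' hT' hs.2
      have h8 := one_sub_mul_le hT' hs
      have h9 := ker_nonneg hT' hs (q + 1)
      rw [← ker_mul_sub hT' hs q]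
      rcases le_total (1 - T * dat p n e y 0) δ with h10 | h10
      · have := mul_le_mul_of_nonneg_left h10 h9
        have h11 : 0 ≤ 2 * (δ ^ (q + 1))⁻¹ := by positivity
        linarith
      · have h12 : SM2.ker T (q + 1) (dat p n e y 0) ≤ (δ ^ (q + 1))⁻¹ := by
          unfold SM2.ker
          exact inv_anti₀ (by positivity) (pow_le_pow_left₀ hδ0.le h10 _)
        have h13 : SM2.ker T (q + 1) (dat p n e y 0) * (1 - T * dat p n e y 0)
            ≤ (δ ^ (q + 1))⁻¹ * 2 := mul_le_mul h12 h8 h7.le (by positivity)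
        have h14 : 0 ≤ δ * SM2.ker T (q + 1) (dat p n e y 0) := mul_nonneg hδ0.le h9
        linarith
    rw [integral_add ((hk (q + 1)).const_mul δ) (integrable_const _), integral_const_mul,
      integral_const, smul_eq_mul] at h6
    calc _ ≤ _ := h6
      _ = _ := by rw [hK]; ring
  rw [Real.dist_eq, sub_zero, abs_of_nonneg (mul_nonneg hr.le hi0)]
  calc (1 - T) ^ ((q : ℝ) + 1 - (m : ℝ) / 2) * ∫ y, SM2.ker T q (dat p n e y 0) ∂(μ.prod μ)
      ≤ (1 - T) ^ ((q : ℝ) + 1 - (m : ℝ) / 2)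
        * (δ * (∫ y, SM2.ker T (q + 1) (dat p n e y 0) ∂(μ.prod μ)) + K) :=
        mul_le_mul_of_nonneg_left hle hr.le
    _ = δ * ((1 - T) ^ ((q : ℝ) + 1 - (m : ℝ) / 2)
          * ∫ y, SM2.ker T (q + 1) (dat p n e y 0) ∂(μ.prod μ))
        + (1 - T) ^ ((q : ℝ) + 1 - (m : ℝ) / 2) * K := by ring
    _ < δ * (|L| + 1) + ε / 2 := by
      have := mul_lt_mul_of_pos_left h4 hδ0
      linarith
    _ = ε := by
      rw [hδ]
      have : |L| + 1 ≠ 0 := by positivity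
      field_simp
      ring

/-- the limit of the null terms -/
theorem null_aq (hD : EmbD μ m p n C S) (hm : 0 < m) (e : E) {Q : R9 → ℝ}
    {r q b : ℕ} {B : ℝ} (hB : ∀ y, |Q (dat p n e y)| ≤ B * (1 - dat p n e y 0) ^ r)
    (hq : q ≤ b + r) (hb : m < 2 * (b + 1)) {φ : ℝ → ℝ} {K : ℝ}
    (hφ : ∀ᶠ T in 𝓝[<] (1 : ℝ), |φ T| ≤ K * (1 - T) ^ ((b : ℝ) + 1 - (m : ℝ) / 2)) :
    Tendsto (fun T => φ T * ∫ y, Q (dat p n e y) * SM2.ker T q (dat p n e y 0) ∂(μ.prod μ))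
      (𝓝[<] 1) (𝓝 0) := by
  have hP := hD.toTwoG.toPts
  have h1 := ker_null hD hm e (q := b) hb
  have h2 := h1.const_mul (|K| * (|B| * 2 ^ r * 2 ^ (b + r - q)))
  rw [mul_zero] at h2
  refine squeeze_zero_norm' ?_ h2
  have h0 : ∀ᶠ T in 𝓝[<] (1 : ℝ), T ∈ Ioo (0 : ℝ) 1 := Ioo_mem_nhdsLT one_pos
  filter_upwards [h0, hφ] with T hT h3
  have hT' : T ∈ Ico (0 : ℝ) 1 := ⟨hT.1.le, hT.2⟩
  have hr : 0 < (1 - T) ^ ((b : ℝ) + 1 - (m : ℝ) / 2) :=
    Real.rpow_pos_of_pos (by linarith [hT.2]) _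
  have hk : ∀ r : ℕ, Integrable (fun y => SM2.ker T r (dat p n e y 0)) (μ.prod μ) := fun r => by
    have := int_ker_Q (Q := fun _ => 1) (μ := μ) hP e continuous_const hT' r
    simpa using this
  have h4 : |∫ y, Q (dat p n e y) * SM2.ker T q (dat p n e y 0) ∂(μ.prod μ)|
      ≤ |B| * 2 ^ r * 2 ^ (b + r - q) * ∫ y, SM2.ker T b (dat p n e y 0) ∂(μ.prod μ) := by
    rw [← integral_const_mul, ← Real.norm_eq_abs]
    refine norm_integral_le_of_norm_le ((hk b).const_mul _) (Eventually.of_forall fun y => ?_)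
    have hs := dat0_mem hP e y
    have h5 := ker_nonneg hT' hs q
    have h6 : 0 ≤ 1 - dat p n e y 0 := by linarith [hs.2]
    have h7 := one_sub_le hT' hs
    rw [Real.norm_eq_abs, abs_mul, abs_of_nonneg h5]
    calc |Q (dat p n e y)| * SM2.ker T q (dat p n e y 0)
        ≤ B * (1 - dat p n e y 0) ^ r * SM2.ker T q (dat p n e y 0) :=
          mul_le_mul_of_nonneg_right (hB y) h5
      _ ≤ |B| * (2 * (1 - T * dat p n e y 0)) ^ r * SM2.ker T q (dat p n e y 0) := by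
          refine mul_le_mul_of_nonneg_right ?_ h5
          exact mul_le_mul (le_abs_self B) (pow_le_pow_left₀ h6 h7 r) (pow_nonneg h6 r)
            (abs_nonneg B)
      _ = |B| * 2 ^ r * ((1 - T * dat p n e y 0) ^ r * SM2.ker T q (dat p n e y 0)) := by
          rw [mul_pow]
          ring
      _ ≤ |B| * 2 ^ r * (2 ^ (b + r - q) * SM2.ker T b (dat p n e y 0)) :=
          mul_le_mul_of_nonneg_left (ker_pow_le hT' hs hq) (by positivity)
      _ = _ := by ring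
  rw [Real.norm_eq_abs, abs_mul]
  calc |φ T| * |∫ y, Q (dat p n e y) * SM2.ker T q (dat p n e y 0) ∂(μ.prod μ)|
      ≤ (|K| * (1 - T) ^ ((b : ℝ) + 1 - (m : ℝ) / 2))
        * (|B| * 2 ^ r * 2 ^ (b + r - q) * ∫ y, SM2.ker T b (dat p n e y 0) ∂(μ.prod μ)) := by
        refine mul_le_mul (h3.trans (mul_le_mul_of_nonneg_right (le_abs_self K) hr.le)) h4
          (abs_nonneg _) (by positivity)
    _ = _ := by ring

end

end Vale.Agent.P224.SO
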