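import Vale.Agent.P224.SO.LawS

/-!
The law of the two point method with a list of kernels of integer exponents: the functional, its
derivative, its limits.
-/

namespace Vale.Agent.P224.SO

open MeasureTheory Set Filter Function
open Vale.Agent.P224.UE Vale.Agent.P224.UG
open scoped Topology RealInnerProductSpace

set_option linter.unusedSectionVars false

/-- a value term: the coefficient, its derivative, the exponent of the kernel, the polynomial -/
structure VTm where
  /-- the coefficient -/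
  φ : ℝ → ℝ
  /-- the derivative of the coefficient -/
  φ' : ℝ → ℝ
  /-- the exponent of the kernel -/
  q : ℕ
  /-- the function of the pair data -/
  Q : R9 → ℝ

/-- the integrand of a value term -/
noncomputable def VTm.g (t : VTm) (T : ℝ) (d : R9) : ℝ := t.φ T * (t.Q d * SM2.ker T t.q (d 0))

/-- the `T` derivative of the integrand of a value term -/
noncomputable def VTm.g' (t : VTm) (T : ℝ) (d : R9) : ℝ :=
  t.Q d * (t.φ' T * SM2.ker T t.q (d 0) + t.φ T * (t.q * d 0 * SM2.ker T (t.q + 1) (d 0)))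

/-- the integrand of a list of value terms -/
noncomputable def gS (l : List VTm) (T : ℝ) (d : R9) : ℝ := (l.map fun t => t.g T d).sum

/-- the `T` derivative of the integrand of a list of value terms -/
noncomputable def gS' (l : List VTm) (T : ℝ) (d : R9) : ℝ := (l.map fun t => t.g' T d).sum

/-- the regularity of a value term -/
structure VTm.Reg (t : VTm) : Prop where
  hQ : Continuous t.Q
  hm : Measurable t.φ
  hm' : Measurable t.φ'
  hc : ContinuousOn t.φ (Ico 0 1)
  hc' : ContinuousOn t.φ' (Ioo 0 1)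
  hd : ∀ T ∈ Ioo (0 : ℝ) 1, HasDerivAt t.φ (t.φ' T) T

section

lemma VTm.Reg.measurable_g {t : VTm} (h : t.Reg) (T : ℝ) : Measurable (t.g T) := by
  have h1 := h.hQ.measurable
  have h2 : Measurable fun d : R9 => SM2.ker T t.q (d 0) :=
    (SM2.measurable_ker T t.q).comp (measurable_pi_apply 0)
  unfold VTm.g
  exact (h1.mul h2).const_mul _

lemma VTm.Reg.measurable_g' {t : VTm} (h : t.Reg) (T : ℝ) : Measurable (t.g' T) := by
  have h1 := h.hQ.measurable
  have h2 : Measurable fun d : R9 => SM2.ker T t.q (d 0) :=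
    (SM2.measurable_ker T t.q).comp (measurable_pi_apply 0)
  have h3 : Measurable fun d : R9 => SM2.ker T (t.q + 1) (d 0) :=
    (SM2.measurable_ker T (t.q + 1)).comp (measurable_pi_apply 0)
  have h4 : Measurable fun d : R9 => d 0 := measurable_pi_apply 0
  unfold VTm.g'
  exact h1.mul ((h2.const_mul _).add (((h4.const_mul _).mul h3).const_mul _))

lemma VTm.Reg.contOn_g {t : VTm} (h : t.Reg) (B : ℝ) :
    ContinuousOn (uncurry t.g) (Ico 0 1 ×ˢ KE B) := by
  have h1 : ContinuousOn (fun z : ℝ × R9 => t.φ z.1) (Ico 0 1 ×ˢ KE B) :=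
    h.hc.comp continuous_fst.continuousOn fun z hz => hz.1
  have h2 : Continuous fun z : ℝ × R9 => t.Q z.2 := h.hQ.comp continuous_snd
  exact h1.mul (h2.continuousOn.mul (contOn_kerE2 t.q B))

lemma VTm.Reg.contOn_g' {t : VTm} (h : t.Reg) (B : ℝ) :
    ContinuousOn (uncurry t.g') (Ioo 0 1 ×ˢ KE B) := by
  have hsub : (Ioo (0 : ℝ) 1 ×ˢ KE B) ⊆ Ico 0 1 ×ˢ KE B :=
    prod_mono Ioo_subset_Ico_self subset_rfl
  have h1 : ContinuousOn (fun z : ℝ × R9 => t.φ z.1) (Ioo 0 1 ×ˢ KE B) :=
    (h.hc.mono Ioo_subset_Ico_self).comp continuous_fst.continuousOn fun z hz => hz.1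
  have h1' : ContinuousOn (fun z : ℝ × R9 => t.φ' z.1) (Ioo 0 1 ×ˢ KE B) :=
    h.hc'.comp continuous_fst.continuousOn fun z hz => hz.1
  have h2 : Continuous fun z : ℝ × R9 => t.Q z.2 := h.hQ.comp continuous_snd
  have h3 := (contOn_kerE2 t.q B).mono hsub
  have h4 := (contOn_kerE2 (t.q + 1) B).mono hsub
  have h5 : Continuous fun z : ℝ × R9 => (t.q : ℝ) * z.2 0 := by fun_prop
  exact h2.continuousOn.mul ((h1'.mul h3).add (h1.mul (h5.continuousOn.mul h4)))

lemma hasDerivAt_kerT {T s : ℝ} (hT : T ∈ Ico (0 : ℝ) 1) (hs : s ≤ 1) (q : ℕ) :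
    HasDerivAt (fun T => SM2.ker T q s) (q * s * SM2.ker T (q + 1) s) T := by
  refine (SM2.hasDerivAt_ker_T (SM2.one_sub_pos' hT hs).ne').congr_deriv ?_
  ring

lemma VTm.Reg.hasDerivAt_g {t : VTm} (h : t.Reg) {B T : ℝ} (hT : T ∈ Ioo (0 : ℝ) 1) {d : R9}
    (hd : d ∈ KE B) : HasDerivAt (fun T => t.g T d) (t.g' T d) T := by
  have h1 := h.hd T hT
  have h2 := hasDerivAt_kerT (T := T) ⟨hT.1.le, hT.2⟩ hd.2.2 t.q
  have h3 := h1.mul (h2.const_mul (t.Q d))
  refine h3.congr_deriv ?_
  unfold VTm.g'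
  ring

lemma measurable_gS {l : List VTm} (h : ∀ t ∈ l, t.Reg) (T : ℝ) : Measurable (gS l T) := by
  induction l with
  | nil => exact measurable_const
  | cons t l ih =>
    have e : gS (t :: l) T = fun d => t.g T d + gS l T d := by
      funext d
      simp [gS]
    rw [e]
    exact ((h t (by simp)).measurable_g T).add (ih fun u hu => h u (by simp [hu]))

lemma measurable_gS' {l : List VTm} (h : ∀ t ∈ l, t.Reg) (T : ℝ) : Measurable (gS' l T) := by
  induction l with
  | nil => exact measurable_const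
  | cons t l ih =>
    have e : gS' (t :: l) T = fun d => t.g' T d + gS' l T d := by
      funext d
      simp [gS']
    rw [e]
    exact ((h t (by simp)).measurable_g' T).add (ih fun u hu => h u (by simp [hu]))

lemma contOn_gS {l : List VTm} (h : ∀ t ∈ l, t.Reg) (B : ℝ) :
    ContinuousOn (uncurry (gS l)) (Ico 0 1 ×ˢ KE B) := by
  induction l with
  | nil => exact continuousOn_const
  | cons t l ih =>
    have e : uncurry (gS (t :: l)) = fun z => uncurry t.g z + uncurry (gS l) z := by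
      funext z
      simp [gS, uncurry]
    rw [e]
    exact ((h t (by simp)).contOn_g B).add (ih fun u hu => h u (by simp [hu]))

lemma contOn_gS' {l : List VTm} (h : ∀ t ∈ l, t.Reg) (B : ℝ) :
    ContinuousOn (uncurry (gS' l)) (Ioo 0 1 ×ˢ KE B) := by
  induction l with
  | nil => exact continuousOn_const
  | cons t l ih =>
    have e : uncurry (gS' (t :: l)) = fun z => uncurry t.g' z + uncurry (gS' l) z := by
      funext z
      simp [gS', uncurry]
    rw [e]
    exact ((h t (by simp)).contOn_g' B).add (ih fun u hu => h u (by simp [hu]))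

lemma hasDerivAt_gS {l : List VTm} (h : ∀ t ∈ l, t.Reg) {B T : ℝ} (hT : T ∈ Ioo (0 : ℝ) 1)
    {d : R9} (hd : d ∈ KE B) : HasDerivAt (fun T => gS l T d) (gS' l T d) T := by
  induction l with
  | nil => exact hasDerivAt_const T (0 : ℝ)
  | cons t l ih =>
    have e : (fun T => gS (t :: l) T d) = fun T => t.g T d + gS l T d := by
      funext T
      simp [gS]
    have e' : gS' (t :: l) T d = t.g' T d + gS' l T d := by simp [gS']
    rw [e, e']
    exact ((h t (by simp)).hasDerivAt_g hT hd).add (ih fun u hu => h u (by simp [hu]))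

end

section

variable {X : Type*} [MeasurableSpace X]
  {E : Type*} [NormedAddCommGroup E]
  [InnerProductSpace ℝ E] [MeasurableSpace E] [BorelSpace E] [SecondCountableTopology E]
  {μ : Measure X} [IsFiniteMeasure μ] {m : ℕ} {p n : X → E} {C S : ℝ}

lemma VTm.Reg.integrable {t : VTm} (h : t.Reg) (hP : FV.Pts p n) (e : E) {T : ℝ}
    (hT : T ∈ Ico (0 : ℝ) 1) : Integrable (fun y => t.g T (dat p n e y)) (μ.prod μ) :=
  (int_ker_Q hP e h.hQ hT t.q).const_mul _

lemma integrable_gS {l : List VTm} (h : ∀ t ∈ l, t.Reg) (hP : FV.Pts p n) (e : E) {T : ℝ}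
    (hT : T ∈ Ico (0 : ℝ) 1) : Integrable (fun y => gS l T (dat p n e y)) (μ.prod μ) := by
  induction l with
  | nil => exact integrable_zero _ _ _
  | cons t l ih =>
    have e' : (fun y => gS (t :: l) T (dat p n e y))
        = fun y => t.g T (dat p n e y) + gS l T (dat p n e y) := by
      funext y
      simp [gS]
    rw [e']
    exact ((h t (by simp)).integrable hP e hT).add (ih fun u hu => h u (by simp [hu]))

lemma integral_gS {l : List VTm} (h : ∀ t ∈ l, t.Reg) (hP : FV.Pts p n) (e : E) {T : ℝ}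
    (hT : T ∈ Ico (0 : ℝ) 1) : ∫ y, gS l T (dat p n e y) ∂(μ.prod μ)
      = (l.map fun t => t.φ T * ∫ y, t.Q (dat p n e y) * SM2.ker T t.q (dat p n e y 0)
        ∂(μ.prod μ)).sum := by
  induction l with
  | nil => simp [gS]
  | cons t l ih =>
    have e' : (fun y => gS (t :: l) T (dat p n e y))
        = fun y => t.g T (dat p n e y) + gS l T (dat p n e y) := by
      funext y
      simp [gS]
    rw [e', integral_add ((h t (by simp)).integrable hP e hT)
      (integrable_gS (fun u hu => h u (by simp [hu])) hP e hT),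
      ih fun u hu => h u (by simp [hu]), List.map_cons, List.sum_cons]
    congr 1
    exact integral_const_mul _ _

/-- the law of the two point method: a list of value terms with limits at `T = 1`, and null
functions which dominate the derivative -/
theorem law_S (h : TwoE μ m p n) (e : E) (l : List (VTm × ℝ)) (hr : ∀ t ∈ l, t.1.Reg)
    (h1 : ∀ t ∈ l, Tendsto (fun T => t.1.φ T * ∫ y, t.1.Q (dat p n e y)
      * SM2.ker T t.1.q (dat p n e y 0) ∂(μ.prod μ)) (𝓝[<] 1) (𝓝 t.2))
    (hR : ∀ T ∈ Ioo (0 : ℝ) 1, ∃ R : R9 → ℝ, Null μ p n e R ∧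
      ∀ x N y w : E, ‖x‖ = 1 → ‖N‖ = 1 → ‖y‖ = 1 → ‖w‖ = 1 → ⟪x, N⟫ = 0 → ⟪y, w⟫ = 0 →
        gS' (l.map Prod.fst) T (dv x N y w e) ≤ R (dv x N y w e)) :
    (l.map fun t => t.2).sum
      ≤ ∫ y, (l.map fun t => t.1.φ 0 * t.1.Q (dat p n e y)).sum ∂(μ.prod μ) := by
  have hr' : ∀ t ∈ l.map Prod.fst, t.Reg := by
    intro t ht
    obtain ⟨u, hu, rfl⟩ := List.mem_map.1 ht
    exact hr u hu
  have hP := h.toPts
  have hanti := h.antitone e (g := gS (l.map Prod.fst)) (g' := gS' (l.map Prod.fst))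
    (measurable_gS hr') (measurable_gS' hr') (contOn_gS hr' _) (contOn_gS' hr' _)
    (fun T hT k hk => hasDerivAt_gS hr' hT hk) hR
  have e0 : ∀ y, (l.map fun t => t.1.φ 0 * t.1.Q (dat p n e y)).sum
      = gS (l.map Prod.fst) 0 (dat p n e y) := by
    intro y
    unfold gS VTm.g
    rw [List.map_map]
    congr 1
    refine List.map_congr_left fun t _ => ?_
    simp [SM2.ker]
  simp only [e0]
  have hlim : Tendsto (fun T => ∫ y, gS (l.map Prod.fst) T (dat p n e y) ∂(μ.prod μ)) (𝓝[<] 1)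
      (𝓝 (l.map fun t => t.2).sum) := by
    have h2 : Tendsto (fun T => (l.map fun t => t.1.φ T * ∫ y, t.1.Q (dat p n e y)
        * SM2.ker T t.1.q (dat p n e y 0) ∂(μ.prod μ)).sum) (𝓝[<] 1)
        (𝓝 (l.map fun t => t.2).sum) := tendsto_list_sum l h1
    refine h2.congr' ?_
    have h0 : ∀ᶠ T in 𝓝[<] (1 : ℝ), T ∈ Ioo (0 : ℝ) 1 := Ioo_mem_nhdsLT one_pos
    filter_upwards [h0] with T hT
    rw [integral_gS hr' hP e ⟨hT.1.le, hT.2⟩, List.map_map]
    rfl
  refine le_of_tendsto hlim ?_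
  have h0 : ∀ᶠ T in 𝓝[<] (1 : ℝ), T ∈ Ioo (0 : ℝ) 1 := Ioo_mem_nhdsLT one_pos
  filter_upwards [h0] with T hT
  exact hanti ⟨le_rfl, one_pos⟩ ⟨hT.1.le, hT.2⟩ hT.1.le

end

end Vale.Agent.P224.SO
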