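import Vale.Agent.P224.MathlibUsed

/-!
Sums over points sorted into three zones.
-/

namespace Vale.Agent.P224.SO

open Finset

section

variable {n : ℕ} {d z : Fin n → ℝ} {Z : ℝ}

/-- the points on the right -/
noncomputable def Rt (Z : ℝ) (z : Fin n → ℝ) : Finset (Fin n) := univ.filter fun i => Z ≤ z i

/-- the points on the left -/
noncomputable def Lt (Z : ℝ) (z : Fin n → ℝ) : Finset (Fin n) := univ.filter fun i => z i ≤ -Z

lemma mem_Rt {i : Fin n} : i ∈ Rt Z z ↔ Z ≤ z i := by simp [Rt]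

lemma mem_Lt {i : Fin n} : i ∈ Lt Z z ↔ z i ≤ -Z := by simp [Lt]

lemma Rt_neg : Rt Z (fun i => -z i) = Lt Z z := by
  ext i
  rw [mem_Rt, mem_Lt]
  constructor <;> intro h <;> linarith

lemma Lt_neg : Lt Z (fun i => -z i) = Rt Z z := by
  ext i
  rw [mem_Rt, mem_Lt]
  constructor <;> intro h <;> linarith

lemma disj (hZ : 0 < Z) : Disjoint (Rt Z z) (Lt Z z) := by
  rw [disjoint_left]
  intro i hi hj
  rw [mem_Rt] at hi
  rw [mem_Lt] at hj
  linarith

lemma card_le (hZ : 0 < Z) : (Rt Z z).card + (Lt Z z).card ≤ n := by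
  rw [← card_union_of_disjoint (disj hZ)]
  exact (card_le_univ _).trans (by simp)

/-- the lower bound from three levels -/
lemma sum_lev (hZ : 0 < Z) (F : Fin n → ℝ) {ap am an : ℝ}
    (hp : ∀ i, Z ≤ z i → ap ≤ F i)
    (hn : ∀ i, z i ≤ -Z → an ≤ F i)
    (hm : ∀ i, z i < Z → -Z < z i → am ≤ F i) :
    ((Rt Z z).card : ℝ) * ap + ((Lt Z z).card : ℝ) * an
      + (n - ((Rt Z z).card : ℝ) - ((Lt Z z).card : ℝ)) * am ≤ ∑ i, F i := by
  have e : ∀ i, (if Z ≤ z i then ap - am else 0)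
      + (if z i ≤ -Z then an - am else 0) + am ≤ F i := by
    intro i
    split_ifs with h1 h2 h3
    · exfalso; linarith
    · have := hp i h1; linarith
    · have := hn i h3; linarith
    · have := hm i (not_le.1 h1) (not_le.1 h3); linarith
  have e2 := sum_le_sum (s := (univ : Finset (Fin n))) fun i _ => e i
  simp only [sum_add_distrib, sum_const, card_univ, Fintype.card_fin, ← sum_filter,
    nsmul_eq_mul] at e2
  unfold Rt Lt
  linarith

/-- the unique point in the middle -/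
lemma exists_mid {k l : ℕ} (hZ : 0 < Z) (hn : n = k + l + 1) (hk : (Rt Z z).card = k)
    (hl : (Lt Z z).card = l) : ∃ i₀, ∀ i, z i < Z → -Z < z i → z i = z i₀ := by
  have hu : (univ \ (Rt Z z ∪ Lt Z z)).card = 1 := by
    rw [card_sdiff_of_subset (subset_univ _), card_union_of_disjoint (disj hZ), hk, hl,
      card_univ, Fintype.card_fin]
    omega
  obtain ⟨i₀, hi₀⟩ := card_eq_one.1 hu
  refine ⟨i₀, fun i a b => ?_⟩
  have : i ∈ univ \ (Rt Z z ∪ Lt Z z) := by
    rw [mem_sdiff, mem_union, mem_Rt, mem_Lt]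
    refine ⟨mem_univ _, ?_⟩
    rintro (c | c) <;> linarith
  rw [hi₀, mem_singleton] at this
  rw [this]

lemma sum_neg1 (f : Fin n → ℝ) : ∑ i, -f i = -∑ i, f i := by simp

end

end Vale.Agent.P224.SO
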