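import Vale.Agent.P224.SO.RgN
import Vale.Agent.P224.SO.Rc13

/-!
Dimension 13: the stable scalar inequalities near the Clifford configuration.
-/

namespace Vale.Agent.P224.SO.N13z

open Finset Vale.Agent.P224.SO Vale.Agent.P224.SO.Rg Vale.Agent.P224.SO.M13

/-- the additional terms -/
noncomputable def PT (d x : ℝ) : ℝ :=
  4 * (d - d ^ 2 - 12 * x ^ 2)
    + (11 / 50) * ((1 - 15 * d - 2 * x) ^ 2 + (169 / 6) * (d - d ^ 2 - 12 * x ^ 2))

lemma PT_nonneg {d x : ℝ} (h : 12 * x ^ 2 ≤ d - d ^ 2) : 0 ≤ PT d x := by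
  unfold PT
  linarith [sq_nonneg (1 - 15 * d - 2 * x)]

lemma nT0 (d x : ℝ) (h : 12 * x ^ 2 ≤ d - d ^ 2) (hz : (-(77 / 1250)) ≤ x) :
    (-(407 / 338)) + (4 / 25) ≤ Q 96 168 33 (515 / 338) (-(1881 / 169)) 0 d x + PT d x := by
  unfold Q PT
  linarith [mul_nonneg (sub_nonneg.2 hz) (lin_q (q := 12) (by norm_num) h (6313 / 10000) (1393 / 10000)),
    sq_nonneg (d + (-(32651262 / 718376875)) * x + (-(7682180950531 / 151757114843750))),
    sq_nonneg (x + (598631957887599901 / 10620103764656360000))]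

lemma nTR1 (d x : ℝ) (h : 12 * x ^ 2 ≤ d - d ^ 2) (hz : (1 / 50) ≤ x) :
    (-(15849 / 250000)) ≤ Q 96 168 33 (2047 / 1000) (-(4671 / 500)) 0 d x + PT d x := by
  unfold Q PT
  linarith [mul_nonneg (sub_nonneg.2 hz) (lin_q (q := 12) (by norm_num) h (127 / 2000) (44 / 625)),
    sq_nonneg (d + (-(249913377 / 440063200)) * x + (-(517391623 / 22003160000))),
    sq_nonneg (x + (-(38240057720345819 / 543330437235345250)))]

lemma nTL1 (d x : ℝ) (h : 12 * x ^ 2 ≤ d - d ^ 2) :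
    (-(1106967 / 1000000)) ≤ Q 96 168 33 (2047 / 1000) (-(4671 / 500)) 0 d x + PT d x := by
  unfold Q PT
  linarith [sq_nonneg (d + (-(297000 / 4896373)) * x + (-(790783 / 9792746))),
    sq_nonneg (x + (84010891565 / 1097490041458))]

lemma nTM1 (d x : ℝ) (h : 12 * x ^ 2 ≤ d - d ^ 2) (hz : (1 / 50) ≤ x) (hz' : x ≤ (431 / 10000)) :
    (66631 / 500000) ≤ Q 96 168 33 (2047 / 1000) (-(4671 / 500)) 0 d x + PT d x := by
  unfold Q PT
  linarith [mul_nonneg (sub_nonneg.2 hz) (lin_q (q := 12) (by norm_num) h (57 / 2500) (431 / 10000)),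
    mul_nonneg (sub_nonneg.2 hz') (lin_q (q := 12) (by norm_num) h (221 / 10000) (17 / 400)),
    mul_nonneg (sub_nonneg.2 hz) (sub_nonneg.2 hz'),
    sq_nonneg (d + (-(84945038673 / 210213440000)) * x + (-(11342441060137 / 2102134400000000))),
    sq_nonneg (x + (-(11697380434213302207306067 / 271400795503075754663570000)))]

lemma nTR2 (d x : ℝ) (h : 12 * x ^ 2 ≤ d - d ^ 2) (hz : (431 / 10000) ≤ x) :
    (48517 / 1000000) + 12 * ((46 / 49) * d - (12 / 7) * x + (3 / 49)) ≤ Q 96 168 33 (71 / 40) (-(10719 / 1000)) 0 d x + PT d x := by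
  unfold Q PT
  linarith [mul_nonneg (sub_nonneg.2 hz) (lin_q (q := 12) (by norm_num) h (153 / 2500) (173 / 2500)),
    sq_nonneg (d + (-(3578877348 / 4060137865)) * x + (-(88764803147 / 497366888462500))),
    sq_nonneg (x + (-(3403891437029927736351 / 49310962764925100785000)))]

lemma nTL2 (d x : ℝ) (h : 12 * x ^ 2 ≤ d - d ^ 2) (hz' : x ≤ (-(77 / 1250))) :
    (-(595931 / 500000)) + 12 * (2 * ((11 / 12) * d + 2 * x + (1 / 12))) ≤ Q 96 168 33 (71 / 40) (-(10719 / 1000)) 0 d x + PT d x := by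
  unfold Q PT
  linarith [mul_nonneg (sub_nonneg.2 hz') (lin_q (q := 12) (by norm_num) h (773 / 10000) (-(771 / 10000))),
    sq_nonneg (d + (236038006125 / 507387641711) * x + (-(105038023391 / 2536938208555))),
    sq_nonneg (x + (167036860272692802983 / 2365957264753808166688))]

lemma nTM2 (d x : ℝ) (h : 12 * x ^ 2 ≤ d - d ^ 2) (hz : (431 / 10000) ≤ x) (hz' : x ≤ (109 / 2500)) :
    (12469 / 200000) + 12 * ((46 / 49) * d - (12 / 7) * x + (3 / 49)) ≤ Q 96 168 33 (71 / 40) (-(10719 / 1000)) 0 d x + PT d x := by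
  unfold Q PT
  linarith [mul_nonneg (sub_nonneg.2 hz) (lin_q (q := 12) (by norm_num) h (221 / 10000) (53 / 1250)),
    mul_nonneg (sub_nonneg.2 hz) (sub_nonneg.2 hz'),
    sq_nonneg (d + (-(48362949180000000000000 / 40591000000000002288103)) * x + (52909238746483887882953 / 3977918000000000224234094)),
    sq_nonneg (x + (-(6412355084413805557113720305234030750000000 / 148758275672684176531131690335396647907370263)))]

lemma nTRB (d x : ℝ) (h : 12 * x ^ 2 ≤ d - d ^ 2) (hz : (109 / 2500) ≤ x) :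
    (495 / 5408) + 12 * ((46 / 49) * d - (12 / 7) * x + (3 / 49)) ≤ Q 96 168 33 (515 / 338) (-(1881 / 169)) 0 d x + PT d x := by
  unfold Q PT
  linarith [mul_nonneg (sub_nonneg.2 hz) (lin_q (q := 12) (by norm_num) h (3 / 52) (7 / 104)),
    sq_nonneg ((d - (3 / 52)) + (-(279030500 / 323253719)) * (x - (7 / 104))), sq_nonneg (x - (7 / 104))]

lemma nTLB (d x : ℝ) (h : 12 * x ^ 2 ≤ d - d ^ 2) (hz' : x ≤ (-(77 / 1250))) :
    (-(407 / 338)) + 12 * (2 * ((11 / 12) * d + 2 * x + (1 / 12))) ≤ Q 96 168 33 (515 / 338) (-(1881 / 169)) 0 d x + PT d x := by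
  unfold Q PT
  linarith [mul_nonneg (sub_nonneg.2 hz') (lin_q (q := 12) (by norm_num) h (1 / 13) (-(1 / 13))),
    sq_nonneg ((d - (1 / 13)) + (5674083415 / 11332149443) * (x - (-(1 / 13)))), sq_nonneg (x - (-(1 / 13)))]

theorem nearT0 {d x : Fin 15 → ℝ} (h : ∀ i, 12 * x i ^ 2 ≤ d i - d i ^ 2)
    (h1 : ∑ i, d i = 1) (h0 : ∑ i, x i = 0) (hc : (Rt (1 / 50) x).card = 8)
    (hS : 96 * ∑ i, d i ^ 2 - 168 * ∑ i, x i ^ 2 - 33 * ∑ i, d i * x i + ∑ i, PT (d i) (x i) < -(321 / 52) + (4 / 25)) :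
    -(321 / 52) + 12 * ∑ i, (if (1 / 50) ≤ x i then (46 / 49) * d i - (12 / 7) * x i + (3 / 49)
        else 2 * ((11 / 12) * d i + 2 * x i + (1 / 12)))
      ≤ 96 * ∑ i, d i ^ 2 - 168 * ∑ i, x i ^ 2 - 33 * ∑ i, d i * x i + ∑ i, PT (d i) (x i) := by
  have hZL := left_le (K := 7) (a := (515 / 338)) (b := (-(1881 / 169))) (ap := (495 / 5408)) (an := (-(407 / 338))) (ZL := (-(77 / 1250))) (P := PT)
    (A := 96) (B := 168) (c := 33) (T := -(321 / 52)) (t := (4 / 25)) (by norm_num) hc h h1 h0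
    (fun d x h hz => le_trans (A1 d x h (by linarith)) (le_add_of_nonneg_right (PT_nonneg h)))
    (fun d x h => le_trans (A2 d x h) (le_add_of_nonneg_right (PT_nonneg h)))
    nT0 (by norm_num) hS
  have hne : (Rt (1 / 50) x).Nonempty := by
    rw [← card_pos, hc]
    norm_num
  obtain ⟨i₀, hi₀, hmin⟩ := exists_min_image (Rt (1 / 50) x) x hne

  rcases le_total (x i₀) (431 / 10000) with hy | hy
  · have := stepS (K := 7) (a := (2047 / 1000)) (b := (-(4671 / 500))) (r := (-(15849 / 250000))) (l := (-(1106967 / 1000000))) (μ := (66631 / 500000)) (Z1 := (1 / 50)) (Z2 := (431 / 10000))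
      (A := 96) (B := 168) (c := 33) (T := -(321 / 52)) (t := (4 / 25)) (P := PT) (by norm_num) hc h h1 h0 hi₀ hmin
      (mem_Rt.1 hi₀) hy nTR1 nTL1 nTM1 (by norm_num)
    linarith

  rcases le_total (x i₀) (109 / 2500) with hy' | hy'
  · exact stepG (K := 7) (κ := 12) (w := 2) (a2 := (46 / 49)) (b2 := (12 / 7)) (c2 := (3 / 49)) (a1 := (11 / 12)) (b1 := 2)
      (c1 := (1 / 12)) (a := (71 / 40)) (b := (-(10719 / 1000))) (r := (48517 / 1000000)) (l := (-(595931 / 500000))) (μ := (12469 / 200000)) (Z1 := (431 / 10000)) (Z2 := (109 / 2500)) (ZL := (-(77 / 1250)))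
      (A := 96) (B := 168) (c := 33) (T := -(321 / 52)) (P := PT) (by norm_num) hc h h1 h0 hi₀ hmin
      hy hy' hZL nTR2 nTL2 nTM2 (by norm_num)
  clear hy; have hy := hy'; clear hy'

  exact stepB (K := 7) (κ := 12) (w := 2) (a2 := (46 / 49)) (b2 := (12 / 7)) (c2 := (3 / 49)) (a1 := (11 / 12)) (b1 := 2)
    (c1 := (1 / 12)) (a := (515 / 338)) (b := (-(1881 / 169))) (ap := (495 / 5408)) (an := (-(407 / 338))) (Z1 := (109 / 2500)) (ZL := (-(77 / 1250)))
    (A := 96) (B := 168) (c := 33) (T := -(321 / 52)) (P := PT) (by norm_num) hc h h1 h0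
    (fun i hi => hy.trans (hmin i hi)) hZL nTRB nTLB (by norm_num)

theorem nearTg {lu lv : ℝ} (hu : 4 ≤ lu) (hv : (11 / 50) ≤ lv) {d x : Fin 15 → ℝ}
    (h : ∀ i, 12 * x i ^ 2 ≤ d i - d i ^ 2)
    (h1 : ∑ i, d i = 1) (h0 : ∑ i, x i = 0) (hc : (Rt (1 / 50) x).card = 8) {w : ℝ} (hw : w ≤ 2)
    (hS : (321 / 52) + (96 * ∑ i, d i ^ 2 - 168 * ∑ i, x i ^ 2 - 33 * ∑ i, d i * x i)
      + ∑ i, (lu * (d i - d i ^ 2 - 12 * x i ^ 2) + lv * ((1 - 15 * d i - 2 * x i) ^ 2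
        + (169 / 6) * (d i - d i ^ 2 - 12 * x i ^ 2))) < (4 / 25)) :
    12 * ∑ i, (if (1 / 50) ≤ x i then (46 / 49) * d i - (12 / 7) * x i + (3 / 49)
        else w * ((11 / 12) * d i + 2 * x i + (1 / 12)))
      ≤ (321 / 52) + (96 * ∑ i, d i ^ 2 - 168 * ∑ i, x i ^ 2 - 33 * ∑ i, d i * x i)
      + ∑ i, (lu * (d i - d i ^ 2 - 12 * x i ^ 2) + lv * ((1 - 15 * d i - 2 * x i) ^ 2
        + (169 / 6) * (d i - d i ^ 2 - 12 * x i ^ 2))) := by
  have e1 : ∑ i, PT (d i) (x i) ≤ ∑ i, (lu * (d i - d i ^ 2 - 12 * x i ^ 2)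
      + lv * ((1 - 15 * d i - 2 * x i) ^ 2
        + (169 / 6) * (d i - d i ^ 2 - 12 * x i ^ 2))) := by
    refine sum_le_sum fun i _ => ?_
    have h2 : 0 ≤ d i - d i ^ 2 - 12 * x i ^ 2 := by have := h i; linarith
    have h3 : 0 ≤ (1 - 15 * d i - 2 * x i) ^ 2
        + (169 / 6) * (d i - d i ^ 2 - 12 * x i ^ 2) := by positivity
    have h4 := mul_le_mul_of_nonneg_right hu h2
    have h5 := mul_le_mul_of_nonneg_right hv h3
    unfold PT
    linarith
  have e2 : 12 * ∑ i, (if (1 / 50) ≤ x i then (46 / 49) * d i - (12 / 7) * x i + (3 / 49)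
        else w * ((11 / 12) * d i + 2 * x i + (1 / 12)))
      ≤ 12 * ∑ i, (if (1 / 50) ≤ x i then (46 / 49) * d i - (12 / 7) * x i + (3 / 49)
        else 2 * ((11 / 12) * d i + 2 * x i + (1 / 12))) := by
    refine mul_le_mul_of_nonneg_left (sum_le_sum fun i _ => ?_) (by norm_num)
    split_ifs with hz
    · exact le_refl _
    · refine mul_le_mul_of_nonneg_right hw ?_
      have := lin_q (q := 12) (by norm_num) (h i) (1 / 13) (-(1 / 13))
      linarith
  have e3 := nearT0 h h1 h0 hc (by linarith)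
  linarith

/-- the additional terms -/
noncomputable def PS (d x : ℝ) : ℝ :=
  4 * (d - d ^ 2 - 12 * x ^ 2)

lemma PS_nonneg {d x : ℝ} (h : 12 * x ^ 2 ≤ d - d ^ 2) : 0 ≤ PS d x := by
  unfold PS
  linarith

lemma nS0 (d x : ℝ) (h : 12 * x ^ 2 ≤ d - d ^ 2) (hz : (-(8 / 125)) ≤ x) :
    (-(407 / 338)) + (9 / 100) ≤ Q 96 168 33 (515 / 338) (-(1881 / 169)) 0 d x + PS d x := by
  unfold Q PS
  linarith [mul_nonneg (sub_nonneg.2 hz) (lin_q (q := 12) (by norm_num) h (67 / 80) (213 / 2000)),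
    sq_nonneg (d + (-(1372317 / 12315520)) * x + (-(13424371011 / 227644690000))),
    sq_nonneg (x + (387002695120772452 / 6049054760570537625))]

lemma nSR1 (d x : ℝ) (h : 12 * x ^ 2 ≤ d - d ^ 2) (hz : (1 / 50) ≤ x) :
    (-(1241 / 100000)) ≤ Q 96 168 33 (359 / 200) (-(9867 / 1000)) 0 d x + PS d x := by
  unfold Q PS
  linarith [mul_nonneg (sub_nonneg.2 hz) (lin_q (q := 12) (by norm_num) h (161 / 2500) (709 / 10000)),
    sq_nonneg (d + (-(116470068 / 120619175)) * x + (24271943 / 6030958750)),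
    sq_nonneg (x + (-(101343767121183131 / 1432219161897655200)))]

lemma nSL1 (d x : ℝ) (h : 12 * x ^ 2 ≤ d - d ^ 2) :
    (-(1128017 / 1000000)) ≤ Q 96 168 33 (359 / 200) (-(9867 / 1000)) 0 d x + PS d x := by
  unfold Q PS
  linarith [sq_nonneg (d + (-(55000 / 380053)) * x + (-(198109 / 2280318))),
    sq_nonneg (x + (13301917255 / 174075581124))]

lemma nSM1 (d x : ℝ) (h : 12 * x ^ 2 ≤ d - d ^ 2) (hz : (1 / 50) ≤ x) (hz' : x ≤ (389 / 10000)) :
    (105507 / 1000000) ≤ Q 96 168 33 (359 / 200) (-(9867 / 1000)) 0 d x + PS d x := by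
  unfold Q PS
  linarith [mul_nonneg (sub_nonneg.2 hz) (lin_q (q := 12) (by norm_num) h (37 / 2000) (389 / 10000)),
    mul_nonneg (sub_nonneg.2 hz') (lin_q (q := 12) (by norm_num) h (73 / 2500) (243 / 5000)),
    mul_nonneg (sub_nonneg.2 hz) (sub_nonneg.2 hz'),
    sq_nonneg (d + (-(3161299351 / 9565300000)) * x + (-(134977458209 / 23913250000000))),
    sq_nonneg (x + (-(1856727085624870284859 / 47730934216523446997500)))]

lemma nSR2 (d x : ℝ) (h : 12 * x ^ 2 ≤ d - d ^ 2) (hz : (389 / 10000) ≤ x) :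
    (5717 / 200000) + 6 * ((46 / 49) * d - (12 / 7) * x + (3 / 49)) ≤ Q 96 168 33 (403 / 250) (-(10297 / 1000)) 0 d x + PS d x := by
  unfold Q PS
  linarith [mul_nonneg (sub_nonneg.2 hz) (lin_q (q := 12) (by norm_num) h (8 / 125) (353 / 5000)),
    sq_nonneg (d + (-(45387172 / 46848815)) * x + (25610490123 / 5738979837500)),
    sq_nonneg (x + (-(518339987295761233 / 7284365978647765000)))]

lemma nSL2 (d x : ℝ) (h : 12 * x ^ 2 ≤ d - d ^ 2) (hz' : x ≤ (-(8 / 125))) :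
    (-(286769 / 250000)) + 6 * (2 * ((11 / 12) * d + 2 * x + (1 / 12))) ≤ Q 96 168 33 (403 / 250) (-(10297 / 1000)) 0 d x + PS d x := by
  unfold Q PS
  linarith [mul_nonneg (sub_nonneg.2 hz') (lin_q (q := 12) (by norm_num) h (377 / 5000) (-(381 / 5000))),
    sq_nonneg (d + (165994807 / 1001963000) * x + (-(1964307261 / 31311343750))),
    sq_nonneg (x + (4231555045607917691 / 55530693972220187750))]

lemma nSM2 (d x : ℝ) (h : 12 * x ^ 2 ≤ d - d ^ 2) (hz : (389 / 10000) ≤ x) (hz' : x ≤ (51 / 1250)) :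
    (6343 / 125000) + 6 * ((46 / 49) * d - (12 / 7) * x + (3 / 49)) ≤ Q 96 168 33 (403 / 250) (-(10297 / 1000)) 0 d x + PS d x := by
  unfold Q PS
  linarith [mul_nonneg (sub_nonneg.2 hz) (lin_q (q := 12) (by norm_num) h (11 / 1250) (27 / 1000)),
    mul_nonneg (sub_nonneg.2 hz) (sub_nonneg.2 hz'),
    sq_nonneg (d + (-(12330974976000000000000 / 7360000000000000005197)) * x + (29256998803507199745347 / 721280000000000000509306)),
    sq_nonneg (x + (-(33376575079752923418447105426628275200000000 / 857943776776857050487786933753280003970294923)))]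

lemma nSRB (d x : ℝ) (h : 12 * x ^ 2 ≤ d - d ^ 2) (hz : (51 / 1250) ≤ x) :
    (495 / 5408) + 6 * ((46 / 49) * d - (12 / 7) * x + (3 / 49)) ≤ Q 96 168 33 (515 / 338) (-(1881 / 169)) 0 d x + PS d x := by
  unfold Q PS
  linarith [mul_nonneg (sub_nonneg.2 hz) (lin_q (q := 12) (by norm_num) h (3 / 52) (7 / 104)),
    sq_nonneg ((d - (3 / 52)) + (-(12613254150 / 10099955489)) * (x - (7 / 104))), sq_nonneg (x - (7 / 104))]

lemma nSLB (d x : ℝ) (h : 12 * x ^ 2 ≤ d - d ^ 2) (hz' : x ≤ (-(8 / 125))) :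
    (-(407 / 338)) + 6 * (2 * ((11 / 12) * d + 2 * x + (1 / 12))) ≤ Q 96 168 33 (515 / 338) (-(1881 / 169)) 0 d x + PS d x := by
  unfold Q PS
  linarith [mul_nonneg (sub_nonneg.2 hz') (lin_q (q := 12) (by norm_num) h (1 / 13) (-(1 / 13))),
    sq_nonneg ((d - (1 / 13)) + (39319775 / 20890086) * (x - (-(1 / 13)))), sq_nonneg (x - (-(1 / 13)))]

theorem nearS0 {d x : Fin 15 → ℝ} (h : ∀ i, 12 * x i ^ 2 ≤ d i - d i ^ 2)
    (h1 : ∑ i, d i = 1) (h0 : ∑ i, x i = 0) (hc : (Rt (1 / 50) x).card = 8)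
    (hS : 96 * ∑ i, d i ^ 2 - 168 * ∑ i, x i ^ 2 - 33 * ∑ i, d i * x i + ∑ i, PS (d i) (x i) < -(321 / 52) + (9 / 100)) :
    -(321 / 52) + 6 * ∑ i, (if (1 / 50) ≤ x i then (46 / 49) * d i - (12 / 7) * x i + (3 / 49)
        else 2 * ((11 / 12) * d i + 2 * x i + (1 / 12)))
      ≤ 96 * ∑ i, d i ^ 2 - 168 * ∑ i, x i ^ 2 - 33 * ∑ i, d i * x i + ∑ i, PS (d i) (x i) := by
  have hZL := left_le (K := 7) (a := (515 / 338)) (b := (-(1881 / 169))) (ap := (495 / 5408)) (an := (-(407 / 338))) (ZL := (-(8 / 125))) (P := PS)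
    (A := 96) (B := 168) (c := 33) (T := -(321 / 52)) (t := (9 / 100)) (by norm_num) hc h h1 h0
    (fun d x h hz => le_trans (A1 d x h (by linarith)) (le_add_of_nonneg_right (PS_nonneg h)))
    (fun d x h => le_trans (A2 d x h) (le_add_of_nonneg_right (PS_nonneg h)))
    nS0 (by norm_num) hS
  have hne : (Rt (1 / 50) x).Nonempty := by
    rw [← card_pos, hc]
    norm_num
  obtain ⟨i₀, hi₀, hmin⟩ := exists_min_image (Rt (1 / 50) x) x hne

  rcases le_total (x i₀) (389 / 10000) with hy | hy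
  · have := stepS (K := 7) (a := (359 / 200)) (b := (-(9867 / 1000))) (r := (-(1241 / 100000))) (l := (-(1128017 / 1000000))) (μ := (105507 / 1000000)) (Z1 := (1 / 50)) (Z2 := (389 / 10000))
      (A := 96) (B := 168) (c := 33) (T := -(321 / 52)) (t := (9 / 100)) (P := PS) (by norm_num) hc h h1 h0 hi₀ hmin
      (mem_Rt.1 hi₀) hy nSR1 nSL1 nSM1 (by norm_num)
    linarith

  rcases le_total (x i₀) (51 / 1250) with hy' | hy'
  · exact stepG (K := 7) (κ := 6) (w := 2) (a2 := (46 / 49)) (b2 := (12 / 7)) (c2 := (3 / 49)) (a1 := (11 / 12)) (b1 := 2)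
      (c1 := (1 / 12)) (a := (403 / 250)) (b := (-(10297 / 1000))) (r := (5717 / 200000)) (l := (-(286769 / 250000))) (μ := (6343 / 125000)) (Z1 := (389 / 10000)) (Z2 := (51 / 1250)) (ZL := (-(8 / 125)))
      (A := 96) (B := 168) (c := 33) (T := -(321 / 52)) (P := PS) (by norm_num) hc h h1 h0 hi₀ hmin
      hy hy' hZL nSR2 nSL2 nSM2 (by norm_num)
  clear hy; have hy := hy'; clear hy'

  exact stepB (K := 7) (κ := 6) (w := 2) (a2 := (46 / 49)) (b2 := (12 / 7)) (c2 := (3 / 49)) (a1 := (11 / 12)) (b1 := 2)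
    (c1 := (1 / 12)) (a := (515 / 338)) (b := (-(1881 / 169))) (ap := (495 / 5408)) (an := (-(407 / 338))) (Z1 := (51 / 1250)) (ZL := (-(8 / 125)))
    (A := 96) (B := 168) (c := 33) (T := -(321 / 52)) (P := PS) (by norm_num) hc h h1 h0
    (fun i hi => hy.trans (hmin i hi)) hZL nSRB nSLB (by norm_num)

theorem nearSg {lu lv : ℝ} (hu : 4 ≤ lu) (hv : 0 ≤ lv) {d x : Fin 15 → ℝ}
    (h : ∀ i, 12 * x i ^ 2 ≤ d i - d i ^ 2)
    (h1 : ∑ i, d i = 1) (h0 : ∑ i, x i = 0) (hc : (Rt (1 / 50) x).card = 8) {w : ℝ} (hw : w ≤ 2)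
    (hS : (321 / 52) + (96 * ∑ i, d i ^ 2 - 168 * ∑ i, x i ^ 2 - 33 * ∑ i, d i * x i)
      + ∑ i, (lu * (d i - d i ^ 2 - 12 * x i ^ 2) + lv * ((1 - 15 * d i - 2 * x i) ^ 2
        + (169 / 6) * (d i - d i ^ 2 - 12 * x i ^ 2))) < (9 / 100)) :
    6 * ∑ i, (if (1 / 50) ≤ x i then (46 / 49) * d i - (12 / 7) * x i + (3 / 49)
        else w * ((11 / 12) * d i + 2 * x i + (1 / 12)))
      ≤ (321 / 52) + (96 * ∑ i, d i ^ 2 - 168 * ∑ i, x i ^ 2 - 33 * ∑ i, d i * x i)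
      + ∑ i, (lu * (d i - d i ^ 2 - 12 * x i ^ 2) + lv * ((1 - 15 * d i - 2 * x i) ^ 2
        + (169 / 6) * (d i - d i ^ 2 - 12 * x i ^ 2))) := by
  have e1 : ∑ i, PS (d i) (x i) ≤ ∑ i, (lu * (d i - d i ^ 2 - 12 * x i ^ 2)
      + lv * ((1 - 15 * d i - 2 * x i) ^ 2
        + (169 / 6) * (d i - d i ^ 2 - 12 * x i ^ 2))) := by
    refine sum_le_sum fun i _ => ?_
    have h2 : 0 ≤ d i - d i ^ 2 - 12 * x i ^ 2 := by have := h i; linarith
    have h3 : 0 ≤ (1 - 15 * d i - 2 * x i) ^ 2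
        + (169 / 6) * (d i - d i ^ 2 - 12 * x i ^ 2) := by positivity
    have h4 := mul_le_mul_of_nonneg_right hu h2
    have h5 := mul_le_mul_of_nonneg_right hv h3
    unfold PS
    linarith
  have e2 : 6 * ∑ i, (if (1 / 50) ≤ x i then (46 / 49) * d i - (12 / 7) * x i + (3 / 49)
        else w * ((11 / 12) * d i + 2 * x i + (1 / 12)))
      ≤ 6 * ∑ i, (if (1 / 50) ≤ x i then (46 / 49) * d i - (12 / 7) * x i + (3 / 49)
        else 2 * ((11 / 12) * d i + 2 * x i + (1 / 12))) := by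
    refine mul_le_mul_of_nonneg_left (sum_le_sum fun i _ => ?_) (by norm_num)
    split_ifs with hz
    · exact le_refl _
    · refine mul_le_mul_of_nonneg_right hw ?_
      have := lin_q (q := 12) (by norm_num) (h i) (1 / 13) (-(1 / 13))
      linarith
  have e3 := nearS0 h h1 h0 hc (by linarith)
  linarith

end Vale.Agent.P224.SO.N13z
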