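import Vale.Agent.P224.SO.Lev

/-!
Every dimension: the scalar functional near its minimum from inequalities of one index.
-/

namespace Vale.Agent.P224.SO

open Finset

section

variable {n : ℕ} {d x : Fin n → ℝ} {A B c a b T qR qL Z t κ : ℝ} {P e : Fin n → ℝ}

/-- the functional above its minimum is the sum of the one index functionals -/
lemma near_sum {r l : ℕ} (hn : n = r + l) (h1 : ∑ i, d i = 1) (h0 : ∑ i, x i = 0)
    (hc : (Rt Z x).card = r) (hT : T - a + r * qR + l * qL = 0) :
    ∑ i, (A * d i ^ 2 - B * x i ^ 2 - c * (d i * x i) + a * d i + b * x i + P i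
      - (if Z ≤ x i then qR else qL))
      = T + (A * ∑ i, d i ^ 2 - B * ∑ i, x i ^ 2 - c * ∑ i, d i * x i) + ∑ i, P i := by
  have e1 : ∀ i, (if Z ≤ x i then qR else qL : ℝ) = (if Z ≤ x i then qR - qL else 0) + qL := by
    intro i
    split_ifs <;> ring
  have hc' : ((univ.filter fun i => Z ≤ x i).card : ℝ) = r := by
    have : (univ.filter fun i => Z ≤ x i) = Rt Z x := rfl
    rw [this, hc]
  have e2 : ∑ i, (if Z ≤ x i then qR else qL : ℝ) = r * (qR - qL) + n * qL := by
    simp only [e1, sum_add_distrib, sum_const, card_univ, Fintype.card_fin, ← sum_filter,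
      nsmul_eq_mul]
    rw [hc']
  rw [sum_sub_distrib, e2]
  simp only [sum_add_distrib, sum_sub_distrib, ← mul_sum, h1, h0]
  have hn' : (n : ℝ) = r + l := by rw [hn]; push_cast; ring
  rw [hn']
  linear_combination -hT

/-- **The inequality near the minimum.** -/
theorem near_of {r l : ℕ} (hn : n = r + l) (h1 : ∑ i, d i = 1) (h0 : ∑ i, x i = 0)
    (hc : (Rt Z x).card = r) (hT : T - a + r * qR + l * qL = 0) (he : ∀ i, 0 ≤ e i)
    (hκ : 0 ≤ κ) (ht : 0 ≤ t)
    (hR : ∀ i, Z ≤ x i →
      qR + κ * e i ≤ A * d i ^ 2 - B * x i ^ 2 - c * (d i * x i) + a * d i + b * x i + P i ∨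
      qR + t ≤ A * d i ^ 2 - B * x i ^ 2 - c * (d i * x i) + a * d i + b * x i + P i)
    (hL : ∀ i, ¬ Z ≤ x i →
      qL + κ * e i ≤ A * d i ^ 2 - B * x i ^ 2 - c * (d i * x i) + a * d i + b * x i + P i ∨
      qL + t ≤ A * d i ^ 2 - B * x i ^ 2 - c * (d i * x i) + a * d i + b * x i + P i)
    (hS : T + (A * ∑ i, d i ^ 2 - B * ∑ i, x i ^ 2 - c * ∑ i, d i * x i) + ∑ i, P i < t) :
    κ * ∑ i, e i
      ≤ T + (A * ∑ i, d i ^ 2 - B * ∑ i, x i ^ 2 - c * ∑ i, d i * x i) + ∑ i, P i := by
  rw [← near_sum (P := P) (b := b) hn h1 h0 hc hT] at hS ⊢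
  have hg : ∀ i, κ * e i ≤ A * d i ^ 2 - B * x i ^ 2 - c * (d i * x i) + a * d i + b * x i
      + P i - (if Z ≤ x i then qR else qL) ∨
      t ≤ A * d i ^ 2 - B * x i ^ 2 - c * (d i * x i) + a * d i + b * x i
      + P i - (if Z ≤ x i then qR else qL) := by
    intro i
    by_cases hz : Z ≤ x i
    · rw [if_pos hz]
      rcases hR i hz with hh | hh
      · left; linarith
      · right; linarith
    · rw [if_neg hz]
      rcases hL i hz with hh | hh
      · left; linarith
      · right; linarith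
  have hg0 : ∀ i, 0 ≤ A * d i ^ 2 - B * x i ^ 2 - c * (d i * x i) + a * d i + b * x i
      + P i - (if Z ≤ x i then qR else qL) := by
    intro i
    rcases hg i with hh | hh
    · exact (mul_nonneg hκ (he i)).trans hh
    · exact ht.trans hh
  rw [mul_sum]
  refine sum_le_sum fun i _ => ?_
  have hi := (single_le_sum (f := fun i => A * d i ^ 2 - B * x i ^ 2 - c * (d i * x i)
      + a * d i + b * x i + P i - (if Z ≤ x i then qR else qL)) (fun j _ => hg0 j)
      (mem_univ i)).trans_lt hS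
  rcases hg i with hh | hh
  · exact hh
  · exact absurd hi (not_lt.2 hh)

end

end Vale.Agent.P224.SO
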