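import Vale.Agent.P224.SO.Near13z
import Vale.Agent.P224.SO.Near15z

/-!
The stable inequality of the static functional, without the second additional term.
-/

namespace Vale.Agent.P224.SO

open Finset

theorem N13z.nearSl {ls : ℝ} (hu : 4 ≤ ls) {d x : Fin 15 → ℝ}
    (h : ∀ i, 12 * x i ^ 2 ≤ d i - d i ^ 2)
    (h1 : ∑ i, d i = 1) (h0 : ∑ i, x i = 0) (hc : (Rt (1 / 50) x).card = 8) {w : ℝ} (hw : w ≤ 2)
    (hS : (321 / 52) + (96 * ∑ i, d i ^ 2 - 168 * ∑ i, x i ^ 2 - 33 * ∑ i, d i * x i)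
      + ∑ i, ls * (d i - d i ^ 2 - 12 * x i ^ 2) < (9 / 100)) :
    6 * ∑ i, (if (1 / 50) ≤ x i then (46 / 49) * d i - (12 / 7) * x i + (3 / 49)
        else w * ((11 / 12) * d i + 2 * x i + (1 / 12)))
      ≤ (321 / 52) + (96 * ∑ i, d i ^ 2 - 168 * ∑ i, x i ^ 2 - 33 * ∑ i, d i * x i) + ∑ i, ls * (d i - d i ^ 2 - 12 * x i ^ 2) := by
  have := N13z.nearSg (lu := ls) (lv := 0) hu le_rfl h h1 h0 hc hw
    (by simpa only [zero_mul, add_zero] using hS)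
  simpa only [zero_mul, add_zero] using this

theorem N15z.nearSl {ls : ℝ} (hu : 4 ≤ ls) {d x : Fin 17 → ℝ}
    (h : ∀ i, 14 * x i ^ 2 ≤ d i - d i ^ 2)
    (h1 : ∑ i, d i = 1) (h0 : ∑ i, x i = 0) (hc : (Rt (1 / 50) x).card = 9) {w : ℝ} (hw : w ≤ 2)
    (hS : (199 / 25) + (113 * ∑ i, d i ^ 2 - 224 * ∑ i, x i ^ 2 - 42 * ∑ i, d i * x i)
      + ∑ i, ls * (d i - d i ^ 2 - 14 * x i ^ 2) < (2 / 25)) :
    7 * ∑ i, (if (1 / 50) ≤ x i then (121 / 128) * d i - (7 / 4) * x i + (7 / 128)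
        else w * ((13 / 14) * d i + 2 * x i + (1 / 14)))
      ≤ (199 / 25) + (113 * ∑ i, d i ^ 2 - 224 * ∑ i, x i ^ 2 - 42 * ∑ i, d i * x i) + ∑ i, ls * (d i - d i ^ 2 - 14 * x i ^ 2) := by
  have := N15z.nearSg (lu := ls) (lv := 0) hu le_rfl h h1 h0 hc hw
    (by simpa only [zero_mul, add_zero] using hS)
  simpa only [zero_mul, add_zero] using this

end Vale.Agent.P224.SO
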