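import Vale.Agent.P224.SO.RgN

/-!
Dimension 13: the stable scalar inequalities near the Clifford configuration.
-/

namespace Vale.Agent.P224.SO.NS13

open Finset Vale.Agent.P224.SO Vale.Agent.P224.SO.Rg

/-- the additional terms -/
noncomputable def PS (d x : ℝ) : ℝ :=
  4 * (d - d ^ 2 - 12 * x ^ 2)

lemma PS_nonneg {d x : ℝ} (h : 12 * x ^ 2 ≤ d - d ^ 2) : 0 ≤ PS d x := by
  unfold PS
  linarith

lemma nSA1 (d x : ℝ) (h : 12 * x ^ 2 ≤ d - d ^ 2) (hz : (1 / 50) ≤ x) :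
    (395 / 8788) ≤ Q 96 168 28 (9515 / 6591) (-(22148 / 2197)) 0 d x + PS d x := by
  unfold Q PS
  linarith [mul_nonneg (sub_nonneg.2 hz) (lin_q (q := 12) (by norm_num) h (3 / 52) (7 / 104)),
    sq_nonneg ((d - (3 / 52)) + (-(867781550 / 790688813)) * (x - (7 / 104))), sq_nonneg (x - (7 / 104))]

lemma nSA2 (d x : ℝ) (h : 12 * x ^ 2 ≤ d - d ^ 2) :
    (-(7559 / 6591)) ≤ Q 96 168 28 (9515 / 6591) (-(22148 / 2197)) 0 d x + PS d x := by
  unfold Q PS
  linarith [sq_nonneg ((d - (1 / 13)) + (-(7098 / 57947)) * (x - (-(1 / 13)))), sq_nonneg (x - (-(1 / 13)))]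

lemma nS0 (d x : ℝ) (h : 12 * x ^ 2 ≤ d - d ^ 2) (hz : (-(39 / 625)) ≤ x) :
    (-(7559 / 6591)) + (109 / 1000) ≤ Q 96 168 28 (9515 / 6591) (-(22148 / 2197)) 0 d x + PS d x := by
  unfold Q PS
  linarith [mul_nonneg (sub_nonneg.2 hz) (lin_q (q := 12) (by norm_num) h (4009 / 5000) (1151 / 10000)),
    sq_nonneg (d + (-(484344283 / 5339990000)) * x + (-(1205448441725867 / 21997421306250000))),
    sq_nonneg (x + (12746610546036498219139 / 216975467159583818375625))]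

lemma nSR1 (d x : ℝ) (h : 12 * x ^ 2 ≤ d - d ^ 2) (hz : (1 / 50) ≤ x) :
    (-(573 / 8000)) ≤ Q 96 168 28 (439 / 250) (-(4337 / 500)) 0 d x + PS d x := by
  unfold Q PS
  linarith [mul_nonneg (sub_nonneg.2 hz) (lin_q (q := 12) (by norm_num) h (647 / 10000) (71 / 1000)),
    sq_nonneg (d + (-(222497897 / 404381680)) * x + (-(518644103 / 20219084000))),
    sq_nonneg (x + (-(366285522342794483 / 5151866699077373875)))]

lemma nSL1 (d x : ℝ) (h : 12 * x ^ 2 ≤ d - d ^ 2) :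
    (-(1062867 / 1000000)) ≤ Q 96 168 28 (439 / 250) (-(4337 / 500)) 0 d x + PS d x := by
  unfold Q PS
  linarith [sq_nonneg (d + (-(70000 / 567883)) * x + (-(96663 / 1135766))),
    sq_nonneg (x + (8931337855 / 116965420268))]

lemma nSM1 (d x : ℝ) (h : 12 * x ^ 2 ≤ d - d ^ 2) (hz : (1 / 50) ≤ x) (hz' : x ≤ (373 / 10000)) :
    (69933 / 1000000) ≤ Q 96 168 28 (439 / 250) (-(4337 / 500)) 0 d x + PS d x := by
  unfold Q PS
  linarith [mul_nonneg (sub_nonneg.2 hz) (lin_q (q := 12) (by norm_num) h (17 / 1000) (373 / 10000)),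
    mul_nonneg (sub_nonneg.2 hz') (lin_q (q := 12) (by norm_num) h (81 / 10000) (13 / 500)),
    mul_nonneg (sub_nonneg.2 hz) (sub_nonneg.2 hz'),
    sq_nonneg (d + (-(44956239377 / 95241100000)) * x + (593192966021 / 952411000000000)),
    sq_nonneg (x + (-(3066411620785166225441083 / 82208667494957146518710000)))]

lemma nSR2 (d x : ℝ) (h : 12 * x ^ 2 ≤ d - d ^ 2) (hz : (373 / 10000) ≤ x) :
    (-(23057 / 1000000)) + (33 / 5) * ((46 / 49) * d - (12 / 7) * x + (3 / 49)) ≤ Q 96 168 28 (767 / 500) (-(9177 / 1000)) 0 d x + PS d x := by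
  unfold Q PS
  linarith [mul_nonneg (sub_nonneg.2 hz) (lin_q (q := 12) (by norm_num) h (641 / 10000) (707 / 10000)),
    sq_nonneg (d + (-(492609409 / 462523675)) * x + (2536581793293 / 226636600750000)),
    sq_nonneg (x + (-(2269582725646572928551 / 32044847514497906620000)))]

lemma nSL2 (d x : ℝ) (h : 12 * x ^ 2 ≤ d - d ^ 2) (hz' : x ≤ (-(39 / 625))) :
    (-(216917 / 200000)) + (33 / 5) * (2 * ((11 / 12) * d + 2 * x + (1 / 12))) ≤ Q 96 168 28 (767 / 500) (-(9177 / 1000)) 0 d x + PS d x := by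
  unfold Q PS
  linarith [mul_nonneg (sub_nonneg.2 hz') (lin_q (q := 12) (by norm_num) h (3 / 40) (-(19 / 250))),
    sq_nonneg (d + (6583795 / 9684877) * x + (-(56487423 / 2421219250))),
    sq_nonneg (x + (515897077005403767 / 6783006574673110000))]

lemma nSM2 (d x : ℝ) (h : 12 * x ^ 2 ≤ d - d ^ 2) (hz : (373 / 10000) ≤ x) (hz' : x ≤ (201 / 5000)) :
    (-(277 / 125000)) + (33 / 5) * ((46 / 49) * d - (12 / 7) * x + (3 / 49)) ≤ Q 96 168 28 (767 / 500) (-(9177 / 1000)) 0 d x + PS d x := by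
  unfold Q PS
  linarith [mul_nonneg (sub_nonneg.2 hz) (lin_q (q := 12) (by norm_num) h (523 / 10000) (643 / 10000)),
    mul_nonneg (sub_nonneg.2 hz) (sub_nonneg.2 hz'),
    sq_nonneg (d + (-(95149654300000000000000 / 92000000000000000153687)) * x + (113868446328219992469337 / 9016000000000000015061326)),
    sq_nonneg (x + (-(4174239496995615432009762883848071251250000000 / 111853341938333523448082960129568603472095013443)))]

lemma nSRB (d x : ℝ) (h : 12 * x ^ 2 ≤ d - d ^ 2) (hz : (201 / 5000) ≤ x) :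
    (395 / 8788) + (33 / 5) * ((46 / 49) * d - (12 / 7) * x + (3 / 49)) ≤ Q 96 168 28 (9515 / 6591) (-(22148 / 2197)) 0 d x + PS d x := by
  unfold Q PS
  linarith [mul_nonneg (sub_nonneg.2 hz) (lin_q (q := 12) (by norm_num) h (3 / 52) (7 / 104)),
    sq_nonneg ((d - (3 / 52)) + (-(47137688115 / 40277437303)) * (x - (7 / 104))), sq_nonneg (x - (7 / 104))]

lemma nSLB (d x : ℝ) (h : 12 * x ^ 2 ≤ d - d ^ 2) (hz' : x ≤ (-(39 / 625))) :
    (-(7559 / 6591)) + (33 / 5) * (2 * ((11 / 12) * d + 2 * x + (1 / 12))) ≤ Q 96 168 28 (9515 / 6591) (-(22148 / 2197)) 0 d x + PS d x := by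
  unfold Q PS
  linarith [mul_nonneg (sub_nonneg.2 hz') (lin_q (q := 12) (by norm_num) h (1 / 13) (-(1 / 13))),
    sq_nonneg ((d - (1 / 13)) + (2086022825 / 1119089108) * (x - (-(1 / 13)))), sq_nonneg (x - (-(1 / 13)))]

theorem nearS0 {d x : Fin 15 → ℝ} (h : ∀ i, 12 * x i ^ 2 ≤ d i - d i ^ 2)
    (h1 : ∑ i, d i = 1) (h0 : ∑ i, x i = 0) (hc : (Rt (1 / 50) x).card = 8)
    (hS : 96 * ∑ i, d i ^ 2 - 168 * ∑ i, x i ^ 2 - 28 * ∑ i, d i * x i + ∑ i, PS (d i) (x i) < -(1052 / 169) + (109 / 1000)) :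
    -(1052 / 169) + (33 / 5) * ∑ i, (if (1 / 50) ≤ x i then (46 / 49) * d i - (12 / 7) * x i + (3 / 49)
        else 2 * ((11 / 12) * d i + 2 * x i + (1 / 12)))
      ≤ 96 * ∑ i, d i ^ 2 - 168 * ∑ i, x i ^ 2 - 28 * ∑ i, d i * x i + ∑ i, PS (d i) (x i) := by
  have hZL := left_le (K := 7) (a := (9515 / 6591)) (b := (-(22148 / 2197))) (ap := (395 / 8788)) (an := (-(7559 / 6591))) (ZL := (-(39 / 625))) (P := PS)
    (A := 96) (B := 168) (c := 28) (T := -(1052 / 169)) (t := (109 / 1000)) (by norm_num) hc h h1 h0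
    nSA1
    nSA2
    nS0 (by norm_num) hS
  have hne : (Rt (1 / 50) x).Nonempty := by
    rw [← card_pos, hc]
    norm_num
  obtain ⟨i₀, hi₀, hmin⟩ := exists_min_image (Rt (1 / 50) x) x hne

  rcases le_total (x i₀) (373 / 10000) with hy | hy
  · have := stepS (K := 7) (a := (439 / 250)) (b := (-(4337 / 500))) (r := (-(573 / 8000))) (l := (-(1062867 / 1000000))) (μ := (69933 / 1000000)) (Z1 := (1 / 50)) (Z2 := (373 / 10000))
      (A := 96) (B := 168) (c := 28) (T := -(1052 / 169)) (t := (109 / 1000)) (P := PS) (by norm_num) hc h h1 h0 hi₀ hmin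
      (mem_Rt.1 hi₀) hy nSR1 nSL1 nSM1 (by norm_num)
    linarith

  rcases le_total (x i₀) (201 / 5000) with hy' | hy'
  · exact stepG (K := 7) (κ := (33 / 5)) (w := 2) (a2 := (46 / 49)) (b2 := (12 / 7)) (c2 := (3 / 49)) (a1 := (11 / 12)) (b1 := 2)
      (c1 := (1 / 12)) (a := (767 / 500)) (b := (-(9177 / 1000))) (r := (-(23057 / 1000000))) (l := (-(216917 / 200000))) (μ := (-(277 / 125000))) (Z1 := (373 / 10000)) (Z2 := (201 / 5000)) (ZL := (-(39 / 625)))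
      (A := 96) (B := 168) (c := 28) (T := -(1052 / 169)) (P := PS) (by norm_num) hc h h1 h0 hi₀ hmin
      hy hy' hZL nSR2 nSL2 nSM2 (by norm_num)
  clear hy; have hy := hy'; clear hy'

  exact stepB (K := 7) (κ := (33 / 5)) (w := 2) (a2 := (46 / 49)) (b2 := (12 / 7)) (c2 := (3 / 49)) (a1 := (11 / 12)) (b1 := 2)
    (c1 := (1 / 12)) (a := (9515 / 6591)) (b := (-(22148 / 2197))) (ap := (395 / 8788)) (an := (-(7559 / 6591))) (Z1 := (201 / 5000)) (ZL := (-(39 / 625)))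
    (A := 96) (B := 168) (c := 28) (T := -(1052 / 169)) (P := PS) (by norm_num) hc h h1 h0
    (fun i hi => hy.trans (hmin i hi)) hZL nSRB nSLB (by norm_num)

theorem nearSg {lu lv : ℝ} (hu : 4 ≤ lu) (hv : 0 ≤ lv) {d x : Fin 15 → ℝ}
    (h : ∀ i, 12 * x i ^ 2 ≤ d i - d i ^ 2)
    (h1 : ∑ i, d i = 1) (h0 : ∑ i, x i = 0) (hc : (Rt (1 / 50) x).card = 8) {w : ℝ} (hw : w ≤ 2)
    (hS : (1052 / 169) + (96 * ∑ i, d i ^ 2 - 168 * ∑ i, x i ^ 2 - 28 * ∑ i, d i * x i)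
      + ∑ i, (lu * (d i - d i ^ 2 - 12 * x i ^ 2) + lv * ((1 - 15 * d i - 2 * x i) ^ 2
        + (169 / 6) * (d i - d i ^ 2 - 12 * x i ^ 2))) < (109 / 1000)) :
    (33 / 5) * ∑ i, (if (1 / 50) ≤ x i then (46 / 49) * d i - (12 / 7) * x i + (3 / 49)
        else w * ((11 / 12) * d i + 2 * x i + (1 / 12)))
      ≤ (1052 / 169) + (96 * ∑ i, d i ^ 2 - 168 * ∑ i, x i ^ 2 - 28 * ∑ i, d i * x i)
      + ∑ i, (lu * (d i - d i ^ 2 - 12 * x i ^ 2) + lv * ((1 - 15 * d i - 2 * x i) ^ 2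
        + (169 / 6) * (d i - d i ^ 2 - 12 * x i ^ 2))) := by
  have e1 : ∑ i, PS (d i) (x i) ≤ ∑ i, (lu * (d i - d i ^ 2 - 12 * x i ^ 2)
      + lv * ((1 - 15 * d i - 2 * x i) ^ 2
        + (169 / 6) * (d i - d i ^ 2 - 12 * x i ^ 2))) := by
    refine sum_le_sum fun i _ => ?_
    have h2 : 0 ≤ d i - d i ^ 2 - 12 * x i ^ 2 := by have := h i; linarith
    have h3 : 0 ≤ (1 - 15 * d i - 2 * x i) ^ 2
        + (169 / 6) * (d i - d i ^ 2 - 12 * x i ^ 2) := by positivity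
    have h4 := mul_le_mul_of_nonneg_right hu h2
    have h5 := mul_le_mul_of_nonneg_right hv h3
    unfold PS
    linarith
  have e2 : (33 / 5) * ∑ i, (if (1 / 50) ≤ x i then (46 / 49) * d i - (12 / 7) * x i + (3 / 49)
        else w * ((11 / 12) * d i + 2 * x i + (1 / 12)))
      ≤ (33 / 5) * ∑ i, (if (1 / 50) ≤ x i then (46 / 49) * d i - (12 / 7) * x i + (3 / 49)
        else 2 * ((11 / 12) * d i + 2 * x i + (1 / 12))) := by
    refine mul_le_mul_of_nonneg_left (sum_le_sum fun i _ => ?_) (by norm_num)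
    split_ifs with hz
    · exact le_refl _
    · refine mul_le_mul_of_nonneg_right hw ?_
      have := lin_q (q := 12) (by norm_num) (h i) (1 / 13) (-(1 / 13))
      linarith
  have e3 := nearS0 h h1 h0 hc (by linarith)
  linarith

theorem nearSl {ls : ℝ} (hu : 4 ≤ ls) {d x : Fin 15 → ℝ}
    (h : ∀ i, 12 * x i ^ 2 ≤ d i - d i ^ 2)
    (h1 : ∑ i, d i = 1) (h0 : ∑ i, x i = 0) (hc : (Rt (1 / 50) x).card = 8) {w : ℝ} (hw : w ≤ 2)
    (hS : (1052 / 169) + (96 * ∑ i, d i ^ 2 - 168 * ∑ i, x i ^ 2 - 28 * ∑ i, d i * x i)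
      + ∑ i, ls * (d i - d i ^ 2 - 12 * x i ^ 2) < (109 / 1000)) :
    (33 / 5) * ∑ i, (if (1 / 50) ≤ x i then (46 / 49) * d i - (12 / 7) * x i + (3 / 49)
        else w * ((11 / 12) * d i + 2 * x i + (1 / 12)))
      ≤ (1052 / 169) + (96 * ∑ i, d i ^ 2 - 168 * ∑ i, x i ^ 2 - 28 * ∑ i, d i * x i) + ∑ i, ls * (d i - d i ^ 2 - 12 * x i ^ 2) := by
  have := nearSg (lu := ls) (lv := 0) hu le_rfl h h1 h0 hc hw
    (by simpa only [zero_mul, add_zero] using hS)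
  simpa only [zero_mul, add_zero] using this

end Vale.Agent.P224.SO.NS13
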