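import Vale.Agent.P224.SO.RgN

/-!
Dimension 13: the stable scalar inequalities near the Clifford configuration.
-/

namespace Vale.Agent.P224.SO.NS13p96c33

open Finset Vale.Agent.P224.SO Vale.Agent.P224.SO.Rg

/-- the additional terms -/
noncomputable def PS (d x : ℝ) : ℝ :=
  4 * (d - d ^ 2 - 12 * x ^ 2)

lemma PS_nonneg {d x : ℝ} (h : 12 * x ^ 2 ≤ d - d ^ 2) : 0 ≤ PS d x := by
  unfold PS
  linarith

lemma nSA1 (d x : ℝ) (h : 12 * x ^ 2 ≤ d - d ^ 2) (hz : (1 / 50) ≤ x) :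
    (495 / 5408) ≤ Q 96 168 33 (515 / 338) (-(1881 / 169)) 0 d x + PS d x := by
  unfold Q PS
  linarith [mul_nonneg (sub_nonneg.2 hz) (lin_q (q := 12) (by norm_num) h (3 / 52) (7 / 104)),
    sq_nonneg ((d - (3 / 52)) + (-(89270850 / 80894107)) * (x - (7 / 104))), sq_nonneg (x - (7 / 104))]

lemma nSA2 (d x : ℝ) (h : 12 * x ^ 2 ≤ d - d ^ 2) :
    (-(407 / 338)) ≤ Q 96 168 33 (515 / 338) (-(1881 / 169)) 0 d x + PS d x := by
  unfold Q PS
  linarith [sq_nonneg ((d - (1 / 13)) + (-(39 / 271)) * (x - (-(1 / 13)))), sq_nonneg (x - (-(1 / 13)))]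

lemma nS0 (d x : ℝ) (h : 12 * x ^ 2 ≤ d - d ^ 2) (hz : (-(317 / 5000)) ≤ x) :
    (-(407 / 338)) + (49 / 500) ≤ Q 96 168 33 (515 / 338) (-(1881 / 169)) 0 d x + PS d x := by
  unfold Q PS
  linarith [mul_nonneg (sub_nonneg.2 hz) (lin_q (q := 12) (by norm_num) h (871 / 1000) (121 / 1250)),
    sq_nonneg (d + (-(38267529 / 358312000)) * x + (-(52308733993351 / 908320920000000))),
    sq_nonneg (x + (1065618499845334301 / 18845136223301765000))]

lemma nSR1 (d x : ℝ) (h : 12 * x ^ 2 ≤ d - d ^ 2) (hz : (1 / 50) ≤ x) :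
    (-(22647 / 1000000)) ≤ Q 96 168 33 (451 / 250) (-(9731 / 1000)) 0 d x + PS d x := by
  unfold Q PS
  linarith [mul_nonneg (sub_nonneg.2 hz) (lin_q (q := 12) (by norm_num) h (649 / 10000) (711 / 10000)),
    sq_nonneg (d + (-(69251356 / 81440425)) * x + (-(54277807 / 12216063750))),
    sq_nonneg (x + (-(25091718826300087 / 352476214122235680)))]

lemma nSL1 (d x : ℝ) (h : 12 * x ^ 2 ≤ d - d ^ 2) :
    (-(139789 / 125000)) ≤ Q 96 168 33 (451 / 250) (-(9731 / 1000)) 0 d x + PS d x := by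
  unfold Q PS
  linarith [sq_nonneg (d + (-(82500 / 569749)) * x + (-(98769 / 1139498))),
    sq_nonneg (x + (19572695095 / 256434852024))]

lemma nSM1 (d x : ℝ) (h : 12 * x ^ 2 ≤ d - d ^ 2) (hz : (1 / 50) ≤ x) (hz' : x ≤ (91 / 2500)) :
    (108121 / 1000000) ≤ Q 96 168 33 (451 / 250) (-(9731 / 1000)) 0 d x + PS d x := by
  unfold Q PS
  linarith [mul_nonneg (sub_nonneg.2 hz) (lin_q (q := 12) (by norm_num) h (81 / 5000) (91 / 2500)),
    mul_nonneg (sub_nonneg.2 hz') (lin_q (q := 12) (by norm_num) h (159 / 10000) (361 / 10000)),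
    mul_nonneg (sub_nonneg.2 hz) (sub_nonneg.2 hz'),
    sq_nonneg (d + (-(413806609637 / 952553400000)) * x + (-(827548152433 / 2381383500000000))),
    sq_nonneg (x + (-(25623662587194308291571821 / 703953951953073454820577500)))]

lemma nSR2 (d x : ℝ) (h : 12 * x ^ 2 ≤ d - d ^ 2) (hz : (91 / 2500) ≤ x) :
    (10541 / 500000) + (117 / 20) * ((46 / 49) * d - (12 / 7) * x + (3 / 49)) ≤ Q 96 168 33 (201 / 125) (-(10187 / 1000)) 0 d x + PS d x := by
  unfold Q PS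
  linarith [mul_nonneg (sub_nonneg.2 hz) (lin_q (q := 12) (by norm_num) h (161 / 2500) (709 / 10000)),
    sq_nonneg (d + (-(36338621 / 39070400)) * x + (7122536039 / 4786124000000)),
    sq_nonneg (x + (-(134792013563191543 / 2035437734678932500)))]

lemma nSL2 (d x : ℝ) (h : 12 * x ^ 2 ≤ d - d ^ 2) (hz' : x ≤ (-(317 / 5000))) :
    (-(284599 / 250000)) + (117 / 20) * (2 * ((11 / 12) * d + 2 * x + (1 / 12))) ≤ Q 96 168 33 (201 / 125) (-(10187 / 1000)) 0 d x + PS d x := by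
  unfold Q PS
  linarith [mul_nonneg (sub_nonneg.2 hz') (lin_q (q := 12) (by norm_num) h (751 / 10000) (-(761 / 10000))),
    sq_nonneg (d + (389143723 / 3352186000) * x + (-(1110506439809 / 16760930000000))),
    sq_nonneg (x + (833077339465906935221 / 10956357161452609065000))]

lemma nSM2 (d x : ℝ) (h : 12 * x ^ 2 ≤ d - d ^ 2) (hz : (91 / 2500) ≤ x) (hz' : x ≤ (401 / 10000)) :
    (41223 / 1000000) + (117 / 20) * ((46 / 49) * d - (12 / 7) * x + (3 / 49)) ≤ Q 96 168 33 (201 / 125) (-(10187 / 1000)) 0 d x + PS d x := by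
  unfold Q PS
  linarith [mul_nonneg (sub_nonneg.2 hz) (lin_q (q := 12) (by norm_num) h (199 / 5000) (141 / 2500)),
    mul_nonneg (sub_nonneg.2 hz) (sub_nonneg.2 hz'),
    sq_nonneg (d + (-(2098197350000000000000 / 1533333333333333355337)) * x + (3972176253586665588487 / 150266666666666668823026)),
    sq_nonneg (x + (-(5736705702051407310594173626211806250000000 / 157603817086646942587241217141800213515153929)))]

lemma nSRB (d x : ℝ) (h : 12 * x ^ 2 ≤ d - d ^ 2) (hz : (401 / 10000) ≤ x) :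
    (495 / 5408) + (117 / 20) * ((46 / 49) * d - (12 / 7) * x + (3 / 49)) ≤ Q 96 168 33 (515 / 338) (-(1881 / 169)) 0 d x + PS d x := by
  unfold Q PS
  linarith [mul_nonneg (sub_nonneg.2 hz) (lin_q (q := 12) (by norm_num) h (3 / 52) (7 / 104)),
    sq_nonneg ((d - (3 / 52)) + (-(46017374900 / 36861502989)) * (x - (7 / 104))), sq_nonneg (x - (7 / 104))]

lemma nSLB (d x : ℝ) (h : 12 * x ^ 2 ≤ d - d ^ 2) (hz' : x ≤ (-(317 / 5000))) :
    (-(407 / 338)) + (117 / 20) * (2 * ((11 / 12) * d + 2 * x + (1 / 12))) ≤ Q 96 168 33 (515 / 338) (-(1881 / 169)) 0 d x + PS d x := by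
  unfold Q PS
  linarith [mul_nonneg (sub_nonneg.2 hz') (lin_q (q := 12) (by norm_num) h (1 / 13) (-(1 / 13))),
    sq_nonneg ((d - (1 / 13)) + (549028700 / 291593893) * (x - (-(1 / 13)))), sq_nonneg (x - (-(1 / 13)))]

theorem nearS0 {d x : Fin 15 → ℝ} (h : ∀ i, 12 * x i ^ 2 ≤ d i - d i ^ 2)
    (h1 : ∑ i, d i = 1) (h0 : ∑ i, x i = 0) (hc : (Rt (1 / 50) x).card = 8)
    (hS : 96 * ∑ i, d i ^ 2 - 168 * ∑ i, x i ^ 2 - 33 * ∑ i, d i * x i + ∑ i, PS (d i) (x i) < -(321 / 52) + (49 / 500)) :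
    -(321 / 52) + (117 / 20) * ∑ i, (if (1 / 50) ≤ x i then (46 / 49) * d i - (12 / 7) * x i + (3 / 49)
        else 2 * ((11 / 12) * d i + 2 * x i + (1 / 12)))
      ≤ 96 * ∑ i, d i ^ 2 - 168 * ∑ i, x i ^ 2 - 33 * ∑ i, d i * x i + ∑ i, PS (d i) (x i) := by
  have hZL := left_le (K := 7) (a := (515 / 338)) (b := (-(1881 / 169))) (ap := (495 / 5408)) (an := (-(407 / 338))) (ZL := (-(317 / 5000))) (P := PS)
    (A := 96) (B := 168) (c := 33) (T := -(321 / 52)) (t := (49 / 500)) (by norm_num) hc h h1 h0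
    nSA1
    nSA2
    nS0 (by norm_num) hS
  have hne : (Rt (1 / 50) x).Nonempty := by
    rw [← card_pos, hc]
    norm_num
  obtain ⟨i₀, hi₀, hmin⟩ := exists_min_image (Rt (1 / 50) x) x hne

  rcases le_total (x i₀) (91 / 2500) with hy | hy
  · have := stepS (K := 7) (a := (451 / 250)) (b := (-(9731 / 1000))) (r := (-(22647 / 1000000))) (l := (-(139789 / 125000))) (μ := (108121 / 1000000)) (Z1 := (1 / 50)) (Z2 := (91 / 2500))
      (A := 96) (B := 168) (c := 33) (T := -(321 / 52)) (t := (49 / 500)) (P := PS) (by norm_num) hc h h1 h0 hi₀ hmin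
      (mem_Rt.1 hi₀) hy nSR1 nSL1 nSM1 (by norm_num)
    linarith

  rcases le_total (x i₀) (401 / 10000) with hy' | hy'
  · exact stepG (K := 7) (κ := (117 / 20)) (w := 2) (a2 := (46 / 49)) (b2 := (12 / 7)) (c2 := (3 / 49)) (a1 := (11 / 12)) (b1 := 2)
      (c1 := (1 / 12)) (a := (201 / 125)) (b := (-(10187 / 1000))) (r := (10541 / 500000)) (l := (-(284599 / 250000))) (μ := (41223 / 1000000)) (Z1 := (91 / 2500)) (Z2 := (401 / 10000)) (ZL := (-(317 / 5000)))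
      (A := 96) (B := 168) (c := 33) (T := -(321 / 52)) (P := PS) (by norm_num) hc h h1 h0 hi₀ hmin
      hy hy' hZL nSR2 nSL2 nSM2 (by norm_num)
  clear hy; have hy := hy'; clear hy'

  exact stepB (K := 7) (κ := (117 / 20)) (w := 2) (a2 := (46 / 49)) (b2 := (12 / 7)) (c2 := (3 / 49)) (a1 := (11 / 12)) (b1 := 2)
    (c1 := (1 / 12)) (a := (515 / 338)) (b := (-(1881 / 169))) (ap := (495 / 5408)) (an := (-(407 / 338))) (Z1 := (401 / 10000)) (ZL := (-(317 / 5000)))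
    (A := 96) (B := 168) (c := 33) (T := -(321 / 52)) (P := PS) (by norm_num) hc h h1 h0
    (fun i hi => hy.trans (hmin i hi)) hZL nSRB nSLB (by norm_num)

theorem nearSg {lu lv : ℝ} (hu : 4 ≤ lu) (hv : 0 ≤ lv) {d x : Fin 15 → ℝ}
    (h : ∀ i, 12 * x i ^ 2 ≤ d i - d i ^ 2)
    (h1 : ∑ i, d i = 1) (h0 : ∑ i, x i = 0) (hc : (Rt (1 / 50) x).card = 8) {w : ℝ} (hw : w ≤ 2)
    (hS : (321 / 52) + (96 * ∑ i, d i ^ 2 - 168 * ∑ i, x i ^ 2 - 33 * ∑ i, d i * x i)
      + ∑ i, (lu * (d i - d i ^ 2 - 12 * x i ^ 2) + lv * ((1 - 15 * d i - 2 * x i) ^ 2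
        + (169 / 6) * (d i - d i ^ 2 - 12 * x i ^ 2))) < (49 / 500)) :
    (117 / 20) * ∑ i, (if (1 / 50) ≤ x i then (46 / 49) * d i - (12 / 7) * x i + (3 / 49)
        else w * ((11 / 12) * d i + 2 * x i + (1 / 12)))
      ≤ (321 / 52) + (96 * ∑ i, d i ^ 2 - 168 * ∑ i, x i ^ 2 - 33 * ∑ i, d i * x i)
      + ∑ i, (lu * (d i - d i ^ 2 - 12 * x i ^ 2) + lv * ((1 - 15 * d i - 2 * x i) ^ 2
        + (169 / 6) * (d i - d i ^ 2 - 12 * x i ^ 2))) := by
  have e1 : ∑ i, PS (d i) (x i) ≤ ∑ i, (lu * (d i - d i ^ 2 - 12 * x i ^ 2)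
      + lv * ((1 - 15 * d i - 2 * x i) ^ 2
        + (169 / 6) * (d i - d i ^ 2 - 12 * x i ^ 2))) := by
    refine sum_le_sum fun i _ => ?_
    have h2 : 0 ≤ d i - d i ^ 2 - 12 * x i ^ 2 := by have := h i; linarith
    have h3 : 0 ≤ (1 - 15 * d i - 2 * x i) ^ 2
        + (169 / 6) * (d i - d i ^ 2 - 12 * x i ^ 2) := by positivity
    have h4 := mul_le_mul_of_nonneg_right hu h2
    have h5 := mul_le_mul_of_nonneg_right hv h3
    unfold PS
    linarith
  have e2 : (117 / 20) * ∑ i, (if (1 / 50) ≤ x i then (46 / 49) * d i - (12 / 7) * x i + (3 / 49)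
        else w * ((11 / 12) * d i + 2 * x i + (1 / 12)))
      ≤ (117 / 20) * ∑ i, (if (1 / 50) ≤ x i then (46 / 49) * d i - (12 / 7) * x i + (3 / 49)
        else 2 * ((11 / 12) * d i + 2 * x i + (1 / 12))) := by
    refine mul_le_mul_of_nonneg_left (sum_le_sum fun i _ => ?_) (by norm_num)
    split_ifs with hz
    · exact le_refl _
    · refine mul_le_mul_of_nonneg_right hw ?_
      have := lin_q (q := 12) (by norm_num) (h i) (1 / 13) (-(1 / 13))
      linarith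
  have e3 := nearS0 h h1 h0 hc (by linarith)
  linarith

theorem nearSl {ls : ℝ} (hu : 4 ≤ ls) {d x : Fin 15 → ℝ}
    (h : ∀ i, 12 * x i ^ 2 ≤ d i - d i ^ 2)
    (h1 : ∑ i, d i = 1) (h0 : ∑ i, x i = 0) (hc : (Rt (1 / 50) x).card = 8) {w : ℝ} (hw : w ≤ 2)
    (hS : (321 / 52) + (96 * ∑ i, d i ^ 2 - 168 * ∑ i, x i ^ 2 - 33 * ∑ i, d i * x i)
      + ∑ i, ls * (d i - d i ^ 2 - 12 * x i ^ 2) < (49 / 500)) :
    (117 / 20) * ∑ i, (if (1 / 50) ≤ x i then (46 / 49) * d i - (12 / 7) * x i + (3 / 49)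
        else w * ((11 / 12) * d i + 2 * x i + (1 / 12)))
      ≤ (321 / 52) + (96 * ∑ i, d i ^ 2 - 168 * ∑ i, x i ^ 2 - 33 * ∑ i, d i * x i) + ∑ i, ls * (d i - d i ^ 2 - 12 * x i ^ 2) := by
  have := nearSg (lu := ls) (lv := 0) hu le_rfl h h1 h0 hc hw
    (by simpa only [zero_mul, add_zero] using hS)
  simpa only [zero_mul, add_zero] using this

end Vale.Agent.P224.SO.NS13p96c33
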