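import Vale.Agent.P224.SO.RgN

/-!
Dimension 13: the stable scalar inequalities near the Clifford configuration.
-/

namespace Vale.Agent.P224.SO.NS13p96c30

open Finset Vale.Agent.P224.SO Vale.Agent.P224.SO.Rg

/-- the additional terms -/
noncomputable def PS (d x : ℝ) : ℝ :=
  4 * (d - d ^ 2 - 12 * x ^ 2)

lemma PS_nonneg {d x : ℝ} (h : 12 * x ^ 2 ≤ d - d ^ 2) : 0 ≤ PS d x := by
  unfold PS
  linarith

lemma nSA1 (d x : ℝ) (h : 12 * x ^ 2 ≤ d - d ^ 2) (hz : (1 / 50) ≤ x) :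
    (2235 / 35152) ≤ Q 96 168 30 (3242 / 2197) (-(23070 / 2197)) 0 d x + PS d x := by
  unfold Q PS
  linarith [mul_nonneg (sub_nonneg.2 hz) (lin_q (q := 12) (by norm_num) h (3 / 52) (7 / 104)),
    sq_nonneg ((d - (3 / 52)) + (-(347956150 / 315914553)) * (x - (7 / 104))), sq_nonneg (x - (7 / 104))]

lemma nSA2 (d x : ℝ) (h : 12 * x ^ 2 ≤ d - d ^ 2) :
    (-(2570 / 2197)) ≤ Q 96 168 30 (3242 / 2197) (-(23070 / 2197)) 0 d x + PS d x := by
  unfold Q PS
  linarith [sq_nonneg ((d - (1 / 13)) + (-(507 / 3868)) * (x - (-(1 / 13)))), sq_nonneg (x - (-(1 / 13)))]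

lemma nS0 (d x : ℝ) (h : 12 * x ^ 2 ≤ d - d ^ 2) (hz : (-(157 / 2500)) ≤ x) :
    (-(2570 / 2197)) + (21 / 200) ≤ Q 96 168 30 (3242 / 2197) (-(23070 / 2197)) 0 d x + PS d x := by
  unfold Q PS
  linarith [mul_nonneg (sub_nonneg.2 hz) (lin_q (q := 12) (by norm_num) h (8309 / 10000) (541 / 5000)),
    sq_nonneg (d + (-(1038073527 / 10707440000)) * x + (-(3287225263594583 / 58810614200000000))),
    sq_nonneg (x + (52616645237464101545759 / 805405872088851338467500))]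

lemma nSR1 (d x : ℝ) (h : 12 * x ^ 2 ≤ d - d ^ 2) (hz : (1 / 50) ≤ x) :
    (-(52213 / 1000000)) ≤ Q 96 168 30 (222 / 125) (-(1819 / 200)) 0 d x + PS d x := by
  unfold Q PS
  linarith [mul_nonneg (sub_nonneg.2 hz) (lin_q (q := 12) (by norm_num) h (81 / 1250) (711 / 10000)),
    sq_nonneg (d + (-(177145888 / 248132025)) * x + (-(174654737 / 12406601250))),
    sq_nonneg (x + (-(278177599155500521 / 3916994284295216960)))]

lemma nSL1 (d x : ℝ) (h : 12 * x ^ 2 ≤ d - d ^ 2) :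
    (-(135621 / 125000)) ≤ Q 96 168 30 (222 / 125) (-(1819 / 200)) 0 d x + PS d x := by
  unfold Q PS
  linarith [sq_nonneg (d + (-(50000 / 379083)) * x + (-(65003 / 758166))),
    sq_nonneg (x + (4121191475 / 53981850668))]

lemma nSM1 (d x : ℝ) (h : 12 * x ^ 2 ≤ d - d ^ 2) (hz : (1 / 50) ≤ x) (hz' : x ≤ (369 / 10000)) :
    (17091 / 200000) ≤ Q 96 168 30 (222 / 125) (-(1819 / 200)) 0 d x + PS d x := by
  unfold Q PS
  linarith [mul_nonneg (sub_nonneg.2 hz) (lin_q (q := 12) (by norm_num) h (83 / 5000) (369 / 10000)),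
    mul_nonneg (sub_nonneg.2 hz') (lin_q (q := 12) (by norm_num) h (81 / 10000) (259 / 10000)),
    mul_nonneg (sub_nonneg.2 hz) (sub_nonneg.2 hz'),
    sq_nonneg (d + (-(1208474111 / 6007351875)) * x + (-(2208881431609 / 240294075000000))),
    sq_nonneg (x + (-(51331472743518361018573 / 1391104448859757124320000)))]

lemma nSR2 (d x : ℝ) (h : 12 * x ^ 2 ≤ d - d ^ 2) (hz : (369 / 10000) ≤ x) :
    (-(11 / 2000)) + (63 / 10) * ((46 / 49) * d - (12 / 7) * x + (3 / 49)) ≤ Q 96 168 30 (1563 / 1000) (-(9579 / 1000)) 0 d x + PS d x := by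
  unfold Q PS
  linarith [mul_nonneg (sub_nonneg.2 hz) (lin_q (q := 12) (by norm_num) h (321 / 5000) (177 / 2500)),
    sq_nonneg (d + (-(47046671 / 46494523)) * x + (23988246193 / 3254616610000)),
    sq_nonneg (x + (-(74300546050500443 / 1051428058879495000)))]

lemma nSL2 (d x : ℝ) (h : 12 * x ^ 2 ≤ d - d ^ 2) (hz' : x ≤ (-(157 / 2500))) :
    (-(1105913 / 1000000)) + (63 / 10) * (2 * ((11 / 12) * d + 2 * x + (1 / 12))) ≤ Q 96 168 30 (1563 / 1000) (-(9579 / 1000)) 0 d x + PS d x := by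
  unfold Q PS
  linarith [mul_nonneg (sub_nonneg.2 hz') (lin_q (q := 12) (by norm_num) h (3 / 40) (-(761 / 10000))),
    sq_nonneg (d + (7270725 / 9747326) * x + (-(17851147 / 974732600))),
    sq_nonneg (x + (53234067450753511 / 700018428038182500))]

lemma nSM2 (d x : ℝ) (h : 12 * x ^ 2 ≤ d - d ^ 2) (hz : (369 / 10000) ≤ x) (hz' : x ≤ (401 / 10000)) :
    (3011 / 200000) + (63 / 10) * ((46 / 49) * d - (12 / 7) * x + (3 / 49)) ≤ Q 96 168 30 (1563 / 1000) (-(9579 / 1000)) 0 d x + PS d x := by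
  unfold Q PS
  linarith [mul_nonneg (sub_nonneg.2 hz) (lin_q (q := 12) (by norm_num) h (139 / 5000) (19 / 400)),
    mul_nonneg (sub_nonneg.2 hz) (sub_nonneg.2 hz'),
    sq_nonneg (d + (-(16050621075000000000000 / 11500000000000000030771)) * x + (4280500847344999784603 / 161000000000000000430794)),
    sq_nonneg (x + (-(30983517419624248688555869233057816250000000 / 839592891999340238540306316485625019883943261)))]

lemma nSRB (d x : ℝ) (h : 12 * x ^ 2 ≤ d - d ^ 2) (hz : (401 / 10000) ≤ x) :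
    (2235 / 35152) + (63 / 10) * ((46 / 49) * d - (12 / 7) * x + (3 / 49)) ≤ Q 96 168 30 (3242 / 2197) (-(23070 / 2197)) 0 d x + PS d x := by
  unfold Q PS
  linarith [mul_nonneg (sub_nonneg.2 hz) (lin_q (q := 12) (by norm_num) h (3 / 52) (7 / 104)),
    sq_nonneg ((d - (3 / 52)) + (-(370022859500 / 307990284363)) * (x - (7 / 104))), sq_nonneg (x - (7 / 104))]

lemma nSLB (d x : ℝ) (h : 12 * x ^ 2 ≤ d - d ^ 2) (hz' : x ≤ (-(157 / 2500))) :
    (-(2570 / 2197)) + (63 / 10) * (2 * ((11 / 12) * d + 2 * x + (1 / 12))) ≤ Q 96 168 30 (3242 / 2197) (-(23070 / 2197)) 0 d x + PS d x := by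
  unfold Q PS
  linarith [mul_nonneg (sub_nonneg.2 hz') (lin_q (q := 12) (by norm_num) h (1 / 13) (-(1 / 13))),
    sq_nonneg ((d - (1 / 13)) + (152181500 / 81357393) * (x - (-(1 / 13)))), sq_nonneg (x - (-(1 / 13)))]

theorem nearS0 {d x : Fin 15 → ℝ} (h : ∀ i, 12 * x i ^ 2 ≤ d i - d i ^ 2)
    (h1 : ∑ i, d i = 1) (h0 : ∑ i, x i = 0) (hc : (Rt (1 / 50) x).card = 8)
    (hS : 96 * ∑ i, d i ^ 2 - 168 * ∑ i, x i ^ 2 - 30 * ∑ i, d i * x i + ∑ i, PS (d i) (x i) < -(2097 / 338) + (21 / 200)) :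
    -(2097 / 338) + (63 / 10) * ∑ i, (if (1 / 50) ≤ x i then (46 / 49) * d i - (12 / 7) * x i + (3 / 49)
        else 2 * ((11 / 12) * d i + 2 * x i + (1 / 12)))
      ≤ 96 * ∑ i, d i ^ 2 - 168 * ∑ i, x i ^ 2 - 30 * ∑ i, d i * x i + ∑ i, PS (d i) (x i) := by
  have hZL := left_le (K := 7) (a := (3242 / 2197)) (b := (-(23070 / 2197))) (ap := (2235 / 35152)) (an := (-(2570 / 2197))) (ZL := (-(157 / 2500))) (P := PS)
    (A := 96) (B := 168) (c := 30) (T := -(2097 / 338)) (t := (21 / 200)) (by norm_num) hc h h1 h0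
    nSA1
    nSA2
    nS0 (by norm_num) hS
  have hne : (Rt (1 / 50) x).Nonempty := by
    rw [← card_pos, hc]
    norm_num
  obtain ⟨i₀, hi₀, hmin⟩ := exists_min_image (Rt (1 / 50) x) x hne

  rcases le_total (x i₀) (369 / 10000) with hy | hy
  · have := stepS (K := 7) (a := (222 / 125)) (b := (-(1819 / 200))) (r := (-(52213 / 1000000))) (l := (-(135621 / 125000))) (μ := (17091 / 200000)) (Z1 := (1 / 50)) (Z2 := (369 / 10000))
      (A := 96) (B := 168) (c := 30) (T := -(2097 / 338)) (t := (21 / 200)) (P := PS) (by norm_num) hc h h1 h0 hi₀ hmin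
      (mem_Rt.1 hi₀) hy nSR1 nSL1 nSM1 (by norm_num)
    linarith

  rcases le_total (x i₀) (401 / 10000) with hy' | hy'
  · exact stepG (K := 7) (κ := (63 / 10)) (w := 2) (a2 := (46 / 49)) (b2 := (12 / 7)) (c2 := (3 / 49)) (a1 := (11 / 12)) (b1 := 2)
      (c1 := (1 / 12)) (a := (1563 / 1000)) (b := (-(9579 / 1000))) (r := (-(11 / 2000))) (l := (-(1105913 / 1000000))) (μ := (3011 / 200000)) (Z1 := (369 / 10000)) (Z2 := (401 / 10000)) (ZL := (-(157 / 2500)))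
      (A := 96) (B := 168) (c := 30) (T := -(2097 / 338)) (P := PS) (by norm_num) hc h h1 h0 hi₀ hmin
      hy hy' hZL nSR2 nSL2 nSM2 (by norm_num)
  clear hy; have hy := hy'; clear hy'

  exact stepB (K := 7) (κ := (63 / 10)) (w := 2) (a2 := (46 / 49)) (b2 := (12 / 7)) (c2 := (3 / 49)) (a1 := (11 / 12)) (b1 := 2)
    (c1 := (1 / 12)) (a := (3242 / 2197)) (b := (-(23070 / 2197))) (ap := (2235 / 35152)) (an := (-(2570 / 2197))) (Z1 := (401 / 10000)) (ZL := (-(157 / 2500)))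
    (A := 96) (B := 168) (c := 30) (T := -(2097 / 338)) (P := PS) (by norm_num) hc h h1 h0
    (fun i hi => hy.trans (hmin i hi)) hZL nSRB nSLB (by norm_num)

theorem nearSg {lu lv : ℝ} (hu : 4 ≤ lu) (hv : 0 ≤ lv) {d x : Fin 15 → ℝ}
    (h : ∀ i, 12 * x i ^ 2 ≤ d i - d i ^ 2)
    (h1 : ∑ i, d i = 1) (h0 : ∑ i, x i = 0) (hc : (Rt (1 / 50) x).card = 8) {w : ℝ} (hw : w ≤ 2)
    (hS : (2097 / 338) + (96 * ∑ i, d i ^ 2 - 168 * ∑ i, x i ^ 2 - 30 * ∑ i, d i * x i)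
      + ∑ i, (lu * (d i - d i ^ 2 - 12 * x i ^ 2) + lv * ((1 - 15 * d i - 2 * x i) ^ 2
        + (169 / 6) * (d i - d i ^ 2 - 12 * x i ^ 2))) < (21 / 200)) :
    (63 / 10) * ∑ i, (if (1 / 50) ≤ x i then (46 / 49) * d i - (12 / 7) * x i + (3 / 49)
        else w * ((11 / 12) * d i + 2 * x i + (1 / 12)))
      ≤ (2097 / 338) + (96 * ∑ i, d i ^ 2 - 168 * ∑ i, x i ^ 2 - 30 * ∑ i, d i * x i)
      + ∑ i, (lu * (d i - d i ^ 2 - 12 * x i ^ 2) + lv * ((1 - 15 * d i - 2 * x i) ^ 2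
        + (169 / 6) * (d i - d i ^ 2 - 12 * x i ^ 2))) := by
  have e1 : ∑ i, PS (d i) (x i) ≤ ∑ i, (lu * (d i - d i ^ 2 - 12 * x i ^ 2)
      + lv * ((1 - 15 * d i - 2 * x i) ^ 2
        + (169 / 6) * (d i - d i ^ 2 - 12 * x i ^ 2))) := by
    refine sum_le_sum fun i _ => ?_
    have h2 : 0 ≤ d i - d i ^ 2 - 12 * x i ^ 2 := by have := h i; linarith
    have h3 : 0 ≤ (1 - 15 * d i - 2 * x i) ^ 2
        + (169 / 6) * (d i - d i ^ 2 - 12 * x i ^ 2) := by positivity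
    have h4 := mul_le_mul_of_nonneg_right hu h2
    have h5 := mul_le_mul_of_nonneg_right hv h3
    unfold PS
    linarith
  have e2 : (63 / 10) * ∑ i, (if (1 / 50) ≤ x i then (46 / 49) * d i - (12 / 7) * x i + (3 / 49)
        else w * ((11 / 12) * d i + 2 * x i + (1 / 12)))
      ≤ (63 / 10) * ∑ i, (if (1 / 50) ≤ x i then (46 / 49) * d i - (12 / 7) * x i + (3 / 49)
        else 2 * ((11 / 12) * d i + 2 * x i + (1 / 12))) := by
    refine mul_le_mul_of_nonneg_left (sum_le_sum fun i _ => ?_) (by norm_num)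
    split_ifs with hz
    · exact le_refl _
    · refine mul_le_mul_of_nonneg_right hw ?_
      have := lin_q (q := 12) (by norm_num) (h i) (1 / 13) (-(1 / 13))
      linarith
  have e3 := nearS0 h h1 h0 hc (by linarith)
  linarith

theorem nearSl {ls : ℝ} (hu : 4 ≤ ls) {d x : Fin 15 → ℝ}
    (h : ∀ i, 12 * x i ^ 2 ≤ d i - d i ^ 2)
    (h1 : ∑ i, d i = 1) (h0 : ∑ i, x i = 0) (hc : (Rt (1 / 50) x).card = 8) {w : ℝ} (hw : w ≤ 2)
    (hS : (2097 / 338) + (96 * ∑ i, d i ^ 2 - 168 * ∑ i, x i ^ 2 - 30 * ∑ i, d i * x i)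
      + ∑ i, ls * (d i - d i ^ 2 - 12 * x i ^ 2) < (21 / 200)) :
    (63 / 10) * ∑ i, (if (1 / 50) ≤ x i then (46 / 49) * d i - (12 / 7) * x i + (3 / 49)
        else w * ((11 / 12) * d i + 2 * x i + (1 / 12)))
      ≤ (2097 / 338) + (96 * ∑ i, d i ^ 2 - 168 * ∑ i, x i ^ 2 - 30 * ∑ i, d i * x i) + ∑ i, ls * (d i - d i ^ 2 - 12 * x i ^ 2) := by
  have := nearSg (lu := ls) (lv := 0) hu le_rfl h h1 h0 hc hw
    (by simpa only [zero_mul, add_zero] using hS)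
  simpa only [zero_mul, add_zero] using this

end Vale.Agent.P224.SO.NS13p96c30
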