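import Vale.Agent.P224.SO.RgN

/-!
Dimension 13: the stable scalar inequalities near the Clifford configuration.
-/

namespace Vale.Agent.P224.SO.NS13p96c31

open Finset Vale.Agent.P224.SO Vale.Agent.P224.SO.Rg

/-- the additional terms -/
noncomputable def PS (d x : ℝ) : ℝ :=
  4 * (d - d ^ 2 - 12 * x ^ 2)

lemma PS_nonneg {d x : ℝ} (h : 12 * x ^ 2 ≤ d - d ^ 2) : 0 ≤ PS d x := by
  unfold PS
  linarith

lemma nSA1 (d x : ℝ) (h : 12 * x ^ 2 ≤ d - d ^ 2) (hz : (1 / 50) ≤ x) :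
    (5125 / 70304) ≤ Q 96 168 31 (19663 / 13182) (-(23531 / 2197)) 0 d x + PS d x := by
  unfold Q PS
  linarith [mul_nonneg (sub_nonneg.2 hz) (lin_q (q := 12) (by norm_num) h (3 / 52) (7 / 104)),
    sq_nonneg ((d - (3 / 52)) + (-(32876085450 / 29797625063)) * (x - (7 / 104))), sq_nonneg (x - (7 / 104))]

lemma nSA2 (d x : ℝ) (h : 12 * x ^ 2 ≤ d - d ^ 2) :
    (-(15571 / 13182)) ≤ Q 96 168 31 (19663 / 13182) (-(23531 / 2197)) 0 d x + PS d x := by
  unfold Q PS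
  linarith [sq_nonneg ((d - (1 / 13)) + (-(15717 / 116113)) * (x - (-(1 / 13)))), sq_nonneg (x - (-(1 / 13)))]

lemma nS0 (d x : ℝ) (h : 12 * x ^ 2 ≤ d - d ^ 2) (hz : (-(63 / 1000)) ≤ x) :
    (-(15571 / 13182)) + (51 / 500) ≤ Q 96 168 31 (19663 / 13182) (-(23531 / 2197)) 0 d x + PS d x := by
  unfold Q PS
  linarith [mul_nonneg (sub_nonneg.2 hz) (lin_q (q := 12) (by norm_num) h (1661 / 2000) (1083 / 10000)),
    sq_nonneg (d + (-(43610319 / 428852800)) * x + (-(159839399989327 / 2826568804800000))),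
    sq_nonneg (x + (382426648279769773541 / 6052178285824669323000))]

lemma nSR1 (d x : ℝ) (h : 12 * x ^ 2 ≤ d - d ^ 2) (hz : (1 / 50) ≤ x) :
    (-(1303 / 31250)) ≤ Q 96 168 31 (357 / 200) (-(2329 / 250)) 0 d x + PS d x := by
  unfold Q PS
  linarith [mul_nonneg (sub_nonneg.2 hz) (lin_q (q := 12) (by norm_num) h (81 / 1250) (711 / 10000)),
    sq_nonneg (d + (-(176989104 / 248068075)) * x + (-(175025271 / 12403403750))),
    sq_nonneg (x + (-(130469412271854317 / 1837091549844462720)))]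

lemma nSL1 (d x : ℝ) (h : 12 * x ^ 2 ≤ d - d ^ 2) :
    (-(137093 / 125000)) ≤ Q 96 168 31 (357 / 200) (-(2329 / 250)) 0 d x + PS d x := by
  unfold Q PS
  linarith [sq_nonneg (d + (-(77500 / 569021)) * x + (-(48973 / 569021))),
    sq_nonneg (x + (4728545795 / 61936965646))]

lemma nSM1 (d x : ℝ) (h : 12 * x ^ 2 ≤ d - d ^ 2) (hz : (1 / 50) ≤ x) (hz' : x ≤ (369 / 10000)) :
    (92847 / 1000000) ≤ Q 96 168 31 (357 / 200) (-(2329 / 250)) 0 d x + PS d x := by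
  unfold Q PS
  linarith [mul_nonneg (sub_nonneg.2 hz) (lin_q (q := 12) (by norm_num) h (83 / 5000) (369 / 10000)),
    mul_nonneg (sub_nonneg.2 hz') (lin_q (q := 12) (by norm_num) h (61 / 10000) (14 / 625)),
    mul_nonneg (sub_nonneg.2 hz) (sub_nonneg.2 hz'),
    sq_nonneg (d + (-(141016089211 / 237074325000)) * x + (12643596215659 / 2370743250000000)),
    sq_nonneg (x + (-(12724445911060031348707451 / 344834022596405381974790000)))]

lemma nSR2 (d x : ℝ) (h : 12 * x ^ 2 ≤ d - d ^ 2) (hz : (369 / 10000) ≤ x) :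
    (2071 / 500000) + (31 / 5) * ((46 / 49) * d - (12 / 7) * x + (3 / 49)) ≤ Q 96 168 31 (197 / 125) (-(9791 / 1000)) 0 d x + PS d x := by
  unfold Q PS
  linarith [mul_nonneg (sub_nonneg.2 hz) (lin_q (q := 12) (by norm_num) h (643 / 10000) (177 / 2500)),
    sq_nonneg (d + (-(1006675861 / 925291230)) * x + (1927199964247 / 151130900900000)),
    sq_nonneg (x + (-(2080496974782465814287 / 29414586630777393955000)))]

lemma nSL2 (d x : ℝ) (h : 12 * x ^ 2 ≤ d - d ^ 2) (hz' : x ≤ (-(63 / 1000))) :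
    (-(558651 / 500000)) + (31 / 5) * (2 * ((11 / 12) * d + 2 * x + (1 / 12))) ≤ Q 96 168 31 (197 / 125) (-(9791 / 1000)) 0 d x + PS d x := by
  unfold Q PS
  linarith [mul_nonneg (sub_nonneg.2 hz') (lin_q (q := 12) (by norm_num) h (751 / 10000) (-(761 / 10000))),
    sq_nonneg (d + (570419023 / 982732500) * x + (-(91134554653 / 2948197500000))),
    sq_nonneg (x + (77351273783295338161 / 1017019704639739103250))]

lemma nSM2 (d x : ℝ) (h : 12 * x ^ 2 ≤ d - d ^ 2) (hz : (369 / 10000) ≤ x) (hz' : x ≤ (403 / 10000)) :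
    (4753 / 200000) + (31 / 5) * ((46 / 49) * d - (12 / 7) * x + (3 / 49)) ≤ Q 96 168 31 (197 / 125) (-(9791 / 1000)) 0 d x + PS d x := by
  unfold Q PS
  linarith [mul_nonneg (sub_nonneg.2 hz) (lin_q (q := 12) (by norm_num) h (329 / 10000) (103 / 2000)),
    mul_nonneg (sub_nonneg.2 hz) (sub_nonneg.2 hz'),
    sq_nonneg (d + (-(346718284000000000000 / 262857142857142870219)) * x + (4327116610205595514883 / 180320000000000008970234)),
    sq_nonneg (x + (-(727123794250150424986069010745483850000000 / 19706137522163180777939872714120175944091869)))]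

lemma nSRB (d x : ℝ) (h : 12 * x ^ 2 ≤ d - d ^ 2) (hz : (403 / 10000) ≤ x) :
    (5125 / 70304) + (31 / 5) * ((46 / 49) * d - (12 / 7) * x + (3 / 49)) ≤ Q 96 168 31 (19663 / 13182) (-(23531 / 2197)) 0 d x + PS d x := by
  unfold Q PS
  linarith [mul_nonneg (sub_nonneg.2 hz) (lin_q (q := 12) (by norm_num) h (3 / 52) (7 / 104)),
    sq_nonneg ((d - (3 / 52)) + (-(73787958774075 / 60586906741304)) * (x - (7 / 104))), sq_nonneg (x - (7 / 104))]

lemma nSLB (d x : ℝ) (h : 12 * x ^ 2 ≤ d - d ^ 2) (hz' : x ≤ (-(63 / 1000))) :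
    (-(15571 / 13182)) + (31 / 5) * (2 * ((11 / 12) * d + 2 * x + (1 / 12))) ≤ Q 96 168 31 (19663 / 13182) (-(23531 / 2197)) 0 d x + PS d x := by
  unfold Q PS
  linarith [mul_nonneg (sub_nonneg.2 hz') (lin_q (q := 12) (by norm_num) h (1 / 13) (-(1 / 13))),
    sq_nonneg ((d - (1 / 13)) + (2149629604200 / 1145597705833) * (x - (-(1 / 13)))), sq_nonneg (x - (-(1 / 13)))]

theorem nearS0 {d x : Fin 15 → ℝ} (h : ∀ i, 12 * x i ^ 2 ≤ d i - d i ^ 2)
    (h1 : ∑ i, d i = 1) (h0 : ∑ i, x i = 0) (hc : (Rt (1 / 50) x).card = 8)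
    (hS : 96 * ∑ i, d i ^ 2 - 168 * ∑ i, x i ^ 2 - 31 * ∑ i, d i * x i + ∑ i, PS (d i) (x i) < -(4187 / 676) + (51 / 500)) :
    -(4187 / 676) + (31 / 5) * ∑ i, (if (1 / 50) ≤ x i then (46 / 49) * d i - (12 / 7) * x i + (3 / 49)
        else 2 * ((11 / 12) * d i + 2 * x i + (1 / 12)))
      ≤ 96 * ∑ i, d i ^ 2 - 168 * ∑ i, x i ^ 2 - 31 * ∑ i, d i * x i + ∑ i, PS (d i) (x i) := by
  have hZL := left_le (K := 7) (a := (19663 / 13182)) (b := (-(23531 / 2197))) (ap := (5125 / 70304)) (an := (-(15571 / 13182))) (ZL := (-(63 / 1000))) (P := PS)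
    (A := 96) (B := 168) (c := 31) (T := -(4187 / 676)) (t := (51 / 500)) (by norm_num) hc h h1 h0
    nSA1
    nSA2
    nS0 (by norm_num) hS
  have hne : (Rt (1 / 50) x).Nonempty := by
    rw [← card_pos, hc]
    norm_num
  obtain ⟨i₀, hi₀, hmin⟩ := exists_min_image (Rt (1 / 50) x) x hne

  rcases le_total (x i₀) (369 / 10000) with hy | hy
  · have := stepS (K := 7) (a := (357 / 200)) (b := (-(2329 / 250))) (r := (-(1303 / 31250))) (l := (-(137093 / 125000))) (μ := (92847 / 1000000)) (Z1 := (1 / 50)) (Z2 := (369 / 10000))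
      (A := 96) (B := 168) (c := 31) (T := -(4187 / 676)) (t := (51 / 500)) (P := PS) (by norm_num) hc h h1 h0 hi₀ hmin
      (mem_Rt.1 hi₀) hy nSR1 nSL1 nSM1 (by norm_num)
    linarith

  rcases le_total (x i₀) (403 / 10000) with hy' | hy'
  · exact stepG (K := 7) (κ := (31 / 5)) (w := 2) (a2 := (46 / 49)) (b2 := (12 / 7)) (c2 := (3 / 49)) (a1 := (11 / 12)) (b1 := 2)
      (c1 := (1 / 12)) (a := (197 / 125)) (b := (-(9791 / 1000))) (r := (2071 / 500000)) (l := (-(558651 / 500000))) (μ := (4753 / 200000)) (Z1 := (369 / 10000)) (Z2 := (403 / 10000)) (ZL := (-(63 / 1000)))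
      (A := 96) (B := 168) (c := 31) (T := -(4187 / 676)) (P := PS) (by norm_num) hc h h1 h0 hi₀ hmin
      hy hy' hZL nSR2 nSL2 nSM2 (by norm_num)
  clear hy; have hy := hy'; clear hy'

  exact stepB (K := 7) (κ := (31 / 5)) (w := 2) (a2 := (46 / 49)) (b2 := (12 / 7)) (c2 := (3 / 49)) (a1 := (11 / 12)) (b1 := 2)
    (c1 := (1 / 12)) (a := (19663 / 13182)) (b := (-(23531 / 2197))) (ap := (5125 / 70304)) (an := (-(15571 / 13182))) (Z1 := (403 / 10000)) (ZL := (-(63 / 1000)))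
    (A := 96) (B := 168) (c := 31) (T := -(4187 / 676)) (P := PS) (by norm_num) hc h h1 h0
    (fun i hi => hy.trans (hmin i hi)) hZL nSRB nSLB (by norm_num)

theorem nearSg {lu lv : ℝ} (hu : 4 ≤ lu) (hv : 0 ≤ lv) {d x : Fin 15 → ℝ}
    (h : ∀ i, 12 * x i ^ 2 ≤ d i - d i ^ 2)
    (h1 : ∑ i, d i = 1) (h0 : ∑ i, x i = 0) (hc : (Rt (1 / 50) x).card = 8) {w : ℝ} (hw : w ≤ 2)
    (hS : (4187 / 676) + (96 * ∑ i, d i ^ 2 - 168 * ∑ i, x i ^ 2 - 31 * ∑ i, d i * x i)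
      + ∑ i, (lu * (d i - d i ^ 2 - 12 * x i ^ 2) + lv * ((1 - 15 * d i - 2 * x i) ^ 2
        + (169 / 6) * (d i - d i ^ 2 - 12 * x i ^ 2))) < (51 / 500)) :
    (31 / 5) * ∑ i, (if (1 / 50) ≤ x i then (46 / 49) * d i - (12 / 7) * x i + (3 / 49)
        else w * ((11 / 12) * d i + 2 * x i + (1 / 12)))
      ≤ (4187 / 676) + (96 * ∑ i, d i ^ 2 - 168 * ∑ i, x i ^ 2 - 31 * ∑ i, d i * x i)
      + ∑ i, (lu * (d i - d i ^ 2 - 12 * x i ^ 2) + lv * ((1 - 15 * d i - 2 * x i) ^ 2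
        + (169 / 6) * (d i - d i ^ 2 - 12 * x i ^ 2))) := by
  have e1 : ∑ i, PS (d i) (x i) ≤ ∑ i, (lu * (d i - d i ^ 2 - 12 * x i ^ 2)
      + lv * ((1 - 15 * d i - 2 * x i) ^ 2
        + (169 / 6) * (d i - d i ^ 2 - 12 * x i ^ 2))) := by
    refine sum_le_sum fun i _ => ?_
    have h2 : 0 ≤ d i - d i ^ 2 - 12 * x i ^ 2 := by have := h i; linarith
    have h3 : 0 ≤ (1 - 15 * d i - 2 * x i) ^ 2
        + (169 / 6) * (d i - d i ^ 2 - 12 * x i ^ 2) := by positivity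
    have h4 := mul_le_mul_of_nonneg_right hu h2
    have h5 := mul_le_mul_of_nonneg_right hv h3
    unfold PS
    linarith
  have e2 : (31 / 5) * ∑ i, (if (1 / 50) ≤ x i then (46 / 49) * d i - (12 / 7) * x i + (3 / 49)
        else w * ((11 / 12) * d i + 2 * x i + (1 / 12)))
      ≤ (31 / 5) * ∑ i, (if (1 / 50) ≤ x i then (46 / 49) * d i - (12 / 7) * x i + (3 / 49)
        else 2 * ((11 / 12) * d i + 2 * x i + (1 / 12))) := by
    refine mul_le_mul_of_nonneg_left (sum_le_sum fun i _ => ?_) (by norm_num)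
    split_ifs with hz
    · exact le_refl _
    · refine mul_le_mul_of_nonneg_right hw ?_
      have := lin_q (q := 12) (by norm_num) (h i) (1 / 13) (-(1 / 13))
      linarith
  have e3 := nearS0 h h1 h0 hc (by linarith)
  linarith

theorem nearSl {ls : ℝ} (hu : 4 ≤ ls) {d x : Fin 15 → ℝ}
    (h : ∀ i, 12 * x i ^ 2 ≤ d i - d i ^ 2)
    (h1 : ∑ i, d i = 1) (h0 : ∑ i, x i = 0) (hc : (Rt (1 / 50) x).card = 8) {w : ℝ} (hw : w ≤ 2)
    (hS : (4187 / 676) + (96 * ∑ i, d i ^ 2 - 168 * ∑ i, x i ^ 2 - 31 * ∑ i, d i * x i)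
      + ∑ i, ls * (d i - d i ^ 2 - 12 * x i ^ 2) < (51 / 500)) :
    (31 / 5) * ∑ i, (if (1 / 50) ≤ x i then (46 / 49) * d i - (12 / 7) * x i + (3 / 49)
        else w * ((11 / 12) * d i + 2 * x i + (1 / 12)))
      ≤ (4187 / 676) + (96 * ∑ i, d i ^ 2 - 168 * ∑ i, x i ^ 2 - 31 * ∑ i, d i * x i) + ∑ i, ls * (d i - d i ^ 2 - 12 * x i ^ 2) := by
  have := nearSg (lu := ls) (lv := 0) hu le_rfl h h1 h0 hc hw
    (by simpa only [zero_mul, add_zero] using hS)
  simpa only [zero_mul, add_zero] using this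

end Vale.Agent.P224.SO.NS13p96c31
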