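import Vale.Agent.P224.SO.RgN

/-!
Dimension 13: the stable scalar inequalities near the Clifford configuration.
-/

namespace Vale.Agent.P224.SO.NS13p97c31

open Finset Vale.Agent.P224.SO Vale.Agent.P224.SO.Rg

/-- the additional terms -/
noncomputable def PS (d x : ℝ) : ℝ :=
  4 * (d - d ^ 2 - 12 * x ^ 2)

lemma PS_nonneg {d x : ℝ} (h : 12 * x ^ 2 ≤ d - d ^ 2) : 0 ≤ PS d x := by
  unfold PS
  linarith

lemma nSA1 (d x : ℝ) (h : 12 * x ^ 2 ≤ d - d ^ 2) (hz : (1 / 50) ≤ x) :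
    (4987 / 70304) ≤ Q 97 168 31 (10730 / 6591) (-(23615 / 2197)) 0 d x + PS d x := by
  unfold Q PS
  linarith [mul_nonneg (sub_nonneg.2 hz) (lin_q (q := 12) (by norm_num) h (3 / 52) (7 / 104)),
    sq_nonneg ((d - (3 / 52)) + (-(45980240670 / 41660827709)) * (x - (7 / 104))), sq_nonneg (x - (7 / 104))]

lemma nSA2 (d x : ℝ) (h : 12 * x ^ 2 ≤ d - d ^ 2) :
    (-(7835 / 6591)) ≤ Q 97 168 31 (10730 / 6591) (-(23615 / 2197)) 0 d x + PS d x := by
  unfold Q PS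
  linarith [sq_nonneg ((d - (1 / 13)) + (-(15717 / 117148)) * (x - (-(1 / 13)))), sq_nonneg (x - (-(1 / 13)))]

lemma nS0 (d x : ℝ) (h : 12 * x ^ 2 ≤ d - d ^ 2) (hz : (-(63 / 1000)) ≤ x) :
    (-(7835 / 6591)) + (13 / 125) ≤ Q 97 168 31 (10730 / 6591) (-(23615 / 2197)) 0 d x + PS d x := by
  unfold Q PS
  linarith [mul_nonneg (sub_nonneg.2 hz) (lin_q (q := 12) (by norm_num) h (2003 / 2500) (72 / 625)),
    sq_nonneg (d + (-(140101009 / 1352163750)) * x + (-(505047556645097 / 8912111276250000))),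
    sq_nonneg (x + (30310979431782490562377 / 480434577427412958129000))]

lemma nSR1 (d x : ℝ) (h : 12 * x ^ 2 ≤ d - d ^ 2) (hz : (1 / 50) ≤ x) :
    (-(22713 / 500000)) ≤ Q 97 168 31 (963 / 500) (-(9333 / 1000)) 0 d x + PS d x := by
  unfold Q PS
  linarith [mul_nonneg (sub_nonneg.2 hz) (lin_q (q := 12) (by norm_num) h (81 / 1250) (711 / 10000)),
    sq_nonneg (d + (-(234374576 / 243806775)) * x + (42580201 / 12190338750)),
    sq_nonneg (x + (-(952137938210907161 / 13400532164640809600)))]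

lemma nSL1 (d x : ℝ) (h : 12 * x ^ 2 ≤ d - d ^ 2) :
    (-(551493 / 500000)) ≤ Q 97 168 31 (963 / 500) (-(9333 / 1000)) 0 d x + PS d x := by
  unfold Q PS
  linarith [sq_nonneg (d + (-(77500 / 574069)) * x + (-(98699 / 1148138))),
    sq_nonneg (x + (2734251055 / 35816231752))]

lemma nSM1 (d x : ℝ) (h : 12 * x ^ 2 ≤ d - d ^ 2) (hz : (1 / 50) ≤ x) (hz' : x ≤ (23 / 625)) :
    (91751 / 1000000) ≤ Q 97 168 31 (963 / 500) (-(9333 / 1000)) 0 d x + PS d x := by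
  unfold Q PS
  linarith [mul_nonneg (sub_nonneg.2 hz) (lin_q (q := 12) (by norm_num) h (33 / 2000) (23 / 625)),
    mul_nonneg (sub_nonneg.2 hz') (lin_q (q := 12) (by norm_num) h (57 / 10000) (217 / 10000)),
    mul_nonneg (sub_nonneg.2 hz) (sub_nonneg.2 hz'),
    sq_nonneg (d + (-(402042401 / 4851490500)) * x + (-(18158524733 / 1347636250000))),
    sq_nonneg (x + (-(1164369273668676751869 / 31642346893088681995000)))]

lemma nSR2 (d x : ℝ) (h : 12 * x ^ 2 ≤ d - d ^ 2) (hz : (23 / 625) ≤ x) :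
    (717 / 1000000) + (31 / 5) * ((46 / 49) * d - (12 / 7) * x + (3 / 49)) ≤ Q 97 168 31 (171 / 100) (-(4903 / 500)) 0 d x + PS d x := by
  unfold Q PS
  linarith [mul_nonneg (sub_nonneg.2 hz) (lin_q (q := 12) (by norm_num) h (321 / 5000) (177 / 2500)),
    sq_nonneg (d + (-(428582659 / 473340850)) * x + (-(1172991966 / 7248031765625))),
    sq_nonneg (x + (-(6940874761400089529 / 106401156333263155000)))]

lemma nSL2 (d x : ℝ) (h : 12 * x ^ 2 ≤ d - d ^ 2) (hz' : x ≤ (-(63 / 1000))) :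
    (-(1122867 / 1000000)) + (31 / 5) * (2 * ((11 / 12) * d + 2 * x + (1 / 12))) ≤ Q 97 168 31 (171 / 100) (-(4903 / 500)) 0 d x + PS d x := by
  unfold Q PS
  linarith [mul_nonneg (sub_nonneg.2 hz') (lin_q (q := 12) (by norm_num) h (3 / 40) (-(19 / 250))),
    sq_nonneg (d + (11443755 / 19855696) * x + (-(371554861 / 11913417600))),
    sq_nonneg (x + (209068605208524181 / 2749136438667747000))]

lemma nSM2 (d x : ℝ) (h : 12 * x ^ 2 ≤ d - d ^ 2) (hz : (23 / 625) ≤ x) (hz' : x ≤ (401 / 10000)) :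
    (5307 / 250000) + (31 / 5) * ((46 / 49) * d - (12 / 7) * x + (3 / 49)) ≤ Q 97 168 31 (171 / 100) (-(4903 / 500)) 0 d x + PS d x := by
  unfold Q PS
  linarith [mul_nonneg (sub_nonneg.2 hz) (lin_q (q := 12) (by norm_num) h (443 / 10000) (297 / 5000)),
    mul_nonneg (sub_nonneg.2 hz) (sub_nonneg.2 hz'),
    sq_nonneg (d + (-(9234111437500000000000000 / 11625000000000000000044917)) * x + (4690749488199999997799067 / 1139250000000000000004401866)),
    sq_nonneg (x + (-(311277747169786165936576601402349074767968750000000 / 8458568435132938124136913425908233000000296577922683)))]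

lemma nSRB (d x : ℝ) (h : 12 * x ^ 2 ≤ d - d ^ 2) (hz : (401 / 10000) ≤ x) :
    (4987 / 70304) + (31 / 5) * ((46 / 49) * d - (12 / 7) * x + (3 / 49)) ≤ Q 97 168 31 (10730 / 6591) (-(23615 / 2197)) 0 d x + PS d x := by
  unfold Q PS
  linarith [mul_nonneg (sub_nonneg.2 hz) (lin_q (q := 12) (by norm_num) h (3 / 52) (7 / 104)),
    sq_nonneg ((d - (3 / 52)) + (-(28250150580925 / 23749109592258)) * (x - (7 / 104))), sq_nonneg (x - (7 / 104))]

lemma nSLB (d x : ℝ) (h : 12 * x ^ 2 ≤ d - d ^ 2) (hz' : x ≤ (-(63 / 1000))) :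
    (-(7835 / 6591)) + (31 / 5) * (2 * ((11 / 12) * d + 2 * x + (1 / 12))) ≤ Q 97 168 31 (10730 / 6591) (-(23615 / 2197)) 0 d x + PS d x := by
  unfold Q PS
  linarith [mul_nonneg (sub_nonneg.2 hz') (lin_q (q := 12) (by norm_num) h (1 / 13) (-(1 / 13))),
    sq_nonneg ((d - (1 / 13)) + (3296632800 / 1755980369) * (x - (-(1 / 13)))), sq_nonneg (x - (-(1 / 13)))]

theorem nearS0 {d x : Fin 15 → ℝ} (h : ∀ i, 12 * x i ^ 2 ≤ d i - d i ^ 2)
    (h1 : ∑ i, d i = 1) (h0 : ∑ i, x i = 0) (hc : (Rt (1 / 50) x).card = 8)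
    (hS : 97 * ∑ i, d i ^ 2 - 168 * ∑ i, x i ^ 2 - 31 * ∑ i, d i * x i + ∑ i, PS (d i) (x i) < -(4141 / 676) + (13 / 125)) :
    -(4141 / 676) + (31 / 5) * ∑ i, (if (1 / 50) ≤ x i then (46 / 49) * d i - (12 / 7) * x i + (3 / 49)
        else 2 * ((11 / 12) * d i + 2 * x i + (1 / 12)))
      ≤ 97 * ∑ i, d i ^ 2 - 168 * ∑ i, x i ^ 2 - 31 * ∑ i, d i * x i + ∑ i, PS (d i) (x i) := by
  have hZL := left_le (K := 7) (a := (10730 / 6591)) (b := (-(23615 / 2197))) (ap := (4987 / 70304)) (an := (-(7835 / 6591))) (ZL := (-(63 / 1000))) (P := PS)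
    (A := 97) (B := 168) (c := 31) (T := -(4141 / 676)) (t := (13 / 125)) (by norm_num) hc h h1 h0
    nSA1
    nSA2
    nS0 (by norm_num) hS
  have hne : (Rt (1 / 50) x).Nonempty := by
    rw [← card_pos, hc]
    norm_num
  obtain ⟨i₀, hi₀, hmin⟩ := exists_min_image (Rt (1 / 50) x) x hne

  rcases le_total (x i₀) (23 / 625) with hy | hy
  · have := stepS (K := 7) (a := (963 / 500)) (b := (-(9333 / 1000))) (r := (-(22713 / 500000))) (l := (-(551493 / 500000))) (μ := (91751 / 1000000)) (Z1 := (1 / 50)) (Z2 := (23 / 625))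
      (A := 97) (B := 168) (c := 31) (T := -(4141 / 676)) (t := (13 / 125)) (P := PS) (by norm_num) hc h h1 h0 hi₀ hmin
      (mem_Rt.1 hi₀) hy nSR1 nSL1 nSM1 (by norm_num)
    linarith

  rcases le_total (x i₀) (401 / 10000) with hy' | hy'
  · exact stepG (K := 7) (κ := (31 / 5)) (w := 2) (a2 := (46 / 49)) (b2 := (12 / 7)) (c2 := (3 / 49)) (a1 := (11 / 12)) (b1 := 2)
      (c1 := (1 / 12)) (a := (171 / 100)) (b := (-(4903 / 500))) (r := (717 / 1000000)) (l := (-(1122867 / 1000000))) (μ := (5307 / 250000)) (Z1 := (23 / 625)) (Z2 := (401 / 10000)) (ZL := (-(63 / 1000)))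
      (A := 97) (B := 168) (c := 31) (T := -(4141 / 676)) (P := PS) (by norm_num) hc h h1 h0 hi₀ hmin
      hy hy' hZL nSR2 nSL2 nSM2 (by norm_num)
  clear hy; have hy := hy'; clear hy'

  exact stepB (K := 7) (κ := (31 / 5)) (w := 2) (a2 := (46 / 49)) (b2 := (12 / 7)) (c2 := (3 / 49)) (a1 := (11 / 12)) (b1 := 2)
    (c1 := (1 / 12)) (a := (10730 / 6591)) (b := (-(23615 / 2197))) (ap := (4987 / 70304)) (an := (-(7835 / 6591))) (Z1 := (401 / 10000)) (ZL := (-(63 / 1000)))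
    (A := 97) (B := 168) (c := 31) (T := -(4141 / 676)) (P := PS) (by norm_num) hc h h1 h0
    (fun i hi => hy.trans (hmin i hi)) hZL nSRB nSLB (by norm_num)

theorem nearSg {lu lv : ℝ} (hu : 4 ≤ lu) (hv : 0 ≤ lv) {d x : Fin 15 → ℝ}
    (h : ∀ i, 12 * x i ^ 2 ≤ d i - d i ^ 2)
    (h1 : ∑ i, d i = 1) (h0 : ∑ i, x i = 0) (hc : (Rt (1 / 50) x).card = 8) {w : ℝ} (hw : w ≤ 2)
    (hS : (4141 / 676) + (97 * ∑ i, d i ^ 2 - 168 * ∑ i, x i ^ 2 - 31 * ∑ i, d i * x i)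
      + ∑ i, (lu * (d i - d i ^ 2 - 12 * x i ^ 2) + lv * ((1 - 15 * d i - 2 * x i) ^ 2
        + (169 / 6) * (d i - d i ^ 2 - 12 * x i ^ 2))) < (13 / 125)) :
    (31 / 5) * ∑ i, (if (1 / 50) ≤ x i then (46 / 49) * d i - (12 / 7) * x i + (3 / 49)
        else w * ((11 / 12) * d i + 2 * x i + (1 / 12)))
      ≤ (4141 / 676) + (97 * ∑ i, d i ^ 2 - 168 * ∑ i, x i ^ 2 - 31 * ∑ i, d i * x i)
      + ∑ i, (lu * (d i - d i ^ 2 - 12 * x i ^ 2) + lv * ((1 - 15 * d i - 2 * x i) ^ 2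
        + (169 / 6) * (d i - d i ^ 2 - 12 * x i ^ 2))) := by
  have e1 : ∑ i, PS (d i) (x i) ≤ ∑ i, (lu * (d i - d i ^ 2 - 12 * x i ^ 2)
      + lv * ((1 - 15 * d i - 2 * x i) ^ 2
        + (169 / 6) * (d i - d i ^ 2 - 12 * x i ^ 2))) := by
    refine sum_le_sum fun i _ => ?_
    have h2 : 0 ≤ d i - d i ^ 2 - 12 * x i ^ 2 := by have := h i; linarith
    have h3 : 0 ≤ (1 - 15 * d i - 2 * x i) ^ 2
        + (169 / 6) * (d i - d i ^ 2 - 12 * x i ^ 2) := by positivity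
    have h4 := mul_le_mul_of_nonneg_right hu h2
    have h5 := mul_le_mul_of_nonneg_right hv h3
    unfold PS
    linarith
  have e2 : (31 / 5) * ∑ i, (if (1 / 50) ≤ x i then (46 / 49) * d i - (12 / 7) * x i + (3 / 49)
        else w * ((11 / 12) * d i + 2 * x i + (1 / 12)))
      ≤ (31 / 5) * ∑ i, (if (1 / 50) ≤ x i then (46 / 49) * d i - (12 / 7) * x i + (3 / 49)
        else 2 * ((11 / 12) * d i + 2 * x i + (1 / 12))) := by
    refine mul_le_mul_of_nonneg_left (sum_le_sum fun i _ => ?_) (by norm_num)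
    split_ifs with hz
    · exact le_refl _
    · refine mul_le_mul_of_nonneg_right hw ?_
      have := lin_q (q := 12) (by norm_num) (h i) (1 / 13) (-(1 / 13))
      linarith
  have e3 := nearS0 h h1 h0 hc (by linarith)
  linarith

theorem nearSl {ls : ℝ} (hu : 4 ≤ ls) {d x : Fin 15 → ℝ}
    (h : ∀ i, 12 * x i ^ 2 ≤ d i - d i ^ 2)
    (h1 : ∑ i, d i = 1) (h0 : ∑ i, x i = 0) (hc : (Rt (1 / 50) x).card = 8) {w : ℝ} (hw : w ≤ 2)
    (hS : (4141 / 676) + (97 * ∑ i, d i ^ 2 - 168 * ∑ i, x i ^ 2 - 31 * ∑ i, d i * x i)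
      + ∑ i, ls * (d i - d i ^ 2 - 12 * x i ^ 2) < (13 / 125)) :
    (31 / 5) * ∑ i, (if (1 / 50) ≤ x i then (46 / 49) * d i - (12 / 7) * x i + (3 / 49)
        else w * ((11 / 12) * d i + 2 * x i + (1 / 12)))
      ≤ (4141 / 676) + (97 * ∑ i, d i ^ 2 - 168 * ∑ i, x i ^ 2 - 31 * ∑ i, d i * x i) + ∑ i, ls * (d i - d i ^ 2 - 12 * x i ^ 2) := by
  have := nearSg (lu := ls) (lv := 0) hu le_rfl h h1 h0 hc hw
    (by simpa only [zero_mul, add_zero] using hS)
  simpa only [zero_mul, add_zero] using this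

end Vale.Agent.P224.SO.NS13p97c31
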