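import Vale.Agent.P224.SO.RgN

/-!
Dimension 15: the stable scalar inequalities near the Clifford configuration.
-/

namespace Vale.Agent.P224.SO.NS15

open Finset Vale.Agent.P224.SO Vale.Agent.P224.SO.Rg

/-- the additional terms -/
noncomputable def PS (d x : ℝ) : ℝ :=
  4 * (d - d ^ 2 - 14 * x ^ 2)

lemma PS_nonneg {d x : ℝ} (h : 14 * x ^ 2 ≤ d - d ^ 2) : 0 ≤ PS d x := by
  unfold PS
  linarith

lemma nSA1 (d x : ℝ) (h : 14 * x ^ 2 ≤ d - d ^ 2) (hz : (1 / 50) ≤ x) :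
    (191 / 6075) ≤ Q 113 224 36 (-(1828 / 14175)) (-(21124 / 2025)) 0 d x + PS d x := by
  unfold Q PS
  linarith [mul_nonneg (sub_nonneg.2 hz) (lin_q (q := 14) (by norm_num) h (7 / 135) (8 / 135)),
    sq_nonneg ((d - (7 / 135)) + (-(146812355 / 126725597)) * (x - (8 / 135))), sq_nonneg (x - (8 / 135))]

lemma nSA2 (d x : ℝ) (h : 14 * x ^ 2 ≤ d - d ^ 2) :
    (-(14461 / 14175)) ≤ Q 113 224 36 (-(1828 / 14175)) (-(21124 / 2025)) 0 d x + PS d x := by
  unfold Q PS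
  linarith [sq_nonneg ((d - (1 / 15)) + (-(17010 / 125971)) * (x - (-(1 / 15)))), sq_nonneg (x - (-(1 / 15)))]

lemma nS0 (d x : ℝ) (h : 14 * x ^ 2 ≤ d - d ^ 2) (hz : (-(133 / 2500)) ≤ x) :
    (-(14461 / 14175)) + (53 / 500) ≤ Q 113 224 36 (-(1828 / 14175)) (-(21124 / 2025)) 0 d x + PS d x := by
  unfold Q PS
  linarith [mul_nonneg (sub_nonneg.2 hz) (lin_q (q := 14) (by norm_num) h (1079 / 5000) (11 / 100)),
    sq_nonneg (d + (-(233954101 / 1045092500)) * x + (-(236617366256533 / 4444255856250000))),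
    sq_nonneg (x + (17267205359744034603757 / 325000655884448475041250))]

lemma nSR1 (d x : ℝ) (h : 14 * x ^ 2 ≤ d - d ^ 2) (hz : (1 / 50) ≤ x) :
    (-(3337 / 50000)) ≤ Q 113 224 36 (173 / 1000) (-(9089 / 1000)) 0 d x + PS d x := by
  unfold Q PS
  linarith [mul_nonneg (sub_nonneg.2 hz) (lin_q (q := 14) (by norm_num) h (36 / 625) (623 / 10000)),
    sq_nonneg (d + (-(36516463 / 49301525)) * x + (-(14120206 / 1232538125))),
    sq_nonneg (x + (-(147640955065127003 / 2374755175731875520)))]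

lemma nSL1 (d x : ℝ) (h : 14 * x ^ 2 ≤ d - d ^ 2) :
    (-(475481 / 500000)) ≤ Q 113 224 36 (173 / 1000) (-(9089 / 1000)) 0 d x + PS d x := by
  unfold Q PS
  linarith [sq_nonneg (d + (-(30000 / 221047)) * x + (-(16501 / 221047))),
    sq_nonneg (x + (7075300915 / 106880381556))]

lemma nSM1 (d x : ℝ) (h : 14 * x ^ 2 ≤ d - d ^ 2) (hz : (1 / 50) ≤ x) (hz' : x ≤ (79 / 2500)) :
    (67673 / 1000000) ≤ Q 113 224 36 (173 / 1000) (-(9089 / 1000)) 0 d x + PS d x := by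
  unfold Q PS
  linarith [mul_nonneg (sub_nonneg.2 hz) (lin_q (q := 14) (by norm_num) h (71 / 5000) (79 / 2500)),
    mul_nonneg (sub_nonneg.2 hz') (lin_q (q := 14) (by norm_num) h (7 / 1250) (-(1 / 50))),
    mul_nonneg (sub_nonneg.2 hz) (sub_nonneg.2 hz'),
    sq_nonneg (d + (-(1240716871 / 1407221625)) * x + (12032199596 / 879513515625)),
    sq_nonneg (x + (-(546506911632796210519 / 17290107398344256090000)))]

lemma nSR2 (d x : ℝ) (h : 14 * x ^ 2 ≤ d - d ^ 2) (hz : (79 / 2500) ≤ x) :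
    (-(25417 / 1000000)) + (36 / 5) * ((121 / 128) * d - (7 / 4) * x + (7 / 128)) ≤ Q 113 224 36 (1 / 500) (-(4807 / 500)) 0 d x + PS d x := by
  unfold Q PS
  linarith [mul_nonneg (sub_nonneg.2 hz) (lin_q (q := 14) (by norm_num) h (573 / 10000) (621 / 10000)),
    sq_nonneg (d + (-(273636933 / 218446132)) * x + (11195027707 / 546115330000)),
    sq_nonneg (x + (-(501477946451727403 / 8048541277505111000)))]

lemma nSL2 (d x : ℝ) (h : 14 * x ^ 2 ≤ d - d ^ 2) (hz' : x ≤ (-(133 / 2500))) :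
    (-(974557 / 1000000)) + (36 / 5) * (2 * ((13 / 14) * d + 2 * x + (1 / 14))) ≤ Q 113 224 36 (1 / 500) (-(4807 / 500)) 0 d x + PS d x := by
  unfold Q PS
  linarith [mul_nonneg (sub_nonneg.2 hz') (lin_q (q := 14) (by norm_num) h (327 / 5000) (-(661 / 10000))),
    sq_nonneg (d + (25209539 / 57665090) * x + (-(36854206691 / 1009139075000))),
    sq_nonneg (x + (10394934268325815781 / 157329172711610130000))]

lemma nSM2 (d x : ℝ) (h : 14 * x ^ 2 ≤ d - d ^ 2) (hz : (79 / 2500) ≤ x) (hz' : x ≤ (343 / 10000)) :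
    (-(1419 / 200000)) + (36 / 5) * ((121 / 128) * d - (7 / 4) * x + (7 / 128)) ≤ Q 113 224 36 (1 / 500) (-(4807 / 500)) 0 d x + PS d x := by
  unfold Q PS
  linarith [mul_nonneg (sub_nonneg.2 hz) (lin_q (q := 14) (by norm_num) h (32 / 625) (589 / 10000)),
    mul_nonneg (sub_nonneg.2 hz) (sub_nonneg.2 hz'),
    sq_nonneg (d + (-(901478200000000000000 / 908333333333333354809)) * x + (24091338906666645191 / 1816666666666666709618)),
    sq_nonneg (x + (-(83969069509860724223597360594293750000000 / 2658041978637140501312864199216676351956101)))]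

lemma nSRB (d x : ℝ) (h : 14 * x ^ 2 ≤ d - d ^ 2) (hz : (343 / 10000) ≤ x) :
    (191 / 6075) + (36 / 5) * ((121 / 128) * d - (7 / 4) * x + (7 / 128)) ≤ Q 113 224 36 (-(1828 / 14175)) (-(21124 / 2025)) 0 d x + PS d x := by
  unfold Q PS
  linarith [mul_nonneg (sub_nonneg.2 hz) (lin_q (q := 14) (by norm_num) h (7 / 135) (8 / 135)),
    sq_nonneg ((d - (7 / 135)) + (-(16742277600 / 12341676559)) * (x - (8 / 135))), sq_nonneg (x - (8 / 135))]

lemma nSLB (d x : ℝ) (h : 14 * x ^ 2 ≤ d - d ^ 2) (hz' : x ≤ (-(133 / 2500))) :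
    (-(14461 / 14175)) + (36 / 5) * (2 * ((13 / 14) * d + 2 * x + (1 / 14))) ≤ Q 113 224 36 (-(1828 / 14175)) (-(21124 / 2025)) 0 d x + PS d x := by
  unfold Q PS
  linarith [mul_nonneg (sub_nonneg.2 hz') (lin_q (q := 14) (by norm_num) h (1 / 15) (-(1 / 15))),
    sq_nonneg ((d - (1 / 15)) + (1955424750 / 1058941469) * (x - (-(1 / 15)))), sq_nonneg (x - (-(1 / 15)))]

theorem nearS0 {d x : Fin 17 → ℝ} (h : ∀ i, 14 * x i ^ 2 ≤ d i - d i ^ 2)
    (h1 : ∑ i, d i = 1) (h0 : ∑ i, x i = 0) (hc : (Rt (1 / 50) x).card = 9)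
    (hS : 113 * ∑ i, d i ^ 2 - 224 * ∑ i, x i ^ 2 - 36 * ∑ i, d i * x i + ∑ i, PS (d i) (x i) < -(1081 / 135) + (53 / 500)) :
    -(1081 / 135) + (36 / 5) * ∑ i, (if (1 / 50) ≤ x i then (121 / 128) * d i - (7 / 4) * x i + (7 / 128)
        else 2 * ((13 / 14) * d i + 2 * x i + (1 / 14)))
      ≤ 113 * ∑ i, d i ^ 2 - 224 * ∑ i, x i ^ 2 - 36 * ∑ i, d i * x i + ∑ i, PS (d i) (x i) := by
  have hZL := left_le (K := 8) (a := (-(1828 / 14175))) (b := (-(21124 / 2025))) (ap := (191 / 6075)) (an := (-(14461 / 14175))) (ZL := (-(133 / 2500))) (P := PS)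
    (A := 113) (B := 224) (c := 36) (T := -(1081 / 135)) (t := (53 / 500)) (by norm_num) hc h h1 h0
    nSA1
    nSA2
    nS0 (by norm_num) hS
  have hne : (Rt (1 / 50) x).Nonempty := by
    rw [← card_pos, hc]
    norm_num
  obtain ⟨i₀, hi₀, hmin⟩ := exists_min_image (Rt (1 / 50) x) x hne

  rcases le_total (x i₀) (79 / 2500) with hy | hy
  · have := stepS (K := 8) (a := (173 / 1000)) (b := (-(9089 / 1000))) (r := (-(3337 / 50000))) (l := (-(475481 / 500000))) (μ := (67673 / 1000000)) (Z1 := (1 / 50)) (Z2 := (79 / 2500))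
      (A := 113) (B := 224) (c := 36) (T := -(1081 / 135)) (t := (53 / 500)) (P := PS) (by norm_num) hc h h1 h0 hi₀ hmin
      (mem_Rt.1 hi₀) hy nSR1 nSL1 nSM1 (by norm_num)
    linarith

  rcases le_total (x i₀) (343 / 10000) with hy' | hy'
  · exact stepG (K := 8) (κ := (36 / 5)) (w := 2) (a2 := (121 / 128)) (b2 := (7 / 4)) (c2 := (7 / 128)) (a1 := (13 / 14)) (b1 := 2)
      (c1 := (1 / 14)) (a := (1 / 500)) (b := (-(4807 / 500))) (r := (-(25417 / 1000000))) (l := (-(974557 / 1000000))) (μ := (-(1419 / 200000))) (Z1 := (79 / 2500)) (Z2 := (343 / 10000)) (ZL := (-(133 / 2500)))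
      (A := 113) (B := 224) (c := 36) (T := -(1081 / 135)) (P := PS) (by norm_num) hc h h1 h0 hi₀ hmin
      hy hy' hZL nSR2 nSL2 nSM2 (by norm_num)
  clear hy; have hy := hy'; clear hy'

  exact stepB (K := 8) (κ := (36 / 5)) (w := 2) (a2 := (121 / 128)) (b2 := (7 / 4)) (c2 := (7 / 128)) (a1 := (13 / 14)) (b1 := 2)
    (c1 := (1 / 14)) (a := (-(1828 / 14175))) (b := (-(21124 / 2025))) (ap := (191 / 6075)) (an := (-(14461 / 14175))) (Z1 := (343 / 10000)) (ZL := (-(133 / 2500)))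
    (A := 113) (B := 224) (c := 36) (T := -(1081 / 135)) (P := PS) (by norm_num) hc h h1 h0
    (fun i hi => hy.trans (hmin i hi)) hZL nSRB nSLB (by norm_num)

theorem nearSg {lu lv : ℝ} (hu : 4 ≤ lu) (hv : 0 ≤ lv) {d x : Fin 17 → ℝ}
    (h : ∀ i, 14 * x i ^ 2 ≤ d i - d i ^ 2)
    (h1 : ∑ i, d i = 1) (h0 : ∑ i, x i = 0) (hc : (Rt (1 / 50) x).card = 9) {w : ℝ} (hw : w ≤ 2)
    (hS : (1081 / 135) + (113 * ∑ i, d i ^ 2 - 224 * ∑ i, x i ^ 2 - 36 * ∑ i, d i * x i)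
      + ∑ i, (lu * (d i - d i ^ 2 - 14 * x i ^ 2) + lv * ((1 - 17 * d i - 2 * x i) ^ 2
        + (225 / 7) * (d i - d i ^ 2 - 14 * x i ^ 2))) < (53 / 500)) :
    (36 / 5) * ∑ i, (if (1 / 50) ≤ x i then (121 / 128) * d i - (7 / 4) * x i + (7 / 128)
        else w * ((13 / 14) * d i + 2 * x i + (1 / 14)))
      ≤ (1081 / 135) + (113 * ∑ i, d i ^ 2 - 224 * ∑ i, x i ^ 2 - 36 * ∑ i, d i * x i)
      + ∑ i, (lu * (d i - d i ^ 2 - 14 * x i ^ 2) + lv * ((1 - 17 * d i - 2 * x i) ^ 2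
        + (225 / 7) * (d i - d i ^ 2 - 14 * x i ^ 2))) := by
  have e1 : ∑ i, PS (d i) (x i) ≤ ∑ i, (lu * (d i - d i ^ 2 - 14 * x i ^ 2)
      + lv * ((1 - 17 * d i - 2 * x i) ^ 2
        + (225 / 7) * (d i - d i ^ 2 - 14 * x i ^ 2))) := by
    refine sum_le_sum fun i _ => ?_
    have h2 : 0 ≤ d i - d i ^ 2 - 14 * x i ^ 2 := by have := h i; linarith
    have h3 : 0 ≤ (1 - 17 * d i - 2 * x i) ^ 2
        + (225 / 7) * (d i - d i ^ 2 - 14 * x i ^ 2) := by positivity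
    have h4 := mul_le_mul_of_nonneg_right hu h2
    have h5 := mul_le_mul_of_nonneg_right hv h3
    unfold PS
    linarith
  have e2 : (36 / 5) * ∑ i, (if (1 / 50) ≤ x i then (121 / 128) * d i - (7 / 4) * x i + (7 / 128)
        else w * ((13 / 14) * d i + 2 * x i + (1 / 14)))
      ≤ (36 / 5) * ∑ i, (if (1 / 50) ≤ x i then (121 / 128) * d i - (7 / 4) * x i + (7 / 128)
        else 2 * ((13 / 14) * d i + 2 * x i + (1 / 14))) := by
    refine mul_le_mul_of_nonneg_left (sum_le_sum fun i _ => ?_) (by norm_num)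
    split_ifs with hz
    · exact le_refl _
    · refine mul_le_mul_of_nonneg_right hw ?_
      have := lin_q (q := 14) (by norm_num) (h i) (1 / 15) (-(1 / 15))
      linarith
  have e3 := nearS0 h h1 h0 hc (by linarith)
  linarith

theorem nearSl {ls : ℝ} (hu : 4 ≤ ls) {d x : Fin 17 → ℝ}
    (h : ∀ i, 14 * x i ^ 2 ≤ d i - d i ^ 2)
    (h1 : ∑ i, d i = 1) (h0 : ∑ i, x i = 0) (hc : (Rt (1 / 50) x).card = 9) {w : ℝ} (hw : w ≤ 2)
    (hS : (1081 / 135) + (113 * ∑ i, d i ^ 2 - 224 * ∑ i, x i ^ 2 - 36 * ∑ i, d i * x i)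
      + ∑ i, ls * (d i - d i ^ 2 - 14 * x i ^ 2) < (53 / 500)) :
    (36 / 5) * ∑ i, (if (1 / 50) ≤ x i then (121 / 128) * d i - (7 / 4) * x i + (7 / 128)
        else w * ((13 / 14) * d i + 2 * x i + (1 / 14)))
      ≤ (1081 / 135) + (113 * ∑ i, d i ^ 2 - 224 * ∑ i, x i ^ 2 - 36 * ∑ i, d i * x i) + ∑ i, ls * (d i - d i ^ 2 - 14 * x i ^ 2) := by
  have := nearSg (lu := ls) (lv := 0) hu le_rfl h h1 h0 hc hw
    (by simpa only [zero_mul, add_zero] using hS)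
  simpa only [zero_mul, add_zero] using this

end Vale.Agent.P224.SO.NS15
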