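import Vale.Agent.P224.SO.RgN

/-!
Dimension 15: the stable scalar inequalities near the Clifford configuration.
-/

namespace Vale.Agent.P224.SO.NS15b

open Finset Vale.Agent.P224.SO Vale.Agent.P224.SO.Rg

/-- the additional terms -/
noncomputable def PS (d x : ℝ) : ℝ :=
  4 * (d - d ^ 2 - 14 * x ^ 2)

lemma PS_nonneg {d x : ℝ} (h : 14 * x ^ 2 ≤ d - d ^ 2) : 0 ≤ PS d x := by
  unfold PS
  linarith

lemma nSA1 (d x : ℝ) (h : 14 * x ^ 2 ≤ d - d ^ 2) (hz : (1 / 50) ≤ x) :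
    (-(358 / 30375)) ≤ Q 113 224 30 (-(14311 / 70875)) (-(94438 / 10125)) 0 d x + PS d x := by
  unfold Q PS
  linarith [mul_nonneg (sub_nonneg.2 hz) (lin_q (q := 14) (by norm_num) h (7 / 135) (8 / 135)),
    sq_nonneg ((d - (7 / 135)) + (-(1465852935 / 1269851009)) * (x - (8 / 135))), sq_nonneg (x - (8 / 135))]

lemma nSA2 (d x : ℝ) (h : 14 * x ^ 2 ≤ d - d ^ 2) :
    (-(68632 / 70875)) ≤ Q 113 224 30 (-(14311 / 70875)) (-(94438 / 10125)) 0 d x + PS d x := by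
  unfold Q PS
  linarith [sq_nonneg ((d - (1 / 15)) + (-(70875 / 628072)) * (x - (-(1 / 15)))), sq_nonneg (x - (-(1 / 15)))]

lemma nS0 (d x : ℝ) (h : 14 * x ^ 2 ≤ d - d ^ 2) (hz : (-(13 / 250)) ≤ x) :
    (-(68632 / 70875)) + (3 / 25) ≤ Q 113 224 30 (-(14311 / 70875)) (-(94438 / 10125)) 0 d x + PS d x := by
  unfold Q PS
  linarith [mul_nonneg (sub_nonneg.2 hz) (lin_q (q := 14) (by norm_num) h (6051 / 10000) (653 / 5000)),
    sq_nonneg (d + (-(652657431 / 6229060000)) * x + (-(39607815423901 / 882969255000000))),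
    sq_nonneg (x + (10437080070394592715419 / 198975890830752033878250))]

lemma nSR1 (d x : ℝ) (h : 14 * x ^ 2 ≤ d - d ^ 2) (hz : (1 / 50) ≤ x) :
    (-(115453 / 1000000)) ≤ Q 113 224 30 (67 / 500) (-(317 / 40)) 0 d x + PS d x := by
  unfold Q PS
  linarith [mul_nonneg (sub_nonneg.2 hz) (lin_q (q := 14) (by norm_num) h (36 / 625) (623 / 10000)),
    sq_nonneg (d + (-(658944113 / 1523027500)) * x + (-(2333618387 / 76151375000))),
    sq_nonneg (x + (-(8111222332756637407 / 130457320551401861600)))]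

lemma nSL1 (d x : ℝ) (h : 14 * x ^ 2 ≤ d - d ^ 2) :
    (-(448713 / 500000)) ≤ Q 113 224 30 (67 / 500) (-(317 / 40)) 0 d x + PS d x := by
  unfold Q PS
  linarith [sq_nonneg (d + (-(150000 / 1322131)) * x + (-(193471 / 2644262))),
    sq_nonneg (x + (37879115875 / 572239476254))]

lemma nSM1 (d x : ℝ) (h : 14 * x ^ 2 ≤ d - d ^ 2) (hz : (1 / 50) ≤ x) (hz' : x ≤ (63 / 2000)) :
    (8651 / 250000) ≤ Q 113 224 30 (67 / 500) (-(317 / 40)) 0 d x + PS d x := by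
  unfold Q PS
  linarith [mul_nonneg (sub_nonneg.2 hz) (lin_q (q := 14) (by norm_num) h (141 / 10000) (63 / 2000)),
    mul_nonneg (sub_nonneg.2 hz') (lin_q (q := 14) (by norm_num) h (1 / 500) (-(119 / 10000))),
    mul_nonneg (sub_nonneg.2 hz) (sub_nonneg.2 hz'),
    sq_nonneg (d + (-(1019581467 / 1119359200)) * x + (16345330897 / 1119359200000)),
    sq_nonneg (x + (-(1811934286543993661 / 57530276999352354840)))]

lemma nSR2 (d x : ℝ) (h : 14 * x ^ 2 ≤ d - d ^ 2) (hz : (63 / 2000) ≤ x) :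
    (-(8587 / 125000)) + 8 * ((121 / 128) * d - (7 / 4) * x + (7 / 128)) ≤ Q 113 224 30 (-(7 / 100)) (-(8509 / 1000)) 0 d x + PS d x := by
  unfold Q PS
  linarith [mul_nonneg (sub_nonneg.2 hz) (lin_q (q := 14) (by norm_num) h (143 / 2500) (621 / 10000)),
    sq_nonneg (d + (-(44852847 / 39071950)) * x + (1097529361 / 78143900000)),
    sq_nonneg (x + (-(379650385754733447 / 6138657488578748000)))]

lemma nSL2 (d x : ℝ) (h : 14 * x ^ 2 ≤ d - d ^ 2) (hz' : x ≤ (-(13 / 250))) :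
    (-(115347 / 125000)) + 8 * (2 * ((13 / 14) * d + 2 * x + (1 / 14))) ≤ Q 113 224 30 (-(7 / 100)) (-(8509 / 1000)) 0 d x + PS d x := by
  unfold Q PS
  linarith [mul_nonneg (sub_nonneg.2 hz') (lin_q (q := 14) (by norm_num) h (163 / 2500) (-(33 / 500))),
    sq_nonneg (d + (76512056 / 54909217) * x + (2567657221 / 96091129750)),
    sq_nonneg (x + (1842297151952460631 / 27910998328270881250))]

lemma nSM2 (d x : ℝ) (h : 14 * x ^ 2 ≤ d - d ^ 2) (hz : (63 / 2000) ≤ x) (hz' : x ≤ (171 / 5000)) :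
    (-(51461 / 1000000)) + 8 * ((121 / 128) * d - (7 / 4) * x + (7 / 128)) ≤ Q 113 224 30 (-(7 / 100)) (-(8509 / 1000)) 0 d x + PS d x := by
  unfold Q PS
  linarith [mul_nonneg (sub_nonneg.2 hz) (lin_q (q := 14) (by norm_num) h (249 / 10000) (417 / 10000)),
    mul_nonneg (sub_nonneg.2 hz) (sub_nonneg.2 hz'),
    sq_nonneg (d + (-(106180883050000000000000 / 54500000000000000325281)) * x + (4470645632149999674719 / 109000000000000000650562)),
    sq_nonneg (x + (-(90941119655055017371361785528773771250000000 / 2886186076411111523716119506572900740654102727)))]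

lemma nSRB (d x : ℝ) (h : 14 * x ^ 2 ≤ d - d ^ 2) (hz : (171 / 5000) ≤ x) :
    (-(358 / 30375)) + 8 * ((121 / 128) * d - (7 / 4) * x + (7 / 128)) ≤ Q 113 224 30 (-(14311 / 70875)) (-(94438 / 10125)) 0 d x + PS d x := by
  unfold Q PS
  linarith [mul_nonneg (sub_nonneg.2 hz) (lin_q (q := 14) (by norm_num) h (7 / 135) (8 / 135)),
    sq_nonneg ((d - (7 / 135)) + (-(2874601750 / 2278071007)) * (x - (8 / 135))), sq_nonneg (x - (8 / 135))]

lemma nSLB (d x : ℝ) (h : 14 * x ^ 2 ≤ d - d ^ 2) (hz' : x ≤ (-(13 / 250))) :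
    (-(68632 / 70875)) + 8 * (2 * ((13 / 14) * d + 2 * x + (1 / 14))) ≤ Q 113 224 30 (-(14311 / 70875)) (-(94438 / 10125)) 0 d x + PS d x := by
  unfold Q PS
  linarith [mul_nonneg (sub_nonneg.2 hz') (lin_q (q := 14) (by norm_num) h (1 / 15) (-(1 / 15))),
    sq_nonneg ((d - (1 / 15)) + (6541625475 / 3861461099) * (x - (-(1 / 15)))), sq_nonneg (x - (-(1 / 15)))]

theorem nearS0 {d x : Fin 17 → ℝ} (h : ∀ i, 14 * x i ^ 2 ≤ d i - d i ^ 2)
    (h1 : ∑ i, d i = 1) (h0 : ∑ i, x i = 0) (hc : (Rt (1 / 50) x).card = 9)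
    (hS : 113 * ∑ i, d i ^ 2 - 224 * ∑ i, x i ^ 2 - 30 * ∑ i, d i * x i + ∑ i, PS (d i) (x i) < -(5437 / 675) + (3 / 25)) :
    -(5437 / 675) + 8 * ∑ i, (if (1 / 50) ≤ x i then (121 / 128) * d i - (7 / 4) * x i + (7 / 128)
        else 2 * ((13 / 14) * d i + 2 * x i + (1 / 14)))
      ≤ 113 * ∑ i, d i ^ 2 - 224 * ∑ i, x i ^ 2 - 30 * ∑ i, d i * x i + ∑ i, PS (d i) (x i) := by
  have hZL := left_le (K := 8) (a := (-(14311 / 70875))) (b := (-(94438 / 10125))) (ap := (-(358 / 30375))) (an := (-(68632 / 70875))) (ZL := (-(13 / 250))) (P := PS)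
    (A := 113) (B := 224) (c := 30) (T := -(5437 / 675)) (t := (3 / 25)) (by norm_num) hc h h1 h0
    nSA1
    nSA2
    nS0 (by norm_num) hS
  have hne : (Rt (1 / 50) x).Nonempty := by
    rw [← card_pos, hc]
    norm_num
  obtain ⟨i₀, hi₀, hmin⟩ := exists_min_image (Rt (1 / 50) x) x hne

  rcases le_total (x i₀) (63 / 2000) with hy | hy
  · have := stepS (K := 8) (a := (67 / 500)) (b := (-(317 / 40))) (r := (-(115453 / 1000000))) (l := (-(448713 / 500000))) (μ := (8651 / 250000)) (Z1 := (1 / 50)) (Z2 := (63 / 2000))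
      (A := 113) (B := 224) (c := 30) (T := -(5437 / 675)) (t := (3 / 25)) (P := PS) (by norm_num) hc h h1 h0 hi₀ hmin
      (mem_Rt.1 hi₀) hy nSR1 nSL1 nSM1 (by norm_num)
    linarith

  rcases le_total (x i₀) (171 / 5000) with hy' | hy'
  · exact stepG (K := 8) (κ := 8) (w := 2) (a2 := (121 / 128)) (b2 := (7 / 4)) (c2 := (7 / 128)) (a1 := (13 / 14)) (b1 := 2)
      (c1 := (1 / 14)) (a := (-(7 / 100))) (b := (-(8509 / 1000))) (r := (-(8587 / 125000))) (l := (-(115347 / 125000))) (μ := (-(51461 / 1000000))) (Z1 := (63 / 2000)) (Z2 := (171 / 5000)) (ZL := (-(13 / 250)))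
      (A := 113) (B := 224) (c := 30) (T := -(5437 / 675)) (P := PS) (by norm_num) hc h h1 h0 hi₀ hmin
      hy hy' hZL nSR2 nSL2 nSM2 (by norm_num)
  clear hy; have hy := hy'; clear hy'

  exact stepB (K := 8) (κ := 8) (w := 2) (a2 := (121 / 128)) (b2 := (7 / 4)) (c2 := (7 / 128)) (a1 := (13 / 14)) (b1 := 2)
    (c1 := (1 / 14)) (a := (-(14311 / 70875))) (b := (-(94438 / 10125))) (ap := (-(358 / 30375))) (an := (-(68632 / 70875))) (Z1 := (171 / 5000)) (ZL := (-(13 / 250)))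
    (A := 113) (B := 224) (c := 30) (T := -(5437 / 675)) (P := PS) (by norm_num) hc h h1 h0
    (fun i hi => hy.trans (hmin i hi)) hZL nSRB nSLB (by norm_num)

theorem nearSg {lu lv : ℝ} (hu : 4 ≤ lu) (hv : 0 ≤ lv) {d x : Fin 17 → ℝ}
    (h : ∀ i, 14 * x i ^ 2 ≤ d i - d i ^ 2)
    (h1 : ∑ i, d i = 1) (h0 : ∑ i, x i = 0) (hc : (Rt (1 / 50) x).card = 9) {w : ℝ} (hw : w ≤ 2)
    (hS : (5437 / 675) + (113 * ∑ i, d i ^ 2 - 224 * ∑ i, x i ^ 2 - 30 * ∑ i, d i * x i)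
      + ∑ i, (lu * (d i - d i ^ 2 - 14 * x i ^ 2) + lv * ((1 - 17 * d i - 2 * x i) ^ 2
        + (225 / 7) * (d i - d i ^ 2 - 14 * x i ^ 2))) < (3 / 25)) :
    8 * ∑ i, (if (1 / 50) ≤ x i then (121 / 128) * d i - (7 / 4) * x i + (7 / 128)
        else w * ((13 / 14) * d i + 2 * x i + (1 / 14)))
      ≤ (5437 / 675) + (113 * ∑ i, d i ^ 2 - 224 * ∑ i, x i ^ 2 - 30 * ∑ i, d i * x i)
      + ∑ i, (lu * (d i - d i ^ 2 - 14 * x i ^ 2) + lv * ((1 - 17 * d i - 2 * x i) ^ 2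
        + (225 / 7) * (d i - d i ^ 2 - 14 * x i ^ 2))) := by
  have e1 : ∑ i, PS (d i) (x i) ≤ ∑ i, (lu * (d i - d i ^ 2 - 14 * x i ^ 2)
      + lv * ((1 - 17 * d i - 2 * x i) ^ 2
        + (225 / 7) * (d i - d i ^ 2 - 14 * x i ^ 2))) := by
    refine sum_le_sum fun i _ => ?_
    have h2 : 0 ≤ d i - d i ^ 2 - 14 * x i ^ 2 := by have := h i; linarith
    have h3 : 0 ≤ (1 - 17 * d i - 2 * x i) ^ 2
        + (225 / 7) * (d i - d i ^ 2 - 14 * x i ^ 2) := by positivity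
    have h4 := mul_le_mul_of_nonneg_right hu h2
    have h5 := mul_le_mul_of_nonneg_right hv h3
    unfold PS
    linarith
  have e2 : 8 * ∑ i, (if (1 / 50) ≤ x i then (121 / 128) * d i - (7 / 4) * x i + (7 / 128)
        else w * ((13 / 14) * d i + 2 * x i + (1 / 14)))
      ≤ 8 * ∑ i, (if (1 / 50) ≤ x i then (121 / 128) * d i - (7 / 4) * x i + (7 / 128)
        else 2 * ((13 / 14) * d i + 2 * x i + (1 / 14))) := by
    refine mul_le_mul_of_nonneg_left (sum_le_sum fun i _ => ?_) (by norm_num)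
    split_ifs with hz
    · exact le_refl _
    · refine mul_le_mul_of_nonneg_right hw ?_
      have := lin_q (q := 14) (by norm_num) (h i) (1 / 15) (-(1 / 15))
      linarith
  have e3 := nearS0 h h1 h0 hc (by linarith)
  linarith

theorem nearSl {ls : ℝ} (hu : 4 ≤ ls) {d x : Fin 17 → ℝ}
    (h : ∀ i, 14 * x i ^ 2 ≤ d i - d i ^ 2)
    (h1 : ∑ i, d i = 1) (h0 : ∑ i, x i = 0) (hc : (Rt (1 / 50) x).card = 9) {w : ℝ} (hw : w ≤ 2)
    (hS : (5437 / 675) + (113 * ∑ i, d i ^ 2 - 224 * ∑ i, x i ^ 2 - 30 * ∑ i, d i * x i)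
      + ∑ i, ls * (d i - d i ^ 2 - 14 * x i ^ 2) < (3 / 25)) :
    8 * ∑ i, (if (1 / 50) ≤ x i then (121 / 128) * d i - (7 / 4) * x i + (7 / 128)
        else w * ((13 / 14) * d i + 2 * x i + (1 / 14)))
      ≤ (5437 / 675) + (113 * ∑ i, d i ^ 2 - 224 * ∑ i, x i ^ 2 - 30 * ∑ i, d i * x i) + ∑ i, ls * (d i - d i ^ 2 - 14 * x i ^ 2) := by
  have := nearSg (lu := ls) (lv := 0) hu le_rfl h h1 h0 hc hw
    (by simpa only [zero_mul, add_zero] using hS)
  simpa only [zero_mul, add_zero] using this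

end Vale.Agent.P224.SO.NS15b
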