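import Vale.Agent.P224.SO.RgN

/-!
Dimension 15: the stable scalar inequalities near the Clifford configuration.
-/

namespace Vale.Agent.P224.SO.NS15p115c40

open Finset Vale.Agent.P224.SO Vale.Agent.P224.SO.Rg

/-- the additional terms -/
noncomputable def PS (d x : ℝ) : ℝ :=
  4 * (d - d ^ 2 - 14 * x ^ 2)

lemma PS_nonneg {d x : ℝ} (h : 14 * x ^ 2 ≤ d - d ^ 2) : 0 ≤ PS d x := by
  unfold PS
  linarith

lemma nSA1 (d x : ℝ) (h : 14 * x ^ 2 ≤ d - d ^ 2) (hz : (1 / 50) ≤ x) :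
    (1723 / 30375) ≤ Q 115 224 40 (11266 / 70875) (-(113672 / 10125)) 0 d x + PS d x := by
  unfold Q PS
  linarith [mul_nonneg (sub_nonneg.2 hz) (lin_q (q := 14) (by norm_num) h (7 / 135) (8 / 135)),
    sq_nonneg ((d - (7 / 135)) + (-(93269745 / 80337718)) * (x - (8 / 135))), sq_nonneg (x - (8 / 135))]

lemma nSA2 (d x : ℝ) (h : 14 * x ^ 2 ≤ d - d ^ 2) :
    (-(75533 / 70875)) ≤ Q 115 224 40 (11266 / 70875) (-(113672 / 10125)) 0 d x + PS d x := by
  unfold Q PS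
  linarith [sq_nonneg ((d - (1 / 15)) + (-(94500 / 640643)) * (x - (-(1 / 15)))), sq_nonneg (x - (-(1 / 15)))]

lemma nS0 (d x : ℝ) (h : 14 * x ^ 2 ≤ d - d ^ 2) (hz : (-(27 / 500)) ≤ x) :
    (-(75533 / 70875)) + (1 / 10) ≤ Q 115 224 40 (11266 / 70875) (-(113672 / 10125)) 0 d x + PS d x := by
  unfold Q PS
  linarith [mul_nonneg (sub_nonneg.2 hz) (lin_q (q := 14) (by norm_num) h (3969 / 5000) (1081 / 10000)),
    sq_nonneg (d + (-(86260691 / 710610000)) * x + (-(89200891766671 / 1813121415000000))),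
    sq_nonneg (x + (520268403031728843589 / 9419363006562937228500))]

lemma nSR1 (d x : ℝ) (h : 14 * x ^ 2 ≤ d - d ^ 2) (hz : (1 / 50) ≤ x) :
    (-(9997 / 250000)) ≤ Q 115 224 40 (223 / 500) (-(1979 / 200)) 0 d x + PS d x := by
  unfold Q PS
  linarith [mul_nonneg (sub_nonneg.2 hz) (lin_q (q := 14) (by norm_num) h (36 / 625) (311 / 5000)),
    sq_nonneg (d + (-(45344442 / 59946595)) * x + (-(31395433 / 2997329750))),
    sq_nonneg (x + (-(202474160355367517 / 3248378721551792000)))]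

lemma nSL1 (d x : ℝ) (h : 14 * x ^ 2 ≤ d - d ^ 2) :
    (-(996233 / 1000000)) ≤ Q 115 224 40 (223 / 500) (-(1979 / 200)) 0 d x + PS d x := by
  unfold Q PS
  linarith [sq_nonneg (d + (-(200000 / 1349213)) * x + (-(203673 / 2698426))),
    sq_nonneg (x + (46385013175 / 700693651166))]

lemma nSM1 (d x : ℝ) (h : 14 * x ^ 2 ≤ d - d ^ 2) (hz : (1 / 50) ≤ x) (hz' : x ≤ (79 / 2500)) :
    (87881 / 1000000) ≤ Q 115 224 40 (223 / 500) (-(1979 / 200)) 0 d x + PS d x := by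
  unfold Q PS
  linarith [mul_nonneg (sub_nonneg.2 hz) (lin_q (q := 14) (by norm_num) h (71 / 5000) (79 / 2500)),
    mul_nonneg (sub_nonneg.2 hz') (lin_q (q := 14) (by norm_num) h (141 / 10000) (-(63 / 2000))),
    mul_nonneg (sub_nonneg.2 hz) (sub_nonneg.2 hz'),
    sq_nonneg (d + (-(157465318811 / 113292370000)) * x + (8423435799269 / 283230925000000)),
    sq_nonneg (x + (-(647028242042245442754591 / 20476183722004337365697500)))]

lemma nSR2 (d x : ℝ) (h : 14 * x ^ 2 ≤ d - d ^ 2) (hz : (79 / 2500) ≤ x) :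
    (-(887 / 1000000)) + (137 / 20) * ((121 / 128) * d - (7 / 4) * x + (7 / 128)) ≤ Q 115 224 40 (7 / 25) (-(2597 / 250)) 0 d x + PS d x := by
  unfold Q PS
  linarith [mul_nonneg (sub_nonneg.2 hz) (lin_q (q := 14) (by norm_num) h (573 / 10000) (621 / 10000)),
    sq_nonneg (d + (-(38950876 / 30879175)) * x + (12993563007 / 617583500000)),
    sq_nonneg (x + (-(106108941511039557 / 1701818519003957500)))]

lemma nSL2 (d x : ℝ) (h : 14 * x ^ 2 ≤ d - d ^ 2) (hz' : x ≤ (-(27 / 500))) :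
    (-(254509 / 250000)) + (137 / 20) * (2 * ((13 / 14) * d + 2 * x + (1 / 14))) ≤ Q 115 224 40 (7 / 25) (-(2597 / 250)) 0 d x + PS d x := by
  unfold Q PS
  linarith [mul_nonneg (sub_nonneg.2 hz') (lin_q (q := 14) (by norm_num) h (327 / 5000) (-(661 / 10000))),
    sq_nonneg (d + (20537169 / 59346910) * x + (-(8836817559 / 207714185000))),
    sq_nonneg (x + (2020025122254598749 / 30572416941797626000))]

lemma nSM2 (d x : ℝ) (h : 14 * x ^ 2 ≤ d - d ^ 2) (hz : (79 / 2500) ≤ x) (hz' : x ≤ (173 / 5000)) :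
    (16473 / 1000000) + (137 / 20) * ((121 / 128) * d - (7 / 4) * x + (7 / 128)) ≤ Q 115 224 40 (7 / 25) (-(2597 / 250)) 0 d x + PS d x := by
  unfold Q PS
  linarith [mul_nonneg (sub_nonneg.2 hz) (lin_q (q := 14) (by norm_num) h (19 / 500) (511 / 10000)),
    mul_nonneg (sub_nonneg.2 hz) (sub_nonneg.2 hz'),
    sq_nonneg (d + (-(3624817850000000000000 / 2775000000000000005471)) * x + (18371960356428570647 / 792857142857142858706)),
    sq_nonneg (x + (-(416055626686503747070376184268113375000000 / 13163638053285688895178979000245000209522887)))]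

lemma nSRB (d x : ℝ) (h : 14 * x ^ 2 ≤ d - d ^ 2) (hz : (173 / 5000) ≤ x) :
    (1723 / 30375) + (137 / 20) * ((121 / 128) * d - (7 / 4) * x + (7 / 128)) ≤ Q 115 224 40 (11266 / 70875) (-(113672 / 10125)) 0 d x + PS d x := by
  unfold Q PS
  linarith [mul_nonneg (sub_nonneg.2 hz) (lin_q (q := 14) (by norm_num) h (7 / 135) (8 / 135)),
    sq_nonneg ((d - (7 / 135)) + (-(135667456000 / 99342183721)) * (x - (8 / 135))), sq_nonneg (x - (8 / 135))]

lemma nSLB (d x : ℝ) (h : 14 * x ^ 2 ≤ d - d ^ 2) (hz' : x ≤ (-(27 / 500))) :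
    (-(75533 / 70875)) + (137 / 20) * (2 * ((13 / 14) * d + 2 * x + (1 / 14))) ≤ Q 115 224 40 (11266 / 70875) (-(113672 / 10125)) 0 d x + PS d x := by
  unfold Q PS
  linarith [mul_nonneg (sub_nonneg.2 hz') (lin_q (q := 14) (by norm_num) h (1 / 15) (-(1 / 15))),
    sq_nonneg ((d - (1 / 15)) + (40670673750 / 21970576603) * (x - (-(1 / 15)))), sq_nonneg (x - (-(1 / 15)))]

theorem nearS0 {d x : Fin 17 → ℝ} (h : ∀ i, 14 * x i ^ 2 ≤ d i - d i ^ 2)
    (h1 : ∑ i, d i = 1) (h0 : ∑ i, x i = 0) (hc : (Rt (1 / 50) x).card = 9)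
    (hS : 115 * ∑ i, d i ^ 2 - 224 * ∑ i, x i ^ 2 - 40 * ∑ i, d i * x i + ∑ i, PS (d i) (x i) < -(5303 / 675) + (1 / 10)) :
    -(5303 / 675) + (137 / 20) * ∑ i, (if (1 / 50) ≤ x i then (121 / 128) * d i - (7 / 4) * x i + (7 / 128)
        else 2 * ((13 / 14) * d i + 2 * x i + (1 / 14)))
      ≤ 115 * ∑ i, d i ^ 2 - 224 * ∑ i, x i ^ 2 - 40 * ∑ i, d i * x i + ∑ i, PS (d i) (x i) := by
  have hZL := left_le (K := 8) (a := (11266 / 70875)) (b := (-(113672 / 10125))) (ap := (1723 / 30375)) (an := (-(75533 / 70875))) (ZL := (-(27 / 500))) (P := PS)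
    (A := 115) (B := 224) (c := 40) (T := -(5303 / 675)) (t := (1 / 10)) (by norm_num) hc h h1 h0
    nSA1
    nSA2
    nS0 (by norm_num) hS
  have hne : (Rt (1 / 50) x).Nonempty := by
    rw [← card_pos, hc]
    norm_num
  obtain ⟨i₀, hi₀, hmin⟩ := exists_min_image (Rt (1 / 50) x) x hne

  rcases le_total (x i₀) (79 / 2500) with hy | hy
  · have := stepS (K := 8) (a := (223 / 500)) (b := (-(1979 / 200))) (r := (-(9997 / 250000))) (l := (-(996233 / 1000000))) (μ := (87881 / 1000000)) (Z1 := (1 / 50)) (Z2 := (79 / 2500))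
      (A := 115) (B := 224) (c := 40) (T := -(5303 / 675)) (t := (1 / 10)) (P := PS) (by norm_num) hc h h1 h0 hi₀ hmin
      (mem_Rt.1 hi₀) hy nSR1 nSL1 nSM1 (by norm_num)
    linarith

  rcases le_total (x i₀) (173 / 5000) with hy' | hy'
  · exact stepG (K := 8) (κ := (137 / 20)) (w := 2) (a2 := (121 / 128)) (b2 := (7 / 4)) (c2 := (7 / 128)) (a1 := (13 / 14)) (b1 := 2)
      (c1 := (1 / 14)) (a := (7 / 25)) (b := (-(2597 / 250))) (r := (-(887 / 1000000))) (l := (-(254509 / 250000))) (μ := (16473 / 1000000)) (Z1 := (79 / 2500)) (Z2 := (173 / 5000)) (ZL := (-(27 / 500)))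
      (A := 115) (B := 224) (c := 40) (T := -(5303 / 675)) (P := PS) (by norm_num) hc h h1 h0 hi₀ hmin
      hy hy' hZL nSR2 nSL2 nSM2 (by norm_num)
  clear hy; have hy := hy'; clear hy'

  exact stepB (K := 8) (κ := (137 / 20)) (w := 2) (a2 := (121 / 128)) (b2 := (7 / 4)) (c2 := (7 / 128)) (a1 := (13 / 14)) (b1 := 2)
    (c1 := (1 / 14)) (a := (11266 / 70875)) (b := (-(113672 / 10125))) (ap := (1723 / 30375)) (an := (-(75533 / 70875))) (Z1 := (173 / 5000)) (ZL := (-(27 / 500)))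
    (A := 115) (B := 224) (c := 40) (T := -(5303 / 675)) (P := PS) (by norm_num) hc h h1 h0
    (fun i hi => hy.trans (hmin i hi)) hZL nSRB nSLB (by norm_num)

theorem nearSg {lu lv : ℝ} (hu : 4 ≤ lu) (hv : 0 ≤ lv) {d x : Fin 17 → ℝ}
    (h : ∀ i, 14 * x i ^ 2 ≤ d i - d i ^ 2)
    (h1 : ∑ i, d i = 1) (h0 : ∑ i, x i = 0) (hc : (Rt (1 / 50) x).card = 9) {w : ℝ} (hw : w ≤ 2)
    (hS : (5303 / 675) + (115 * ∑ i, d i ^ 2 - 224 * ∑ i, x i ^ 2 - 40 * ∑ i, d i * x i)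
      + ∑ i, (lu * (d i - d i ^ 2 - 14 * x i ^ 2) + lv * ((1 - 17 * d i - 2 * x i) ^ 2
        + (225 / 7) * (d i - d i ^ 2 - 14 * x i ^ 2))) < (1 / 10)) :
    (137 / 20) * ∑ i, (if (1 / 50) ≤ x i then (121 / 128) * d i - (7 / 4) * x i + (7 / 128)
        else w * ((13 / 14) * d i + 2 * x i + (1 / 14)))
      ≤ (5303 / 675) + (115 * ∑ i, d i ^ 2 - 224 * ∑ i, x i ^ 2 - 40 * ∑ i, d i * x i)
      + ∑ i, (lu * (d i - d i ^ 2 - 14 * x i ^ 2) + lv * ((1 - 17 * d i - 2 * x i) ^ 2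
        + (225 / 7) * (d i - d i ^ 2 - 14 * x i ^ 2))) := by
  have e1 : ∑ i, PS (d i) (x i) ≤ ∑ i, (lu * (d i - d i ^ 2 - 14 * x i ^ 2)
      + lv * ((1 - 17 * d i - 2 * x i) ^ 2
        + (225 / 7) * (d i - d i ^ 2 - 14 * x i ^ 2))) := by
    refine sum_le_sum fun i _ => ?_
    have h2 : 0 ≤ d i - d i ^ 2 - 14 * x i ^ 2 := by have := h i; linarith
    have h3 : 0 ≤ (1 - 17 * d i - 2 * x i) ^ 2
        + (225 / 7) * (d i - d i ^ 2 - 14 * x i ^ 2) := by positivity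
    have h4 := mul_le_mul_of_nonneg_right hu h2
    have h5 := mul_le_mul_of_nonneg_right hv h3
    unfold PS
    linarith
  have e2 : (137 / 20) * ∑ i, (if (1 / 50) ≤ x i then (121 / 128) * d i - (7 / 4) * x i + (7 / 128)
        else w * ((13 / 14) * d i + 2 * x i + (1 / 14)))
      ≤ (137 / 20) * ∑ i, (if (1 / 50) ≤ x i then (121 / 128) * d i - (7 / 4) * x i + (7 / 128)
        else 2 * ((13 / 14) * d i + 2 * x i + (1 / 14))) := by
    refine mul_le_mul_of_nonneg_left (sum_le_sum fun i _ => ?_) (by norm_num)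
    split_ifs with hz
    · exact le_refl _
    · refine mul_le_mul_of_nonneg_right hw ?_
      have := lin_q (q := 14) (by norm_num) (h i) (1 / 15) (-(1 / 15))
      linarith
  have e3 := nearS0 h h1 h0 hc (by linarith)
  linarith

theorem nearSl {ls : ℝ} (hu : 4 ≤ ls) {d x : Fin 17 → ℝ}
    (h : ∀ i, 14 * x i ^ 2 ≤ d i - d i ^ 2)
    (h1 : ∑ i, d i = 1) (h0 : ∑ i, x i = 0) (hc : (Rt (1 / 50) x).card = 9) {w : ℝ} (hw : w ≤ 2)
    (hS : (5303 / 675) + (115 * ∑ i, d i ^ 2 - 224 * ∑ i, x i ^ 2 - 40 * ∑ i, d i * x i)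
      + ∑ i, ls * (d i - d i ^ 2 - 14 * x i ^ 2) < (1 / 10)) :
    (137 / 20) * ∑ i, (if (1 / 50) ≤ x i then (121 / 128) * d i - (7 / 4) * x i + (7 / 128)
        else w * ((13 / 14) * d i + 2 * x i + (1 / 14)))
      ≤ (5303 / 675) + (115 * ∑ i, d i ^ 2 - 224 * ∑ i, x i ^ 2 - 40 * ∑ i, d i * x i) + ∑ i, ls * (d i - d i ^ 2 - 14 * x i ^ 2) := by
  have := nearSg (lu := ls) (lv := 0) hu le_rfl h h1 h0 hc hw
    (by simpa only [zero_mul, add_zero] using hS)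
  simpa only [zero_mul, add_zero] using this

end Vale.Agent.P224.SO.NS15p115c40
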