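import Vale.Agent.P224.SO.RgN

/-!
Dimension 15: the stable scalar inequalities near the Clifford configuration.
-/

namespace Vale.Agent.P224.SO.NS15p115c42

open Finset Vale.Agent.P224.SO Vale.Agent.P224.SO.Rg

/-- the additional terms -/
noncomputable def PS (d x : ℝ) : ℝ :=
  4 * (d - d ^ 2 - 14 * x ^ 2)

lemma PS_nonneg {d x : ℝ} (h : 14 * x ^ 2 ≤ d - d ^ 2) : 0 ≤ PS d x := by
  unfold PS
  linarith

lemma nSA1 (d x : ℝ) (h : 14 * x ^ 2 ≤ d - d ^ 2) (hz : (1 / 50) ≤ x) :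
    (6482 / 91125) ≤ Q 115 224 42 (5567 / 30375) (-(352198 / 30375)) 0 d x + PS d x := by
  unfold Q PS
  linarith [mul_nonneg (sub_nonneg.2 hz) (lin_q (q := 14) (by norm_num) h (7 / 135) (8 / 135)),
    sq_nonneg ((d - (7 / 135)) + (-(640296455 / 550480737)) * (x - (8 / 135))), sq_nonneg (x - (8 / 135))]

lemma nSA2 (d x : ℝ) (h : 14 * x ^ 2 ≤ d - d ^ 2) :
    (-(32896 / 30375)) ≤ Q 115 224 42 (5567 / 30375) (-(352198 / 30375)) 0 d x + PS d x := by
  unfold Q PS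
  linarith [sq_nonneg ((d - (1 / 15)) + (-(42525 / 274816)) * (x - (-(1 / 15)))), sq_nonneg (x - (-(1 / 15)))]

lemma nS0 (d x : ℝ) (h : 14 * x ^ 2 ≤ d - d ^ 2) (hz : (-(271 / 5000)) ≤ x) :
    (-(32896 / 30375)) + (12 / 125) ≤ Q 115 224 42 (5567 / 30375) (-(352198 / 30375)) 0 d x + PS d x := by
  unfold Q PS
  linarith [mul_nonneg (sub_nonneg.2 hz) (lin_q (q := 14) (by norm_num) h (8179 / 10000) (1031 / 10000)),
    sq_nonneg (d + (-(811915153 / 6405165000)) * x + (-(387901136070509 / 7782275475000000))),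
    sq_nonneg (x + (26926631473224714943 / 478255258394036415000))]

lemma nSR1 (d x : ℝ) (h : 14 * x ^ 2 ≤ d - d ^ 2) (hz : (1 / 50) ≤ x) :
    (-(24679 / 1000000)) ≤ Q 115 224 42 (23 / 50) (-(10269 / 1000)) 0 d x + PS d x := by
  unfold Q PS
  linarith [mul_nonneg (sub_nonneg.2 hz) (lin_q (q := 14) (by norm_num) h (36 / 625) (623 / 10000)),
    sq_nonneg (d + (-(107410492 / 150367775)) * x + (-(98658883 / 7518388750))),
    sq_nonneg (x + (-(418643814393842467 / 6729552712647788800)))]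

lemma nSL1 (d x : ℝ) (h : 14 * x ^ 2 ≤ d - d ^ 2) :
    (-(1013217 / 1000000)) ≤ Q 115 224 42 (23 / 50) (-(10269 / 1000)) 0 d x + PS d x := by
  unfold Q PS
  linarith [sq_nonneg (d + (-(210000 / 1350529)) * x + (-(205129 / 2701058))),
    sq_nonneg (x + (6829195215 / 103171179682))]

lemma nSM1 (d x : ℝ) (h : 14 * x ^ 2 ≤ d - d ^ 2) (hz : (1 / 50) ≤ x) (hz' : x ≤ (157 / 5000)) :
    (99227 / 1000000) ≤ Q 115 224 42 (23 / 50) (-(10269 / 1000)) 0 d x + PS d x := by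
  unfold Q PS
  linarith [mul_nonneg (sub_nonneg.2 hz) (lin_q (q := 14) (by norm_num) h (7 / 500) (157 / 5000)),
    mul_nonneg (sub_nonneg.2 hz') (lin_q (q := 14) (by norm_num) h (21 / 10000) (-(31 / 2500))),
    mul_nonneg (sub_nonneg.2 hz) (sub_nonneg.2 hz'),
    sq_nonneg (d + (-(4744659721 / 5729160000)) * x + (343887294997 / 28645800000000)),
    sq_nonneg (x + (-(3588245702112693754163 / 114291871562394610795000)))]

lemma nSR2 (d x : ℝ) (h : 14 * x ^ 2 ≤ d - d ^ 2) (hz : (157 / 5000) ≤ x) :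
    (12967 / 1000000) + (164 / 25) * ((121 / 128) * d - (7 / 4) * x + (7 / 128)) ≤ Q 115 224 42 (61 / 200) (-(2687 / 250)) 0 d x + PS d x := by
  unfold Q PS
  linarith [mul_nonneg (sub_nonneg.2 hz) (lin_q (q := 14) (by norm_num) h (287 / 5000) (311 / 5000)),
    sq_nonneg (d + (-(2406827 / 1956814)) * x + (10630074823 / 557691990000)),
    sq_nonneg (x + (-(4847524024665339 / 78247396881477500)))]

lemma nSL2 (d x : ℝ) (h : 14 * x ^ 2 ≤ d - d ^ 2) (hz' : x ≤ (-(271 / 5000))) :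
    (-(1034811 / 1000000)) + (164 / 25) * (2 * ((13 / 14) * d + 2 * x + (1 / 14))) ≤ Q 115 224 42 (61 / 200) (-(2687 / 250)) 0 d x + PS d x := by
  unfold Q PS
  linarith [mul_nonneg (sub_nonneg.2 hz') (lin_q (q := 14) (by norm_num) h (327 / 5000) (-(661 / 10000))),
    sq_nonneg (d + (210733767 / 1501344250) * x + (-(2951268669001 / 52547048750000))),
    sq_nonneg (x + (184196321005619817553 / 2787342797131321590000))]

lemma nSM2 (d x : ℝ) (h : 14 * x ^ 2 ≤ d - d ^ 2) (hz : (157 / 5000) ≤ x) (hz' : x ≤ (173 / 5000)) :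
    (30187 / 1000000) + (164 / 25) * ((121 / 128) * d - (7 / 4) * x + (7 / 128)) ≤ Q 115 224 42 (61 / 200) (-(2687 / 250)) 0 d x + PS d x := by
  unfold Q PS
  linarith [mul_nonneg (sub_nonneg.2 hz) (lin_q (q := 14) (by norm_num) h (47 / 1000) (283 / 5000)),
    mul_nonneg (sub_nonneg.2 hz) (sub_nonneg.2 hz'),
    sq_nonneg (d + (-(34225012500000000000000 / 27750000000000000044467)) * x + (1193068284999999955533 / 55500000000000000088934)),
    sq_nonneg (x + (-(1819258094629067755340612650783625000000000 / 57928750659713542823515864893888890426799847)))]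

lemma nSRB (d x : ℝ) (h : 14 * x ^ 2 ≤ d - d ^ 2) (hz : (173 / 5000) ≤ x) :
    (6482 / 91125) + (164 / 25) * ((121 / 128) * d - (7 / 4) * x + (7 / 128)) ≤ Q 115 224 42 (5567 / 30375) (-(352198 / 30375)) 0 d x + PS d x := by
  unfold Q PS
  linarith [mul_nonneg (sub_nonneg.2 hz) (lin_q (q := 14) (by norm_num) h (7 / 135) (8 / 135)),
    sq_nonneg ((d - (7 / 135)) + (-(92920118000 / 66530561021)) * (x - (8 / 135))), sq_nonneg (x - (8 / 135))]

lemma nSLB (d x : ℝ) (h : 14 * x ^ 2 ≤ d - d ^ 2) (hz' : x ≤ (-(271 / 5000))) :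
    (-(32896 / 30375)) + (164 / 25) * (2 * ((13 / 14) * d + 2 * x + (1 / 14))) ≤ Q 115 224 42 (5567 / 30375) (-(352198 / 30375)) 0 d x + PS d x := by
  unfold Q PS
  linarith [mul_nonneg (sub_nonneg.2 hz') (lin_q (q := 14) (by norm_num) h (1 / 15) (-(1 / 15))),
    sq_nonneg ((d - (1 / 15)) + (5295382929900 / 2856143136583) * (x - (-(1 / 15)))), sq_nonneg (x - (-(1 / 15)))]

theorem nearS0 {d x : Fin 17 → ℝ} (h : ∀ i, 14 * x i ^ 2 ≤ d i - d i ^ 2)
    (h1 : ∑ i, d i = 1) (h0 : ∑ i, x i = 0) (hc : (Rt (1 / 50) x).card = 9)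
    (hS : 115 * ∑ i, d i ^ 2 - 224 * ∑ i, x i ^ 2 - 42 * ∑ i, d i * x i + ∑ i, PS (d i) (x i) < -(15877 / 2025) + (12 / 125)) :
    -(15877 / 2025) + (164 / 25) * ∑ i, (if (1 / 50) ≤ x i then (121 / 128) * d i - (7 / 4) * x i + (7 / 128)
        else 2 * ((13 / 14) * d i + 2 * x i + (1 / 14)))
      ≤ 115 * ∑ i, d i ^ 2 - 224 * ∑ i, x i ^ 2 - 42 * ∑ i, d i * x i + ∑ i, PS (d i) (x i) := by
  have hZL := left_le (K := 8) (a := (5567 / 30375)) (b := (-(352198 / 30375))) (ap := (6482 / 91125)) (an := (-(32896 / 30375))) (ZL := (-(271 / 5000))) (P := PS)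
    (A := 115) (B := 224) (c := 42) (T := -(15877 / 2025)) (t := (12 / 125)) (by norm_num) hc h h1 h0
    nSA1
    nSA2
    nS0 (by norm_num) hS
  have hne : (Rt (1 / 50) x).Nonempty := by
    rw [← card_pos, hc]
    norm_num
  obtain ⟨i₀, hi₀, hmin⟩ := exists_min_image (Rt (1 / 50) x) x hne

  rcases le_total (x i₀) (157 / 5000) with hy | hy
  · have := stepS (K := 8) (a := (23 / 50)) (b := (-(10269 / 1000))) (r := (-(24679 / 1000000))) (l := (-(1013217 / 1000000))) (μ := (99227 / 1000000)) (Z1 := (1 / 50)) (Z2 := (157 / 5000))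
      (A := 115) (B := 224) (c := 42) (T := -(15877 / 2025)) (t := (12 / 125)) (P := PS) (by norm_num) hc h h1 h0 hi₀ hmin
      (mem_Rt.1 hi₀) hy nSR1 nSL1 nSM1 (by norm_num)
    linarith

  rcases le_total (x i₀) (173 / 5000) with hy' | hy'
  · exact stepG (K := 8) (κ := (164 / 25)) (w := 2) (a2 := (121 / 128)) (b2 := (7 / 4)) (c2 := (7 / 128)) (a1 := (13 / 14)) (b1 := 2)
      (c1 := (1 / 14)) (a := (61 / 200)) (b := (-(2687 / 250))) (r := (12967 / 1000000)) (l := (-(1034811 / 1000000))) (μ := (30187 / 1000000)) (Z1 := (157 / 5000)) (Z2 := (173 / 5000)) (ZL := (-(271 / 5000)))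
      (A := 115) (B := 224) (c := 42) (T := -(15877 / 2025)) (P := PS) (by norm_num) hc h h1 h0 hi₀ hmin
      hy hy' hZL nSR2 nSL2 nSM2 (by norm_num)
  clear hy; have hy := hy'; clear hy'

  exact stepB (K := 8) (κ := (164 / 25)) (w := 2) (a2 := (121 / 128)) (b2 := (7 / 4)) (c2 := (7 / 128)) (a1 := (13 / 14)) (b1 := 2)
    (c1 := (1 / 14)) (a := (5567 / 30375)) (b := (-(352198 / 30375))) (ap := (6482 / 91125)) (an := (-(32896 / 30375))) (Z1 := (173 / 5000)) (ZL := (-(271 / 5000)))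
    (A := 115) (B := 224) (c := 42) (T := -(15877 / 2025)) (P := PS) (by norm_num) hc h h1 h0
    (fun i hi => hy.trans (hmin i hi)) hZL nSRB nSLB (by norm_num)

theorem nearSg {lu lv : ℝ} (hu : 4 ≤ lu) (hv : 0 ≤ lv) {d x : Fin 17 → ℝ}
    (h : ∀ i, 14 * x i ^ 2 ≤ d i - d i ^ 2)
    (h1 : ∑ i, d i = 1) (h0 : ∑ i, x i = 0) (hc : (Rt (1 / 50) x).card = 9) {w : ℝ} (hw : w ≤ 2)
    (hS : (15877 / 2025) + (115 * ∑ i, d i ^ 2 - 224 * ∑ i, x i ^ 2 - 42 * ∑ i, d i * x i)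
      + ∑ i, (lu * (d i - d i ^ 2 - 14 * x i ^ 2) + lv * ((1 - 17 * d i - 2 * x i) ^ 2
        + (225 / 7) * (d i - d i ^ 2 - 14 * x i ^ 2))) < (12 / 125)) :
    (164 / 25) * ∑ i, (if (1 / 50) ≤ x i then (121 / 128) * d i - (7 / 4) * x i + (7 / 128)
        else w * ((13 / 14) * d i + 2 * x i + (1 / 14)))
      ≤ (15877 / 2025) + (115 * ∑ i, d i ^ 2 - 224 * ∑ i, x i ^ 2 - 42 * ∑ i, d i * x i)
      + ∑ i, (lu * (d i - d i ^ 2 - 14 * x i ^ 2) + lv * ((1 - 17 * d i - 2 * x i) ^ 2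
        + (225 / 7) * (d i - d i ^ 2 - 14 * x i ^ 2))) := by
  have e1 : ∑ i, PS (d i) (x i) ≤ ∑ i, (lu * (d i - d i ^ 2 - 14 * x i ^ 2)
      + lv * ((1 - 17 * d i - 2 * x i) ^ 2
        + (225 / 7) * (d i - d i ^ 2 - 14 * x i ^ 2))) := by
    refine sum_le_sum fun i _ => ?_
    have h2 : 0 ≤ d i - d i ^ 2 - 14 * x i ^ 2 := by have := h i; linarith
    have h3 : 0 ≤ (1 - 17 * d i - 2 * x i) ^ 2
        + (225 / 7) * (d i - d i ^ 2 - 14 * x i ^ 2) := by positivity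
    have h4 := mul_le_mul_of_nonneg_right hu h2
    have h5 := mul_le_mul_of_nonneg_right hv h3
    unfold PS
    linarith
  have e2 : (164 / 25) * ∑ i, (if (1 / 50) ≤ x i then (121 / 128) * d i - (7 / 4) * x i + (7 / 128)
        else w * ((13 / 14) * d i + 2 * x i + (1 / 14)))
      ≤ (164 / 25) * ∑ i, (if (1 / 50) ≤ x i then (121 / 128) * d i - (7 / 4) * x i + (7 / 128)
        else 2 * ((13 / 14) * d i + 2 * x i + (1 / 14))) := by
    refine mul_le_mul_of_nonneg_left (sum_le_sum fun i _ => ?_) (by norm_num)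
    split_ifs with hz
    · exact le_refl _
    · refine mul_le_mul_of_nonneg_right hw ?_
      have := lin_q (q := 14) (by norm_num) (h i) (1 / 15) (-(1 / 15))
      linarith
  have e3 := nearS0 h h1 h0 hc (by linarith)
  linarith

theorem nearSl {ls : ℝ} (hu : 4 ≤ ls) {d x : Fin 17 → ℝ}
    (h : ∀ i, 14 * x i ^ 2 ≤ d i - d i ^ 2)
    (h1 : ∑ i, d i = 1) (h0 : ∑ i, x i = 0) (hc : (Rt (1 / 50) x).card = 9) {w : ℝ} (hw : w ≤ 2)
    (hS : (15877 / 2025) + (115 * ∑ i, d i ^ 2 - 224 * ∑ i, x i ^ 2 - 42 * ∑ i, d i * x i)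
      + ∑ i, ls * (d i - d i ^ 2 - 14 * x i ^ 2) < (12 / 125)) :
    (164 / 25) * ∑ i, (if (1 / 50) ≤ x i then (121 / 128) * d i - (7 / 4) * x i + (7 / 128)
        else w * ((13 / 14) * d i + 2 * x i + (1 / 14)))
      ≤ (15877 / 2025) + (115 * ∑ i, d i ^ 2 - 224 * ∑ i, x i ^ 2 - 42 * ∑ i, d i * x i) + ∑ i, ls * (d i - d i ^ 2 - 14 * x i ^ 2) := by
  have := nearSg (lu := ls) (lv := 0) hu le_rfl h h1 h0 hc hw
    (by simpa only [zero_mul, add_zero] using hS)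
  simpa only [zero_mul, add_zero] using this

end Vale.Agent.P224.SO.NS15p115c42
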