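import Vale.Agent.P224.SO.RgN

/-!
Dimension 15: the stable scalar inequalities near the Clifford configuration.
-/

namespace Vale.Agent.P224.SO.NS15p116c41

open Finset Vale.Agent.P224.SO Vale.Agent.P224.SO.Rg

/-- the additional terms -/
noncomputable def PS (d x : ℝ) : ℝ :=
  4 * (d - d ^ 2 - 14 * x ^ 2)

lemma PS_nonneg {d x : ℝ} (h : 14 * x ^ 2 ≤ d - d ^ 2) : 0 ≤ PS d x := by
  unfold PS
  linarith

lemma nSA1 (d x : ℝ) (h : 14 * x ^ 2 ≤ d - d ^ 2) (hz : (1 / 50) ≤ x) :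
    (11329 / 182250) ≤ Q 116 224 41 (123643 / 425250) (-(347503 / 30375)) 0 d x + PS d x := by
  unfold Q PS
  linarith [mul_nonneg (sub_nonneg.2 hz) (lin_q (q := 14) (by norm_num) h (7 / 135) (8 / 135)),
    sq_nonneg ((d - (7 / 135)) + (-(3931965009 / 3387710551)) * (x - (8 / 135))), sq_nonneg (x - (8 / 135))]

lemma nSA2 (d x : ℝ) (h : 14 * x ^ 2 ≤ d - d ^ 2) :
    (-(459209 / 425250)) ≤ Q 116 224 41 (123643 / 425250) (-(347503 / 30375)) 0 d x + PS d x := by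
  unfold Q PS
  linarith [sq_nonneg ((d - (1 / 15)) + (-(581175 / 3874439)) * (x - (-(1 / 15)))), sq_nonneg (x - (-(1 / 15)))]

lemma nS0 (d x : ℝ) (h : 14 * x ^ 2 ≤ d - d ^ 2) (hz : (-(27 / 500)) ≤ x) :
    (-(459209 / 425250)) + (99 / 1000) ≤ Q 116 224 41 (123643 / 425250) (-(347503 / 30375)) 0 d x + PS d x := by
  unfold Q PS
  linarith [mul_nonneg (sub_nonneg.2 hz) (lin_q (q := 14) (by norm_num) h (4017 / 5000) (531 / 5000)),
    sq_nonneg (d + (-(198229301 / 1611475000)) * x + (-(67548064607027 / 1370559487500000))),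
    sq_nonneg (x + (124432553798745551041 / 2248628081879421616500))]

lemma nSR1 (d x : ℝ) (h : 14 * x ^ 2 ≤ d - d ^ 2) (hz : (1 / 50) ≤ x) :
    (-(34731 / 1000000)) ≤ Q 116 224 41 (72 / 125) (-(1263 / 125)) 0 d x + PS d x := by
  unfold Q PS
  linarith [mul_nonneg (sub_nonneg.2 hz) (lin_q (q := 14) (by norm_num) h (36 / 625) (311 / 5000)),
    sq_nonneg (d + (-(93215978 / 152991375)) * x + (-(150193397 / 7649568750))),
    sq_nonneg (x + (-(157101897966730913 / 2519448020482006400)))]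

lemma nSL1 (d x : ℝ) (h : 14 * x ^ 2 ≤ d - d ^ 2) :
    (-(504973 / 500000)) ≤ Q 116 224 41 (72 / 125) (-(1263 / 125)) 0 d x + PS d x := by
  unfold Q PS
  linarith [sq_nonneg (d + (-(102500 / 679993)) * x + (-(102873 / 1359986))),
    sq_nonneg (x + (5952190965 / 89912575343))]

lemma nSM1 (d x : ℝ) (h : 14 * x ^ 2 ≤ d - d ^ 2) (hz : (1 / 50) ≤ x) (hz' : x ≤ (79 / 2500)) :
    (18479 / 200000) ≤ Q 116 224 41 (72 / 125) (-(1263 / 125)) 0 d x + PS d x := by
  unfold Q PS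
  linarith [mul_nonneg (sub_nonneg.2 hz) (lin_q (q := 14) (by norm_num) h (71 / 5000) (79 / 2500)),
    mul_nonneg (sub_nonneg.2 hz') (lin_q (q := 14) (by norm_num) h (3 / 10000) (-(49 / 10000))),
    mul_nonneg (sub_nonneg.2 hz) (sub_nonneg.2 hz'),
    sq_nonneg (d + (-(4339154281 / 3264810000)) * x + (1589367247673 / 57134175000000)),
    sq_nonneg (x + (-(3853191371714955638137 / 121942048918271728182500)))]

lemma nSR2 (d x : ℝ) (h : 14 * x ^ 2 ≤ d - d ^ 2) (hz : (79 / 2500) ≤ x) :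
    (4001 / 1000000) + (677 / 100) * ((121 / 128) * d - (7 / 4) * x + (7 / 128)) ≤ Q 116 224 41 (51 / 125) (-(10589 / 1000)) 0 d x + PS d x := by
  unfold Q PS
  linarith [mul_nonneg (sub_nonneg.2 hz) (lin_q (q := 14) (by norm_num) h (573 / 10000) (621 / 10000)),
    sq_nonneg (d + (-(87225943 / 70152105)) * x + (111838843279 / 5612168400000)),
    sq_nonneg (x + (-(3826473113105744483 / 61448176659420880000)))]

lemma nSL2 (d x : ℝ) (h : 14 * x ^ 2 ≤ d - d ^ 2) (hz' : x ≤ (-(27 / 500))) :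
    (-(64443 / 62500)) + (677 / 100) * (2 * ((13 / 14) * d + 2 * x + (1 / 14))) ≤ Q 116 224 41 (51 / 125) (-(10589 / 1000)) 0 d x + PS d x := by
  unfold Q PS
  linarith [mul_nonneg (sub_nonneg.2 hz') (lin_q (q := 14) (by norm_num) h (327 / 5000) (-(661 / 10000))),
    sq_nonneg (d + (34322617 / 120113950) * x + (-(19554437887 / 420398825000))),
    sq_nonneg (x + (908661887149118163 / 13754671756344022000))]

lemma nSM2 (d x : ℝ) (h : 14 * x ^ 2 ≤ d - d ^ 2) (hz : (79 / 2500) ≤ x) (hz' : x ≤ (69 / 2000)) :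
    (10789 / 500000) + (677 / 100) * ((121 / 128) * d - (7 / 4) * x + (7 / 128)) ≤ Q 116 224 41 (51 / 125) (-(10589 / 1000)) 0 d x + PS d x := by
  unfold Q PS
  linarith [mul_nonneg (sub_nonneg.2 hz) (lin_q (q := 14) (by norm_num) h (389 / 10000) (129 / 2500)),
    mul_nonneg (sub_nonneg.2 hz) (sub_nonneg.2 hz'),
    sq_nonneg (d + (-(141998466700000000000000 / 112000000000000000618853)) * x + (4870937470439999381147 / 224000000000000001237706)),
    sq_nonneg (x + (-(225856642111388627693794588516227577500000000 / 7149326600341498738132535930159467560284416421)))]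

lemma nSRB (d x : ℝ) (h : 14 * x ^ 2 ≤ d - d ^ 2) (hz : (69 / 2000) ≤ x) :
    (11329 / 182250) + (677 / 100) * ((121 / 128) * d - (7 / 4) * x + (7 / 128)) ≤ Q 116 224 41 (123643 / 425250) (-(347503 / 30375)) 0 d x + PS d x := by
  unfold Q PS
  linarith [mul_nonneg (sub_nonneg.2 hz) (lin_q (q := 14) (by norm_num) h (7 / 135) (8 / 135)),
    sq_nonneg ((d - (7 / 135)) + (-(2540913600000 / 1880590505881)) * (x - (8 / 135))), sq_nonneg (x - (8 / 135))]

lemma nSLB (d x : ℝ) (h : 14 * x ^ 2 ≤ d - d ^ 2) (hz' : x ≤ (-(27 / 500))) :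
    (-(459209 / 425250)) + (677 / 100) * (2 * ((13 / 14) * d + 2 * x + (1 / 14))) ≤ Q 116 224 41 (123643 / 425250) (-(347503 / 30375)) 0 d x + PS d x := by
  unfold Q PS
  linarith [mul_nonneg (sub_nonneg.2 hz') (lin_q (q := 14) (by norm_num) h (1 / 15) (-(1 / 15))),
    sq_nonneg ((d - (1 / 15)) + (142702815150 / 77020530071) * (x - (-(1 / 15)))), sq_nonneg (x - (-(1 / 15)))]

theorem nearS0 {d x : Fin 17 → ℝ} (h : ∀ i, 14 * x i ^ 2 ≤ d i - d i ^ 2)
    (h1 : ∑ i, d i = 1) (h0 : ∑ i, x i = 0) (hc : (Rt (1 / 50) x).card = 9)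
    (hS : 116 * ∑ i, d i ^ 2 - 224 * ∑ i, x i ^ 2 - 41 * ∑ i, d i * x i + ∑ i, PS (d i) (x i) < -(15772 / 2025) + (99 / 1000)) :
    -(15772 / 2025) + (677 / 100) * ∑ i, (if (1 / 50) ≤ x i then (121 / 128) * d i - (7 / 4) * x i + (7 / 128)
        else 2 * ((13 / 14) * d i + 2 * x i + (1 / 14)))
      ≤ 116 * ∑ i, d i ^ 2 - 224 * ∑ i, x i ^ 2 - 41 * ∑ i, d i * x i + ∑ i, PS (d i) (x i) := by
  have hZL := left_le (K := 8) (a := (123643 / 425250)) (b := (-(347503 / 30375))) (ap := (11329 / 182250)) (an := (-(459209 / 425250))) (ZL := (-(27 / 500))) (P := PS)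
    (A := 116) (B := 224) (c := 41) (T := -(15772 / 2025)) (t := (99 / 1000)) (by norm_num) hc h h1 h0
    nSA1
    nSA2
    nS0 (by norm_num) hS
  have hne : (Rt (1 / 50) x).Nonempty := by
    rw [← card_pos, hc]
    norm_num
  obtain ⟨i₀, hi₀, hmin⟩ := exists_min_image (Rt (1 / 50) x) x hne

  rcases le_total (x i₀) (79 / 2500) with hy | hy
  · have := stepS (K := 8) (a := (72 / 125)) (b := (-(1263 / 125))) (r := (-(34731 / 1000000))) (l := (-(504973 / 500000))) (μ := (18479 / 200000)) (Z1 := (1 / 50)) (Z2 := (79 / 2500))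
      (A := 116) (B := 224) (c := 41) (T := -(15772 / 2025)) (t := (99 / 1000)) (P := PS) (by norm_num) hc h h1 h0 hi₀ hmin
      (mem_Rt.1 hi₀) hy nSR1 nSL1 nSM1 (by norm_num)
    linarith

  rcases le_total (x i₀) (69 / 2000) with hy' | hy'
  · exact stepG (K := 8) (κ := (677 / 100)) (w := 2) (a2 := (121 / 128)) (b2 := (7 / 4)) (c2 := (7 / 128)) (a1 := (13 / 14)) (b1 := 2)
      (c1 := (1 / 14)) (a := (51 / 125)) (b := (-(10589 / 1000))) (r := (4001 / 1000000)) (l := (-(64443 / 62500))) (μ := (10789 / 500000)) (Z1 := (79 / 2500)) (Z2 := (69 / 2000)) (ZL := (-(27 / 500)))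
      (A := 116) (B := 224) (c := 41) (T := -(15772 / 2025)) (P := PS) (by norm_num) hc h h1 h0 hi₀ hmin
      hy hy' hZL nSR2 nSL2 nSM2 (by norm_num)
  clear hy; have hy := hy'; clear hy'

  exact stepB (K := 8) (κ := (677 / 100)) (w := 2) (a2 := (121 / 128)) (b2 := (7 / 4)) (c2 := (7 / 128)) (a1 := (13 / 14)) (b1 := 2)
    (c1 := (1 / 14)) (a := (123643 / 425250)) (b := (-(347503 / 30375))) (ap := (11329 / 182250)) (an := (-(459209 / 425250))) (Z1 := (69 / 2000)) (ZL := (-(27 / 500)))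
    (A := 116) (B := 224) (c := 41) (T := -(15772 / 2025)) (P := PS) (by norm_num) hc h h1 h0
    (fun i hi => hy.trans (hmin i hi)) hZL nSRB nSLB (by norm_num)

theorem nearSg {lu lv : ℝ} (hu : 4 ≤ lu) (hv : 0 ≤ lv) {d x : Fin 17 → ℝ}
    (h : ∀ i, 14 * x i ^ 2 ≤ d i - d i ^ 2)
    (h1 : ∑ i, d i = 1) (h0 : ∑ i, x i = 0) (hc : (Rt (1 / 50) x).card = 9) {w : ℝ} (hw : w ≤ 2)
    (hS : (15772 / 2025) + (116 * ∑ i, d i ^ 2 - 224 * ∑ i, x i ^ 2 - 41 * ∑ i, d i * x i)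
      + ∑ i, (lu * (d i - d i ^ 2 - 14 * x i ^ 2) + lv * ((1 - 17 * d i - 2 * x i) ^ 2
        + (225 / 7) * (d i - d i ^ 2 - 14 * x i ^ 2))) < (99 / 1000)) :
    (677 / 100) * ∑ i, (if (1 / 50) ≤ x i then (121 / 128) * d i - (7 / 4) * x i + (7 / 128)
        else w * ((13 / 14) * d i + 2 * x i + (1 / 14)))
      ≤ (15772 / 2025) + (116 * ∑ i, d i ^ 2 - 224 * ∑ i, x i ^ 2 - 41 * ∑ i, d i * x i)
      + ∑ i, (lu * (d i - d i ^ 2 - 14 * x i ^ 2) + lv * ((1 - 17 * d i - 2 * x i) ^ 2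
        + (225 / 7) * (d i - d i ^ 2 - 14 * x i ^ 2))) := by
  have e1 : ∑ i, PS (d i) (x i) ≤ ∑ i, (lu * (d i - d i ^ 2 - 14 * x i ^ 2)
      + lv * ((1 - 17 * d i - 2 * x i) ^ 2
        + (225 / 7) * (d i - d i ^ 2 - 14 * x i ^ 2))) := by
    refine sum_le_sum fun i _ => ?_
    have h2 : 0 ≤ d i - d i ^ 2 - 14 * x i ^ 2 := by have := h i; linarith
    have h3 : 0 ≤ (1 - 17 * d i - 2 * x i) ^ 2
        + (225 / 7) * (d i - d i ^ 2 - 14 * x i ^ 2) := by positivity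
    have h4 := mul_le_mul_of_nonneg_right hu h2
    have h5 := mul_le_mul_of_nonneg_right hv h3
    unfold PS
    linarith
  have e2 : (677 / 100) * ∑ i, (if (1 / 50) ≤ x i then (121 / 128) * d i - (7 / 4) * x i + (7 / 128)
        else w * ((13 / 14) * d i + 2 * x i + (1 / 14)))
      ≤ (677 / 100) * ∑ i, (if (1 / 50) ≤ x i then (121 / 128) * d i - (7 / 4) * x i + (7 / 128)
        else 2 * ((13 / 14) * d i + 2 * x i + (1 / 14))) := by
    refine mul_le_mul_of_nonneg_left (sum_le_sum fun i _ => ?_) (by norm_num)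
    split_ifs with hz
    · exact le_refl _
    · refine mul_le_mul_of_nonneg_right hw ?_
      have := lin_q (q := 14) (by norm_num) (h i) (1 / 15) (-(1 / 15))
      linarith
  have e3 := nearS0 h h1 h0 hc (by linarith)
  linarith

theorem nearSl {ls : ℝ} (hu : 4 ≤ ls) {d x : Fin 17 → ℝ}
    (h : ∀ i, 14 * x i ^ 2 ≤ d i - d i ^ 2)
    (h1 : ∑ i, d i = 1) (h0 : ∑ i, x i = 0) (hc : (Rt (1 / 50) x).card = 9) {w : ℝ} (hw : w ≤ 2)
    (hS : (15772 / 2025) + (116 * ∑ i, d i ^ 2 - 224 * ∑ i, x i ^ 2 - 41 * ∑ i, d i * x i)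
      + ∑ i, ls * (d i - d i ^ 2 - 14 * x i ^ 2) < (99 / 1000)) :
    (677 / 100) * ∑ i, (if (1 / 50) ≤ x i then (121 / 128) * d i - (7 / 4) * x i + (7 / 128)
        else w * ((13 / 14) * d i + 2 * x i + (1 / 14)))
      ≤ (15772 / 2025) + (116 * ∑ i, d i ^ 2 - 224 * ∑ i, x i ^ 2 - 41 * ∑ i, d i * x i) + ∑ i, ls * (d i - d i ^ 2 - 14 * x i ^ 2) := by
  have := nearSg (lu := ls) (lv := 0) hu le_rfl h h1 h0 hc hw
    (by simpa only [zero_mul, add_zero] using hS)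
  simpa only [zero_mul, add_zero] using this

end Vale.Agent.P224.SO.NS15p116c41
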