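import Vale.Agent.P224.SO.OneS

/-!
Null functions of the rows at one point: the cubic and quartic fields and the closedness field,
summed over the coordinates of a block.
-/

namespace Vale.Agent.P224.SO

open MeasureTheory Set Filter Function Module Vale.Agent.P224.UE
open scoped Topology RealInnerProductSpace ContDiff

set_option linter.unusedSectionVars false

section nul

variable {X : Type*} [MeasurableSpace X] {μ : Measure X} [IsFiniteMeasure μ]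

/-- a bounded measurable function of integral zero -/
structure Nul (μ : Measure X) (f : X → ℝ) : Prop where
  bm : BM f
  int : ∫ x, f x ∂μ = 0

namespace Nul

variable {f g : X → ℝ}

lemma add (hf : Nul μ f) (hg : Nul μ g) : Nul μ (fun x => f x + g x) :=
  ⟨hf.bm.add hg.bm, by rw [integral_add hf.bm.int hg.bm.int, hf.int, hg.int, add_zero]⟩

lemma cmul (c : ℝ) (hf : Nul μ f) : Nul μ (fun x => c * f x) :=
  ⟨hf.bm.cmul c, by rw [integral_const_mul, hf.int, mul_zero]⟩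

lemma sum {ι : Type*} (s : Finset ι) {F : ι → X → ℝ} (h : ∀ i, Nul μ (F i)) :
    Nul μ (fun x => ∑ i ∈ s, F i x) :=
  ⟨BM.sum s fun i => (h i).bm, by
    rw [integral_finsetSum _ fun i _ => (h i).bm.int]
    exact Finset.sum_eq_zero fun i _ => (h i).int⟩

lemma congr (hf : Nul μ f) (h : ∀ x, g x = f x) : Nul μ g := by
  have : g = f := funext h
  rw [this]
  exact hf

end Nul

end nul

section rows

variable {X : Type*} [MeasurableSpace X] {E : Type*} [NormedAddCommGroup E]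
  [InnerProductSpace ℝ E] [FiniteDimensional ℝ E] [MeasurableSpace E] [BorelSpace E]
  {μ : Measure X} [IsFiniteMeasure μ] {p n : X → E} {m : ℕ}

/-- a field paired with the spanning points vanishes, with a constant vector -/
lemma pair_zero3 (hp : UF p) (hn : UF n) (hsp : ∀ w, (∀ x, ⟪p x, w⟫ = 0) → w = 0)
    {f g k : X → ℝ} (hf : BM f) (hg : BM g) (hk : BM k) (e : E)
    (h : ∀ z, ∫ x, (f x * ⟪p x, p z⟫ + g x * ⟪n x, p z⟫ + k x * ⟪e, p z⟫) ∂μ = 0) (w : E) :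
    ∫ x, (f x * ⟪p x, w⟫ + g x * ⟪n x, w⟫ + k x * ⟪e, w⟫) ∂μ = 0 := by
  have hI : Integrable (fun x => f x • p x + g x • n x + k x • e) μ := by
    obtain ⟨a, ha⟩ := hf.bd
    obtain ⟨b, hb⟩ := hg.bd
    obtain ⟨c, hc⟩ := hk.bd
    refine Integrable.of_bound (((hf.meas.smul hp.meas).add
      (hg.meas.smul hn.meas)).add (hk.meas.smul_const e)).aestronglyMeasurable
      (a + b + c * ‖e‖) (Eventually.of_forall fun x => ?_)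
    refine (norm_add_le _ _).trans (add_le_add ((norm_add_le _ _).trans ?_) ?_)
    · rw [norm_smul, norm_smul, hp.unit, hn.unit, mul_one, mul_one]
      exact add_le_add (ha x) (hb x)
    · rw [norm_smul]
      exact mul_le_mul_of_nonneg_right (hc x) (norm_nonneg _)
  have key : ∀ v : E, ∫ x, (f x * ⟪p x, v⟫ + g x * ⟪n x, v⟫ + k x * ⟪e, v⟫) ∂μ
      = ⟪v, ∫ x, (f x • p x + g x • n x + k x • e) ∂μ⟫ := by
    intro v
    rw [← integral_inner hI v]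
    refine integral_congr_ae (Eventually.of_forall fun x => ?_)
    simp only [inner_add_right, real_inner_smul_right, real_inner_comm v]
  have h0 : ∫ x, (f x • p x + g x • n x + k x • e) ∂μ = 0 := by
    refine hsp _ fun z => ?_
    rw [← key, h]
  rw [key, h0, inner_zero_right]

lemma nul0 (h : TwoG μ m p n) (hm : 0 < m) (hp : UF p) [Nonempty X] (w : E) :
    Nul μ (fun x => ⟪p x, w⟫) := by
  obtain ⟨z⟩ := ‹Nonempty X›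
  exact ⟨bm_inner hp w, TG_zero h hm z w⟩

lemma nul1 (h : TwoG μ m p n) (hm : 0 < m) (hp : UF p) (hn : UF n)
    (hsp : ∀ w, (∀ x, ⟪p x, w⟫ = 0) → w = 0) (e w : E) :
    Nul μ (fun x => (m + 2) * (⟪p x, e⟫ ^ 2 * ⟪p x, w⟫)
      + 2 * (⟪p x, e⟫ * ⟪n x, e⟫ * ⟪n x, w⟫)) := by
  have b1 : BM fun x => ⟪p x, e⟫ ^ 2 * ⟪p x, w⟫ := by
    simpa only [sq] using ((bm_inner hp e).mul (bm_inner hp e)).mul (bm_inner hp w)
  have b2 : BM fun x => ⟪p x, e⟫ * ⟪n x, e⟫ * ⟪n x, w⟫ :=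
    ((bm_inner hp e).mul (bm_inner hn e)).mul (bm_inner hn w)
  refine ⟨(b1.cmul _).add (b2.cmul _), ?_⟩
  rw [int2 b1.int b2.int]
  exact (TG_all h hm hp hn hsp e w).1

lemma nul2 (h : TwoG μ m p n) (hm : 0 < m) (hp : UF p) (hn : UF n)
    (hsp : ∀ w, (∀ x, ⟪p x, w⟫ = 0) → w = 0) (e w : E) :
    Nul μ (fun x => 1 * (⟪n x, e⟫ ^ 2 * ⟪p x, w⟫)
      + (-1) * (⟪p x, e⟫ * ⟪n x, e⟫ * ⟪n x, w⟫)) := by
  have b1 : BM fun x => ⟪n x, e⟫ ^ 2 * ⟪p x, w⟫ := by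
    simpa only [sq] using ((bm_inner hn e).mul (bm_inner hn e)).mul (bm_inner hp w)
  have b2 : BM fun x => ⟪p x, e⟫ * ⟪n x, e⟫ * ⟪n x, w⟫ :=
    ((bm_inner hp e).mul (bm_inner hn e)).mul (bm_inner hn w)
  refine ⟨(b1.cmul _).add (b2.cmul _), ?_⟩
  rw [int2 b1.int b2.int]
  have := (TG_all h hm hp hn hsp e w).2
  linarith

/-- the closedness field -/
lemma nul3 (h : TwoG μ m p n) (hp : UF p) (hn : UF n)
    (hsp : ∀ w, (∀ x, ⟪p x, w⟫ = 0) → w = 0) (e w : E) :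
    Nul μ (fun x => (-((m + 1) * (⟪p x, e⟫ * ⟪n x, e⟫))) * ⟪p x, w⟫
      + ((m + 1) * (⟪p x, e⟫ * ⟪p x, e⟫) + -⟪e, e⟫) * ⟪n x, w⟫
      + ⟪n x, e⟫ * ⟪e, w⟫) := by
  have be := bm_inner hp e
  have bn := bm_inner hn e
  have b1 : BM fun x => -(((m : ℝ) + 1) * (⟪p x, e⟫ * ⟪n x, e⟫)) := by
    have := (be.mul bn).cmul (-((m : ℝ) + 1))
    simpa only [neg_mul] using this
  have b2 : BM fun x => ((m : ℝ) + 1) * (⟪p x, e⟫ * ⟪p x, e⟫) + -⟪e, e⟫ :=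
    ((be.mul be).cmul _).add (BM.const _)
  have b3 : ∀ v : E, BM fun _ : X => ⟪e, v⟫ := fun v => BM.const _
  refine ⟨((b1.mul (bm_inner hp w)).add (b2.mul (bm_inner hn w))).add (bn.mul (b3 w)), ?_⟩
  refine pair_zero3 hp hn hsp b1 b2 bn e (fun z => ?_) w
  have h1 := h.rowG z e (fun _ => 1) (fun _ => 0)
    (fun s _ => ⟨contDiffAt_const, hasDerivAt_const _ _⟩) 4 0 1
  rw [← neg_eq_zero, ← integral_neg, ← h1]
  refine integral_congr_ae (Eventually.of_forall fun x => ?_)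
  simp [rG, rowE, dat, dv]
  rw [real_inner_comm (p z) e]
  ring

/-- the quartic field -/
lemma nul4 (h : TwoG μ m p n) (hp : UF p) (hn : UF n)
    (hsp : ∀ w, (∀ x, ⟪p x, w⟫ = 0) → w = 0) (e w : E) :
    Nul μ (fun x => (-((m : ℝ) + 4) * (⟪p x, e⟫ * ⟪p x, e⟫ * (⟪p x, e⟫ * ⟪p x, e⟫))) * ⟪p x, w⟫
      + (-4 * (⟪p x, e⟫ * ⟪p x, e⟫ * (⟪p x, e⟫ * ⟪n x, e⟫))) * ⟪n x, w⟫
      + (4 * (⟪p x, e⟫ * (⟪p x, e⟫ * ⟪p x, e⟫))) * ⟪e, w⟫) := by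
  have be := bm_inner hp e
  have bn := bm_inner hn e
  have b1 : BM fun x => -((m : ℝ) + 4) * (⟪p x, e⟫ * ⟪p x, e⟫ * (⟪p x, e⟫ * ⟪p x, e⟫)) :=
    ((be.mul be).mul (be.mul be)).cmul _
  have b2 : BM fun x => -4 * (⟪p x, e⟫ * ⟪p x, e⟫ * (⟪p x, e⟫ * ⟪n x, e⟫)) :=
    ((be.mul be).mul (be.mul bn)).cmul _
  have b4 : BM fun x => 4 * (⟪p x, e⟫ * (⟪p x, e⟫ * ⟪p x, e⟫)) := (be.mul (be.mul be)).cmul _
  have b3 : ∀ v : E, BM fun _ : X => ⟪e, v⟫ := fun v => BM.const _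
  refine ⟨((b1.mul (bm_inner hp w)).add (b2.mul (bm_inner hn w))).add (b4.mul (b3 w)), ?_⟩
  refine pair_zero3 hp hn hsp b1 b2 b4 e (fun z => ?_) w
  have h1 := h.rowG z e (fun _ => 1) (fun _ => 0)
    (fun s _ => ⟨contDiffAt_const, hasDerivAt_const _ _⟩) 0 0 4
  rw [← h1]
  refine integral_congr_ae (Eventually.of_forall fun x => ?_)
  simp [rG, rowE, dat, dv]
  rw [real_inner_comm (p z) e]
  ring

end rows

section block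

variable {X : Type*} [MeasurableSpace X] {E : Type*} [NormedAddCommGroup E]
  [InnerProductSpace ℝ E] [FiniteDimensional ℝ E] [MeasurableSpace E] [BorelSpace E]
  {μ : Measure X} [IsFiniteMeasure μ] {p n : X → E} {m : ℕ}
  {ι : Type*} [Fintype ι] [DecidableEq ι]

/-- the square length of the block of the position -/
noncomputable def bρ (p : X → E) (b : OrthonormalBasis ι ℝ E) (A : Finset ι) (x : X) : ℝ :=
  ∑ i ∈ A, ⟪p x, b i⟫ ^ 2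

/-- the product of the blocks -/
noncomputable def bσ (p n : X → E) (b : OrthonormalBasis ι ℝ E) (A : Finset ι) (x : X) : ℝ :=
  ∑ i ∈ A, ⟪p x, b i⟫ * ⟪n x, b i⟫

lemma blk1 (h : TwoG μ m p n) (hm : 0 < m) (hp : UF p) (hn : UF n)
    (hsp : ∀ w, (∀ x, ⟪p x, w⟫ = 0) → w = 0) (b : OrthonormalBasis ι ℝ E) (A : Finset ι)
    (w : E) : Nul μ (fun x => (m + 2) * (bρ p b A x * ⟪p x, w⟫)
      + 2 * (bσ p n b A x * ⟪n x, w⟫)) := by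
  refine (Nul.sum A fun i => nul1 h hm hp hn hsp (b i) w).congr fun x => ?_
  unfold bρ bσ
  simp only [Finset.sum_mul, Finset.mul_sum, ← Finset.sum_add_distrib]

lemma blk2 (h : TwoG μ m p n) (hm : 0 < m) (hp : UF p) (hn : UF n)
    (hsp : ∀ w, (∀ x, ⟪p x, w⟫ = 0) → w = 0) (b : OrthonormalBasis ι ℝ E) (A : Finset ι)
    (w : E) : Nul μ (fun x => bρ n b A x * ⟪p x, w⟫ - bσ p n b A x * ⟪n x, w⟫) := by
  refine (Nul.sum A fun i => nul2 h hm hp hn hsp (b i) w).congr fun x => ?_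
  unfold bρ bσ
  simp only [Finset.sum_mul, ← Finset.sum_sub_distrib]
  exact Finset.sum_congr rfl fun i _ => by ring

lemma inner_b (b : OrthonormalBasis ι ℝ E) (i j : ι) : ⟪b i, b j⟫ = if i = j then (1 : ℝ) else 0 :=
  orthonormal_iff_ite.1 b.orthonormal i j

lemma blk3 (h : TwoG μ m p n) (hp : UF p) (hn : UF n)
    (hsp : ∀ w, (∀ x, ⟪p x, w⟫ = 0) → w = 0) (b : OrthonormalBasis ι ℝ E) (A : Finset ι)
    (k : ι) : Nul μ (fun x => (m + 1) * (bρ p b A x * ⟪n x, b k⟫ - bσ p n b A x * ⟪p x, b k⟫)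
      - (A.card - if k ∈ A then 1 else 0) * ⟪n x, b k⟫) := by
  refine (Nul.sum A fun i => nul3 h hp hn hsp (b i) (b k)).congr fun x => ?_
  have e1 : ∑ i ∈ A, ⟪n x, b i⟫ * ⟪b i, b k⟫ = (if k ∈ A then 1 else 0) * ⟪n x, b k⟫ := by
    simp only [inner_b, mul_ite, mul_one, mul_zero]
    rw [Finset.sum_ite_eq']
    split_ifs <;> ring
  have e2 : ∑ i ∈ A, ⟪b i, b i⟫ = (A.card : ℝ) := by
    simp
  rw [Finset.sum_add_distrib, e1]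
  unfold bρ bσ
  have e3 : ∑ i ∈ A, ((-((m + 1) * (⟪p x, b i⟫ * ⟪n x, b i⟫))) * ⟪p x, b k⟫
      + ((m + 1) * (⟪p x, b i⟫ * ⟪p x, b i⟫) + -⟪b i, b i⟫) * ⟪n x, b k⟫)
      = (m + 1) * ((∑ i ∈ A, ⟪p x, b i⟫ ^ 2) * ⟪n x, b k⟫
        - (∑ i ∈ A, ⟪p x, b i⟫ * ⟪n x, b i⟫) * ⟪p x, b k⟫)
        - (∑ i ∈ A, ⟪b i, b i⟫) * ⟪n x, b k⟫ := by
    simp only [Finset.sum_mul, Finset.mul_sum, ← Finset.sum_sub_distrib]
    exact Finset.sum_congr rfl fun i _ => by ring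
  rw [e3, e2]
  ring

/-- the polarised quartic field -/
lemma nul4p (h : TwoG μ m p n) (hp : UF p) (hn : UF n)
    (hsp : ∀ w, (∀ x, ⟪p x, w⟫ = 0) → w = 0) (e f w : E) :
    Nul μ (fun x => 2 * (⟪p x, e⟫ * ⟪p x, f⟫ ^ 2 * ⟪e, w⟫)
      + 2 * (⟪p x, e⟫ ^ 2 * ⟪p x, f⟫ * ⟪f, w⟫)
      - (m + 4) * (⟪p x, e⟫ ^ 2 * ⟪p x, f⟫ ^ 2 * ⟪p x, w⟫)
      - 2 * (⟪p x, e⟫ * ⟪n x, e⟫ * ⟪p x, f⟫ ^ 2 * ⟪n x, w⟫)
      - 2 * (⟪p x, e⟫ ^ 2 * (⟪p x, f⟫ * ⟪n x, f⟫) * ⟪n x, w⟫)) := by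
  have h1 := nul4 h hp hn hsp (e + f) w
  have h2 := nul4 h hp hn hsp (e - f) w
  have h3 := nul4 h hp hn hsp e w
  have h4 := nul4 h hp hn hsp f w
  refine ((((h1.add h2).add (h3.cmul (-2))).add (h4.cmul (-2))).cmul (1 / 12)).congr fun x => ?_
  simp only [inner_add_right, inner_sub_right, inner_add_left, inner_sub_left]
  ring

lemma blk4 (h : TwoG μ m p n) (hp : UF p) (hn : UF n)
    (hsp : ∀ w, (∀ x, ⟪p x, w⟫ = 0) → w = 0) (b : OrthonormalBasis ι ℝ E) (A : Finset ι)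
    (k : ι) : Nul μ (fun x => 4 * (bρ p b A x * ((if k ∈ A then 1 else 0) * ⟪p x, b k⟫))
      - (m + 4) * (bρ p b A x ^ 2 * ⟪p x, b k⟫)
      - 4 * (bρ p b A x * bσ p n b A x * ⟪n x, b k⟫)) := by
  refine (Nul.sum A fun i => Nul.sum A fun j => nul4p h hp hn hsp (b i) (b j) (b k)).congr
    fun x => ?_
  have e1 : ∑ i ∈ A, ⟪p x, b i⟫ * ⟪b i, b k⟫ = (if k ∈ A then 1 else 0) * ⟪p x, b k⟫ := by
    simp only [inner_b, mul_ite, mul_one, mul_zero]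
    rw [Finset.sum_ite_eq']
    split_ifs <;> ring
  have e2 : ∀ f g : ι → ℝ, (∑ i ∈ A, f i) * (∑ j ∈ A, g j) = ∑ i ∈ A, ∑ j ∈ A, f i * g j :=
    fun f g => Finset.sum_mul_sum _ _ _ _
  unfold bρ bσ
  rw [← e1, sq (∑ i ∈ A, ⟪p x, b i⟫ ^ 2), e2 (fun i => ⟪p x, b i⟫ ^ 2) fun i => ⟪p x, b i⟫ * ⟪b i, b k⟫,
    e2 (fun i => ⟪p x, b i⟫ ^ 2) fun i => ⟪p x, b i⟫ ^ 2,
    e2 (fun i => ⟪p x, b i⟫ ^ 2) fun i => ⟪p x, b i⟫ * ⟪n x, b i⟫]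
  have c1 : ∑ i ∈ A, ∑ j ∈ A, ⟪p x, b i⟫ ^ 2 * (⟪p x, b j⟫ * ⟪b j, b k⟫)
      = ∑ i ∈ A, ∑ j ∈ A, ⟪p x, b i⟫ * ⟪b i, b k⟫ * ⟪p x, b j⟫ ^ 2 := by
    rw [Finset.sum_comm]
    exact Finset.sum_congr rfl fun i _ => Finset.sum_congr rfl fun j _ => by ring
  have c2 : ∑ i ∈ A, ∑ j ∈ A, ⟪p x, b i⟫ ^ 2 * (⟪p x, b j⟫ * ⟪n x, b j⟫)
      = ∑ i ∈ A, ∑ j ∈ A, ⟪p x, b i⟫ * ⟪n x, b i⟫ * ⟪p x, b j⟫ ^ 2 := by
    rw [Finset.sum_comm]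
    exact Finset.sum_congr rfl fun i _ => Finset.sum_congr rfl fun j _ => by ring
  have c3 : ∑ i ∈ A, ∑ j ∈ A, (2 * (⟪p x, b i⟫ * ⟪p x, b j⟫ ^ 2 * ⟪b i, b k⟫)
      + 2 * (⟪p x, b i⟫ ^ 2 * ⟪p x, b j⟫ * ⟪b j, b k⟫)
      - (m + 4) * (⟪p x, b i⟫ ^ 2 * ⟪p x, b j⟫ ^ 2 * ⟪p x, b k⟫)
      - 2 * (⟪p x, b i⟫ * ⟪n x, b i⟫ * ⟪p x, b j⟫ ^ 2 * ⟪n x, b k⟫)
      - 2 * (⟪p x, b i⟫ ^ 2 * (⟪p x, b j⟫ * ⟪n x, b j⟫) * ⟪n x, b k⟫))
      = 2 * (∑ i ∈ A, ∑ j ∈ A, ⟪p x, b i⟫ * ⟪b i, b k⟫ * ⟪p x, b j⟫ ^ 2)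
        + 2 * (∑ i ∈ A, ∑ j ∈ A, ⟪p x, b i⟫ ^ 2 * (⟪p x, b j⟫ * ⟪b j, b k⟫))
        - (m + 4) * ((∑ i ∈ A, ∑ j ∈ A, ⟪p x, b i⟫ ^ 2 * ⟪p x, b j⟫ ^ 2) * ⟪p x, b k⟫)
        - 2 * ((∑ i ∈ A, ∑ j ∈ A, ⟪p x, b i⟫ * ⟪n x, b i⟫ * ⟪p x, b j⟫ ^ 2) * ⟪n x, b k⟫)
        - 2 * ((∑ i ∈ A, ∑ j ∈ A, ⟪p x, b i⟫ ^ 2 * (⟪p x, b j⟫ * ⟪n x, b j⟫)) * ⟪n x, b k⟫) := by
    simp only [Finset.sum_mul, Finset.mul_sum, ← Finset.sum_sub_distrib,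
      ← Finset.sum_add_distrib]
    exact Finset.sum_congr rfl fun i _ => Finset.sum_congr rfl fun j _ => by ring
  rw [c3, c2, ← c1]
  ring

end block

end Vale.Agent.P224.SO
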