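import Vale.Agent.P224.SO.OneA

/-!
Two more quartic null functions at one point, summed over the coordinates of a block.
-/

namespace Vale.Agent.P224.SO

open MeasureTheory Set Filter Function Module Vale.Agent.P224.UE
open scoped Topology RealInnerProductSpace ContDiff

set_option linter.unusedSectionVars false

section alg

variable {ι : Type*} (A : Finset ι) (x n y : ι → ℝ) (E : ι → ι → ℝ)
  {a ρ σ ν Xk Nk : ℝ}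

lemma dsum5 (h1 : ∑ i ∈ A, x i ^ 2 = ρ) (h2 : ∑ i ∈ A, x i * n i = σ) (h3 : ∑ i ∈ A, n i ^ 2 = ν)
    (hE : ∑ i ∈ A, E i i = a) (hX : ∀ i ∈ A, ∑ j ∈ A, x j * E i j = x i)
    (hXk : ∑ j ∈ A, x j * y j = Xk) (c xk nk : ℝ) :
    ∑ i ∈ A, ∑ j ∈ A, ((1 / 2 * (x i ^ 2 * E j j + x j ^ 2 * E i i + 4 * (x i * x j * E i j))
        - 1 / 2 * (x i ^ 2 * n j ^ 2 + x j ^ 2 * n i ^ 2 + 4 * (x i * n i * (x j * n j)))
        - c * (x i ^ 2 * x j ^ 2)) * xk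
      - 1 / 2 * (x i ^ 2 * (x j * n j) + x i * n i * x j ^ 2) * nk
      + 1 / 2 * (x i ^ 2 * (x j * y j) + x i * y i * x j ^ 2))
      = ((a + 2) * ρ - ρ * ν - 2 * σ ^ 2 - c * ρ ^ 2) * xk - ρ * σ * nk + ρ * Xk := by
  have in1 : ∀ i ∈ A, ∑ j ∈ A,
      ((1 / 2 * (x i ^ 2 * E j j + x j ^ 2 * E i i + 4 * (x i * x j * E i j))
        - 1 / 2 * (x i ^ 2 * n j ^ 2 + x j ^ 2 * n i ^ 2 + 4 * (x i * n i * (x j * n j)))
        - c * (x i ^ 2 * x j ^ 2)) * xk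
      - 1 / 2 * (x i ^ 2 * (x j * n j) + x i * n i * x j ^ 2) * nk
      + 1 / 2 * (x i ^ 2 * (x j * y j) + x i * y i * x j ^ 2))
      = (1 / 2 * a * xk + 2 * xk - 1 / 2 * ν * xk - c * ρ * xk - 1 / 2 * σ * nk + 1 / 2 * Xk)
          * x i ^ 2 + (1 / 2 * ρ * xk) * E i i + (-(1 / 2 * ρ * xk)) * n i ^ 2
        + (-(2 * σ * xk) - 1 / 2 * ρ * nk) * (x i * n i) + (1 / 2 * ρ) * (x i * y i) := by
    intro i hi
    have e : ∀ j, ((1 / 2 * (x i ^ 2 * E j j + x j ^ 2 * E i i + 4 * (x i * x j * E i j))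
        - 1 / 2 * (x i ^ 2 * n j ^ 2 + x j ^ 2 * n i ^ 2 + 4 * (x i * n i * (x j * n j)))
        - c * (x i ^ 2 * x j ^ 2)) * xk
      - 1 / 2 * (x i ^ 2 * (x j * n j) + x i * n i * x j ^ 2) * nk
      + 1 / 2 * (x i ^ 2 * (x j * y j) + x i * y i * x j ^ 2))
      = (1 / 2 * x i ^ 2 * xk) * E j j + (2 * x i * xk) * (x j * E i j)
        + (-(1 / 2 * x i ^ 2 * xk)) * n j ^ 2
        + (1 / 2 * E i i * xk - 1 / 2 * n i ^ 2 * xk - c * x i ^ 2 * xk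
          - 1 / 2 * (x i * n i) * nk + 1 / 2 * (x i * y i)) * x j ^ 2
        + (-(2 * (x i * n i) * xk) - 1 / 2 * x i ^ 2 * nk) * (x j * n j)
        + (1 / 2 * x i ^ 2) * (x j * y j) := fun j => by ring
    simp only [e, Finset.sum_add_distrib, ← Finset.mul_sum]
    rw [hE, hX i hi, h3, h1, h2, hXk]
    ring
  rw [Finset.sum_congr rfl in1]
  simp only [Finset.sum_add_distrib, ← Finset.mul_sum]
  rw [hE, h3, h1, h2, hXk]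
  ring

lemma dsum6 (h1 : ∑ i ∈ A, x i ^ 2 = ρ) (h2 : ∑ i ∈ A, x i * n i = σ)
    (hE : ∑ i ∈ A, E i i = a) (hX : ∀ i ∈ A, ∑ j ∈ A, x j * E i j = x i)
    (hXk : ∑ j ∈ A, x j * y j = Xk) (hNk : ∑ j ∈ A, n j * y j = Nk) (c xk nk : ℝ) :
    ∑ i ∈ A, ∑ j ∈ A, (c / 2 * (x i ^ 2 * (x j * n j) + x i * n i * x j ^ 2) * xk
      + (1 / 2 * (x i ^ 2 * E j j + x j ^ 2 * E i i + 4 * (x i * x j * E i j))
        - c * (x i ^ 2 * x j ^ 2)) * nk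
      - 1 / 2 * (x i ^ 2 * (n j * y j) + n i * y i * x j ^ 2
        + 2 * (x i * n i * (x j * y j) + x i * y i * (x j * n j))))
      = (c * (ρ * σ)) * xk + ((a + 2) * ρ - c * ρ ^ 2) * nk - ρ * Nk - 2 * (σ * Xk) := by
  have in1 : ∀ i ∈ A, ∑ j ∈ A, (c / 2 * (x i ^ 2 * (x j * n j) + x i * n i * x j ^ 2) * xk
      + (1 / 2 * (x i ^ 2 * E j j + x j ^ 2 * E i i + 4 * (x i * x j * E i j))
        - c * (x i ^ 2 * x j ^ 2)) * nk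
      - 1 / 2 * (x i ^ 2 * (n j * y j) + n i * y i * x j ^ 2
        + 2 * (x i * n i * (x j * y j) + x i * y i * (x j * n j))))
      = (c / 2 * σ * xk + 1 / 2 * a * nk + 2 * nk - c * ρ * nk - 1 / 2 * Nk) * x i ^ 2
        + (1 / 2 * ρ * nk) * E i i + (c / 2 * ρ * xk - Xk) * (x i * n i)
        + (-(1 / 2 * ρ)) * (n i * y i) + (-σ) * (x i * y i) := by
    intro i hi
    have e : ∀ j, (c / 2 * (x i ^ 2 * (x j * n j) + x i * n i * x j ^ 2) * xk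
      + (1 / 2 * (x i ^ 2 * E j j + x j ^ 2 * E i i + 4 * (x i * x j * E i j))
        - c * (x i ^ 2 * x j ^ 2)) * nk
      - 1 / 2 * (x i ^ 2 * (n j * y j) + n i * y i * x j ^ 2
        + 2 * (x i * n i * (x j * y j) + x i * y i * (x j * n j))))
      = (c / 2 * x i ^ 2 * xk - x i * y i) * (x j * n j)
        + (c / 2 * (x i * n i) * xk + 1 / 2 * E i i * nk - c * x i ^ 2 * nk
          - 1 / 2 * (n i * y i)) * x j ^ 2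
        + (1 / 2 * x i ^ 2 * nk) * E j j + (2 * x i * nk) * (x j * E i j)
        + (-(1 / 2 * x i ^ 2)) * (n j * y j) + (-(x i * n i)) * (x j * y j) := fun j => by ring
    simp only [e, Finset.sum_add_distrib, ← Finset.mul_sum]
    rw [hE, hX i hi, h1, h2, hXk, hNk]
    ring
  rw [Finset.sum_congr rfl in1]
  simp only [Finset.sum_add_distrib, ← Finset.mul_sum]
  rw [hE, h1, h2, hXk, hNk]
  ring

end alg

section rows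

variable {X : Type*} [MeasurableSpace X] {E : Type*} [NormedAddCommGroup E]
  [InnerProductSpace ℝ E] [FiniteDimensional ℝ E] [MeasurableSpace E] [BorelSpace E]
  {μ : Measure X} [IsFiniteMeasure μ] {p n : X → E} {m : ℕ}

/-- the quartic field along the position -/
lemma nul5 (h : TwoG μ m p n) (hp : UF p) (hn : UF n)
    (hsp : ∀ w, (∀ x, ⟪p x, w⟫ = 0) → w = 0) (e w : E) :
    Nul μ (fun x => (3 * ⟪e, e⟫ * (⟪p x, e⟫ * ⟪p x, e⟫)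
        + (-3) * (⟪p x, e⟫ * ⟪p x, e⟫ * (⟪n x, e⟫ * ⟪n x, e⟫))
        + -((m : ℝ) + 4) * (⟪p x, e⟫ * ⟪p x, e⟫ * (⟪p x, e⟫ * ⟪p x, e⟫))) * ⟪p x, w⟫
      + ((-1) * (⟪p x, e⟫ * ⟪p x, e⟫ * (⟪p x, e⟫ * ⟪n x, e⟫))) * ⟪n x, w⟫
      + (⟪p x, e⟫ * (⟪p x, e⟫ * ⟪p x, e⟫)) * ⟪e, w⟫) := by
  have be := bm_inner hp e
  have bn := bm_inner hn e
  have b1 : BM fun x => 3 * ⟪e, e⟫ * (⟪p x, e⟫ * ⟪p x, e⟫)
        + (-3) * (⟪p x, e⟫ * ⟪p x, e⟫ * (⟪n x, e⟫ * ⟪n x, e⟫))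
        + -((m : ℝ) + 4) * (⟪p x, e⟫ * ⟪p x, e⟫ * (⟪p x, e⟫ * ⟪p x, e⟫)) :=
    (((be.mul be).cmul _).add (((be.mul be).mul (bn.mul bn)).cmul _)).add
      (((be.mul be).mul (be.mul be)).cmul _)
  have b2 : BM fun x => (-1) * (⟪p x, e⟫ * ⟪p x, e⟫ * (⟪p x, e⟫ * ⟪n x, e⟫)) :=
    ((be.mul be).mul (be.mul bn)).cmul _
  have b4 : BM fun x => ⟪p x, e⟫ * (⟪p x, e⟫ * ⟪p x, e⟫) := be.mul (be.mul be)
  have b3 : ∀ v : E, BM fun _ : X => ⟪e, v⟫ := fun v => BM.const _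
  refine ⟨((b1.mul (bm_inner hp w)).add (b2.mul (bm_inner hn w))).add (b4.mul (b3 w)), ?_⟩
  refine pair_zero3 hp hn hsp b1 b2 b4 e (fun z => ?_) w
  have h1 := h.rowG z e (fun s => s) (fun _ => 1)
    (fun s _ => ⟨contDiffAt_id, hasDerivAt_id _⟩) 2 0 3
  rw [← h1]
  refine integral_congr_ae (Eventually.of_forall fun x => ?_)
  simp [rG, rowE, dat, dv]
  rw [real_inner_comm (p z) e]
  ring

/-- the quartic closedness field -/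
lemma nul6 (h : TwoG μ m p n) (hp : UF p) (hn : UF n)
    (hsp : ∀ w, (∀ x, ⟪p x, w⟫ = 0) → w = 0) (e w : E) :
    Nul μ (fun x => (((m : ℝ) + 3) * (⟪p x, e⟫ * ⟪p x, e⟫ * (⟪p x, e⟫ * ⟪n x, e⟫))) * ⟪p x, w⟫
      + (3 * ⟪e, e⟫ * (⟪p x, e⟫ * ⟪p x, e⟫)
        + -((m : ℝ) + 3) * (⟪p x, e⟫ * ⟪p x, e⟫ * (⟪p x, e⟫ * ⟪p x, e⟫))) * ⟪n x, w⟫
      + ((-3) * (⟪p x, e⟫ * ⟪p x, e⟫ * ⟪n x, e⟫)) * ⟪e, w⟫) := by
  have be := bm_inner hp e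
  have bn := bm_inner hn e
  have b1 : BM fun x => ((m : ℝ) + 3) * (⟪p x, e⟫ * ⟪p x, e⟫ * (⟪p x, e⟫ * ⟪n x, e⟫)) :=
    ((be.mul be).mul (be.mul bn)).cmul _
  have b2 : BM fun x => 3 * ⟪e, e⟫ * (⟪p x, e⟫ * ⟪p x, e⟫)
        + -((m : ℝ) + 3) * (⟪p x, e⟫ * ⟪p x, e⟫ * (⟪p x, e⟫ * ⟪p x, e⟫)) :=
    ((be.mul be).cmul _).add (((be.mul be).mul (be.mul be)).cmul _)
  have b4 : BM fun x => (-3) * (⟪p x, e⟫ * ⟪p x, e⟫ * ⟪n x, e⟫) := ((be.mul be).mul bn).cmul _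
  have b3 : ∀ v : E, BM fun _ : X => ⟪e, v⟫ := fun v => BM.const _
  refine ⟨((b1.mul (bm_inner hp w)).add (b2.mul (bm_inner hn w))).add (b4.mul (b3 w)), ?_⟩
  refine pair_zero3 hp hn hsp b1 b2 b4 e (fun z => ?_) w
  have h1 := h.rowG z e (fun _ => 1) (fun _ => 0)
    (fun s _ => ⟨contDiffAt_const, hasDerivAt_const _ _⟩) 4 0 3
  rw [← h1]
  refine integral_congr_ae (Eventually.of_forall fun x => ?_)
  simp [rG, rowE, dat, dv]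
  rw [real_inner_comm (p z) e]
  ring

lemma nul5p (h : TwoG μ m p n) (hp : UF p) (hn : UF n)
    (hsp : ∀ w, (∀ x, ⟪p x, w⟫ = 0) → w = 0) (e f w : E) :
    Nul μ (fun x => (1 / 2 * (⟪p x, e⟫ ^ 2 * ⟪f, f⟫ + ⟪p x, f⟫ ^ 2 * ⟪e, e⟫
          + 4 * (⟪p x, e⟫ * ⟪p x, f⟫ * ⟪e, f⟫))
        - 1 / 2 * (⟪p x, e⟫ ^ 2 * ⟪n x, f⟫ ^ 2 + ⟪p x, f⟫ ^ 2 * ⟪n x, e⟫ ^ 2
          + 4 * (⟪p x, e⟫ * ⟪n x, e⟫ * (⟪p x, f⟫ * ⟪n x, f⟫)))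
        - ((m : ℝ) + 4) * (⟪p x, e⟫ ^ 2 * ⟪p x, f⟫ ^ 2)) * ⟪p x, w⟫
      - 1 / 2 * (⟪p x, e⟫ ^ 2 * (⟪p x, f⟫ * ⟪n x, f⟫) + ⟪p x, e⟫ * ⟪n x, e⟫ * ⟪p x, f⟫ ^ 2)
        * ⟪n x, w⟫
      + 1 / 2 * (⟪p x, e⟫ ^ 2 * (⟪p x, f⟫ * ⟪f, w⟫) + ⟪p x, e⟫ * ⟪e, w⟫ * ⟪p x, f⟫ ^ 2)) := by
  have h1 := nul5 h hp hn hsp (e + f) w
  have h2 := nul5 h hp hn hsp (e - f) w
  have h3 := nul5 h hp hn hsp e w
  have h4 := nul5 h hp hn hsp f w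
  refine ((((h1.add h2).add (h3.cmul (-2))).add (h4.cmul (-2))).cmul (1 / 12)).congr fun x => ?_
  simp only [inner_add_right, inner_sub_right, inner_add_left, inner_sub_left]
  rw [real_inner_comm e f]
  ring

lemma nul6p (h : TwoG μ m p n) (hp : UF p) (hn : UF n)
    (hsp : ∀ w, (∀ x, ⟪p x, w⟫ = 0) → w = 0) (e f w : E) :
    Nul μ (fun x => ((m : ℝ) + 3) / 2 * (⟪p x, e⟫ ^ 2 * (⟪p x, f⟫ * ⟪n x, f⟫)
        + ⟪p x, e⟫ * ⟪n x, e⟫ * ⟪p x, f⟫ ^ 2) * ⟪p x, w⟫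
      + (1 / 2 * (⟪p x, e⟫ ^ 2 * ⟪f, f⟫ + ⟪p x, f⟫ ^ 2 * ⟪e, e⟫
          + 4 * (⟪p x, e⟫ * ⟪p x, f⟫ * ⟪e, f⟫))
        - ((m : ℝ) + 3) * (⟪p x, e⟫ ^ 2 * ⟪p x, f⟫ ^ 2)) * ⟪n x, w⟫
      - 1 / 2 * (⟪p x, e⟫ ^ 2 * (⟪n x, f⟫ * ⟪f, w⟫) + ⟪n x, e⟫ * ⟪e, w⟫ * ⟪p x, f⟫ ^ 2
        + 2 * (⟪p x, e⟫ * ⟪n x, e⟫ * (⟪p x, f⟫ * ⟪f, w⟫)
          + ⟪p x, e⟫ * ⟪e, w⟫ * (⟪p x, f⟫ * ⟪n x, f⟫)))) := by
  have h1 := nul6 h hp hn hsp (e + f) w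
  have h2 := nul6 h hp hn hsp (e - f) w
  have h3 := nul6 h hp hn hsp e w
  have h4 := nul6 h hp hn hsp f w
  refine ((((h1.add h2).add (h3.cmul (-2))).add (h4.cmul (-2))).cmul (1 / 12)).congr fun x => ?_
  simp only [inner_add_right, inner_sub_right, inner_add_left, inner_sub_left]
  rw [real_inner_comm e f]
  ring

end rows

section block

variable {X : Type*} [MeasurableSpace X] {E : Type*} [NormedAddCommGroup E]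
  [InnerProductSpace ℝ E] [FiniteDimensional ℝ E] [MeasurableSpace E] [BorelSpace E]
  {μ : Measure X} [IsFiniteMeasure μ] {p n : X → E} {m : ℕ}
  {ι : Type*} [Fintype ι] [DecidableEq ι]

lemma sum_Ek (b : OrthonormalBasis ι ℝ E) (A : Finset ι) (k : ι) (f : ι → ℝ) :
    ∑ i ∈ A, f i * ⟪b i, b k⟫ = if k ∈ A then f k else 0 := by
  simp only [inner_b, mul_ite, mul_one, mul_zero]
  rw [Finset.sum_ite_eq']

lemma sum_Ei (b : OrthonormalBasis ι ℝ E) (A : Finset ι) (f : ι → ℝ) (i : ι) (hi : i ∈ A) :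
    ∑ j ∈ A, f j * ⟪b i, b j⟫ = f i := by
  simp only [inner_b, mul_ite, mul_one, mul_zero]
  rw [Finset.sum_ite_eq, if_pos hi]

lemma blk5 (h : TwoG μ m p n) (hp : UF p) (hn : UF n)
    (hsp : ∀ w, (∀ x, ⟪p x, w⟫ = 0) → w = 0) (b : OrthonormalBasis ι ℝ E) (A : Finset ι)
    (k : ι) : Nul μ (fun x => ((A.card + 2) * bρ p b A x - bρ p b A x * bρ n b A x
        - 2 * bσ p n b A x ^ 2 - (m + 4) * bρ p b A x ^ 2) * ⟪p x, b k⟫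
      - bρ p b A x * bσ p n b A x * ⟪n x, b k⟫
      + bρ p b A x * (if k ∈ A then ⟪p x, b k⟫ else 0)) := by
  refine (Nul.sum A fun i => Nul.sum A fun j => nul5p h hp hn hsp (b i) (b j) (b k)).congr
    fun x => ?_
  have e2 : ∑ i ∈ A, ⟪b i, b i⟫ = (A.card : ℝ) := by simp
  exact (dsum5 A (fun i => ⟪p x, b i⟫) (fun i => ⟪n x, b i⟫) (fun i => ⟪b i, b k⟫)
    (fun i j => ⟪b i, b j⟫) (ρ := bρ p b A x) (σ := bσ p n b A x) (ν := bρ n b A x) rfl rfl rfl e2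
    (sum_Ei b A _) (sum_Ek b A k _) ((m : ℝ) + 4) _ _).symm

lemma blk6 (h : TwoG μ m p n) (hp : UF p) (hn : UF n)
    (hsp : ∀ w, (∀ x, ⟪p x, w⟫ = 0) → w = 0) (b : OrthonormalBasis ι ℝ E) (A : Finset ι)
    (k : ι) : Nul μ (fun x => ((m + 3) * (bρ p b A x * bσ p n b A x)) * ⟪p x, b k⟫
      + ((A.card + 2) * bρ p b A x - (m + 3) * bρ p b A x ^ 2) * ⟪n x, b k⟫
      - bρ p b A x * (if k ∈ A then ⟪n x, b k⟫ else 0)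
      - 2 * (bσ p n b A x * (if k ∈ A then ⟪p x, b k⟫ else 0))) := by
  refine (Nul.sum A fun i => Nul.sum A fun j => nul6p h hp hn hsp (b i) (b j) (b k)).congr
    fun x => ?_
  have e2 : ∑ i ∈ A, ⟪b i, b i⟫ = (A.card : ℝ) := by simp
  exact (dsum6 A (fun i => ⟪p x, b i⟫) (fun i => ⟪n x, b i⟫) (fun i => ⟪b i, b k⟫)
    (fun i j => ⟪b i, b j⟫) (ρ := bρ p b A x) (σ := bσ p n b A x) rfl rfl e2
    (sum_Ei b A _) (sum_Ek b A k _) (sum_Ek b A k _) ((m : ℝ) + 3) _ _).symm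

end block

end Vale.Agent.P224.SO
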