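import Vale.Agent.P224.SO.Red

/-!
The one point identity in dimension five: the mean normal of a closed minimal hypersurface is
bounded by the mean square distance of the normal to the Clifford points.
-/

namespace Vale.Agent.P224.SO

open MeasureTheory Set Filter Function Module Vale.Agent.P224.UE
open scoped Topology RealInnerProductSpace ContDiff

set_option linter.unusedSectionVars false

/-- a bounded measurable function -/
structure BM {X : Type*} [MeasurableSpace X] (f : X → ℝ) : Prop where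
  meas : Measurable f
  bd : ∃ C, ∀ x, |f x| ≤ C

namespace BM

variable {X : Type*} [MeasurableSpace X] {f g : X → ℝ}

lemma const (c : ℝ) : BM (fun _ : X => c) := ⟨measurable_const, |c|, fun _ => le_rfl⟩

lemma add (hf : BM f) (hg : BM g) : BM (fun x => f x + g x) := by
  obtain ⟨a, ha⟩ := hf.bd
  obtain ⟨b, hb⟩ := hg.bd
  exact ⟨hf.meas.add hg.meas, a + b, fun x => (abs_add_le _ _).trans (add_le_add (ha x) (hb x))⟩

lemma mul (hf : BM f) (hg : BM g) : BM (fun x => f x * g x) := by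
  obtain ⟨a, ha⟩ := hf.bd
  obtain ⟨b, hb⟩ := hg.bd
  refine ⟨hf.meas.mul hg.meas, a * b, fun x => ?_⟩
  rw [abs_mul]
  exact mul_le_mul (ha x) (hb x) (abs_nonneg _) ((abs_nonneg _).trans (ha x))

lemma cmul (c : ℝ) (hf : BM f) : BM (fun x => c * f x) := (BM.const c).mul hf

lemma sum {ι : Type*} (s : Finset ι) {F : ι → X → ℝ} (h : ∀ i, BM (F i)) :
    BM (fun x => ∑ i ∈ s, F i x) := by
  classical
  induction s using Finset.induction_on with
  | empty => simpa using BM.const (X := X) 0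
  | insert a s ha ih =>
    simp only [Finset.sum_insert ha]
    exact (h a).add ih

lemma int {μ : Measure X} [IsFiniteMeasure μ] (hf : BM f) : Integrable f μ := by
  obtain ⟨C, hC⟩ := hf.bd
  exact Integrable.of_bound hf.meas.aestronglyMeasurable C (Eventually.of_forall hC)

end BM

section pointwise

lemma cs_partial {ι : Type*} [Fintype ι] [DecidableEq ι] (S : Finset ι) (x u : ι → ℝ)
    (hx : ∑ i, x i ^ 2 = 1) (hu : ∑ i, u i ^ 2 = 1) : ∑ i ∈ S, x i * u i ≤ 1 := by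
  have h1 := Finset.sum_mul_sq_le_sq_mul_sq S x u
  have h2 : ∑ i ∈ S, x i ^ 2 ≤ 1 := by
    rw [← hx]
    exact Finset.sum_le_sum_of_subset_of_nonneg (Finset.subset_univ _) fun i _ _ => sq_nonneg _
  have h3 : ∑ i ∈ S, u i ^ 2 ≤ 1 := by
    rw [← hu]
    exact Finset.sum_le_sum_of_subset_of_nonneg (Finset.subset_univ _) fun i _ _ => sq_nonneg _
  have h4 : 0 ≤ ∑ i ∈ S, x i ^ 2 := Finset.sum_nonneg fun i _ => sq_nonneg _
  have h5 : 0 ≤ ∑ i ∈ S, u i ^ 2 := Finset.sum_nonneg fun i _ => sq_nonneg _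
  nlinarith [mul_le_mul h2 h3 h5 (by norm_num)]

lemma bessel {ι : Type*} [Fintype ι] (x N u : ι → ℝ) (hx : ∑ i, x i ^ 2 = 1)
    (hN : ∑ i, N i ^ 2 = 1) (hu : ∑ i, u i ^ 2 = 1) (hxN : ∑ i, x i * N i = 0) :
    (∑ i, N i * u i) ^ 2 + (∑ i, x i * u i) ^ 2 ≤ 1 := by
  set a := ∑ i, N i * u i with ha
  set b := ∑ i, x i * u i with hb
  have h : ∑ i, (u i - a * N i - b * x i) ^ 2
      = ∑ i, u i ^ 2 - 2 * a * ∑ i, N i * u i - 2 * b * ∑ i, x i * u i + a ^ 2 * ∑ i, N i ^ 2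
        + b ^ 2 * ∑ i, x i ^ 2 + 2 * a * b * ∑ i, x i * N i := by
    simp only [Finset.mul_sum, ← Finset.sum_add_distrib, ← Finset.sum_sub_distrib]
    exact Finset.sum_congr rfl fun i _ => by ring
  have h0 : 0 ≤ ∑ i, (u i - a * N i - b * x i) ^ 2 := Finset.sum_nonneg fun i _ => sq_nonneg _
  rw [h, ← ha, ← hb, hx, hN, hu, hxN] at h0
  nlinarith

lemma cross {ι : Type*} [Fintype ι] (x h u : ι → ℝ) (hx : ∑ i, x i ^ 2 = 1)
    (hu : ∑ i, u i ^ 2 = 1) :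
    -((∑ i, h i ^ 2) * (1 - ∑ i, x i * u i)) ≤ 2 * (∑ i, h i * x i) * (∑ i, h i * u i) := by
  set H := ∑ i, h i ^ 2
  set b := ∑ i, x i * u i
  set s := ∑ i, h i * x i
  set t := ∑ i, h i * u i
  have h1 := Finset.sum_mul_sq_le_sq_mul_sq Finset.univ h (fun i => x i - u i)
  have e1 : ∑ i, h i * (x i - u i) = s - t := by
    simp only [mul_sub, Finset.sum_sub_distrib, s, t]
  have e2 : ∑ i, (x i - u i) ^ 2 = 2 - 2 * b := by
    have : ∑ i, (x i - u i) ^ 2 = ∑ i, x i ^ 2 + ∑ i, u i ^ 2 - 2 * ∑ i, x i * u i := by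
      simp only [Finset.mul_sum, ← Finset.sum_add_distrib, ← Finset.sum_sub_distrib]
      exact Finset.sum_congr rfl fun i _ => by ring
    rw [this, hx, hu]
    ring
  rw [e1, e2] at h1
  nlinarith [sq_nonneg (s + t)]

/-- the scalar inequality -/
lemma scal_one {q H r a b c g : ℝ} (hq : q ^ 2 = 6) (hq0 : 0 ≤ q) (hH : 0 ≤ H)
    (hr1 : -(q / 3) * H ≤ r) (hr2 : r ≤ q / 2 * H) (hab : a ^ 2 + b ^ 2 ≤ 1) (hc1 : c ≤ 1)
    (hc2 : -1 ≤ c) (hg : g = 4 / 3 * b + 1 / 6 * c) :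
    r * g + 1 / 2 * H * a + q / 24 * (H * (1 - b)) ≤ 2 * H := by
  have hq1 : q ≤ 245 / 100 := by nlinarith
  rcases le_total 0 g with h0 | h0
  · have h1 : r * g ≤ q / 2 * H * g := mul_le_mul_of_nonneg_right hr2 h0
    have h2 : 5 * q / 8 * b + 1 / 2 * a ≤ 1611 / 1000 := by
      have : (5 * q / 8 * b + 1 / 2 * a) ^ 2 ≤ (1611 / 1000) ^ 2 := by
        have e : (5 * q / 8 * b + 1 / 2 * a) ^ 2
            = (25 * q ^ 2 / 64 + 1 / 4) * (a ^ 2 + b ^ 2) - (5 * q / 8 * a - 1 / 2 * b) ^ 2 := by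
          ring
        rw [e, hq]
        nlinarith [sq_nonneg (5 * q / 8 * a - 1 / 2 * b)]
      nlinarith [abs_le_of_sq_le_sq this (by norm_num), abs_le_of_sq_le_sq' this (by norm_num)]
    have h3 : q / 12 * c ≤ q / 12 := by nlinarith
    have h4 : q / 2 * g + 1 / 2 * a + q / 24 * (1 - b) ≤ 2 := by
      rw [hg]
      nlinarith
    nlinarith [mul_le_mul_of_nonneg_left h4 hH]
  · have h1 : r * g ≤ -(q / 3) * H * g := mul_le_mul_of_nonpos_right hr1 h0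
    have h2 : -(35 * q / 72 * b) + 1 / 2 * a ≤ 1300 / 1000 := by
      have : (-(35 * q / 72 * b) + 1 / 2 * a) ^ 2 ≤ (1300 / 1000) ^ 2 := by
        have e : (-(35 * q / 72 * b) + 1 / 2 * a) ^ 2
            = (1225 * q ^ 2 / 5184 + 1 / 4) * (a ^ 2 + b ^ 2)
              - (35 * q / 72 * a + 1 / 2 * b) ^ 2 := by
          ring
        rw [e, hq]
        nlinarith [sq_nonneg (35 * q / 72 * a + 1 / 2 * b)]
      nlinarith [abs_le_of_sq_le_sq' this (by norm_num)]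
    have h3 : -(q / 18 * c) ≤ q / 18 := by nlinarith
    have h4 : -(q / 3) * g + 1 / 2 * a + q / 24 * (1 - b) ≤ 2 := by
      rw [hg]
      nlinarith
    nlinarith [mul_le_mul_of_nonneg_left h4 hH]

end pointwise

section rows

variable {X : Type*} [MeasurableSpace X] {E : Type*} [NormedAddCommGroup E]
  [InnerProductSpace ℝ E] [FiniteDimensional ℝ E] [MeasurableSpace E] [BorelSpace E]
  {μ : Measure X} [IsFiniteMeasure μ] {p n : X → E} {m : ℕ}

lemma int_add {f g : X → ℝ} (hf : Integrable f μ) (hg : Integrable g μ) :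
    Integrable (fun x => f x + g x) μ := hf.add hg

lemma int2 {f g : X → ℝ} (hf : Integrable f μ) (hg : Integrable g μ) (a b : ℝ) :
    ∫ x, (a * f x + b * g x) ∂μ = a * ∫ x, f x ∂μ + b * ∫ x, g x ∂μ := by
  rw [integral_add (hf.const_mul _) (hg.const_mul _), integral_const_mul, integral_const_mul]

lemma int3 {f g k : X → ℝ} (hf : Integrable f μ) (hg : Integrable g μ) (hk : Integrable k μ)
    (a b c : ℝ) : ∫ x, (a * f x + (b * g x + c * k x)) ∂μ
      = a * ∫ x, f x ∂μ + (b * ∫ x, g x ∂μ + c * ∫ x, k x ∂μ) := by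
  rw [integral_add (hf.const_mul _) (int_add (hg.const_mul _) (hk.const_mul _)),
    integral_const_mul, int2 hg hk]

lemma bm_inner {f : X → E} (hf : UF f) (u : E) : BM fun x => ⟪f x, u⟫ :=
  ⟨hf.measI u, ‖u‖, hf.abs_le u⟩

lemma TG_zero (h : TwoG μ m p n) (hm : 0 < m) (z : X) (e : E) : ∫ x, ⟪p x, e⟫ ∂μ = 0 := by
  have h1 := h.rowG z e (fun _ => 1) (fun _ => 0)
    (fun s _ => ⟨contDiffAt_const, hasDerivAt_const _ _⟩) 2 0 0
  have e1 : ∀ x, rG 2 m (fun _ => 1) (fun _ => 0) 0 0 (dat p n e (x, z))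
      = -(m : ℝ) * ⟪p x, e⟫ := by
    intro x
    simp [rG, rowE, dat, dv]
  simp only [e1] at h1
  rw [integral_const_mul] at h1
  have hm' : (0 : ℝ) < m := by exact_mod_cast hm
  rcases mul_eq_zero.1 h1 with h2 | h2
  · exact absurd h2 (by linarith [hm'])
  · exact h2

/-- the two identities at a point -/
lemma TG_pt (h : TwoG μ m p n) (hm : 0 < m) (hp : UF p) (hn : UF n) (z : X) (e : E) :
    (m + 2) * ∫ x, ⟪p x, e⟫ ^ 2 * ⟪p x, p z⟫ ∂μ
      + 2 * ∫ x, ⟪p x, e⟫ * ⟪n x, e⟫ * ⟪n x, p z⟫ ∂μ = 0 ∧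
    ∫ x, ⟪n x, e⟫ ^ 2 * ⟪p x, p z⟫ ∂μ = ∫ x, ⟪p x, e⟫ * ⟪n x, e⟫ * ⟪n x, p z⟫ ∂μ := by
  have bx := bm_inner hp e
  have bn := bm_inner hn e
  have bs := bm_inner hp (p z)
  have bp := bm_inner hn (p z)
  have i0 := bx.int (μ := μ)
  have i1 : Integrable (fun x => ⟪p x, e⟫ ^ 2 * ⟪p x, p z⟫) μ := by
    simpa only [sq] using ((bx.mul bx).mul bs).int
  have i2 : Integrable (fun x => ⟪p x, e⟫ * ⟪n x, e⟫ * ⟪n x, p z⟫) μ := ((bx.mul bn).mul bp).int
  have i3 : Integrable (fun x => ⟪n x, e⟫ ^ 2 * ⟪p x, p z⟫) μ := by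
    simpa only [sq] using ((bn.mul bn).mul bs).int
  have i4 := bs.int (μ := μ)
  have z0 := TG_zero h hm z e
  have z1 := TG_zero h hm z (p z)
  have h1 := h.rowG z e (fun _ => 1) (fun _ => 0)
    (fun s _ => ⟨contDiffAt_const, hasDerivAt_const _ _⟩) 0 0 2
  have e1 : ∀ x, rG 0 m (fun _ => 1) (fun _ => 0) 0 2 (dat p n e (x, z))
      = 2 * ⟪p z, e⟫ * ⟪p x, e⟫ + (-((m : ℝ) + 2) * (⟪p x, e⟫ ^ 2 * ⟪p x, p z⟫)
        + (-2) * (⟪p x, e⟫ * ⟪n x, e⟫ * ⟪n x, p z⟫)) := by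
    intro x
    simp [rG, rowE, dat, dv]
    ring
  simp only [e1] at h1
  rw [int3 i0 i1 i2, z0] at h1
  have h2 := h.rowG z e (fun s => s) (fun _ => 1)
    (fun s _ => ⟨contDiffAt_id, hasDerivAt_id _⟩) 2 0 1
  have e2 : ∀ x, rG 2 m (fun s => s) (fun _ => 1) 0 1 (dat p n e (x, z))
      = ⟪p z, e⟫ * ⟪p x, e⟫ + (⟪e, e⟫ * ⟪p x, p z⟫ + (-((m : ℝ) + 2) * (⟪p x, e⟫ ^ 2 * ⟪p x, p z⟫)
        + ((-1) * (⟪p x, e⟫ * ⟪n x, e⟫ * ⟪n x, p z⟫) + (-1) * (⟪n x, e⟫ ^ 2 * ⟪p x, p z⟫)))) := by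
    intro x
    simp [rG, rowE, dat, dv]
    ring
  simp only [e2] at h2
  rw [integral_add (i0.const_mul _) (int_add (i4.const_mul _) (int_add (i1.const_mul _)
      (int_add (i2.const_mul _) (i3.const_mul _)))),
    integral_add (i4.const_mul _) (int_add (i1.const_mul _)
      (int_add (i2.const_mul _) (i3.const_mul _))), int3 i1 i2 i3, integral_const_mul,
    integral_const_mul, z0, z1] at h2
  constructor
  · linarith
  · linarith

/-- a field paired with the spanning points vanishes -/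
lemma pair_zero (hp : UF p) (hn : UF n) (hsp : ∀ w, (∀ x, ⟪p x, w⟫ = 0) → w = 0)
    {f g : X → ℝ} (hf : BM f) (hg : BM g)
    (h : ∀ z, ∫ x, (f x * ⟪p x, p z⟫ + g x * ⟪n x, p z⟫) ∂μ = 0) (w : E) :
    ∫ x, (f x * ⟪p x, w⟫ + g x * ⟪n x, w⟫) ∂μ = 0 := by
  have hI : Integrable (fun x => f x • p x + g x • n x) μ := by
    obtain ⟨a, ha⟩ := hf.bd
    obtain ⟨b, hb⟩ := hg.bd
    refine Integrable.of_bound ((hf.meas.smul hp.meas).add
      (hg.meas.smul hn.meas)).aestronglyMeasurable (a + b) (Eventually.of_forall fun x => ?_)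
    refine (norm_add_le _ _).trans ?_
    rw [norm_smul, norm_smul, hp.unit, hn.unit, mul_one, mul_one]
    exact add_le_add (ha x) (hb x)
  have key : ∀ v : E, ∫ x, (f x * ⟪p x, v⟫ + g x * ⟪n x, v⟫) ∂μ
      = ⟪v, ∫ x, (f x • p x + g x • n x) ∂μ⟫ := by
    intro v
    rw [← integral_inner hI v]
    refine integral_congr_ae (Eventually.of_forall fun x => ?_)
    simp only [inner_add_right, real_inner_smul_right, real_inner_comm v]
  have h0 : ∫ x, (f x • p x + g x • n x) ∂μ = 0 := by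
    refine hsp _ fun z => ?_
    rw [← key, h]
  rw [key, h0, inner_zero_right]

/-- the two identities for all vectors -/
lemma TG_all (h : TwoG μ m p n) (hm : 0 < m) (hp : UF p) (hn : UF n)
    (hsp : ∀ w, (∀ x, ⟪p x, w⟫ = 0) → w = 0) (e w : E) :
    (m + 2) * ∫ x, ⟪p x, e⟫ ^ 2 * ⟪p x, w⟫ ∂μ
      + 2 * ∫ x, ⟪p x, e⟫ * ⟪n x, e⟫ * ⟪n x, w⟫ ∂μ = 0 ∧
    ∫ x, ⟪n x, e⟫ ^ 2 * ⟪p x, w⟫ ∂μ = ∫ x, ⟪p x, e⟫ * ⟪n x, e⟫ * ⟪n x, w⟫ ∂μ := by
  have bx := bm_inner hp e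
  have bn := bm_inner hn e
  have i1 : ∀ w, Integrable (fun x => ⟪p x, e⟫ ^ 2 * ⟪p x, w⟫) μ := fun w => by
    simpa only [sq] using ((bx.mul bx).mul (bm_inner hp w)).int
  have i2 : ∀ w, Integrable (fun x => ⟪p x, e⟫ * ⟪n x, e⟫ * ⟪n x, w⟫) μ := fun w =>
    ((bx.mul bn).mul (bm_inner hn w)).int
  have i3 : ∀ w, Integrable (fun x => ⟪n x, e⟫ ^ 2 * ⟪p x, w⟫) μ := fun w => by
    simpa only [sq] using ((bn.mul bn).mul (bm_inner hp w)).int
  have b1 : BM fun x => ((m : ℝ) + 2) * (⟪p x, e⟫ * ⟪p x, e⟫) := (bx.mul bx).cmul _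
  have b2 : BM fun x => 2 * (⟪p x, e⟫ * ⟪n x, e⟫) := (bx.mul bn).cmul _
  have b3 : BM fun x => ⟪n x, e⟫ * ⟪n x, e⟫ := bn.mul bn
  have b4 : BM fun x => (-1) * (⟪p x, e⟫ * ⟪n x, e⟫) := (bx.mul bn).cmul _
  constructor
  · have h1 := pair_zero hp hn hsp b1 b2 (μ := μ) (fun z => by
      have := (TG_pt h hm hp hn z e).1
      rw [← integral_const_mul, ← integral_const_mul,
        ← integral_add ((i1 _).const_mul _) ((i2 _).const_mul _)] at this
      rw [← this]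
      exact integral_congr_ae (Eventually.of_forall fun x => by simp only; ring)) w
    rw [← integral_const_mul, ← integral_const_mul,
      ← integral_add ((i1 _).const_mul _) ((i2 _).const_mul _), ← h1]
    exact integral_congr_ae (Eventually.of_forall fun x => by simp only; ring)
  · have h1 := pair_zero hp hn hsp b3 b4 (μ := μ) (fun z => by
      have := sub_eq_zero.2 (TG_pt h hm hp hn z e).2
      rw [← integral_sub (i3 _) (i2 _)] at this
      rw [← this]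
      exact integral_congr_ae (Eventually.of_forall fun x => by simp only; ring)) w
    rw [← sub_eq_zero, ← integral_sub (i3 _) (i2 _), ← h1]
    exact integral_congr_ae (Eventually.of_forall fun x => by simp only; ring)

end rows

section main

/-- the two values of the Clifford matrix -/
noncomputable def zc (S : Finset (Fin 7)) (i : Fin 7) : ℝ := if i ∈ S then √6 / 3 else -(√6 / 2)

/-- the weight -/
noncomputable def dc (S : Finset (Fin 7)) (i : Fin 7) : ℝ := if i ∈ S then 4 / 3 else 3 / 2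

lemma sq6 : √6 ^ 2 = (6 : ℝ) := Real.sq_sqrt (by norm_num)

lemma zc_sq (S : Finset (Fin 7)) (i : Fin 7) : zc S i ^ 2 = -(√6 / 6) * zc S i + 1 := by
  unfold zc
  split_ifs <;> nlinarith [sq6]

lemma dc_eq (S : Finset (Fin 7)) (i : Fin 7) : dc S i = (7 - √6 / 6 * zc S i) / 5 := by
  unfold dc zc
  split_ifs <;> nlinarith [sq6]

/-- the pointwise inequality -/
lemma pointwise (S : Finset (Fin 7)) (x N u : Fin 7 → ℝ) (hx : ∑ i, x i ^ 2 = 1)
    (hN : ∑ i, N i ^ 2 = 1) (hu : ∑ i, u i ^ 2 = 1) (hxN : ∑ i, x i * N i = 0) :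
    ∑ k, (dc S k * ((∑ i, (zc S i + √6 / 6) * (N i - zc S i * x i) ^ 2) * x k)
      + 1 / 2 * ((∑ i, (N i - zc S i * x i) ^ 2) * N k)
      + √6 / 12 * ((∑ i, zc S i * x i ^ 2) * (N k - zc S k * x k))) * u k
      ≤ 2 * ∑ i, (N i - zc S i * x i) ^ 2 := by
  set h : Fin 7 → ℝ := fun i => N i - zc S i * x i with hh
  set H := ∑ i, h i ^ 2 with hHd
  set r := ∑ i, (zc S i + √6 / 6) * (N i - zc S i * x i) ^ 2 with hr
  have hq0 : 0 ≤ √6 := Real.sqrt_nonneg _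
  have hH0 : 0 ≤ H := Finset.sum_nonneg fun i _ => sq_nonneg _
  have hr1 : -(√6 / 3) * H ≤ r := by
    rw [hHd, hr, Finset.mul_sum]
    refine Finset.sum_le_sum fun i _ => mul_le_mul_of_nonneg_right ?_ (sq_nonneg _)
    unfold zc
    split_ifs <;> linarith
  have hr2 : r ≤ √6 / 2 * H := by
    rw [hHd, hr, Finset.mul_sum]
    refine Finset.sum_le_sum fun i _ => mul_le_mul_of_nonneg_right ?_ (sq_nonneg _)
    unfold zc
    split_ifs <;> linarith
  have hqx : ∑ i, zc S i * x i ^ 2 = -∑ i, h i * x i := by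
    have : ∑ i, h i * x i = ∑ i, x i * N i - ∑ i, zc S i * x i ^ 2 := by
      rw [← Finset.sum_sub_distrib]
      exact Finset.sum_congr rfl fun i _ => by simp only [hh]; ring
    rw [this, hxN]
    ring
  set a := ∑ i, N i * u i with ha
  set b := ∑ i, x i * u i with hb
  set c := ∑ i ∈ Finset.univ \ S, x i * u i with hc
  have hc1 : c ≤ 1 := cs_partial _ x u hx hu
  have hc2 : -1 ≤ c := by
    have := cs_partial (Finset.univ \ S) x (fun i => -u i) hx (by simpa using hu)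
    simp only [mul_neg, Finset.sum_neg_distrib] at this
    linarith
  have hab : a ^ 2 + b ^ 2 ≤ 1 := bessel x N u hx hN hu hxN
  have hg : ∑ i, dc S i * (x i * u i) = 4 / 3 * b + 1 / 6 * c := by
    have e1 : ∀ i, dc S i * (x i * u i)
        = 4 / 3 * (x i * u i) + 1 / 6 * (if i ∈ Finset.univ \ S then x i * u i else 0) := by
      intro i
      unfold dc
      by_cases hi : i ∈ S <;> simp [hi] <;> ring
    simp only [e1]
    rw [Finset.sum_add_distrib, ← Finset.mul_sum, ← Finset.mul_sum, Finset.sum_ite_mem,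
      Finset.univ_inter]
  have hcr := cross x h u hx hu
  have key := scal_one sq6 hq0 hH0 hr1 hr2 hab hc1 hc2 rfl
  have e0 : ∑ k, (dc S k * (r * x k) + 1 / 2 * (H * N k)
      + √6 / 12 * ((∑ i, zc S i * x i ^ 2) * (N k - zc S k * x k))) * u k
      = r * (∑ i, dc S i * (x i * u i)) + 1 / 2 * H * a
        + √6 / 12 * ((∑ i, zc S i * x i ^ 2) * ∑ i, h i * u i) := by
    rw [ha]
    simp only [Finset.mul_sum, ← Finset.sum_add_distrib]
    exact Finset.sum_congr rfl fun i _ => by simp only [hh]; ring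
  rw [e0, hg, hqx]
  have h6 : √6 / 12 * (-(∑ i, h i * x i) * ∑ i, h i * u i) ≤ √6 / 24 * (H * (1 - b)) := by
    have := mul_le_mul_of_nonneg_left hcr (by positivity : 0 ≤ √6 / 24)
    nlinarith
  linarith

variable {X : Type*} [MeasurableSpace X] {E : Type*} [NormedAddCommGroup E]
  [InnerProductSpace ℝ E] [FiniteDimensional ℝ E] [MeasurableSpace E] [BorelSpace E]
  {μ : Measure X} [IsFiniteMeasure μ] {p n : X → E}

/-- the integrated identity, for a coordinate -/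
lemma one_coord (h : TwoG μ 5 p n) (hp : UF p) (hn : UF n) [Nonempty X]
    (hsp : ∀ w, (∀ x, ⟪p x, w⟫ = 0) → w = 0) (b : OrthonormalBasis (Fin 7) ℝ E)
    (S : Finset (Fin 7)) (k : Fin 7) :
    ∫ x, (dc S k * ((∑ i, (zc S i + √6 / 6) * (⟪n x, b i⟫ - zc S i * ⟪p x, b i⟫) ^ 2)
        * ⟪p x, b k⟫)
      + 1 / 2 * ((∑ i, (⟪n x, b i⟫ - zc S i * ⟪p x, b i⟫) ^ 2) * ⟪n x, b k⟫)
      + √6 / 12 * ((∑ i, zc S i * ⟪p x, b i⟫ ^ 2) * (⟪n x, b k⟫ - zc S k * ⟪p x, b k⟫))) ∂μ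
      = ∫ x, ⟪n x, b k⟫ ∂μ := by
  have bx : ∀ i, BM fun x => ⟪p x, b i⟫ := fun i => bm_inner hp _
  have bn : ∀ i, BM fun x => ⟪n x, b i⟫ := fun i => bm_inner hn _
  have ips : ∀ u v : E, ∑ i, ⟪u, b i⟫ * ⟪v, b i⟫ = ⟪u, v⟫ := by
    intro u v
    rw [← b.sum_inner_mul_inner u v]
    exact Finset.sum_congr rfl fun i _ => by rw [real_inner_comm v]
  have hxx : ∀ x, ∑ i, ⟪p x, b i⟫ ^ 2 = 1 := fun x => by
    have := ips (p x) (p x)
    rw [real_inner_self_eq_norm_sq, hp.unit, one_pow] at this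
    simpa only [sq] using this
  have hnn : ∀ x, ∑ i, ⟪n x, b i⟫ ^ 2 = 1 := fun x => by
    have := ips (n x) (n x)
    rw [real_inner_self_eq_norm_sq, hn.unit, one_pow] at this
    simpa only [sq] using this
  have hxn : ∀ x, ∑ i, ⟪p x, b i⟫ * ⟪n x, b i⟫ = 0 := fun x => by rw [ips, h.pn]
  -- the moments
  have i1 : ∀ i, Integrable (fun x => zc S i * (⟪p x, b i⟫ ^ 2 * ⟪p x, b k⟫)) μ := fun i => by
    simpa only [sq] using (((bx i).mul (bx i)).mul (bx k)).int.const_mul _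
  have i2 : ∀ i, Integrable (fun x => zc S i * (⟪p x, b i⟫ * ⟪n x, b i⟫ * ⟪n x, b k⟫)) μ :=
    fun i => (((bx i).mul (bn i)).mul (bn k)).int.const_mul _
  have i3 : ∀ i, Integrable (fun x => zc S i * (⟪n x, b i⟫ ^ 2 * ⟪p x, b k⟫)) μ := fun i => by
    simpa only [sq] using (((bn i).mul (bn i)).mul (bx k)).int.const_mul _
  have I1 : ∫ x, ∑ i, zc S i * (⟪p x, b i⟫ ^ 2 * ⟪p x, b k⟫) ∂μ
      = ∑ i, zc S i * ∫ x, ⟪p x, b i⟫ ^ 2 * ⟪p x, b k⟫ ∂μ := by
    rw [integral_finsetSum _ fun i _ => i1 i]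
    exact Finset.sum_congr rfl fun i _ => integral_const_mul _ _
  have I2 : ∫ x, ∑ i, zc S i * (⟪p x, b i⟫ * ⟪n x, b i⟫ * ⟪n x, b k⟫) ∂μ
      = ∑ i, zc S i * ∫ x, ⟪p x, b i⟫ * ⟪n x, b i⟫ * ⟪n x, b k⟫ ∂μ := by
    rw [integral_finsetSum _ fun i _ => i2 i]
    exact Finset.sum_congr rfl fun i _ => integral_const_mul _ _
  have I3 : ∫ x, ∑ i, zc S i * (⟪n x, b i⟫ ^ 2 * ⟪p x, b k⟫) ∂μ
      = ∑ i, zc S i * ∫ x, ⟪n x, b i⟫ ^ 2 * ⟪p x, b k⟫ ∂μ := by
    rw [integral_finsetSum _ fun i _ => i3 i]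
    exact Finset.sum_congr rfl fun i _ => integral_const_mul _ _
  set F1 := ∫ x, ∑ i, zc S i * (⟪p x, b i⟫ ^ 2 * ⟪p x, b k⟫) ∂μ with hF1
  set F2 := ∫ x, ∑ i, zc S i * (⟪p x, b i⟫ * ⟪n x, b i⟫ * ⟪n x, b k⟫) ∂μ with hF2
  set F3 := ∫ x, ∑ i, zc S i * (⟪n x, b i⟫ ^ 2 * ⟪p x, b k⟫) ∂μ with hF3
  have r1 : 7 * F1 + 2 * F2 = 0 := by
    rw [I1, I2, Finset.mul_sum, Finset.mul_sum, ← Finset.sum_add_distrib]
    refine Finset.sum_eq_zero fun i _ => ?_
    have := (TG_all h (by norm_num) hp hn hsp (b i) (b k)).1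
    push_cast at this
    linear_combination (zc S i) * this
  have r2 : F3 = F2 := by
    rw [I2, I3]
    refine Finset.sum_congr rfl fun i _ => ?_
    rw [(TG_all h (by norm_num) hp hn hsp (b i) (b k)).2]
  obtain ⟨z0⟩ := ‹Nonempty X›
  have r0 : ∫ x, ⟪p x, b k⟫ ∂μ = 0 := TG_zero h (by norm_num) z0 _
  -- the integrand
  have e1 : ∀ x, (dc S k * ((∑ i, (zc S i + √6 / 6) * (⟪n x, b i⟫ - zc S i * ⟪p x, b i⟫) ^ 2)
        * ⟪p x, b k⟫)
      + 1 / 2 * ((∑ i, (⟪n x, b i⟫ - zc S i * ⟪p x, b i⟫) ^ 2) * ⟪n x, b k⟫)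
      + √6 / 12 * ((∑ i, zc S i * ⟪p x, b i⟫ ^ 2) * (⟪n x, b k⟫ - zc S k * ⟪p x, b k⟫)))
      = 1 * ⟪n x, b k⟫ + ((dc S k * (√6 / 6)) * ⟪p x, b k⟫
        + ((dc S k - √6 / 12 * zc S k) * (∑ i, zc S i * (⟪p x, b i⟫ ^ 2 * ⟪p x, b k⟫))
        + ((-1) * (∑ i, zc S i * (⟪p x, b i⟫ * ⟪n x, b i⟫ * ⟪n x, b k⟫))
        + dc S k * (∑ i, zc S i * (⟪n x, b i⟫ ^ 2 * ⟪p x, b k⟫))))) := by
    intro x
    have hx := hxx x
    have hn' := hnn x
    have hxn' := hxn x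
    set xx : Fin 7 → ℝ := fun i => ⟪p x, b i⟫ with hxxd
    set nn : Fin 7 → ℝ := fun i => ⟪n x, b i⟫ with hnnd
    have g1 : ∑ i, (zc S i + √6 / 6) * (nn i - zc S i * xx i) ^ 2
        = ∑ i, zc S i * nn i ^ 2 + √6 / 6 * ∑ i, nn i ^ 2 - 2 * ∑ i, xx i * nn i
          + ∑ i, zc S i * xx i ^ 2 := by
      simp only [Finset.mul_sum, ← Finset.sum_add_distrib, ← Finset.sum_sub_distrib]
      refine Finset.sum_congr rfl fun i _ => ?_
      linear_combination (-2 * xx i * nn i + zc S i * xx i ^ 2) * zc_sq S i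
    have g2 : ∑ i, (nn i - zc S i * xx i) ^ 2
        = ∑ i, nn i ^ 2 - 2 * ∑ i, zc S i * (xx i * nn i) - √6 / 6 * ∑ i, zc S i * xx i ^ 2
          + ∑ i, xx i ^ 2 := by
      simp only [Finset.mul_sum, ← Finset.sum_add_distrib, ← Finset.sum_sub_distrib]
      refine Finset.sum_congr rfl fun i _ => ?_
      linear_combination (xx i ^ 2) * zc_sq S i
    have g3 : ∑ i, zc S i * (xx i ^ 2 * xx k) = (∑ i, zc S i * xx i ^ 2) * xx k := by
      rw [Finset.sum_mul]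
      exact Finset.sum_congr rfl fun i _ => by ring
    have g4 : ∑ i, zc S i * (xx i * nn i * nn k) = (∑ i, zc S i * (xx i * nn i)) * nn k := by
      rw [Finset.sum_mul]
      exact Finset.sum_congr rfl fun i _ => by ring
    have g5 : ∑ i, zc S i * (nn i ^ 2 * xx k) = (∑ i, zc S i * nn i ^ 2) * xx k := by
      rw [Finset.sum_mul]
      exact Finset.sum_congr rfl fun i _ => by ring
    change dc S k * ((∑ i, (zc S i + √6 / 6) * (nn i - zc S i * xx i) ^ 2) * xx k)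
      + 1 / 2 * ((∑ i, (nn i - zc S i * xx i) ^ 2) * nn k)
      + √6 / 12 * ((∑ i, zc S i * xx i ^ 2) * (nn k - zc S k * xx k))
      = 1 * nn k + ((dc S k * (√6 / 6)) * xx k
        + ((dc S k - √6 / 12 * zc S k) * (∑ i, zc S i * (xx i ^ 2 * xx k))
        + ((-1) * (∑ i, zc S i * (xx i * nn i * nn k))
        + dc S k * (∑ i, zc S i * (nn i ^ 2 * xx k)))))
    rw [g1, g2, g3, g4, g5, hx, hn', hxn']
    ring
  simp only [e1]
  have j1 : Integrable (fun x => ∑ i, zc S i * (⟪p x, b i⟫ ^ 2 * ⟪p x, b k⟫)) μ :=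
    integrable_finsetSum _ fun i _ => i1 i
  have j2 : Integrable (fun x => ∑ i, zc S i * (⟪p x, b i⟫ * ⟪n x, b i⟫ * ⟪n x, b k⟫)) μ :=
    integrable_finsetSum _ fun i _ => i2 i
  have j3 : Integrable (fun x => ∑ i, zc S i * (⟪n x, b i⟫ ^ 2 * ⟪p x, b k⟫)) μ :=
    integrable_finsetSum _ fun i _ => i3 i
  rw [integral_add ((bn k).int.const_mul _) (int_add ((bx k).int.const_mul _)
      (int_add (j1.const_mul _) (int_add (j2.const_mul _) (j3.const_mul _)))),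
    integral_add ((bx k).int.const_mul _)
      (int_add (j1.const_mul _) (int_add (j2.const_mul _) (j3.const_mul _))),
    int3 j1 j2 j3, integral_const_mul, integral_const_mul, r0, ← hF1, ← hF2, ← hF3, r2]
  have h2 : F2 = -(7 / 2) * F1 := by linarith
  rw [h2, dc_eq]
  ring

/-- the one point identity -/
theorem one_point (h : TwoG μ 5 p n) [Nonempty X]
    (hsp : ∀ w, (∀ x, ⟪p x, w⟫ = 0) → w = 0) (b : OrthonormalBasis (Fin 7) ℝ E)
    (S : Finset (Fin 7)) :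
    ‖∫ x, n x ∂μ‖ ≤ 2 * ∫ x, ‖n x - ∑ i, ((if i ∈ S then √6 / 3 else -(√6 / 2))
      * ⟪p x, b i⟫) • b i‖ ^ 2 ∂μ := by
  have hp : UF p := ⟨h.mp, h.np⟩
  have hn : UF n := ⟨h.mn, h.nn⟩
  have bx : ∀ i, BM fun x => ⟪p x, b i⟫ := fun i => bm_inner hp _
  have bn : ∀ i, BM fun x => ⟪n x, b i⟫ := fun i => bm_inner hn _
  have ips : ∀ u v : E, ∑ i, ⟪u, b i⟫ * ⟪v, b i⟫ = ⟪u, v⟫ := by
    intro u v
    rw [← b.sum_inner_mul_inner u v]
    exact Finset.sum_congr rfl fun i _ => by rw [real_inner_comm v]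
  have hxx : ∀ x, ∑ i, ⟪p x, b i⟫ ^ 2 = 1 := fun x => by
    have := ips (p x) (p x)
    rw [real_inner_self_eq_norm_sq, hp.unit, one_pow] at this
    simpa only [sq] using this
  have hnn : ∀ x, ∑ i, ⟪n x, b i⟫ ^ 2 = 1 := fun x => by
    have := ips (n x) (n x)
    rw [real_inner_self_eq_norm_sq, hn.unit, one_pow] at this
    simpa only [sq] using this
  have hxn : ∀ x, ∑ i, ⟪p x, b i⟫ * ⟪n x, b i⟫ = 0 := fun x => by rw [ips, h.pn]
  have hnorm : ∀ x, ‖n x - ∑ i, ((if i ∈ S then √6 / 3 else -(√6 / 2))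
      * ⟪p x, b i⟫) • b i‖ ^ 2 = ∑ i, (⟪n x, b i⟫ - zc S i * ⟪p x, b i⟫) ^ 2 := by
    intro x
    rw [← real_inner_self_eq_norm_sq, ← ips]
    refine Finset.sum_congr rfl fun i _ => ?_
    have : ⟪n x - ∑ j, ((if j ∈ S then √6 / 3 else -(√6 / 2)) * ⟪p x, b j⟫) • b j, b i⟫
        = ⟪n x, b i⟫ - zc S i * ⟪p x, b i⟫ := by
      rw [inner_sub_left, sum_inner]
      congr 1
      rw [Finset.sum_eq_single i]
      · rw [real_inner_smul_left, orthonormal_iff_ite.1 b.orthonormal i i, if_pos rfl, mul_one]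
        rfl
      · intro j _ hj
        rw [real_inner_smul_left, orthonormal_iff_ite.1 b.orthonormal j i, if_neg hj, mul_zero]
      · intro hi
        exact absurd (Finset.mem_univ i) hi
    rw [this, sq]
  simp only [hnorm]
  set v := ∫ x, n x ∂μ with hv
  have hIn : Integrable n μ :=
    Integrable.of_bound hn.meas.aestronglyMeasurable 1
      (Eventually.of_forall fun x => (hn.unit x).le)
  rcases eq_or_ne v 0 with h0 | h0
  · rw [h0, norm_zero]
    exact mul_nonneg (by norm_num)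
      (integral_nonneg fun x => Finset.sum_nonneg fun i _ => sq_nonneg _)
  have hvp : 0 < ‖v‖ := norm_pos_iff.2 h0
  have hvk : ∀ k, ⟪v, b k⟫ = ∫ x, ⟪n x, b k⟫ ∂μ := by
    intro k
    rw [hv, real_inner_comm, ← integral_inner hIn]
    exact integral_congr_ae (Eventually.of_forall fun x => real_inner_comm _ _)
  set u : Fin 7 → ℝ := fun k => ⟪v, b k⟫ / ‖v‖ with hu
  have huu : ∑ k, u k ^ 2 = 1 := by
    have : ∑ k, u k ^ 2 = (∑ k, ⟪v, b k⟫ * ⟪v, b k⟫) / ‖v‖ ^ 2 := by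
      rw [Finset.sum_div]
      exact Finset.sum_congr rfl fun i _ => by simp only [hu]; rw [div_pow, sq ⟪v, b i⟫]
    rw [this, ips, real_inner_self_eq_norm_sq, div_self (by positivity)]
  set V : Fin 7 → X → ℝ := fun k x =>
    dc S k * ((∑ i, (zc S i + √6 / 6) * (⟪n x, b i⟫ - zc S i * ⟪p x, b i⟫) ^ 2) * ⟪p x, b k⟫)
      + 1 / 2 * ((∑ i, (⟪n x, b i⟫ - zc S i * ⟪p x, b i⟫) ^ 2) * ⟪n x, b k⟫)
      + √6 / 12 * ((∑ i, zc S i * ⟪p x, b i⟫ ^ 2) * (⟪n x, b k⟫ - zc S k * ⟪p x, b k⟫)) with hV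
  have bh : ∀ i, BM fun x => ⟪n x, b i⟫ - zc S i * ⟪p x, b i⟫ := fun i => by
    simpa only [neg_mul, ← sub_eq_add_neg] using (bn i).add ((bx i).cmul (-(zc S i)))
  have bH : BM fun x => ∑ i, (⟪n x, b i⟫ - zc S i * ⟪p x, b i⟫) ^ 2 := by
    simpa only [sq] using BM.sum Finset.univ fun i => (bh i).mul (bh i)
  have br : BM fun x => ∑ i, (zc S i + √6 / 6) * (⟪n x, b i⟫ - zc S i * ⟪p x, b i⟫) ^ 2 := by
    simpa only [sq] using BM.sum Finset.univ fun i => ((bh i).mul (bh i)).cmul (zc S i + √6 / 6)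
  have bq : BM fun x => ∑ i, zc S i * ⟪p x, b i⟫ ^ 2 := by
    simpa only [sq] using BM.sum Finset.univ fun i => ((bx i).mul (bx i)).cmul (zc S i)
  have bV : ∀ k, BM (V k) := fun k =>
    (((br.mul (bx k)).cmul _).add ((bH.mul (bn k)).cmul _)).add ((bq.mul (bh k)).cmul _)
  have hVk : ∀ k, ∫ x, V k x ∂μ = ⟪v, b k⟫ := fun k => by
    rw [hvk]
    exact one_coord h hp hn hsp b S k
  have h1 : ‖v‖ = ∫ x, ∑ k, V k x * u k ∂μ := by
    rw [integral_finsetSum _ fun k _ => (bV k).int.mul_const _]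
    have : ∀ k, ∫ x, V k x * u k ∂μ = ⟪v, b k⟫ * ⟪v, b k⟫ / ‖v‖ := by
      intro k
      rw [integral_mul_const, hVk]
      simp only [hu]
      ring
    simp only [this]
    rw [← Finset.sum_div, ips, real_inner_self_eq_norm_sq, sq, mul_div_assoc,
      div_self hvp.ne', mul_one]
  rw [h1, ← integral_const_mul]
  refine integral_mono (BM.sum Finset.univ fun k => (bV k).mul (BM.const (u k))).int
    (bH.cmul 2).int fun x => ?_
  exact pointwise S (fun i => ⟪p x, b i⟫) (fun i => ⟪n x, b i⟫) u (hxx x) (hnn x) huu (hxn x)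

end main

end Vale.Agent.P224.SO
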