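import Vale.Agent.P224.SO.OneA

/-!
The one point identity in dimension 11, blocks 6 and 7: the mean normal is at most 63/50
times the mean square distance of the normal to a Clifford point, with the weight 1 on the
block of dimension 6.
-/

namespace Vale.Agent.P224.SO.One11

open MeasureTheory Set Filter Function Module Vale.Agent.P224.UE Vale.Agent.P224.SO
open scoped Topology RealInnerProductSpace ContDiff

set_option linter.unusedSectionVars false
set_option linter.unusedVariables false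

lemma sqK : √30 ^ 2 = (30 : ℝ) := Real.sq_sqrt (by norm_num)

/-- the coefficients in the block of dimension 6 -/
noncomputable def pa (t u v : ℝ) : ℝ := (-(588 / 3125)) * (v) + 166 / 625 * (u) + (-(21 / 5500)) * (t * v) + (-(21 / 5500)) * (t * u) + 539 / 10000 * (t ^ 2)

/-- the coefficients in the block of dimension 6 -/
noncomputable def pb (t u v : ℝ) : ℝ := 666 / 1375 * (v) + 666 / 1375 * (u) + (-(13269 / 13750)) * (t) + (-(21 / 1100)) * (t * v) + (-(21 / 1100)) * (t * u) + 7 / 1000 * (t ^ 2)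

/-- the coefficients in the block of dimension 7 -/
noncomputable def qa (t u v : ℝ) : ℝ := (-(77 / 300)) * (v) + 43 / 225 * (u) + 41 / 11000 * (t * v) + 41 / 11000 * (t * u) + 451 / 7500 * (t ^ 2)

/-- the coefficients in the block of dimension 7 -/
noncomputable def qb (t u v : ℝ) : ℝ := 257 / 550 * (v) + 257 / 550 * (u) + 21671 / 16500 * (t) + (-(123 / 5500)) * (t * v) + (-(123 / 5500)) * (t * u) + 41 / 5000 * (t ^ 2)

/-- the certificate -/
lemma cert {t u v g g' a1 B1 a2 B2 : ℝ} (hρ : 0 ≤ 5 / 11 + t) (hr : 0 ≤ 6 / 11 - t)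
    (hu : 0 ≤ u) (hv : 0 ≤ v) (hg : 0 ≤ g) (hg' : 0 ≤ g')
    (hgd : g = (5 / 11 + t) * u - (11 / 2 * t + 15 / 11 * (u + v)) ^ 2 / 30)
    (hgd' : g' = (6 / 11 - t) * v - (11 / 2 * t - 15 / 11 * (u + v)) ^ 2 / 30)
    (ha1 : a1 = pa t u v) (hb1 : B1 = pb t u v) (ha2 : a2 = qa t u v) (hb2 : B2 = qb t u v) :
    (30 * a1 ^ 2 * (5 / 11 + t) - 2 * a1 * B1 * (11 / 2 * t + 15 / 11 * (u + v)) + B1 ^ 2 * u
      + (30 * a2 ^ 2 * (6 / 11 - t) - 2 * a2 * B2 * (11 / 2 * t - 15 / 11 * (u + v)) + B2 ^ 2 * v))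
      ≤ (63 / 50 * (1 * u + v)) ^ 2 := by
  have hQ0 : 0 ≤ 173179 / 6187500 * (u + (-(148500 / 173179)) * (t ^ 2) + (-(235125 / 346358)) * (t * u)) ^ 2 +
      12717850285481 / 77930550000000 * (t ^ 2 + (-(1425536100000 / 12717850285481)) * (t * u)) ^ 2 +
      306537685350849 / 25435700570962000 * (t * u) ^ 2 := by positivity
  have hQ1 : 0 ≤ 230447 / 3906250 * (v + 70963115 / 162234688 * (t ^ 2) + 1089589825 / 2453799656 * (t * v)) ^ 2 +
      1749897294586459 / 89229078400000000 * (t ^ 2 + 639596578115521240 / 635212717934884617 * (t * v)) ^ 2 +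
      1652738250217874577091 / 2382047692255817313750000 * (t * v) ^ 2 := by positivity
  have hQ2 : 0 ≤ 521555454547 / 81675000000 * (t + (-(124271189410 / 521555454547)) * (u) + 22550976195 / 521555454547 * (t ^ 2) + (-(60813760050 / 5737110000017)) * (t * u)) ^ 2 +
      410233611484319533 / 53247552187657781250 * (u + 9190886757046074399 / 6563737783749112528 * (t ^ 2) + (-(6033671844138296865 / 18050278905310059452)) * (t * u)) ^ 2 +
      1565904231745361667706361 / 49228033378118343960000000 * (t ^ 2 + (-(46454623407541188938773140 / 189474412041188761792469681)) * (t * u)) ^ 2 +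
      16352056017745827549210711081 / 71645012053074500552777598128125 * (t * u) ^ 2 := by positivity
  have hQ3 : 0 ≤ 33707590339 / 27225000000 * (t + 23412576898 / 33707590339 * (u) + 1070851118388 / 4078618431019 * (v) + 5396869140 / 370783493729 * (t * u) + 544500000 / 33707590339 * (t * v)) ^ 2 +
      5090165930153509189 / 20856571522256250000 * (u + 3343602705634686159723 / 13550021706068641461118 * (v) + 53138218115148312720 / 615910077548574611869 * (t * u) + 4027026526659356175 / 615910077548574611869 * (t * v)) ^ 2 +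
      2701174649426347293653638381 / 3967717355971019592644572760000 * (v + 106404769020722377348950559544 / 67529366235658682341340959525 * (t * u) + 81568117508022263984627199174 / 67529366235658682341340959525 * (t * v)) ^ 2 +
      1846636832375293397587074042634808299 / 247174362764069692039893247101381250000 * (t * u + 1946568525541410198924911151003036183 / 3693273664750586795174148085269616598 * (t * v)) ^ 2 +
      196946475032168163641913359054659604867337 / 491574724778303102437679110149385969193800000 * (t * v) ^ 2 := by positivity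
  have hQ4 : 0 ≤ 18202927 / 4687500 * (1 + 290625 / 18202927 * (t)) ^ 2 +
      84737231350031 / 1376596354375000 * (t) ^ 2 := by positivity
  have hQ5 : 0 ≤ 8027 / 1000 * (1 + 166 / 8027 * (t)) ^ 2 +
      446037 / 8027000 * (t) ^ 2 := by positivity
  have e : (63 / 50 * (1 * u + v)) ^ 2 - (30 * a1 ^ 2 * (5 / 11 + t) - 2 * a1 * B1 * (11 / 2 * t + 15 / 11 * (u + v)) + B1 ^ 2 * u
      + (30 * a2 ^ 2 * (6 / 11 - t) - 2 * a2 * B2 * (11 / 2 * t - 15 / 11 * (u + v)) + B2 ^ 2 * v))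
      = (173179 / 6187500 * (u + (-(148500 / 173179)) * (t ^ 2) + (-(235125 / 346358)) * (t * u)) ^ 2 +
      12717850285481 / 77930550000000 * (t ^ 2 + (-(1425536100000 / 12717850285481)) * (t * u)) ^ 2 +
      306537685350849 / 25435700570962000 * (t * u) ^ 2)
      + (5 / 11 + t) * (230447 / 3906250 * (v + 70963115 / 162234688 * (t ^ 2) + 1089589825 / 2453799656 * (t * v)) ^ 2 +
      1749897294586459 / 89229078400000000 * (t ^ 2 + 639596578115521240 / 635212717934884617 * (t * v)) ^ 2 +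
      1652738250217874577091 / 2382047692255817313750000 * (t * v) ^ 2)
      + u * (521555454547 / 81675000000 * (t + (-(124271189410 / 521555454547)) * (u) + 22550976195 / 521555454547 * (t ^ 2) + (-(60813760050 / 5737110000017)) * (t * u)) ^ 2 +
      410233611484319533 / 53247552187657781250 * (u + 9190886757046074399 / 6563737783749112528 * (t ^ 2) + (-(6033671844138296865 / 18050278905310059452)) * (t * u)) ^ 2 +
      1565904231745361667706361 / 49228033378118343960000000 * (t ^ 2 + (-(46454623407541188938773140 / 189474412041188761792469681)) * (t * u)) ^ 2 +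
      16352056017745827549210711081 / 71645012053074500552777598128125 * (t * u) ^ 2)
      + v * (33707590339 / 27225000000 * (t + 23412576898 / 33707590339 * (u) + 1070851118388 / 4078618431019 * (v) + 5396869140 / 370783493729 * (t * u) + 544500000 / 33707590339 * (t * v)) ^ 2 +
      5090165930153509189 / 20856571522256250000 * (u + 3343602705634686159723 / 13550021706068641461118 * (v) + 53138218115148312720 / 615910077548574611869 * (t * u) + 4027026526659356175 / 615910077548574611869 * (t * v)) ^ 2 +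
      2701174649426347293653638381 / 3967717355971019592644572760000 * (v + 106404769020722377348950559544 / 67529366235658682341340959525 * (t * u) + 81568117508022263984627199174 / 67529366235658682341340959525 * (t * v)) ^ 2 +
      1846636832375293397587074042634808299 / 247174362764069692039893247101381250000 * (t * u + 1946568525541410198924911151003036183 / 3693273664750586795174148085269616598 * (t * v)) ^ 2 +
      196946475032168163641913359054659604867337 / 491574724778303102437679110149385969193800000 * (t * v) ^ 2)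
      + (g * v) * (18202927 / 4687500 * (1 + 290625 / 18202927 * (t)) ^ 2 +
      84737231350031 / 1376596354375000 * (t) ^ 2)
      + (g' * u) * (8027 / 1000 * (1 + 166 / 8027 * (t)) ^ 2 +
      446037 / 8027000 * (t) ^ 2) := by
    rw [ha1, hb1, ha2, hb2, hgd, hgd']
    unfold pa pb qa qb
    ring
  have h1 := mul_nonneg hρ hQ1
  have h2 := mul_nonneg hu hQ2
  have h3 := mul_nonneg hv hQ3
  have h4 := mul_nonneg (mul_nonneg hg hv) hQ4
  have h5 := mul_nonneg (mul_nonneg hg' hu) hQ5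
  rw [← sub_nonneg, e]
  exact add_nonneg (add_nonneg (add_nonneg (add_nonneg (add_nonneg hQ0 h1) h2) h3) h4) h5

/-- the first block -/
noncomputable def uQ (ρ σ ν : ℝ) : ℝ := ν + 2 / 5 * √30 * σ + 6 / 5 * ρ

/-- the second block -/
noncomputable def vQ (ρ σ ν : ℝ) : ℝ := 1 - ν + 1 / 3 * √30 * σ + 5 / 6 * (1 - ρ)

/-- the integrand, for a coordinate -/
noncomputable def Ps (k : Prop) [Decidable k] (ρ σ ν x n : ℝ) : ℝ :=
  if k then -(√30 * qa (ρ - 5 / 11) (uQ ρ σ ν) (vQ ρ σ ν)) * x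
      + qb (ρ - 5 / 11) (uQ ρ σ ν) (vQ ρ σ ν) * (n - √30 / 6 * x)
    else -(√30 * pa (ρ - 5 / 11) (uQ ρ σ ν) (vQ ρ σ ν)) * x
      + pb (ρ - 5 / 11) (uQ ρ σ ν) (vQ ρ σ ν) * (n + √30 / 5 * x)

lemma Ps_in {k : Prop} [Decidable k] (hk : k) (ρ σ ν x n : ℝ) : Ps k ρ σ ν x n
    = n + (16417 / 39600 * √30) * x + ((-(2417 / 49500)) * √30) * (13 * (ρ * x) + 2 * (σ * n))
      + ((-(403 / 900)) * √30) * (ν * x - σ * n) + 3 / 25 * (12 * (ρ * n - σ * x) - 6 * n)
      + (41 / 10000 * √30) * (4 * (ρ * (0 * x)) - 15 * (ρ ^ 2 * x) - 4 * (ρ * σ * n)) := by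
  unfold Ps qa qb uQ vQ
  rw [if_pos hk]
  linear_combination ((-(6 / 125)) * σ * x) * sqK

lemma Ps_out {k : Prop} [Decidable k] (hk : ¬k) (ρ σ ν x n : ℝ) : Ps k ρ σ ν x n
    = n + (329693 / 550000 * √30) * x + ((-(12677 / 275000)) * √30) * (13 * (ρ * x) + 2 * (σ * n))
      + ((-(1418 / 3125)) * √30) * (ν * x - σ * n) + (-(43 / 625)) * (12 * (ρ * n - σ * x) - 5 * n)
      + (7 / 2000 * √30) * (4 * (ρ * (1 * x)) - 15 * (ρ ^ 2 * x) - 4 * (ρ * σ * n)) := by
  unfold Ps pa pb uQ vQ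
  rw [if_neg hk]
  linear_combination (86 / 3125 * σ * x) * sqK

/-- the pointwise inequality -/
lemma pointwise' (S : Finset (Fin 13)) (x N u : Fin 13 → ℝ) (hx : ∑ i, x i ^ 2 = 1)
    (hN : ∑ i, N i ^ 2 = 1) (hu : ∑ i, u i ^ 2 = 1) (hxN : ∑ i, x i * N i = 0) :
    ∑ k, Ps (k ∈ S) (∑ i ∈ Finset.univ \ S, x i ^ 2) (∑ i ∈ Finset.univ \ S, x i * N i)
        (∑ i ∈ Finset.univ \ S, N i ^ 2) (x k) (N k) * u k
      ≤ 63 / 50 * ∑ i, (if i ∈ S then 1 else 1)
        * (N i - (if i ∈ S then √30 / 6 else -(√30 / 5)) * x i) ^ 2 := by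
  obtain ⟨ρ, hρ⟩ : ∃ ρ, ρ = ∑ i ∈ Finset.univ \ S, x i ^ 2 := ⟨_, rfl⟩
  obtain ⟨ν, hν⟩ : ∃ ν, ν = ∑ i ∈ Finset.univ \ S, N i ^ 2 := ⟨_, rfl⟩
  obtain ⟨σ, hσ⟩ : ∃ σ, σ = ∑ i ∈ Finset.univ \ S, x i * N i := ⟨_, rfl⟩
  rw [← hρ, ← hν, ← hσ]
  have spl : ∀ f : Fin 13 → ℝ, ∑ i, f i = ∑ i ∈ S, f i + ∑ i ∈ Finset.univ \ S, f i := fun f => by
    rw [add_comm, Finset.sum_sdiff (Finset.subset_univ S)]
  have hρ2 : ∑ i ∈ S, x i ^ 2 = 1 - ρ := by
    have := spl fun i => x i ^ 2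
    rw [hx, ← hρ] at this
    linarith
  have hν2 : ∑ i ∈ S, N i ^ 2 = 1 - ν := by
    have := spl fun i => N i ^ 2
    rw [hN, ← hν] at this
    linarith
  have hσ2 : ∑ i ∈ S, x i * N i = -σ := by
    have := spl fun i => x i * N i
    rw [hxN, ← hσ] at this
    linarith
  have q6 := sqK
  have hA : ∑ i ∈ Finset.univ \ S, (N i + √30 / 5 * x i) ^ 2 = uQ ρ σ ν := by
    have : ∑ i ∈ Finset.univ \ S, (N i + √30 / 5 * x i) ^ 2 = ∑ i ∈ Finset.univ \ S,
        (N i ^ 2 + (2 / 5 * √30) * (x i * N i) + 6 / 5 * x i ^ 2) :=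
      Finset.sum_congr rfl fun i _ => by linear_combination (x i ^ 2 / 25) * q6
    rw [this, Finset.sum_add_distrib, Finset.sum_add_distrib, ← Finset.mul_sum,
      ← Finset.mul_sum, ← hρ, ← hν, ← hσ]
    rfl
  have hB : ∑ i ∈ S, (N i - √30 / 6 * x i) ^ 2 = vQ ρ σ ν := by
    have : ∑ i ∈ S, (N i - √30 / 6 * x i) ^ 2 = ∑ i ∈ S,
        (N i ^ 2 + (-(1 / 3 * √30)) * (x i * N i) + 5 / 6 * x i ^ 2) :=
      Finset.sum_congr rfl fun i _ => by linear_combination (x i ^ 2 / 36) * q6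
    rw [this, Finset.sum_add_distrib, Finset.sum_add_distrib, ← Finset.mul_sum,
      ← Finset.mul_sum, hρ2, hν2, hσ2]
    unfold vQ
    ring
  obtain ⟨U, hU⟩ : ∃ U, U = uQ ρ σ ν := ⟨_, rfl⟩
  obtain ⟨V, hV⟩ : ∃ V, V = vQ ρ σ ν := ⟨_, rfl⟩
  obtain ⟨t, ht⟩ : ∃ t, t = ρ - 5 / 11 := ⟨_, rfl⟩
  obtain ⟨a, ha⟩ : ∃ a, a = pa t U V := ⟨_, rfl⟩
  obtain ⟨α, hα⟩ : ∃ α, α = pb t U V := ⟨_, rfl⟩
  obtain ⟨b, hb⟩ : ∃ b, b = qa t U V := ⟨_, rfl⟩
  obtain ⟨β, hβ⟩ : ∃ β, β = qb t U V := ⟨_, rfl⟩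
  obtain ⟨y, hy⟩ : ∃ y, y = 11 / 2 * t + 15 / 11 * (U + V) := ⟨_, rfl⟩
  obtain ⟨z, hz⟩ : ∃ z, z = 11 / 2 * t - 15 / 11 * (U + V) := ⟨_, rfl⟩
  obtain ⟨g, hg⟩ : ∃ g, g = (5 / 11 + t) * U - (11 / 2 * t + 15 / 11 * (U + V)) ^ 2 / 30 := ⟨_, rfl⟩
  obtain ⟨g', hg'⟩ : ∃ g', g' = (6 / 11 - t) * V - (11 / 2 * t - 15 / 11 * (U + V)) ^ 2 / 30 := ⟨_, rfl⟩
  have hU0 : 0 ≤ U := by
    rw [hU, ← hA]
    exact Finset.sum_nonneg fun i _ => sq_nonneg _
  have hV0 : 0 ≤ V := by
    rw [hV, ← hB]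
    exact Finset.sum_nonneg fun i _ => sq_nonneg _
  have hρ0 : 0 ≤ ρ := by
    rw [hρ]
    exact Finset.sum_nonneg fun i _ => sq_nonneg _
  have hρ1 : 0 ≤ 1 - ρ := by
    rw [← hρ2]
    exact Finset.sum_nonneg fun i _ => sq_nonneg _
  have hp1 : √30 * (σ + √30 / 5 * ρ) = y := by
    rw [hy, hU, hV, ht]
    unfold uQ vQ
    linear_combination (ρ / 5) * q6
  have hp1' : ∑ i ∈ Finset.univ \ S, x i * (N i + √30 / 5 * x i) = σ + √30 / 5 * ρ := by
    rw [hσ, hρ, Finset.mul_sum, ← Finset.sum_add_distrib]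
    exact Finset.sum_congr rfl fun i _ => by ring
  have hp2' : ∑ i ∈ S, x i * (N i - √30 / 6 * x i) = -σ - √30 / 6 * (1 - ρ) := by
    rw [← hσ2, ← hρ2, Finset.mul_sum, ← Finset.sum_sub_distrib]
    exact Finset.sum_congr rfl fun i _ => by ring
  have hp2 : √30 * (-σ - √30 / 6 * (1 - ρ)) = z := by
    rw [hz, hU, hV, ht]
    unfold uQ vQ
    linear_combination (-(1 - ρ) / 6) * q6
  have hcs := Finset.sum_mul_sq_le_sq_mul_sq (Finset.univ \ S) x fun i => N i + √30 / 5 * x i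
  rw [hp1', ← hρ, hA, ← hU] at hcs
  have hcs' := Finset.sum_mul_sq_le_sq_mul_sq S x fun i => N i - √30 / 6 * x i
  rw [hp2', hρ2, hB, ← hV] at hcs'
  have hg0 : 0 ≤ g := by
    have e : y ^ 2 = 30 * (σ + √30 / 5 * ρ) ^ 2 := by
      rw [← hp1]
      linear_combination ((σ + √30 / 5 * ρ) ^ 2) * q6
    rw [hg, ← hy, e, ht]
    linarith
  have hg0' : 0 ≤ g' := by
    have e : z ^ 2 = 30 * (-σ - √30 / 6 * (1 - ρ)) ^ 2 := by
      rw [← hp2]
      linear_combination ((-σ - √30 / 6 * (1 - ρ)) ^ 2) * q6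
    rw [hg', ← hz, e, ht]
    linarith
  have hρt : 0 ≤ 5 / 11 + t := by rw [ht]; linarith
  have hρt' : 0 ≤ 6 / 11 - t := by rw [ht]; linarith
  have key := cert hρt hρt' hU0 hV0 hg0 hg0' hg hg' ha hα hb hβ
  rw [← hy, ← hz] at key
  have hPs : ∀ k, Ps (k ∈ S) ρ σ ν (x k) (N k)
      = if k ∈ S then -(√30 * b) * x k + β * (N k - √30 / 6 * x k)
        else -(√30 * a) * x k + α * (N k + √30 / 5 * x k) := by
    intro k
    unfold Ps
    rw [← hU, ← hV, ← ht, ← ha, ← hβ, ← hα, ← hb]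
  have nS : ∑ k ∈ S, (-(√30 * b) * x k + β * (N k - √30 / 6 * x k)) ^ 2
      = 30 * b ^ 2 * (6 / 11 - t) - 2 * b * β * z + β ^ 2 * V := by
    have : ∑ k ∈ S, (-(√30 * b) * x k + β * (N k - √30 / 6 * x k)) ^ 2
        = ∑ k ∈ S, (30 * b ^ 2 * x k ^ 2 + (-2 * √30 * b * β) * (x k * (N k - √30 / 6 * x k))
          + β ^ 2 * (N k - √30 / 6 * x k) ^ 2) :=
      Finset.sum_congr rfl fun i _ => by linear_combination (b ^ 2 * x i ^ 2) * q6
    rw [this, Finset.sum_add_distrib, Finset.sum_add_distrib, ← Finset.mul_sum,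
      ← Finset.mul_sum, ← Finset.mul_sum, hρ2, hB, ← hV, hp2', ht]
    linear_combination (-2 * b * β) * hp2
  have nA : ∑ k ∈ Finset.univ \ S, (-(√30 * a) * x k + α * (N k + √30 / 5 * x k)) ^ 2
      = 30 * a ^ 2 * (5 / 11 + t) - 2 * a * α * y + α ^ 2 * U := by
    have : ∑ k ∈ Finset.univ \ S, (-(√30 * a) * x k + α * (N k + √30 / 5 * x k)) ^ 2
        = ∑ k ∈ Finset.univ \ S, (30 * a ^ 2 * x k ^ 2
          + (-2 * √30 * a * α) * (x k * (N k + √30 / 5 * x k))
          + α ^ 2 * (N k + √30 / 5 * x k) ^ 2) :=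
      Finset.sum_congr rfl fun i _ => by linear_combination (a ^ 2 * x i ^ 2) * q6
    rw [this, Finset.sum_add_distrib, Finset.sum_add_distrib, ← Finset.mul_sum,
      ← Finset.mul_sum, ← Finset.mul_sum, ← hρ, hA, ← hU, hp1', ht]
    linear_combination (-2 * a * α) * hp1
  have hn2 : ∑ k, Ps (k ∈ S) ρ σ ν (x k) (N k) ^ 2 ≤ (63 / 50 * (1 * U + V)) ^ 2 := by
    refine le_trans (le_of_eq ?_) key
    rw [spl, ← nS, ← nA, add_comm]
    congr 1
    · refine Finset.sum_congr rfl fun i hi => ?_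
      rw [hPs, if_neg (Finset.mem_sdiff.1 hi).2]
    · refine Finset.sum_congr rfl fun i hi => ?_
      rw [hPs, if_pos hi]
  have hfin : ∑ i, (if i ∈ S then (1 : ℝ) else 1)
      * (N i - (if i ∈ S then √30 / 6 else -(√30 / 5)) * x i) ^ 2 = 1 * U + V := by
    rw [spl, hU, hV, ← hA, ← hB, Finset.mul_sum, add_comm]
    congr 1
    · refine Finset.sum_congr rfl fun i hi => ?_
      have := (Finset.mem_sdiff.1 hi).2
      rw [if_neg this, if_neg this]
      ring
    · refine Finset.sum_congr rfl fun i hi => ?_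
      rw [if_pos hi, if_pos hi, one_mul]
  rw [hfin]
  have hcs2 := Finset.sum_mul_sq_le_sq_mul_sq Finset.univ
    (fun k => Ps (k ∈ S) ρ σ ν (x k) (N k)) u
  rw [hu, mul_one] at hcs2
  exact (abs_le_of_sq_le_sq' (hcs2.trans hn2) (by positivity)).2

section

variable {X : Type*} [MeasurableSpace X] {E : Type*} [NormedAddCommGroup E]
  [InnerProductSpace ℝ E] [FiniteDimensional ℝ E] [MeasurableSpace E] [BorelSpace E]
  {μ : Measure X} [IsFiniteMeasure μ] {p n : X → E}

/-- the integrand differs from the normal by a null function -/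
lemma coord' (h : TwoG μ 11 p n) (hp : UF p) (hn : UF n) [Nonempty X]
    (hsp : ∀ w, (∀ x, ⟪p x, w⟫ = 0) → w = 0) (b : OrthonormalBasis (Fin 13) ℝ E)
    (S : Finset (Fin 13)) (hS : S.card = 7) (k : Fin 13) :
    Nul μ (fun x => Ps (k ∈ S) (bρ p b (Finset.univ \ S) x) (bσ p n b (Finset.univ \ S) x)
      (bρ n b (Finset.univ \ S) x) ⟪p x, b k⟫ ⟪n x, b k⟫ - ⟪n x, b k⟫) := by
  have hc : (Finset.univ \ S).card = 6 := by
    rw [Finset.card_sdiff_of_subset (Finset.subset_univ S), hS]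
    simp
  have n0 := nul0 h (by norm_num) hp (b k) (μ := μ)
  have n1 := blk1 h (by norm_num) hp hn hsp b (Finset.univ \ S) (b k)
  have n2 := blk2 h (by norm_num) hp hn hsp b (Finset.univ \ S) (b k)
  have n3 := blk3 h hp hn hsp b (Finset.univ \ S) k
  have n4 := blk4 h hp hn hsp b (Finset.univ \ S) k
  by_cases hk : k ∈ S
  · have hk' : k ∉ Finset.univ \ S := fun hh => (Finset.mem_sdiff.1 hh).2 hk
    refine (((((n0.cmul (16417 / 39600 * √30)).add (n1.cmul ((-(2417 / 49500)) * √30))).add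
      (n2.cmul ((-(403 / 900)) * √30))).add (n3.cmul (3 / 25))).add
      (n4.cmul (41 / 10000 * √30))).congr fun x => ?_
    rw [Ps_in hk, hc, if_neg hk']
    push_cast
    ring
  · have hk' : k ∈ Finset.univ \ S := Finset.mem_sdiff.2 ⟨Finset.mem_univ k, hk⟩
    refine (((((n0.cmul (329693 / 550000 * √30)).add (n1.cmul ((-(12677 / 275000)) * √30))).add
      (n2.cmul ((-(1418 / 3125)) * √30))).add (n3.cmul ((-(43 / 625))))).add
      (n4.cmul (7 / 2000 * √30))).congr fun x => ?_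
    rw [Ps_out hk, hc, if_pos hk']
    push_cast
    ring

/-- the one point identity -/
theorem one (h : TwoG μ 11 p n) [Nonempty X]
    (hsp : ∀ w, (∀ x, ⟪p x, w⟫ = 0) → w = 0) (b : OrthonormalBasis (Fin 13) ℝ E)
    (S : Finset (Fin 13)) (hS : S.card = 7) :
    ‖∫ x, n x ∂μ‖ ≤ 63 / 50 * ∫ x, ∑ i, (if i ∈ S then 1 else 1)
      * (⟪n x, b i⟫ - (if i ∈ S then √30 / 6 else -(√30 / 5)) * ⟪p x, b i⟫) ^ 2 ∂μ :=
  one_abs h b (Cc := 63 / 50) (by norm_num) (fun i => if i ∈ S then (1 : ℝ) else 1)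
    (fun i => by split_ifs <;> norm_num) (fun i => if i ∈ S then √30 / 6 else -(√30 / 5))
    (fun k x => Ps (k ∈ S) (bρ p b (Finset.univ \ S) x) (bσ p n b (Finset.univ \ S) x)
      (bρ n b (Finset.univ \ S) x) ⟪p x, b k⟫ ⟪n x, b k⟫)
    (fun k => coord' h ⟨h.mp, h.np⟩ ⟨h.mn, h.nn⟩ hsp b S hS k)
    (fun x u hx hN hu hxN => pointwise' S (fun i => ⟪p x, b i⟫) (fun i => ⟪n x, b i⟫) u hx hN
      hu hxN)

/-- the one point identity with the norm -/
theorem one_norm (h : TwoG μ 11 p n) [Nonempty X]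
    (hsp : ∀ w, (∀ x, ⟪p x, w⟫ = 0) → w = 0) {α : ℝ} (hα : 0 < α) (hα2 : α ^ 2 = 5 / 6)
    (b : OrthonormalBasis (Fin 13) ℝ E) (S : Finset (Fin 13)) (hS : S.card = 7) :
    ‖∫ x, n x ∂μ‖ ≤ 63 / 50 * ∫ x, ‖n x - ∑ i, ((if i ∈ S then α else -(1 / α))
      * ⟪p x, b i⟫) • b i‖ ^ 2 ∂μ := by
  have h1 : α = √30 / 6 := by
    have h2 : (√30 / 6 : ℝ) ^ 2 = α ^ 2 := by
      rw [hα2, div_pow, sqK]
      norm_num
    exact ((sq_eq_sq₀ (by positivity) hα.le).1 h2).symm
  have h3 : 1 / α = √30 / 5 := by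
    rw [h1, one_div_div, div_eq_div_iff (by positivity) (by norm_num)]
    linear_combination -sqK
  have h4 := one h hsp b S hS
  rw [h1] at *
  rw [h3]
  refine h4.trans (le_of_eq ?_)
  congr 1
  refine integral_congr_ae (Eventually.of_forall fun x => ?_)
  simp only
  rw [norm_dev]
  exact Finset.sum_congr rfl fun i _ => by rw [ite_self, one_mul]

end

end Vale.Agent.P224.SO.One11
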