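import Vale.Agent.P224.SO.OneA

/-!
The one point identity in dimension 13, blocks 7 and 8: the mean normal is at most 61/50
times the mean square distance of the normal to a Clifford point, with the weight 1 on the
block of dimension 7.
-/

namespace Vale.Agent.P224.SO.One13

open MeasureTheory Set Filter Function Module Vale.Agent.P224.UE Vale.Agent.P224.SO
open scoped Topology RealInnerProductSpace ContDiff

set_option linter.unusedSectionVars false
set_option linter.unusedVariables false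

lemma sqK : √42 ^ 2 = (42 : ℝ) := Real.sq_sqrt (by norm_num)

/-- the coefficients in the block of dimension 7 -/
noncomputable def pa (t u v : ℝ) : ℝ := (-(182 / 1125)) * (v) + 53 / 250 * (u) + (-(63 / 32500)) * (t * v) + (-(63 / 32500)) * (t * u) + 39 / 1250 * (t ^ 2)

/-- the coefficients in the block of dimension 7 -/
noncomputable def pb (t u v : ℝ) : ℝ := 784 / 1625 * (v) + 784 / 1625 * (u) + (-(29008 / 24375)) * (t) + (-(189 / 16250)) * (t * v) + (-(189 / 16250)) * (t * u) + 9 / 2500 * (t ^ 2)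

/-- the coefficients in the block of dimension 8 -/
noncomputable def qa (t u v : ℝ) : ℝ := (-(86753 / 420000)) * (v) + 159741 / 980000 * (u) + 63 / 32500 * (t * v) + 63 / 32500 * (t * u) + 351 / 10000 * (t ^ 2)

/-- the coefficients in the block of dimension 8 -/
noncomputable def qb (t u v : ℝ) : ℝ := 122251 / 260000 * (v) + 122251 / 260000 * (u) + 3126181 / 2184000 * (t) + (-(441 / 32500)) * (t * v) + (-(441 / 32500)) * (t * u) + 21 / 5000 * (t ^ 2)

/-- the certificate -/
lemma cert {t u v g g' a1 B1 a2 B2 : ℝ} (hρ : 0 ≤ 6 / 13 + t) (hr : 0 ≤ 7 / 13 - t)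
    (hu : 0 ≤ u) (hv : 0 ≤ v) (hg : 0 ≤ g) (hg' : 0 ≤ g')
    (hgd : g = (6 / 13 + t) * u - (13 / 2 * t + 21 / 13 * (u + v)) ^ 2 / 42)
    (hgd' : g' = (7 / 13 - t) * v - (13 / 2 * t - 21 / 13 * (u + v)) ^ 2 / 42)
    (ha1 : a1 = pa t u v) (hb1 : B1 = pb t u v) (ha2 : a2 = qa t u v) (hb2 : B2 = qb t u v) :
    (42 * a1 ^ 2 * (6 / 13 + t) - 2 * a1 * B1 * (13 / 2 * t + 21 / 13 * (u + v)) + B1 ^ 2 * u
      + (42 * a2 ^ 2 * (7 / 13 - t) - 2 * a2 * B2 * (13 / 2 * t - 21 / 13 * (u + v)) + B2 ^ 2 * v))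
      ≤ (61 / 50 * (1 * u + v)) ^ 2 := by
  have hQ0 : 0 ≤ 2076896357 / 127400000000 * (u + 1401400000 / 2076896357 * (t ^ 2) + (-(2038400000 / 2076896357)) * (t * u)) ^ 2 +
      638115254140025337 / 5815309799600000000 * (t ^ 2 + (-(152383742585200000 / 638115254140025337)) * (t * u)) ^ 2 +
      1664077534363617359 / 127623050828005067400 * (t * u) ^ 2 := by positivity
  have hQ1 : 0 ≤ 378669373 / 10800000000 * (v + (-(1173074220 / 34458912943)) * (t ^ 2) + 313137259506 / 63995124037 * (t * v)) ^ 2 +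
      1112875844346818007 / 78394026945325000000 * (t ^ 2 + 24537032706957074563 / 28934771953017268182 * (t * v)) ^ 2 +
      466711035428706906135634693 / 723369298825431704550000000 * (t * v) ^ 2 := by positivity
  have hQ2 : 0 ≤ 1634821438894471 / 417362400000000 * (t + (-(390893713834668 / 1634821438894471)) * (u) + (-(38970600401460 / 1634821438894471)) * (t ^ 2) + 9533562034500 / 1634821438894471 * (t * u)) ^ 2 +
      74644615071001704874293249 / 18953138869679160091400000000 * (u + 372882868046149637259194020 / 74644615071001704874293249 * (t ^ 2) + (-(400012837429877351396657724 / 323459998641007387788604079)) * (t * u)) ^ 2 +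
      50808997010479024552508229470769183 / 8708538424950198902000879050000000 * (t ^ 2 + (-(2133952486518452620455858323425237013 / 8586720494770955149373890780559991927)) * (t * u)) ^ 2 +
      871861009961868665109944349284591174381507 / 9069723522601821376526172136966491472893750000 * (t * u) ^ 2 := by positivity
  have hQ3 : 0 ≤ 483607919098391 / 178869600000000 * (t + 148025597104764 / 483607919098391 * (u) + 1426546025586885 / 6286902948279083 * (v) + (-(245051352000000 / 483607919098391)) * (t ^ 2) + (-(154688884499016 / 483607919098391)) * (t * u) + (-(99272628000000 / 483607919098391)) * (t * v)) ^ 2 +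
      929696064327784176320634911 / 2402854306832265522600000000 * (u + 6910836412352612159267483209 / 24172097672522388584336507686 * (v) + (-(1842177632871686247555600000 / 929696064327784176320634911)) * (t ^ 2) + 5064732762581291710422435084 / 12086048836261194292168253843 * (t * u) + 3052999611755538800426747928 / 12086048836261194292168253843 * (t * v)) ^ 2 +
      217121122105879844754621178295835744857 / 15931829575959506315936192215842600000000 * (v + (-(1448948859825737297965819128422323200000 / 217121122105879844754621178295835744857)) * (t ^ 2) + 762771737371959811334521576753305407928 / 217121122105879844754621178295835744857 * (t * u) + 256282073747308077149719000608593662512 / 217121122105879844754621178295835744857 * (t * v)) ^ 2 +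
      361884918665493895909353286445135621573359 / 217121122105879844754621178295835744857000 * (t ^ 2 + 19746896770796786468516736452979921544662436343 / 58806299283142758085269909047334538505670837500 * (t * u) + 1103024060987158634155858782631924256730319 / 4704503942651420646821592723786763080453667 * (t * v)) ^ 2 +
      501216958468131485085967559742193612925889415492214684767 / 1614967994063307993916724877212424763711985374843750000000 * (t * u + 88756463440752274820779839862672495828515968681792387500 / 501216958468131485085967559742193612925889415492214684767 * (t * v)) ^ 2 +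
      500864607262818401679845389259425905157337173397641785180785613 / 26470520619098194056102661748884600182648534755682588039257187500 * (t * v) ^ 2 := by positivity
  have hQ4 : 0 ≤ 7749977791 / 1400000000 * (1 + (-(1888600000 / 7749977791)) * (t)) ^ 2 +
      32117929259143 / 7749977791000 * (t) ^ 2 := by positivity
  have hQ5 : 0 ≤ 6081 / 1000 * (1 + (-(202 / 6081)) * (t)) ^ 2 +
      4479637 / 760125 * (t) ^ 2 := by positivity
  have e : (61 / 50 * (1 * u + v)) ^ 2 - (42 * a1 ^ 2 * (6 / 13 + t) - 2 * a1 * B1 * (13 / 2 * t + 21 / 13 * (u + v)) + B1 ^ 2 * u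
      + (42 * a2 ^ 2 * (7 / 13 - t) - 2 * a2 * B2 * (13 / 2 * t - 21 / 13 * (u + v)) + B2 ^ 2 * v))
      = (2076896357 / 127400000000 * (u + 1401400000 / 2076896357 * (t ^ 2) + (-(2038400000 / 2076896357)) * (t * u)) ^ 2 +
      638115254140025337 / 5815309799600000000 * (t ^ 2 + (-(152383742585200000 / 638115254140025337)) * (t * u)) ^ 2 +
      1664077534363617359 / 127623050828005067400 * (t * u) ^ 2)
      + (6 / 13 + t) * (378669373 / 10800000000 * (v + (-(1173074220 / 34458912943)) * (t ^ 2) + 313137259506 / 63995124037 * (t * v)) ^ 2 +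
      1112875844346818007 / 78394026945325000000 * (t ^ 2 + 24537032706957074563 / 28934771953017268182 * (t * v)) ^ 2 +
      466711035428706906135634693 / 723369298825431704550000000 * (t * v) ^ 2)
      + u * (1634821438894471 / 417362400000000 * (t + (-(390893713834668 / 1634821438894471)) * (u) + (-(38970600401460 / 1634821438894471)) * (t ^ 2) + 9533562034500 / 1634821438894471 * (t * u)) ^ 2 +
      74644615071001704874293249 / 18953138869679160091400000000 * (u + 372882868046149637259194020 / 74644615071001704874293249 * (t ^ 2) + (-(400012837429877351396657724 / 323459998641007387788604079)) * (t * u)) ^ 2 +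
      50808997010479024552508229470769183 / 8708538424950198902000879050000000 * (t ^ 2 + (-(2133952486518452620455858323425237013 / 8586720494770955149373890780559991927)) * (t * u)) ^ 2 +
      871861009961868665109944349284591174381507 / 9069723522601821376526172136966491472893750000 * (t * u) ^ 2)
      + v * (483607919098391 / 178869600000000 * (t + 148025597104764 / 483607919098391 * (u) + 1426546025586885 / 6286902948279083 * (v) + (-(245051352000000 / 483607919098391)) * (t ^ 2) + (-(154688884499016 / 483607919098391)) * (t * u) + (-(99272628000000 / 483607919098391)) * (t * v)) ^ 2 +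
      929696064327784176320634911 / 2402854306832265522600000000 * (u + 6910836412352612159267483209 / 24172097672522388584336507686 * (v) + (-(1842177632871686247555600000 / 929696064327784176320634911)) * (t ^ 2) + 5064732762581291710422435084 / 12086048836261194292168253843 * (t * u) + 3052999611755538800426747928 / 12086048836261194292168253843 * (t * v)) ^ 2 +
      217121122105879844754621178295835744857 / 15931829575959506315936192215842600000000 * (v + (-(1448948859825737297965819128422323200000 / 217121122105879844754621178295835744857)) * (t ^ 2) + 762771737371959811334521576753305407928 / 217121122105879844754621178295835744857 * (t * u) + 256282073747308077149719000608593662512 / 217121122105879844754621178295835744857 * (t * v)) ^ 2 +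
      361884918665493895909353286445135621573359 / 217121122105879844754621178295835744857000 * (t ^ 2 + 19746896770796786468516736452979921544662436343 / 58806299283142758085269909047334538505670837500 * (t * u) + 1103024060987158634155858782631924256730319 / 4704503942651420646821592723786763080453667 * (t * v)) ^ 2 +
      501216958468131485085967559742193612925889415492214684767 / 1614967994063307993916724877212424763711985374843750000000 * (t * u + 88756463440752274820779839862672495828515968681792387500 / 501216958468131485085967559742193612925889415492214684767 * (t * v)) ^ 2 +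
      500864607262818401679845389259425905157337173397641785180785613 / 26470520619098194056102661748884600182648534755682588039257187500 * (t * v) ^ 2)
      + (g * v) * (7749977791 / 1400000000 * (1 + (-(1888600000 / 7749977791)) * (t)) ^ 2 +
      32117929259143 / 7749977791000 * (t) ^ 2)
      + (g' * u) * (6081 / 1000 * (1 + (-(202 / 6081)) * (t)) ^ 2 +
      4479637 / 760125 * (t) ^ 2) := by
    rw [ha1, hb1, ha2, hb2, hgd, hgd']
    unfold pa pb qa qb
    ring
  have h1 := mul_nonneg hρ hQ1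
  have h2 := mul_nonneg hu hQ2
  have h3 := mul_nonneg hv hQ3
  have h4 := mul_nonneg (mul_nonneg hg hv) hQ4
  have h5 := mul_nonneg (mul_nonneg hg' hu) hQ5
  rw [← sub_nonneg, e]
  exact add_nonneg (add_nonneg (add_nonneg (add_nonneg (add_nonneg hQ0 h1) h2) h3) h4) h5

/-- the first block -/
noncomputable def uQ (ρ σ ν : ℝ) : ℝ := ν + 1 / 3 * √42 * σ + 7 / 6 * ρ

/-- the second block -/
noncomputable def vQ (ρ σ ν : ℝ) : ℝ := 1 - ν + 2 / 7 * √42 * σ + 6 / 7 * (1 - ρ)

/-- the integrand, for a coordinate -/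
noncomputable def Ps (k : Prop) [Decidable k] (ρ σ ν x n : ℝ) : ℝ :=
  if k then -(√42 * qa (ρ - 6 / 13) (uQ ρ σ ν) (vQ ρ σ ν)) * x
      + qb (ρ - 6 / 13) (uQ ρ σ ν) (vQ ρ σ ν) * (n - √42 / 7 * x)
    else -(√42 * pa (ρ - 6 / 13) (uQ ρ σ ν) (vQ ρ σ ν)) * x
      + pb (ρ - 6 / 13) (uQ ρ σ ν) (vQ ρ σ ν) * (n + √42 / 6 * x)

lemma Ps_in {k : Prop} [Decidable k] (hk : k) (ρ σ ν x n : ℝ) : Ps k ρ σ ν x n
    = n + (13209947 / 38220000 * √42) * x + ((-(570281 / 15288000)) * √42) * (15 * (ρ * x) + 2 * (σ * n))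
      + ((-(543247 / 1470000)) * √42) * (ν * x - σ * n) + 1107 / 10000 * (14 * (ρ * n - σ * x) - 7 * n)
      + (21 / 10000 * √42) * (4 * (ρ * (0 * x)) - 17 * (ρ ^ 2 * x) - 4 * (ρ * σ * n)) := by
  unfold Ps qa qb uQ vQ
  rw [if_pos hk]
  linear_combination ((-(369 / 10000)) * σ * x) * sqK

lemma Ps_out {k : Prop} [Decidable k] (hk : ¬k) (ρ σ ν x n : ℝ) : Ps k ρ σ ν x n
    = n + (15643 / 29250 * √42) * x + ((-(10499 / 292500)) * √42) * (15 * (ρ * x) + 2 * (σ * n))
      + ((-(841 / 2250)) * √42) * (ν * x - σ * n) + (-(19 / 250)) * (14 * (ρ * n - σ * x) - 6 * n)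
      + (9 / 5000 * √42) * (4 * (ρ * (1 * x)) - 17 * (ρ ^ 2 * x) - 4 * (ρ * σ * n)) := by
  unfold Ps pa pb uQ vQ
  rw [if_neg hk]
  linear_combination (19 / 750 * σ * x) * sqK

/-- the pointwise inequality -/
lemma pointwise' (S : Finset (Fin 15)) (x N u : Fin 15 → ℝ) (hx : ∑ i, x i ^ 2 = 1)
    (hN : ∑ i, N i ^ 2 = 1) (hu : ∑ i, u i ^ 2 = 1) (hxN : ∑ i, x i * N i = 0) :
    ∑ k, Ps (k ∈ S) (∑ i ∈ Finset.univ \ S, x i ^ 2) (∑ i ∈ Finset.univ \ S, x i * N i)
        (∑ i ∈ Finset.univ \ S, N i ^ 2) (x k) (N k) * u k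
      ≤ 61 / 50 * ∑ i, (if i ∈ S then 1 else 1)
        * (N i - (if i ∈ S then √42 / 7 else -(√42 / 6)) * x i) ^ 2 := by
  obtain ⟨ρ, hρ⟩ : ∃ ρ, ρ = ∑ i ∈ Finset.univ \ S, x i ^ 2 := ⟨_, rfl⟩
  obtain ⟨ν, hν⟩ : ∃ ν, ν = ∑ i ∈ Finset.univ \ S, N i ^ 2 := ⟨_, rfl⟩
  obtain ⟨σ, hσ⟩ : ∃ σ, σ = ∑ i ∈ Finset.univ \ S, x i * N i := ⟨_, rfl⟩
  rw [← hρ, ← hν, ← hσ]
  have spl : ∀ f : Fin 15 → ℝ, ∑ i, f i = ∑ i ∈ S, f i + ∑ i ∈ Finset.univ \ S, f i := fun f => by
    rw [add_comm, Finset.sum_sdiff (Finset.subset_univ S)]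
  have hρ2 : ∑ i ∈ S, x i ^ 2 = 1 - ρ := by
    have := spl fun i => x i ^ 2
    rw [hx, ← hρ] at this
    linarith
  have hν2 : ∑ i ∈ S, N i ^ 2 = 1 - ν := by
    have := spl fun i => N i ^ 2
    rw [hN, ← hν] at this
    linarith
  have hσ2 : ∑ i ∈ S, x i * N i = -σ := by
    have := spl fun i => x i * N i
    rw [hxN, ← hσ] at this
    linarith
  have q6 := sqK
  have hA : ∑ i ∈ Finset.univ \ S, (N i + √42 / 6 * x i) ^ 2 = uQ ρ σ ν := by
    have : ∑ i ∈ Finset.univ \ S, (N i + √42 / 6 * x i) ^ 2 = ∑ i ∈ Finset.univ \ S,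
        (N i ^ 2 + (1 / 3 * √42) * (x i * N i) + 7 / 6 * x i ^ 2) :=
      Finset.sum_congr rfl fun i _ => by linear_combination (x i ^ 2 / 36) * q6
    rw [this, Finset.sum_add_distrib, Finset.sum_add_distrib, ← Finset.mul_sum,
      ← Finset.mul_sum, ← hρ, ← hν, ← hσ]
    rfl
  have hB : ∑ i ∈ S, (N i - √42 / 7 * x i) ^ 2 = vQ ρ σ ν := by
    have : ∑ i ∈ S, (N i - √42 / 7 * x i) ^ 2 = ∑ i ∈ S,
        (N i ^ 2 + (-(2 / 7 * √42)) * (x i * N i) + 6 / 7 * x i ^ 2) :=
      Finset.sum_congr rfl fun i _ => by linear_combination (x i ^ 2 / 49) * q6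
    rw [this, Finset.sum_add_distrib, Finset.sum_add_distrib, ← Finset.mul_sum,
      ← Finset.mul_sum, hρ2, hν2, hσ2]
    unfold vQ
    ring
  obtain ⟨U, hU⟩ : ∃ U, U = uQ ρ σ ν := ⟨_, rfl⟩
  obtain ⟨V, hV⟩ : ∃ V, V = vQ ρ σ ν := ⟨_, rfl⟩
  obtain ⟨t, ht⟩ : ∃ t, t = ρ - 6 / 13 := ⟨_, rfl⟩
  obtain ⟨a, ha⟩ : ∃ a, a = pa t U V := ⟨_, rfl⟩
  obtain ⟨α, hα⟩ : ∃ α, α = pb t U V := ⟨_, rfl⟩
  obtain ⟨b, hb⟩ : ∃ b, b = qa t U V := ⟨_, rfl⟩
  obtain ⟨β, hβ⟩ : ∃ β, β = qb t U V := ⟨_, rfl⟩
  obtain ⟨y, hy⟩ : ∃ y, y = 13 / 2 * t + 21 / 13 * (U + V) := ⟨_, rfl⟩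
  obtain ⟨z, hz⟩ : ∃ z, z = 13 / 2 * t - 21 / 13 * (U + V) := ⟨_, rfl⟩
  obtain ⟨g, hg⟩ : ∃ g, g = (6 / 13 + t) * U - (13 / 2 * t + 21 / 13 * (U + V)) ^ 2 / 42 := ⟨_, rfl⟩
  obtain ⟨g', hg'⟩ : ∃ g', g' = (7 / 13 - t) * V - (13 / 2 * t - 21 / 13 * (U + V)) ^ 2 / 42 := ⟨_, rfl⟩
  have hU0 : 0 ≤ U := by
    rw [hU, ← hA]
    exact Finset.sum_nonneg fun i _ => sq_nonneg _
  have hV0 : 0 ≤ V := by
    rw [hV, ← hB]
    exact Finset.sum_nonneg fun i _ => sq_nonneg _
  have hρ0 : 0 ≤ ρ := by
    rw [hρ]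
    exact Finset.sum_nonneg fun i _ => sq_nonneg _
  have hρ1 : 0 ≤ 1 - ρ := by
    rw [← hρ2]
    exact Finset.sum_nonneg fun i _ => sq_nonneg _
  have hp1 : √42 * (σ + √42 / 6 * ρ) = y := by
    rw [hy, hU, hV, ht]
    unfold uQ vQ
    linear_combination (ρ / 6) * q6
  have hp1' : ∑ i ∈ Finset.univ \ S, x i * (N i + √42 / 6 * x i) = σ + √42 / 6 * ρ := by
    rw [hσ, hρ, Finset.mul_sum, ← Finset.sum_add_distrib]
    exact Finset.sum_congr rfl fun i _ => by ring
  have hp2' : ∑ i ∈ S, x i * (N i - √42 / 7 * x i) = -σ - √42 / 7 * (1 - ρ) := by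
    rw [← hσ2, ← hρ2, Finset.mul_sum, ← Finset.sum_sub_distrib]
    exact Finset.sum_congr rfl fun i _ => by ring
  have hp2 : √42 * (-σ - √42 / 7 * (1 - ρ)) = z := by
    rw [hz, hU, hV, ht]
    unfold uQ vQ
    linear_combination (-(1 - ρ) / 7) * q6
  have hcs := Finset.sum_mul_sq_le_sq_mul_sq (Finset.univ \ S) x fun i => N i + √42 / 6 * x i
  rw [hp1', ← hρ, hA, ← hU] at hcs
  have hcs' := Finset.sum_mul_sq_le_sq_mul_sq S x fun i => N i - √42 / 7 * x i
  rw [hp2', hρ2, hB, ← hV] at hcs'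
  have hg0 : 0 ≤ g := by
    have e : y ^ 2 = 42 * (σ + √42 / 6 * ρ) ^ 2 := by
      rw [← hp1]
      linear_combination ((σ + √42 / 6 * ρ) ^ 2) * q6
    rw [hg, ← hy, e, ht]
    linarith
  have hg0' : 0 ≤ g' := by
    have e : z ^ 2 = 42 * (-σ - √42 / 7 * (1 - ρ)) ^ 2 := by
      rw [← hp2]
      linear_combination ((-σ - √42 / 7 * (1 - ρ)) ^ 2) * q6
    rw [hg', ← hz, e, ht]
    linarith
  have hρt : 0 ≤ 6 / 13 + t := by rw [ht]; linarith
  have hρt' : 0 ≤ 7 / 13 - t := by rw [ht]; linarith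
  have key := cert hρt hρt' hU0 hV0 hg0 hg0' hg hg' ha hα hb hβ
  rw [← hy, ← hz] at key
  have hPs : ∀ k, Ps (k ∈ S) ρ σ ν (x k) (N k)
      = if k ∈ S then -(√42 * b) * x k + β * (N k - √42 / 7 * x k)
        else -(√42 * a) * x k + α * (N k + √42 / 6 * x k) := by
    intro k
    unfold Ps
    rw [← hU, ← hV, ← ht, ← ha, ← hβ, ← hα, ← hb]
  have nS : ∑ k ∈ S, (-(√42 * b) * x k + β * (N k - √42 / 7 * x k)) ^ 2
      = 42 * b ^ 2 * (7 / 13 - t) - 2 * b * β * z + β ^ 2 * V := by
    have : ∑ k ∈ S, (-(√42 * b) * x k + β * (N k - √42 / 7 * x k)) ^ 2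
        = ∑ k ∈ S, (42 * b ^ 2 * x k ^ 2 + (-2 * √42 * b * β) * (x k * (N k - √42 / 7 * x k))
          + β ^ 2 * (N k - √42 / 7 * x k) ^ 2) :=
      Finset.sum_congr rfl fun i _ => by linear_combination (b ^ 2 * x i ^ 2) * q6
    rw [this, Finset.sum_add_distrib, Finset.sum_add_distrib, ← Finset.mul_sum,
      ← Finset.mul_sum, ← Finset.mul_sum, hρ2, hB, ← hV, hp2', ht]
    linear_combination (-2 * b * β) * hp2
  have nA : ∑ k ∈ Finset.univ \ S, (-(√42 * a) * x k + α * (N k + √42 / 6 * x k)) ^ 2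
      = 42 * a ^ 2 * (6 / 13 + t) - 2 * a * α * y + α ^ 2 * U := by
    have : ∑ k ∈ Finset.univ \ S, (-(√42 * a) * x k + α * (N k + √42 / 6 * x k)) ^ 2
        = ∑ k ∈ Finset.univ \ S, (42 * a ^ 2 * x k ^ 2
          + (-2 * √42 * a * α) * (x k * (N k + √42 / 6 * x k))
          + α ^ 2 * (N k + √42 / 6 * x k) ^ 2) :=
      Finset.sum_congr rfl fun i _ => by linear_combination (a ^ 2 * x i ^ 2) * q6
    rw [this, Finset.sum_add_distrib, Finset.sum_add_distrib, ← Finset.mul_sum,
      ← Finset.mul_sum, ← Finset.mul_sum, ← hρ, hA, ← hU, hp1', ht]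
    linear_combination (-2 * a * α) * hp1
  have hn2 : ∑ k, Ps (k ∈ S) ρ σ ν (x k) (N k) ^ 2 ≤ (61 / 50 * (1 * U + V)) ^ 2 := by
    refine le_trans (le_of_eq ?_) key
    rw [spl, ← nS, ← nA, add_comm]
    congr 1
    · refine Finset.sum_congr rfl fun i hi => ?_
      rw [hPs, if_neg (Finset.mem_sdiff.1 hi).2]
    · refine Finset.sum_congr rfl fun i hi => ?_
      rw [hPs, if_pos hi]
  have hfin : ∑ i, (if i ∈ S then (1 : ℝ) else 1)
      * (N i - (if i ∈ S then √42 / 7 else -(√42 / 6)) * x i) ^ 2 = 1 * U + V := by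
    rw [spl, hU, hV, ← hA, ← hB, Finset.mul_sum, add_comm]
    congr 1
    · refine Finset.sum_congr rfl fun i hi => ?_
      have := (Finset.mem_sdiff.1 hi).2
      rw [if_neg this, if_neg this]
      ring
    · refine Finset.sum_congr rfl fun i hi => ?_
      rw [if_pos hi, if_pos hi, one_mul]
  rw [hfin]
  have hcs2 := Finset.sum_mul_sq_le_sq_mul_sq Finset.univ
    (fun k => Ps (k ∈ S) ρ σ ν (x k) (N k)) u
  rw [hu, mul_one] at hcs2
  exact (abs_le_of_sq_le_sq' (hcs2.trans hn2) (by positivity)).2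

section

variable {X : Type*} [MeasurableSpace X] {E : Type*} [NormedAddCommGroup E]
  [InnerProductSpace ℝ E] [FiniteDimensional ℝ E] [MeasurableSpace E] [BorelSpace E]
  {μ : Measure X} [IsFiniteMeasure μ] {p n : X → E}

/-- the integrand differs from the normal by a null function -/
lemma coord' (h : TwoG μ 13 p n) (hp : UF p) (hn : UF n) [Nonempty X]
    (hsp : ∀ w, (∀ x, ⟪p x, w⟫ = 0) → w = 0) (b : OrthonormalBasis (Fin 15) ℝ E)
    (S : Finset (Fin 15)) (hS : S.card = 8) (k : Fin 15) :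
    Nul μ (fun x => Ps (k ∈ S) (bρ p b (Finset.univ \ S) x) (bσ p n b (Finset.univ \ S) x)
      (bρ n b (Finset.univ \ S) x) ⟪p x, b k⟫ ⟪n x, b k⟫ - ⟪n x, b k⟫) := by
  have hc : (Finset.univ \ S).card = 7 := by
    rw [Finset.card_sdiff_of_subset (Finset.subset_univ S), hS]
    simp
  have n0 := nul0 h (by norm_num) hp (b k) (μ := μ)
  have n1 := blk1 h (by norm_num) hp hn hsp b (Finset.univ \ S) (b k)
  have n2 := blk2 h (by norm_num) hp hn hsp b (Finset.univ \ S) (b k)
  have n3 := blk3 h hp hn hsp b (Finset.univ \ S) k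
  have n4 := blk4 h hp hn hsp b (Finset.univ \ S) k
  by_cases hk : k ∈ S
  · have hk' : k ∉ Finset.univ \ S := fun hh => (Finset.mem_sdiff.1 hh).2 hk
    refine (((((n0.cmul (13209947 / 38220000 * √42)).add (n1.cmul ((-(570281 / 15288000)) * √42))).add
      (n2.cmul ((-(543247 / 1470000)) * √42))).add (n3.cmul (1107 / 10000))).add
      (n4.cmul (21 / 10000 * √42))).congr fun x => ?_
    rw [Ps_in hk, hc, if_neg hk']
    push_cast
    ring
  · have hk' : k ∈ Finset.univ \ S := Finset.mem_sdiff.2 ⟨Finset.mem_univ k, hk⟩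
    refine (((((n0.cmul (15643 / 29250 * √42)).add (n1.cmul ((-(10499 / 292500)) * √42))).add
      (n2.cmul ((-(841 / 2250)) * √42))).add (n3.cmul ((-(19 / 250))))).add
      (n4.cmul (9 / 5000 * √42))).congr fun x => ?_
    rw [Ps_out hk, hc, if_pos hk']
    push_cast
    ring

/-- the one point identity -/
theorem one (h : TwoG μ 13 p n) [Nonempty X]
    (hsp : ∀ w, (∀ x, ⟪p x, w⟫ = 0) → w = 0) (b : OrthonormalBasis (Fin 15) ℝ E)
    (S : Finset (Fin 15)) (hS : S.card = 8) :
    ‖∫ x, n x ∂μ‖ ≤ 61 / 50 * ∫ x, ∑ i, (if i ∈ S then 1 else 1)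
      * (⟪n x, b i⟫ - (if i ∈ S then √42 / 7 else -(√42 / 6)) * ⟪p x, b i⟫) ^ 2 ∂μ :=
  one_abs h b (Cc := 61 / 50) (by norm_num) (fun i => if i ∈ S then (1 : ℝ) else 1)
    (fun i => by split_ifs <;> norm_num) (fun i => if i ∈ S then √42 / 7 else -(√42 / 6))
    (fun k x => Ps (k ∈ S) (bρ p b (Finset.univ \ S) x) (bσ p n b (Finset.univ \ S) x)
      (bρ n b (Finset.univ \ S) x) ⟪p x, b k⟫ ⟪n x, b k⟫)
    (fun k => coord' h ⟨h.mp, h.np⟩ ⟨h.mn, h.nn⟩ hsp b S hS k)
    (fun x u hx hN hu hxN => pointwise' S (fun i => ⟪p x, b i⟫) (fun i => ⟪n x, b i⟫) u hx hN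
      hu hxN)

/-- the one point identity with the norm -/
theorem one_norm (h : TwoG μ 13 p n) [Nonempty X]
    (hsp : ∀ w, (∀ x, ⟪p x, w⟫ = 0) → w = 0) {α : ℝ} (hα : 0 < α) (hα2 : α ^ 2 = 6 / 7)
    (b : OrthonormalBasis (Fin 15) ℝ E) (S : Finset (Fin 15)) (hS : S.card = 8) :
    ‖∫ x, n x ∂μ‖ ≤ 61 / 50 * ∫ x, ‖n x - ∑ i, ((if i ∈ S then α else -(1 / α))
      * ⟪p x, b i⟫) • b i‖ ^ 2 ∂μ := by
  have h1 : α = √42 / 7 := by
    have h2 : (√42 / 7 : ℝ) ^ 2 = α ^ 2 := by
      rw [hα2, div_pow, sqK]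
      norm_num
    exact ((sq_eq_sq₀ (by positivity) hα.le).1 h2).symm
  have h3 : 1 / α = √42 / 6 := by
    rw [h1, one_div_div, div_eq_div_iff (by positivity) (by norm_num)]
    linear_combination -sqK
  have h4 := one h hsp b S hS
  rw [h1] at *
  rw [h3]
  refine h4.trans (le_of_eq ?_)
  congr 1
  refine integral_congr_ae (Eventually.of_forall fun x => ?_)
  simp only
  rw [norm_dev]
  exact Finset.sum_congr rfl fun i _ => by rw [ite_self, one_mul]

end

end Vale.Agent.P224.SO.One13
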