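import Vale.Agent.P224.SO.OneA

/-!
The one point identity in dimension 15, blocks 8 and 9: the mean normal is at most 6/5
times the mean square distance of the normal to a Clifford point, with the weight 1 on the
block of dimension 8.
-/

namespace Vale.Agent.P224.SO.One15

open MeasureTheory Set Filter Function Module Vale.Agent.P224.UE Vale.Agent.P224.SO
open scoped Topology RealInnerProductSpace ContDiff

set_option linter.unusedSectionVars false
set_option linter.unusedVariables false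

lemma sqK : √56 ^ 2 = (56 : ℝ) := Real.sq_sqrt (by norm_num)

/-- the coefficients in the block of dimension 8 -/
noncomputable def pa (t u v : ℝ) : ℝ := (-(846 / 6125)) * (v) + 156 / 875 * (u) + (-(11 / 9375)) * (t * v) + (-(11 / 9375)) * (t * u) + 297 / 14000 * (t ^ 2)

/-- the coefficients in the block of dimension 8 -/
noncomputable def pb (t u v : ℝ) : ℝ := 302 / 625 * (v) + 302 / 625 * (u) + (-(332063 / 262500)) * (t) + (-(77 / 9375)) * (t * v) + (-(77 / 9375)) * (t * u) + 11 / 5000 * (t ^ 2)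

/-- the coefficients in the block of dimension 9 -/
noncomputable def qa (t u v : ℝ) : ℝ := (-(1527 / 8750)) * (v) + 139 / 1000 * (u) + 7 / 6250 * (t * v) + 7 / 6250 * (t * u) + 9 / 400 * (t ^ 2)

/-- the coefficients in the block of dimension 9 -/
noncomputable def qb (t u v : ℝ) : ℝ := 4444 / 9375 * (v) + 4444 / 9375 * (u) + 63409 / 43750 * (t) + (-(28 / 3125)) * (t * v) + (-(28 / 3125)) * (t * u) + 3 / 1250 * (t ^ 2)

/-- the certificate -/
lemma cert {t u v g g' a1 B1 a2 B2 : ℝ} (hρ : 0 ≤ 7 / 15 + t) (hr : 0 ≤ 8 / 15 - t)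
    (hu : 0 ≤ u) (hv : 0 ≤ v) (hg : 0 ≤ g) (hg' : 0 ≤ g')
    (hgd : g = (7 / 15 + t) * u - (15 / 2 * t + 28 / 15 * (u + v)) ^ 2 / 56)
    (hgd' : g' = (8 / 15 - t) * v - (15 / 2 * t - 28 / 15 * (u + v)) ^ 2 / 56)
    (ha1 : a1 = pa t u v) (hb1 : B1 = pb t u v) (ha2 : a2 = qa t u v) (hb2 : B2 = qb t u v) :
    (56 * a1 ^ 2 * (7 / 15 + t) - 2 * a1 * B1 * (15 / 2 * t + 28 / 15 * (u + v)) + B1 ^ 2 * u
      + (56 * a2 ^ 2 * (8 / 15 - t) - 2 * a2 * B2 * (15 / 2 * t - 28 / 15 * (u + v)) + B2 ^ 2 * v))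
      ≤ (6 / 5 * (1 * u + v)) ^ 2 := by
  have hQ0 : 0 ≤ 1513 / 46875 * (u + (-(2625 / 12104)) * (t ^ 2) + (-(4875 / 12104)) * (t * u)) ^ 2 +
      8309374617 / 148274000000 * (t ^ 2 + (-(1455949250 / 8309374617)) * (t * u)) ^ 2 +
      268798956671 / 66474996936000 * (t * u) ^ 2 := by positivity
  have hQ1 : 0 ≤ 9140652 / 133984375 * (v + 427572607 / 4680013824 * (t ^ 2) + 32845282169 / 329063472000 * (t * v)) ^ 2 +
      26785043725988399 / 6552019353600000000 * (t ^ 2 + 30132311281000643728 / 30133174191736948875 * (t * v)) ^ 2 +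
      20957629773655164540863 / 329581592722122878320312500 * (t * v) ^ 2 := by positivity
  have hQ2 : 0 ≤ 2569523206123 / 551250000000 * (t + (-(21312812640 / 88604248487)) * (u) + 91319850825 / 5139046412246 * (t ^ 2) + (-(56709758784 / 12847616030615)) * (t * u)) ^ 2 +
      17572880597140297 / 3114993110871093750 * (u + 30675389769911475 / 35145761194280594 * (t ^ 2) + (-(196330756999170661 / 878644029857014850)) * (t * u)) ^ 2 +
      2292206037151420269925153 / 713458952243896058200000000 * (t ^ 2 + (-(39130148804235203288229712 / 171915452786356520244386475)) * (t * u)) ^ 2 +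
      16348931961137902754682794481049 / 604390263702034641484171201171875000 * (t * u) ^ 2 := by positivity
  have hQ3 : 0 ≤ 3097842492691 / 2572500000000 * (t + 1719134586512 / 3097842492691 * (u) + 169370548201736 / 697014560855475 * (v) + 357315023072 / 46467637390365 * (t * u) + 12862500000 / 3097842492691 * (t * v)) ^ 2 +
      511781422146548943904 / 1905899189839189453125 * (u + 36585332258670322162763 / 153534426643964683171200 * (v) + 74025030535354870139 / 5117814221465489439040 * (t * u) + 7817794687622814727 / 10235628442930978878080 * (t * v)) ^ 2 +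
      199965786163433961604636722370487 / 85013691315554663435615625000000000 * (v + 70085160541621268565961014233490 / 199965786163433961604636722370487 * (t * u) + 32458246639668776514852327901005 / 199965786163433961604636722370487 * (t * v)) ^ 2 +
      455543687750369924373311809835967819011 / 351502358490411260633150488541871679687500 * (t * u + 69106128540787659099983589641090925625 / 130155339357248549820946231381705091146 * (t * v)) ^ 2 +
      25906083556554219434587639364999790603730267 / 196104584969068685556113183443417269025781250000 * (t * v) ^ 2 := by positivity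
  have hQ4 : 0 ≤ 15610498 / 3828125 * (1 + 30625 / 31220996 * (t)) ^ 2 +
      1438020470967 / 152446269531250 * (t) ^ 2 := by positivity
  have hQ5 : 0 ≤ 3481 / 500 * (1 + 35 / 6962 * (t)) ^ 2 +
      61433 / 6962000 * (t) ^ 2 := by positivity
  have e : (6 / 5 * (1 * u + v)) ^ 2 - (56 * a1 ^ 2 * (7 / 15 + t) - 2 * a1 * B1 * (15 / 2 * t + 28 / 15 * (u + v)) + B1 ^ 2 * u
      + (56 * a2 ^ 2 * (8 / 15 - t) - 2 * a2 * B2 * (15 / 2 * t - 28 / 15 * (u + v)) + B2 ^ 2 * v))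
      = (1513 / 46875 * (u + (-(2625 / 12104)) * (t ^ 2) + (-(4875 / 12104)) * (t * u)) ^ 2 +
      8309374617 / 148274000000 * (t ^ 2 + (-(1455949250 / 8309374617)) * (t * u)) ^ 2 +
      268798956671 / 66474996936000 * (t * u) ^ 2)
      + (7 / 15 + t) * (9140652 / 133984375 * (v + 427572607 / 4680013824 * (t ^ 2) + 32845282169 / 329063472000 * (t * v)) ^ 2 +
      26785043725988399 / 6552019353600000000 * (t ^ 2 + 30132311281000643728 / 30133174191736948875 * (t * v)) ^ 2 +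
      20957629773655164540863 / 329581592722122878320312500 * (t * v) ^ 2)
      + u * (2569523206123 / 551250000000 * (t + (-(21312812640 / 88604248487)) * (u) + 91319850825 / 5139046412246 * (t ^ 2) + (-(56709758784 / 12847616030615)) * (t * u)) ^ 2 +
      17572880597140297 / 3114993110871093750 * (u + 30675389769911475 / 35145761194280594 * (t ^ 2) + (-(196330756999170661 / 878644029857014850)) * (t * u)) ^ 2 +
      2292206037151420269925153 / 713458952243896058200000000 * (t ^ 2 + (-(39130148804235203288229712 / 171915452786356520244386475)) * (t * u)) ^ 2 +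
      16348931961137902754682794481049 / 604390263702034641484171201171875000 * (t * u) ^ 2)
      + v * (3097842492691 / 2572500000000 * (t + 1719134586512 / 3097842492691 * (u) + 169370548201736 / 697014560855475 * (v) + 357315023072 / 46467637390365 * (t * u) + 12862500000 / 3097842492691 * (t * v)) ^ 2 +
      511781422146548943904 / 1905899189839189453125 * (u + 36585332258670322162763 / 153534426643964683171200 * (v) + 74025030535354870139 / 5117814221465489439040 * (t * u) + 7817794687622814727 / 10235628442930978878080 * (t * v)) ^ 2 +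
      199965786163433961604636722370487 / 85013691315554663435615625000000000 * (v + 70085160541621268565961014233490 / 199965786163433961604636722370487 * (t * u) + 32458246639668776514852327901005 / 199965786163433961604636722370487 * (t * v)) ^ 2 +
      455543687750369924373311809835967819011 / 351502358490411260633150488541871679687500 * (t * u + 69106128540787659099983589641090925625 / 130155339357248549820946231381705091146 * (t * v)) ^ 2 +
      25906083556554219434587639364999790603730267 / 196104584969068685556113183443417269025781250000 * (t * v) ^ 2)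
      + (g * v) * (15610498 / 3828125 * (1 + 30625 / 31220996 * (t)) ^ 2 +
      1438020470967 / 152446269531250 * (t) ^ 2)
      + (g' * u) * (3481 / 500 * (1 + 35 / 6962 * (t)) ^ 2 +
      61433 / 6962000 * (t) ^ 2) := by
    rw [ha1, hb1, ha2, hb2, hgd, hgd']
    unfold pa pb qa qb
    ring
  have h1 := mul_nonneg hρ hQ1
  have h2 := mul_nonneg hu hQ2
  have h3 := mul_nonneg hv hQ3
  have h4 := mul_nonneg (mul_nonneg hg hv) hQ4
  have h5 := mul_nonneg (mul_nonneg hg' hu) hQ5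
  rw [← sub_nonneg, e]
  exact add_nonneg (add_nonneg (add_nonneg (add_nonneg (add_nonneg hQ0 h1) h2) h3) h4) h5

/-- the first block -/
noncomputable def uQ (ρ σ ν : ℝ) : ℝ := ν + 2 / 7 * √56 * σ + 8 / 7 * ρ

/-- the second block -/
noncomputable def vQ (ρ σ ν : ℝ) : ℝ := 1 - ν + 1 / 4 * √56 * σ + 7 / 8 * (1 - ρ)

/-- the integrand, for a coordinate -/
noncomputable def Ps (k : Prop) [Decidable k] (ρ σ ν x n : ℝ) : ℝ :=
  if k then -(√56 * qa (ρ - 7 / 15) (uQ ρ σ ν) (vQ ρ σ ν)) * x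
      + qb (ρ - 7 / 15) (uQ ρ σ ν) (vQ ρ σ ν) * (n - √56 / 8 * x)
    else -(√56 * pa (ρ - 7 / 15) (uQ ρ σ ν) (vQ ρ σ ν)) * x
      + pb (ρ - 7 / 15) (uQ ρ σ ν) (vQ ρ σ ν) * (n + √56 / 7 * x)

lemma Ps_in {k : Prop} [Decidable k] (hk : k) (ρ σ ν x n : ℝ) : Ps k ρ σ ν x n
    = n + (103493 / 350000 * √56) * x + ((-(10033 / 350000)) * √56) * (17 * (ρ * x) + 2 * (σ * n))
      + ((-(10973 / 35000)) * √56) * (ν * x - σ * n) + 487 / 5000 * (16 * (ρ * n - σ * x) - 8 * n)
      + (3 / 2500 * √56) * (4 * (ρ * (0 * x)) - 19 * (ρ ^ 2 * x) - 4 * (ρ * σ * n)) := by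
  unfold Ps qa qb uQ vQ
  rw [if_pos hk]
  linear_combination ((-(487 / 17500)) * σ * x) * sqK

lemma Ps_out {k : Prop} [Decidable k] (hk : ¬k) (ρ σ ν x n : ℝ) : Ps k ρ σ ν x n
    = n + (3441197 / 7350000 * √56) * x + ((-(101977 / 3675000)) * √56) * (17 * (ρ * x) + 2 * (σ * n))
      + ((-(1938 / 6125)) * √56) * (ν * x - σ * n) + (-(9 / 125)) * (16 * (ρ * n - σ * x) - 7 * n)
      + (11 / 10000 * √56) * (4 * (ρ * (1 * x)) - 19 * (ρ ^ 2 * x) - 4 * (ρ * σ * n)) := by
  unfold Ps pa pb uQ vQ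
  rw [if_neg hk]
  linear_combination (18 / 875 * σ * x) * sqK

/-- the pointwise inequality -/
lemma pointwise' (S : Finset (Fin 17)) (x N u : Fin 17 → ℝ) (hx : ∑ i, x i ^ 2 = 1)
    (hN : ∑ i, N i ^ 2 = 1) (hu : ∑ i, u i ^ 2 = 1) (hxN : ∑ i, x i * N i = 0) :
    ∑ k, Ps (k ∈ S) (∑ i ∈ Finset.univ \ S, x i ^ 2) (∑ i ∈ Finset.univ \ S, x i * N i)
        (∑ i ∈ Finset.univ \ S, N i ^ 2) (x k) (N k) * u k
      ≤ 6 / 5 * ∑ i, (if i ∈ S then 1 else 1)
        * (N i - (if i ∈ S then √56 / 8 else -(√56 / 7)) * x i) ^ 2 := by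
  obtain ⟨ρ, hρ⟩ : ∃ ρ, ρ = ∑ i ∈ Finset.univ \ S, x i ^ 2 := ⟨_, rfl⟩
  obtain ⟨ν, hν⟩ : ∃ ν, ν = ∑ i ∈ Finset.univ \ S, N i ^ 2 := ⟨_, rfl⟩
  obtain ⟨σ, hσ⟩ : ∃ σ, σ = ∑ i ∈ Finset.univ \ S, x i * N i := ⟨_, rfl⟩
  rw [← hρ, ← hν, ← hσ]
  have spl : ∀ f : Fin 17 → ℝ, ∑ i, f i = ∑ i ∈ S, f i + ∑ i ∈ Finset.univ \ S, f i := fun f => by
    rw [add_comm, Finset.sum_sdiff (Finset.subset_univ S)]
  have hρ2 : ∑ i ∈ S, x i ^ 2 = 1 - ρ := by
    have := spl fun i => x i ^ 2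
    rw [hx, ← hρ] at this
    linarith
  have hν2 : ∑ i ∈ S, N i ^ 2 = 1 - ν := by
    have := spl fun i => N i ^ 2
    rw [hN, ← hν] at this
    linarith
  have hσ2 : ∑ i ∈ S, x i * N i = -σ := by
    have := spl fun i => x i * N i
    rw [hxN, ← hσ] at this
    linarith
  have q6 := sqK
  have hA : ∑ i ∈ Finset.univ \ S, (N i + √56 / 7 * x i) ^ 2 = uQ ρ σ ν := by
    have : ∑ i ∈ Finset.univ \ S, (N i + √56 / 7 * x i) ^ 2 = ∑ i ∈ Finset.univ \ S,
        (N i ^ 2 + (2 / 7 * √56) * (x i * N i) + 8 / 7 * x i ^ 2) :=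
      Finset.sum_congr rfl fun i _ => by linear_combination (x i ^ 2 / 49) * q6
    rw [this, Finset.sum_add_distrib, Finset.sum_add_distrib, ← Finset.mul_sum,
      ← Finset.mul_sum, ← hρ, ← hν, ← hσ]
    rfl
  have hB : ∑ i ∈ S, (N i - √56 / 8 * x i) ^ 2 = vQ ρ σ ν := by
    have : ∑ i ∈ S, (N i - √56 / 8 * x i) ^ 2 = ∑ i ∈ S,
        (N i ^ 2 + (-(1 / 4 * √56)) * (x i * N i) + 7 / 8 * x i ^ 2) :=
      Finset.sum_congr rfl fun i _ => by linear_combination (x i ^ 2 / 64) * q6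
    rw [this, Finset.sum_add_distrib, Finset.sum_add_distrib, ← Finset.mul_sum,
      ← Finset.mul_sum, hρ2, hν2, hσ2]
    unfold vQ
    ring
  obtain ⟨U, hU⟩ : ∃ U, U = uQ ρ σ ν := ⟨_, rfl⟩
  obtain ⟨V, hV⟩ : ∃ V, V = vQ ρ σ ν := ⟨_, rfl⟩
  obtain ⟨t, ht⟩ : ∃ t, t = ρ - 7 / 15 := ⟨_, rfl⟩
  obtain ⟨a, ha⟩ : ∃ a, a = pa t U V := ⟨_, rfl⟩
  obtain ⟨α, hα⟩ : ∃ α, α = pb t U V := ⟨_, rfl⟩
  obtain ⟨b, hb⟩ : ∃ b, b = qa t U V := ⟨_, rfl⟩
  obtain ⟨β, hβ⟩ : ∃ β, β = qb t U V := ⟨_, rfl⟩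
  obtain ⟨y, hy⟩ : ∃ y, y = 15 / 2 * t + 28 / 15 * (U + V) := ⟨_, rfl⟩
  obtain ⟨z, hz⟩ : ∃ z, z = 15 / 2 * t - 28 / 15 * (U + V) := ⟨_, rfl⟩
  obtain ⟨g, hg⟩ : ∃ g, g = (7 / 15 + t) * U - (15 / 2 * t + 28 / 15 * (U + V)) ^ 2 / 56 := ⟨_, rfl⟩
  obtain ⟨g', hg'⟩ : ∃ g', g' = (8 / 15 - t) * V - (15 / 2 * t - 28 / 15 * (U + V)) ^ 2 / 56 := ⟨_, rfl⟩
  have hU0 : 0 ≤ U := by
    rw [hU, ← hA]
    exact Finset.sum_nonneg fun i _ => sq_nonneg _
  have hV0 : 0 ≤ V := by
    rw [hV, ← hB]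
    exact Finset.sum_nonneg fun i _ => sq_nonneg _
  have hρ0 : 0 ≤ ρ := by
    rw [hρ]
    exact Finset.sum_nonneg fun i _ => sq_nonneg _
  have hρ1 : 0 ≤ 1 - ρ := by
    rw [← hρ2]
    exact Finset.sum_nonneg fun i _ => sq_nonneg _
  have hp1 : √56 * (σ + √56 / 7 * ρ) = y := by
    rw [hy, hU, hV, ht]
    unfold uQ vQ
    linear_combination (ρ / 7) * q6
  have hp1' : ∑ i ∈ Finset.univ \ S, x i * (N i + √56 / 7 * x i) = σ + √56 / 7 * ρ := by
    rw [hσ, hρ, Finset.mul_sum, ← Finset.sum_add_distrib]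
    exact Finset.sum_congr rfl fun i _ => by ring
  have hp2' : ∑ i ∈ S, x i * (N i - √56 / 8 * x i) = -σ - √56 / 8 * (1 - ρ) := by
    rw [← hσ2, ← hρ2, Finset.mul_sum, ← Finset.sum_sub_distrib]
    exact Finset.sum_congr rfl fun i _ => by ring
  have hp2 : √56 * (-σ - √56 / 8 * (1 - ρ)) = z := by
    rw [hz, hU, hV, ht]
    unfold uQ vQ
    linear_combination (-(1 - ρ) / 8) * q6
  have hcs := Finset.sum_mul_sq_le_sq_mul_sq (Finset.univ \ S) x fun i => N i + √56 / 7 * x i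
  rw [hp1', ← hρ, hA, ← hU] at hcs
  have hcs' := Finset.sum_mul_sq_le_sq_mul_sq S x fun i => N i - √56 / 8 * x i
  rw [hp2', hρ2, hB, ← hV] at hcs'
  have hg0 : 0 ≤ g := by
    have e : y ^ 2 = 56 * (σ + √56 / 7 * ρ) ^ 2 := by
      rw [← hp1]
      linear_combination ((σ + √56 / 7 * ρ) ^ 2) * q6
    rw [hg, ← hy, e, ht]
    linarith
  have hg0' : 0 ≤ g' := by
    have e : z ^ 2 = 56 * (-σ - √56 / 8 * (1 - ρ)) ^ 2 := by
      rw [← hp2]
      linear_combination ((-σ - √56 / 8 * (1 - ρ)) ^ 2) * q6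
    rw [hg', ← hz, e, ht]
    linarith
  have hρt : 0 ≤ 7 / 15 + t := by rw [ht]; linarith
  have hρt' : 0 ≤ 8 / 15 - t := by rw [ht]; linarith
  have key := cert hρt hρt' hU0 hV0 hg0 hg0' hg hg' ha hα hb hβ
  rw [← hy, ← hz] at key
  have hPs : ∀ k, Ps (k ∈ S) ρ σ ν (x k) (N k)
      = if k ∈ S then -(√56 * b) * x k + β * (N k - √56 / 8 * x k)
        else -(√56 * a) * x k + α * (N k + √56 / 7 * x k) := by
    intro k
    unfold Ps
    rw [← hU, ← hV, ← ht, ← ha, ← hβ, ← hα, ← hb]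
  have nS : ∑ k ∈ S, (-(√56 * b) * x k + β * (N k - √56 / 8 * x k)) ^ 2
      = 56 * b ^ 2 * (8 / 15 - t) - 2 * b * β * z + β ^ 2 * V := by
    have : ∑ k ∈ S, (-(√56 * b) * x k + β * (N k - √56 / 8 * x k)) ^ 2
        = ∑ k ∈ S, (56 * b ^ 2 * x k ^ 2 + (-2 * √56 * b * β) * (x k * (N k - √56 / 8 * x k))
          + β ^ 2 * (N k - √56 / 8 * x k) ^ 2) :=
      Finset.sum_congr rfl fun i _ => by linear_combination (b ^ 2 * x i ^ 2) * q6
    rw [this, Finset.sum_add_distrib, Finset.sum_add_distrib, ← Finset.mul_sum,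
      ← Finset.mul_sum, ← Finset.mul_sum, hρ2, hB, ← hV, hp2', ht]
    linear_combination (-2 * b * β) * hp2
  have nA : ∑ k ∈ Finset.univ \ S, (-(√56 * a) * x k + α * (N k + √56 / 7 * x k)) ^ 2
      = 56 * a ^ 2 * (7 / 15 + t) - 2 * a * α * y + α ^ 2 * U := by
    have : ∑ k ∈ Finset.univ \ S, (-(√56 * a) * x k + α * (N k + √56 / 7 * x k)) ^ 2
        = ∑ k ∈ Finset.univ \ S, (56 * a ^ 2 * x k ^ 2
          + (-2 * √56 * a * α) * (x k * (N k + √56 / 7 * x k))
          + α ^ 2 * (N k + √56 / 7 * x k) ^ 2) :=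
      Finset.sum_congr rfl fun i _ => by linear_combination (a ^ 2 * x i ^ 2) * q6
    rw [this, Finset.sum_add_distrib, Finset.sum_add_distrib, ← Finset.mul_sum,
      ← Finset.mul_sum, ← Finset.mul_sum, ← hρ, hA, ← hU, hp1', ht]
    linear_combination (-2 * a * α) * hp1
  have hn2 : ∑ k, Ps (k ∈ S) ρ σ ν (x k) (N k) ^ 2 ≤ (6 / 5 * (1 * U + V)) ^ 2 := by
    refine le_trans (le_of_eq ?_) key
    rw [spl, ← nS, ← nA, add_comm]
    congr 1
    · refine Finset.sum_congr rfl fun i hi => ?_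
      rw [hPs, if_neg (Finset.mem_sdiff.1 hi).2]
    · refine Finset.sum_congr rfl fun i hi => ?_
      rw [hPs, if_pos hi]
  have hfin : ∑ i, (if i ∈ S then (1 : ℝ) else 1)
      * (N i - (if i ∈ S then √56 / 8 else -(√56 / 7)) * x i) ^ 2 = 1 * U + V := by
    rw [spl, hU, hV, ← hA, ← hB, Finset.mul_sum, add_comm]
    congr 1
    · refine Finset.sum_congr rfl fun i hi => ?_
      have := (Finset.mem_sdiff.1 hi).2
      rw [if_neg this, if_neg this]
      ring
    · refine Finset.sum_congr rfl fun i hi => ?_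
      rw [if_pos hi, if_pos hi, one_mul]
  rw [hfin]
  have hcs2 := Finset.sum_mul_sq_le_sq_mul_sq Finset.univ
    (fun k => Ps (k ∈ S) ρ σ ν (x k) (N k)) u
  rw [hu, mul_one] at hcs2
  exact (abs_le_of_sq_le_sq' (hcs2.trans hn2) (by positivity)).2

section

variable {X : Type*} [MeasurableSpace X] {E : Type*} [NormedAddCommGroup E]
  [InnerProductSpace ℝ E] [FiniteDimensional ℝ E] [MeasurableSpace E] [BorelSpace E]
  {μ : Measure X} [IsFiniteMeasure μ] {p n : X → E}

/-- the integrand differs from the normal by a null function -/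
lemma coord' (h : TwoG μ 15 p n) (hp : UF p) (hn : UF n) [Nonempty X]
    (hsp : ∀ w, (∀ x, ⟪p x, w⟫ = 0) → w = 0) (b : OrthonormalBasis (Fin 17) ℝ E)
    (S : Finset (Fin 17)) (hS : S.card = 9) (k : Fin 17) :
    Nul μ (fun x => Ps (k ∈ S) (bρ p b (Finset.univ \ S) x) (bσ p n b (Finset.univ \ S) x)
      (bρ n b (Finset.univ \ S) x) ⟪p x, b k⟫ ⟪n x, b k⟫ - ⟪n x, b k⟫) := by
  have hc : (Finset.univ \ S).card = 8 := by
    rw [Finset.card_sdiff_of_subset (Finset.subset_univ S), hS]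
    simp
  have n0 := nul0 h (by norm_num) hp (b k) (μ := μ)
  have n1 := blk1 h (by norm_num) hp hn hsp b (Finset.univ \ S) (b k)
  have n2 := blk2 h (by norm_num) hp hn hsp b (Finset.univ \ S) (b k)
  have n3 := blk3 h hp hn hsp b (Finset.univ \ S) k
  have n4 := blk4 h hp hn hsp b (Finset.univ \ S) k
  by_cases hk : k ∈ S
  · have hk' : k ∉ Finset.univ \ S := fun hh => (Finset.mem_sdiff.1 hh).2 hk
    refine (((((n0.cmul (103493 / 350000 * √56)).add (n1.cmul ((-(10033 / 350000)) * √56))).add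
      (n2.cmul ((-(10973 / 35000)) * √56))).add (n3.cmul (487 / 5000))).add
      (n4.cmul (3 / 2500 * √56))).congr fun x => ?_
    rw [Ps_in hk, hc, if_neg hk']
    push_cast
    ring
  · have hk' : k ∈ Finset.univ \ S := Finset.mem_sdiff.2 ⟨Finset.mem_univ k, hk⟩
    refine (((((n0.cmul (3441197 / 7350000 * √56)).add (n1.cmul ((-(101977 / 3675000)) * √56))).add
      (n2.cmul ((-(1938 / 6125)) * √56))).add (n3.cmul ((-(9 / 125))))).add
      (n4.cmul (11 / 10000 * √56))).congr fun x => ?_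
    rw [Ps_out hk, hc, if_pos hk']
    push_cast
    ring

/-- the one point identity -/
theorem one (h : TwoG μ 15 p n) [Nonempty X]
    (hsp : ∀ w, (∀ x, ⟪p x, w⟫ = 0) → w = 0) (b : OrthonormalBasis (Fin 17) ℝ E)
    (S : Finset (Fin 17)) (hS : S.card = 9) :
    ‖∫ x, n x ∂μ‖ ≤ 6 / 5 * ∫ x, ∑ i, (if i ∈ S then 1 else 1)
      * (⟪n x, b i⟫ - (if i ∈ S then √56 / 8 else -(√56 / 7)) * ⟪p x, b i⟫) ^ 2 ∂μ :=
  one_abs h b (Cc := 6 / 5) (by norm_num) (fun i => if i ∈ S then (1 : ℝ) else 1)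
    (fun i => by split_ifs <;> norm_num) (fun i => if i ∈ S then √56 / 8 else -(√56 / 7))
    (fun k x => Ps (k ∈ S) (bρ p b (Finset.univ \ S) x) (bσ p n b (Finset.univ \ S) x)
      (bρ n b (Finset.univ \ S) x) ⟪p x, b k⟫ ⟪n x, b k⟫)
    (fun k => coord' h ⟨h.mp, h.np⟩ ⟨h.mn, h.nn⟩ hsp b S hS k)
    (fun x u hx hN hu hxN => pointwise' S (fun i => ⟪p x, b i⟫) (fun i => ⟪n x, b i⟫) u hx hN
      hu hxN)

/-- the one point identity with the norm -/
theorem one_norm (h : TwoG μ 15 p n) [Nonempty X]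
    (hsp : ∀ w, (∀ x, ⟪p x, w⟫ = 0) → w = 0) {α : ℝ} (hα : 0 < α) (hα2 : α ^ 2 = 7 / 8)
    (b : OrthonormalBasis (Fin 17) ℝ E) (S : Finset (Fin 17)) (hS : S.card = 9) :
    ‖∫ x, n x ∂μ‖ ≤ 6 / 5 * ∫ x, ‖n x - ∑ i, ((if i ∈ S then α else -(1 / α))
      * ⟪p x, b i⟫) • b i‖ ^ 2 ∂μ := by
  have h1 : α = √56 / 8 := by
    have h2 : (√56 / 8 : ℝ) ^ 2 = α ^ 2 := by
      rw [hα2, div_pow, sqK]
      norm_num
    exact ((sq_eq_sq₀ (by positivity) hα.le).1 h2).symm
  have h3 : 1 / α = √56 / 7 := by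
    rw [h1, one_div_div, div_eq_div_iff (by positivity) (by norm_num)]
    linear_combination -sqK
  have h4 := one h hsp b S hS
  rw [h1] at *
  rw [h3]
  refine h4.trans (le_of_eq ?_)
  congr 1
  refine integral_congr_ae (Eventually.of_forall fun x => ?_)
  simp only
  rw [norm_dev]
  exact Finset.sum_congr rfl fun i _ => by rw [ite_self, one_mul]

end

end Vale.Agent.P224.SO.One15
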