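import Vale.Agent.P224.SO.OneA

/-!
The one point identity in dimension 7, blocks 4 and 5: the mean normal is at most 57/50
times the mean square distance of the normal to a Clifford point, with the weight 2 on the
block of dimension 4.
-/

namespace Vale.Agent.P224.SO.One7W

open MeasureTheory Set Filter Function Module Vale.Agent.P224.UE Vale.Agent.P224.SO
open scoped Topology RealInnerProductSpace ContDiff

set_option linter.unusedSectionVars false
set_option linter.unusedVariables false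

lemma sqK : √12 ^ 2 = (12 : ℝ) := Real.sq_sqrt (by norm_num)

/-- the coefficients in the block of dimension 4 -/
noncomputable def pa (t u v : ℝ) : ℝ := 2 / 3 * (u)

/-- the coefficients in the block of dimension 4 -/
noncomputable def pb (t u v : ℝ) : ℝ := 4 / 7 * (v) + 4 / 7 * (u) + 7 / 3 * (t)

/-- the coefficients in the block of dimension 5 -/
noncomputable def qa (t u v : ℝ) : ℝ := (-(3 / 8)) * (v) + 7 / 16 * (u) + 9 / 35 * (t * v) + 9 / 35 * (t * u) + 63 / 20 * (t ^ 2)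

/-- the coefficients in the block of dimension 5 -/
noncomputable def qb (t u v : ℝ) : ℝ := 17 / 42 * (v) + 17 / 42 * (u) + 11309 / 2520 * (t) + (-(36 / 35)) * (t * v) + (-(36 / 35)) * (t * u) + 3 / 5 * (t ^ 2)

/-- the certificate -/
lemma cert {t u v g g' a1 B1 a2 B2 : ℝ} (hρ : 0 ≤ 3 / 7 + t) (hr : 0 ≤ 4 / 7 - t)
    (hu : 0 ≤ u) (hv : 0 ≤ v) (hg : 0 ≤ g) (hg' : 0 ≤ g')
    (hgd : g = (3 / 7 + t) * u - (7 / 2 * t + 6 / 7 * (u + v)) ^ 2 / 12)
    (hgd' : g' = (4 / 7 - t) * v - (7 / 2 * t - 6 / 7 * (u + v)) ^ 2 / 12)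
    (ha1 : a1 = pa t u v) (hb1 : B1 = pb t u v) (ha2 : a2 = qa t u v) (hb2 : B2 = qb t u v) :
    (12 * a1 ^ 2 * (3 / 7 + t) - 2 * a1 * B1 * (7 / 2 * t + 6 / 7 * (u + v)) + B1 ^ 2 * u
      + (12 * a2 ^ 2 * (4 / 7 - t) - 2 * a2 * B2 * (7 / 2 * t - 6 / 7 * (u + v)) + B2 ^ 2 * v))
      ≤ (57 / 50 * (2 * u + v)) ^ 2 := by
  have hQ0 : 0 ≤ 343 / 24000 * (t ^ 2) ^ 2 := by positivity
  have hQ1 : 0 ≤ 43823 / 30000 * (u + 2433 / 3371 * (v) + (-(46478415 / 4908176)) * (t ^ 2) + (-(866655 / 4294654)) * (t * u) + 6029955 / 2147327 * (t * v)) ^ 2 +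
      144717 / 6742000 * (v + (-(110037661 / 24312456)) * (t ^ 2) + (-(821783 / 14182266)) * (t * u) + 19190839 / 14182266 * (t * v)) ^ 2 +
      369042788340403 / 424787231232000 * (t ^ 2 + 42720530905464 / 2583299518382821 * (t * u) + (-(758331469876368 / 2583299518382821)) * (t * v)) ^ 2 +
      103073327889447329163 / 7088573878442460824000 * (t * u + (-(2411241800360936287 / 103073327889447329163)) * (t * v)) ^ 2 +
      29302238443552025383693 / 2020237226633167651594800 * (t * v) ^ 2 := by positivity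
  have hQ2 : 0 ≤ 569717 / 156800 * (t + 6620539 / 299101425 * (u) + 540925316 / 2691912825 * (v) + 5332768 / 2848585 * (t ^ 2) + (-(408464 / 569717)) * (t * u) + (-(721280 / 569717)) * (t * v)) ^ 2 +
      3947952153285479 / 24622029306000000 * (u + (-(3960597398135324 / 35531569379569311)) * (v) + (-(14836266091116960 / 3947952153285479)) * (t ^ 2) + (-(2789342676069600 / 3947952153285479)) * (t * u) + (-(682939845588000 / 3947952153285479)) * (t * v)) ^ 2 +
      243190631101181182003 / 3917355524097516537750 * (v + (-(281976902959267409355 / 486381262202362364006)) * (t ^ 2) + (-(5721992485006600852551 / 6809337670833073096084)) * (t * u) + 68551771243493185334613 / 6809337670833073096084 * (t * v)) ^ 2 +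
      76573637163061486292147 / 243190631101181182003000 * (t ^ 2 + 152488974298503019311653 / 1072030920282860808090058 * (t * u) + (-(1083890563892003460846311 / 1072030920282860808090058)) * (t * v)) ^ 2 +
      13325315027532266589764576353 / 367706605657021257174889894000 * (t * u + (-(39711332253822675765371486554 / 13325315027532266589764576353)) * (t * v)) ^ 2 +
      14935990639449687297759249323462349 / 9141166108887134880578499378158000 * (t * v) ^ 2 := by positivity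
  have hQ3 : 0 ≤ 135109607 / 15876000 * (t + 50707944 / 135109607 * (u) + 1525298883 / 4728836245 * (v) + (-(375372144 / 135109607)) * (t ^ 2) + (-(67933404 / 135109607)) * (t * u) + (-(86333688 / 135109607)) * (t * v)) ^ 2 +
      21652782777 / 135109607000 * (u + (-(109866533587 / 757847397195)) * (v) + (-(239438248186 / 21652782777)) * (t ^ 2) + 20529923798 / 21652782777 * (t * u) + (-(32249129009 / 7217594259)) * (t * v)) ^ 2 +
      741086724758659009 / 5198833144757700000 * (v + (-(19752862156295105740 / 741086724758659009)) * (t ^ 2) + 3510415803784710800 / 741086724758659009 * (t * u) + (-(802853936167703280 / 741086724758659009)) * (t * v)) ^ 2 +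
      6277181619205914340693 / 370543362379329504500 * (t ^ 2 + (-(1080658344370305953319 / 6277181619205914340693)) * (t * u) + 1332659288197267610187 / 12554363238411828681386 * (t * v)) ^ 2 +
      2127302428193775602851 / 62771816192059143406930 * (t * u + 54969100655881340161201 / 42546048563875512057020 * (t * v)) ^ 2 +
      440437660470510399860293643 / 2918658931481860127111572000 * (t * v) ^ 2 := by positivity
  have hQ4 : 0 ≤ 12637 / 500 * (t) ^ 2 := by positivity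
  have hQ5 : 0 ≤ 2273 / 1000 * (1 + (-(7635 / 2273)) * (t)) ^ 2 +
      196681 / 1136500 * (t) ^ 2 := by positivity
  have hQ6 : 0 ≤ 15271 / 1000 * (1 + (-(29419 / 15271)) * (t)) ^ 2 +
      136393732 / 1908875 * (t) ^ 2 := by positivity
  have e : (57 / 50 * (2 * u + v)) ^ 2 - (12 * a1 ^ 2 * (3 / 7 + t) - 2 * a1 * B1 * (7 / 2 * t + 6 / 7 * (u + v)) + B1 ^ 2 * u
      + (12 * a2 ^ 2 * (4 / 7 - t) - 2 * a2 * B2 * (7 / 2 * t - 6 / 7 * (u + v)) + B2 ^ 2 * v))
      = (343 / 24000 * (t ^ 2) ^ 2)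
      + (3 / 7 + t) * (43823 / 30000 * (u + 2433 / 3371 * (v) + (-(46478415 / 4908176)) * (t ^ 2) + (-(866655 / 4294654)) * (t * u) + 6029955 / 2147327 * (t * v)) ^ 2 +
      144717 / 6742000 * (v + (-(110037661 / 24312456)) * (t ^ 2) + (-(821783 / 14182266)) * (t * u) + 19190839 / 14182266 * (t * v)) ^ 2 +
      369042788340403 / 424787231232000 * (t ^ 2 + 42720530905464 / 2583299518382821 * (t * u) + (-(758331469876368 / 2583299518382821)) * (t * v)) ^ 2 +
      103073327889447329163 / 7088573878442460824000 * (t * u + (-(2411241800360936287 / 103073327889447329163)) * (t * v)) ^ 2 +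
      29302238443552025383693 / 2020237226633167651594800 * (t * v) ^ 2)
      + u * (569717 / 156800 * (t + 6620539 / 299101425 * (u) + 540925316 / 2691912825 * (v) + 5332768 / 2848585 * (t ^ 2) + (-(408464 / 569717)) * (t * u) + (-(721280 / 569717)) * (t * v)) ^ 2 +
      3947952153285479 / 24622029306000000 * (u + (-(3960597398135324 / 35531569379569311)) * (v) + (-(14836266091116960 / 3947952153285479)) * (t ^ 2) + (-(2789342676069600 / 3947952153285479)) * (t * u) + (-(682939845588000 / 3947952153285479)) * (t * v)) ^ 2 +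
      243190631101181182003 / 3917355524097516537750 * (v + (-(281976902959267409355 / 486381262202362364006)) * (t ^ 2) + (-(5721992485006600852551 / 6809337670833073096084)) * (t * u) + 68551771243493185334613 / 6809337670833073096084 * (t * v)) ^ 2 +
      76573637163061486292147 / 243190631101181182003000 * (t ^ 2 + 152488974298503019311653 / 1072030920282860808090058 * (t * u) + (-(1083890563892003460846311 / 1072030920282860808090058)) * (t * v)) ^ 2 +
      13325315027532266589764576353 / 367706605657021257174889894000 * (t * u + (-(39711332253822675765371486554 / 13325315027532266589764576353)) * (t * v)) ^ 2 +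
      14935990639449687297759249323462349 / 9141166108887134880578499378158000 * (t * v) ^ 2)
      + v * (135109607 / 15876000 * (t + 50707944 / 135109607 * (u) + 1525298883 / 4728836245 * (v) + (-(375372144 / 135109607)) * (t ^ 2) + (-(67933404 / 135109607)) * (t * u) + (-(86333688 / 135109607)) * (t * v)) ^ 2 +
      21652782777 / 135109607000 * (u + (-(109866533587 / 757847397195)) * (v) + (-(239438248186 / 21652782777)) * (t ^ 2) + 20529923798 / 21652782777 * (t * u) + (-(32249129009 / 7217594259)) * (t * v)) ^ 2 +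
      741086724758659009 / 5198833144757700000 * (v + (-(19752862156295105740 / 741086724758659009)) * (t ^ 2) + 3510415803784710800 / 741086724758659009 * (t * u) + (-(802853936167703280 / 741086724758659009)) * (t * v)) ^ 2 +
      6277181619205914340693 / 370543362379329504500 * (t ^ 2 + (-(1080658344370305953319 / 6277181619205914340693)) * (t * u) + 1332659288197267610187 / 12554363238411828681386 * (t * v)) ^ 2 +
      2127302428193775602851 / 62771816192059143406930 * (t * u + 54969100655881340161201 / 42546048563875512057020 * (t * v)) ^ 2 +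
      440437660470510399860293643 / 2918658931481860127111572000 * (t * v) ^ 2)
      + g * (12637 / 500 * (t) ^ 2)
      + (g * u) * (2273 / 1000 * (1 + (-(7635 / 2273)) * (t)) ^ 2 +
      196681 / 1136500 * (t) ^ 2)
      + (g * v) * (15271 / 1000 * (1 + (-(29419 / 15271)) * (t)) ^ 2 +
      136393732 / 1908875 * (t) ^ 2) := by
    rw [ha1, hb1, ha2, hb2, hgd]
    unfold pa pb qa qb
    ring
  have h1 := mul_nonneg hρ hQ1
  have h2 := mul_nonneg hu hQ2
  have h3 := mul_nonneg hv hQ3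
  have h4 := mul_nonneg hg hQ4
  have h5 := mul_nonneg (mul_nonneg hg hu) hQ5
  have h6 := mul_nonneg (mul_nonneg hg hv) hQ6
  rw [← sub_nonneg, e]
  exact add_nonneg (add_nonneg (add_nonneg (add_nonneg (add_nonneg (add_nonneg hQ0 h1) h2) h3) h4) h5) h6

/-- the first block -/
noncomputable def uQ (ρ σ ν : ℝ) : ℝ := ν + 2 / 3 * √12 * σ + 4 / 3 * ρ

/-- the second block -/
noncomputable def vQ (ρ σ ν : ℝ) : ℝ := 1 - ν + 1 / 2 * √12 * σ + 3 / 4 * (1 - ρ)

/-- the integrand, for a coordinate -/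
noncomputable def Ps (k : Prop) [Decidable k] (ρ σ ν x n : ℝ) : ℝ :=
  if k then -(√12 * qa (ρ - 3 / 7) (uQ ρ σ ν) (vQ ρ σ ν)) * x
      + qb (ρ - 3 / 7) (uQ ρ σ ν) (vQ ρ σ ν) * (n - √12 / 4 * x)
    else -(√12 * pa (ρ - 3 / 7) (uQ ρ σ ν) (vQ ρ σ ν)) * x
      + pb (ρ - 3 / 7) (uQ ρ σ ν) (vQ ρ σ ν) * (n + √12 / 3 * x)

lemma Ps_in {k : Prop} [Decidable k] (hk : k) (ρ σ ν x n : ℝ) : Ps k ρ σ ν x n
    = n + (1189 / 3360 * √12) * x + (877 / 10080 * √12) * (9 * (ρ * x) + 2 * (σ * n))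
      + ((-(13 / 16)) * √12) * (ν * x - σ * n) + 1 / 3 * (8 * (ρ * n - σ * x) - 4 * n)
      + (3 / 10 * √12) * (4 * (ρ * (0 * x)) - 11 * (ρ ^ 2 * x) - 4 * (ρ * σ * n)) := by
  unfold Ps qa qb uQ vQ
  rw [if_pos hk]
  linear_combination ((-(2 / 9)) * σ * x) * sqK

lemma Ps_out {k : Prop} [Decidable k] (hk : ¬k) (ρ σ ν x n : ℝ) : Ps k ρ σ ν x n
    = n + (0 * √12) * x + (0 * √12) * (9 * (ρ * x) + 2 * (σ * n))
      + ((-(2 / 3)) * √12) * (ν * x - σ * n) + 1 / 3 * (8 * (ρ * n - σ * x) - 3 * n)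
      + (0 * √12) * (4 * (ρ * (1 * x)) - 11 * (ρ ^ 2 * x) - 4 * (ρ * σ * n)) := by
  unfold Ps pa pb uQ vQ
  rw [if_neg hk]
  linear_combination ((-(2 / 9)) * σ * x) * sqK

/-- the pointwise inequality -/
lemma pointwise' (S : Finset (Fin 9)) (x N u : Fin 9 → ℝ) (hx : ∑ i, x i ^ 2 = 1)
    (hN : ∑ i, N i ^ 2 = 1) (hu : ∑ i, u i ^ 2 = 1) (hxN : ∑ i, x i * N i = 0) :
    ∑ k, Ps (k ∈ S) (∑ i ∈ Finset.univ \ S, x i ^ 2) (∑ i ∈ Finset.univ \ S, x i * N i)
        (∑ i ∈ Finset.univ \ S, N i ^ 2) (x k) (N k) * u k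
      ≤ 57 / 50 * ∑ i, (if i ∈ S then 1 else 2)
        * (N i - (if i ∈ S then √12 / 4 else -(√12 / 3)) * x i) ^ 2 := by
  obtain ⟨ρ, hρ⟩ : ∃ ρ, ρ = ∑ i ∈ Finset.univ \ S, x i ^ 2 := ⟨_, rfl⟩
  obtain ⟨ν, hν⟩ : ∃ ν, ν = ∑ i ∈ Finset.univ \ S, N i ^ 2 := ⟨_, rfl⟩
  obtain ⟨σ, hσ⟩ : ∃ σ, σ = ∑ i ∈ Finset.univ \ S, x i * N i := ⟨_, rfl⟩
  rw [← hρ, ← hν, ← hσ]
  have spl : ∀ f : Fin 9 → ℝ, ∑ i, f i = ∑ i ∈ S, f i + ∑ i ∈ Finset.univ \ S, f i := fun f => by
    rw [add_comm, Finset.sum_sdiff (Finset.subset_univ S)]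
  have hρ2 : ∑ i ∈ S, x i ^ 2 = 1 - ρ := by
    have := spl fun i => x i ^ 2
    rw [hx, ← hρ] at this
    linarith
  have hν2 : ∑ i ∈ S, N i ^ 2 = 1 - ν := by
    have := spl fun i => N i ^ 2
    rw [hN, ← hν] at this
    linarith
  have hσ2 : ∑ i ∈ S, x i * N i = -σ := by
    have := spl fun i => x i * N i
    rw [hxN, ← hσ] at this
    linarith
  have q6 := sqK
  have hA : ∑ i ∈ Finset.univ \ S, (N i + √12 / 3 * x i) ^ 2 = uQ ρ σ ν := by
    have : ∑ i ∈ Finset.univ \ S, (N i + √12 / 3 * x i) ^ 2 = ∑ i ∈ Finset.univ \ S,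
        (N i ^ 2 + (2 / 3 * √12) * (x i * N i) + 4 / 3 * x i ^ 2) :=
      Finset.sum_congr rfl fun i _ => by linear_combination (x i ^ 2 / 9) * q6
    rw [this, Finset.sum_add_distrib, Finset.sum_add_distrib, ← Finset.mul_sum,
      ← Finset.mul_sum, ← hρ, ← hν, ← hσ]
    rfl
  have hB : ∑ i ∈ S, (N i - √12 / 4 * x i) ^ 2 = vQ ρ σ ν := by
    have : ∑ i ∈ S, (N i - √12 / 4 * x i) ^ 2 = ∑ i ∈ S,
        (N i ^ 2 + (-(1 / 2 * √12)) * (x i * N i) + 3 / 4 * x i ^ 2) :=
      Finset.sum_congr rfl fun i _ => by linear_combination (x i ^ 2 / 16) * q6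
    rw [this, Finset.sum_add_distrib, Finset.sum_add_distrib, ← Finset.mul_sum,
      ← Finset.mul_sum, hρ2, hν2, hσ2]
    unfold vQ
    ring
  obtain ⟨U, hU⟩ : ∃ U, U = uQ ρ σ ν := ⟨_, rfl⟩
  obtain ⟨V, hV⟩ : ∃ V, V = vQ ρ σ ν := ⟨_, rfl⟩
  obtain ⟨t, ht⟩ : ∃ t, t = ρ - 3 / 7 := ⟨_, rfl⟩
  obtain ⟨a, ha⟩ : ∃ a, a = pa t U V := ⟨_, rfl⟩
  obtain ⟨α, hα⟩ : ∃ α, α = pb t U V := ⟨_, rfl⟩
  obtain ⟨b, hb⟩ : ∃ b, b = qa t U V := ⟨_, rfl⟩
  obtain ⟨β, hβ⟩ : ∃ β, β = qb t U V := ⟨_, rfl⟩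
  obtain ⟨y, hy⟩ : ∃ y, y = 7 / 2 * t + 6 / 7 * (U + V) := ⟨_, rfl⟩
  obtain ⟨z, hz⟩ : ∃ z, z = 7 / 2 * t - 6 / 7 * (U + V) := ⟨_, rfl⟩
  obtain ⟨g, hg⟩ : ∃ g, g = (3 / 7 + t) * U - (7 / 2 * t + 6 / 7 * (U + V)) ^ 2 / 12 := ⟨_, rfl⟩
  obtain ⟨g', hg'⟩ : ∃ g', g' = (4 / 7 - t) * V - (7 / 2 * t - 6 / 7 * (U + V)) ^ 2 / 12 := ⟨_, rfl⟩
  have hU0 : 0 ≤ U := by
    rw [hU, ← hA]
    exact Finset.sum_nonneg fun i _ => sq_nonneg _
  have hV0 : 0 ≤ V := by
    rw [hV, ← hB]
    exact Finset.sum_nonneg fun i _ => sq_nonneg _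
  have hρ0 : 0 ≤ ρ := by
    rw [hρ]
    exact Finset.sum_nonneg fun i _ => sq_nonneg _
  have hρ1 : 0 ≤ 1 - ρ := by
    rw [← hρ2]
    exact Finset.sum_nonneg fun i _ => sq_nonneg _
  have hp1 : √12 * (σ + √12 / 3 * ρ) = y := by
    rw [hy, hU, hV, ht]
    unfold uQ vQ
    linear_combination (ρ / 3) * q6
  have hp1' : ∑ i ∈ Finset.univ \ S, x i * (N i + √12 / 3 * x i) = σ + √12 / 3 * ρ := by
    rw [hσ, hρ, Finset.mul_sum, ← Finset.sum_add_distrib]
    exact Finset.sum_congr rfl fun i _ => by ring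
  have hp2' : ∑ i ∈ S, x i * (N i - √12 / 4 * x i) = -σ - √12 / 4 * (1 - ρ) := by
    rw [← hσ2, ← hρ2, Finset.mul_sum, ← Finset.sum_sub_distrib]
    exact Finset.sum_congr rfl fun i _ => by ring
  have hp2 : √12 * (-σ - √12 / 4 * (1 - ρ)) = z := by
    rw [hz, hU, hV, ht]
    unfold uQ vQ
    linear_combination (-(1 - ρ) / 4) * q6
  have hcs := Finset.sum_mul_sq_le_sq_mul_sq (Finset.univ \ S) x fun i => N i + √12 / 3 * x i
  rw [hp1', ← hρ, hA, ← hU] at hcs
  have hcs' := Finset.sum_mul_sq_le_sq_mul_sq S x fun i => N i - √12 / 4 * x i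
  rw [hp2', hρ2, hB, ← hV] at hcs'
  have hg0 : 0 ≤ g := by
    have e : y ^ 2 = 12 * (σ + √12 / 3 * ρ) ^ 2 := by
      rw [← hp1]
      linear_combination ((σ + √12 / 3 * ρ) ^ 2) * q6
    rw [hg, ← hy, e, ht]
    linarith
  have hg0' : 0 ≤ g' := by
    have e : z ^ 2 = 12 * (-σ - √12 / 4 * (1 - ρ)) ^ 2 := by
      rw [← hp2]
      linear_combination ((-σ - √12 / 4 * (1 - ρ)) ^ 2) * q6
    rw [hg', ← hz, e, ht]
    linarith
  have hρt : 0 ≤ 3 / 7 + t := by rw [ht]; linarith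
  have hρt' : 0 ≤ 4 / 7 - t := by rw [ht]; linarith
  have key := cert hρt hρt' hU0 hV0 hg0 hg0' hg hg' ha hα hb hβ
  rw [← hy, ← hz] at key
  have hPs : ∀ k, Ps (k ∈ S) ρ σ ν (x k) (N k)
      = if k ∈ S then -(√12 * b) * x k + β * (N k - √12 / 4 * x k)
        else -(√12 * a) * x k + α * (N k + √12 / 3 * x k) := by
    intro k
    unfold Ps
    rw [← hU, ← hV, ← ht, ← ha, ← hβ, ← hα, ← hb]
  have nS : ∑ k ∈ S, (-(√12 * b) * x k + β * (N k - √12 / 4 * x k)) ^ 2
      = 12 * b ^ 2 * (4 / 7 - t) - 2 * b * β * z + β ^ 2 * V := by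
    have : ∑ k ∈ S, (-(√12 * b) * x k + β * (N k - √12 / 4 * x k)) ^ 2
        = ∑ k ∈ S, (12 * b ^ 2 * x k ^ 2 + (-2 * √12 * b * β) * (x k * (N k - √12 / 4 * x k))
          + β ^ 2 * (N k - √12 / 4 * x k) ^ 2) :=
      Finset.sum_congr rfl fun i _ => by linear_combination (b ^ 2 * x i ^ 2) * q6
    rw [this, Finset.sum_add_distrib, Finset.sum_add_distrib, ← Finset.mul_sum,
      ← Finset.mul_sum, ← Finset.mul_sum, hρ2, hB, ← hV, hp2', ht]
    linear_combination (-2 * b * β) * hp2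
  have nA : ∑ k ∈ Finset.univ \ S, (-(√12 * a) * x k + α * (N k + √12 / 3 * x k)) ^ 2
      = 12 * a ^ 2 * (3 / 7 + t) - 2 * a * α * y + α ^ 2 * U := by
    have : ∑ k ∈ Finset.univ \ S, (-(√12 * a) * x k + α * (N k + √12 / 3 * x k)) ^ 2
        = ∑ k ∈ Finset.univ \ S, (12 * a ^ 2 * x k ^ 2
          + (-2 * √12 * a * α) * (x k * (N k + √12 / 3 * x k))
          + α ^ 2 * (N k + √12 / 3 * x k) ^ 2) :=
      Finset.sum_congr rfl fun i _ => by linear_combination (a ^ 2 * x i ^ 2) * q6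
    rw [this, Finset.sum_add_distrib, Finset.sum_add_distrib, ← Finset.mul_sum,
      ← Finset.mul_sum, ← Finset.mul_sum, ← hρ, hA, ← hU, hp1', ht]
    linear_combination (-2 * a * α) * hp1
  have hn2 : ∑ k, Ps (k ∈ S) ρ σ ν (x k) (N k) ^ 2 ≤ (57 / 50 * (2 * U + V)) ^ 2 := by
    refine le_trans (le_of_eq ?_) key
    rw [spl, ← nS, ← nA, add_comm]
    congr 1
    · refine Finset.sum_congr rfl fun i hi => ?_
      rw [hPs, if_neg (Finset.mem_sdiff.1 hi).2]
    · refine Finset.sum_congr rfl fun i hi => ?_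
      rw [hPs, if_pos hi]
  have hfin : ∑ i, (if i ∈ S then (1 : ℝ) else 2)
      * (N i - (if i ∈ S then √12 / 4 else -(√12 / 3)) * x i) ^ 2 = 2 * U + V := by
    rw [spl, hU, hV, ← hA, ← hB, Finset.mul_sum, add_comm]
    congr 1
    · refine Finset.sum_congr rfl fun i hi => ?_
      have := (Finset.mem_sdiff.1 hi).2
      rw [if_neg this, if_neg this]
      ring
    · refine Finset.sum_congr rfl fun i hi => ?_
      rw [if_pos hi, if_pos hi, one_mul]
  rw [hfin]
  have hcs2 := Finset.sum_mul_sq_le_sq_mul_sq Finset.univ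
    (fun k => Ps (k ∈ S) ρ σ ν (x k) (N k)) u
  rw [hu, mul_one] at hcs2
  exact (abs_le_of_sq_le_sq' (hcs2.trans hn2) (by positivity)).2

section

variable {X : Type*} [MeasurableSpace X] {E : Type*} [NormedAddCommGroup E]
  [InnerProductSpace ℝ E] [FiniteDimensional ℝ E] [MeasurableSpace E] [BorelSpace E]
  {μ : Measure X} [IsFiniteMeasure μ] {p n : X → E}

/-- the integrand differs from the normal by a null function -/
lemma coord' (h : TwoG μ 7 p n) (hp : UF p) (hn : UF n) [Nonempty X]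
    (hsp : ∀ w, (∀ x, ⟪p x, w⟫ = 0) → w = 0) (b : OrthonormalBasis (Fin 9) ℝ E)
    (S : Finset (Fin 9)) (hS : S.card = 5) (k : Fin 9) :
    Nul μ (fun x => Ps (k ∈ S) (bρ p b (Finset.univ \ S) x) (bσ p n b (Finset.univ \ S) x)
      (bρ n b (Finset.univ \ S) x) ⟪p x, b k⟫ ⟪n x, b k⟫ - ⟪n x, b k⟫) := by
  have hc : (Finset.univ \ S).card = 4 := by
    rw [Finset.card_sdiff_of_subset (Finset.subset_univ S), hS]
    simp
  have n0 := nul0 h (by norm_num) hp (b k) (μ := μ)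
  have n1 := blk1 h (by norm_num) hp hn hsp b (Finset.univ \ S) (b k)
  have n2 := blk2 h (by norm_num) hp hn hsp b (Finset.univ \ S) (b k)
  have n3 := blk3 h hp hn hsp b (Finset.univ \ S) k
  have n4 := blk4 h hp hn hsp b (Finset.univ \ S) k
  by_cases hk : k ∈ S
  · have hk' : k ∉ Finset.univ \ S := fun hh => (Finset.mem_sdiff.1 hh).2 hk
    refine (((((n0.cmul (1189 / 3360 * √12)).add (n1.cmul (877 / 10080 * √12))).add
      (n2.cmul ((-(13 / 16)) * √12))).add (n3.cmul (1 / 3))).add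
      (n4.cmul (3 / 10 * √12))).congr fun x => ?_
    rw [Ps_in hk, hc, if_neg hk']
    push_cast
    ring
  · have hk' : k ∈ Finset.univ \ S := Finset.mem_sdiff.2 ⟨Finset.mem_univ k, hk⟩
    refine (((((n0.cmul (0 * √12)).add (n1.cmul (0 * √12))).add
      (n2.cmul ((-(2 / 3)) * √12))).add (n3.cmul (1 / 3))).add
      (n4.cmul (0 * √12))).congr fun x => ?_
    rw [Ps_out hk, hc, if_pos hk']
    push_cast
    ring

/-- the one point identity -/
theorem one (h : TwoG μ 7 p n) [Nonempty X]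
    (hsp : ∀ w, (∀ x, ⟪p x, w⟫ = 0) → w = 0) (b : OrthonormalBasis (Fin 9) ℝ E)
    (S : Finset (Fin 9)) (hS : S.card = 5) :
    ‖∫ x, n x ∂μ‖ ≤ 57 / 50 * ∫ x, ∑ i, (if i ∈ S then 1 else 2)
      * (⟪n x, b i⟫ - (if i ∈ S then √12 / 4 else -(√12 / 3)) * ⟪p x, b i⟫) ^ 2 ∂μ :=
  one_abs h b (Cc := 57 / 50) (by norm_num) (fun i => if i ∈ S then (1 : ℝ) else 2)
    (fun i => by split_ifs <;> norm_num) (fun i => if i ∈ S then √12 / 4 else -(√12 / 3))
    (fun k x => Ps (k ∈ S) (bρ p b (Finset.univ \ S) x) (bσ p n b (Finset.univ \ S) x)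
      (bρ n b (Finset.univ \ S) x) ⟪p x, b k⟫ ⟪n x, b k⟫)
    (fun k => coord' h ⟨h.mp, h.np⟩ ⟨h.mn, h.nn⟩ hsp b S hS k)
    (fun x u hx hN hu hxN => pointwise' S (fun i => ⟪p x, b i⟫) (fun i => ⟪n x, b i⟫) u hx hN
      hu hxN)

end

end Vale.Agent.P224.SO.One7W
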