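import Vale.Agent.P224.SO.OneA

/-!
The one point identity in dimension 9, blocks 5 and 6: the mean normal is at most 131/100
times the mean square distance of the normal to a Clifford point, with the weight 1 on the
block of dimension 5.
-/

namespace Vale.Agent.P224.SO.One9

open MeasureTheory Set Filter Function Module Vale.Agent.P224.UE Vale.Agent.P224.SO
open scoped Topology RealInnerProductSpace ContDiff

set_option linter.unusedSectionVars false
set_option linter.unusedVariables false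

lemma sqK : √20 ^ 2 = (20 : ℝ) := Real.sq_sqrt (by norm_num)

/-- the coefficients in the block of dimension 5 -/
noncomputable def pa (t u v : ℝ) : ℝ := (-(1839 / 8000)) * (v) + 1387 / 4000 * (u) + (-(17 / 2250)) * (t * v) + (-(17 / 2250)) * (t * u) + 459 / 5000 * (t ^ 2)

/-- the coefficients in the block of dimension 5 -/
noncomputable def pb (t u v : ℝ) : ℝ := 4387 / 9000 * (v) + 4387 / 9000 * (u) + (-(130303 / 180000)) * (t) + (-(34 / 1125)) * (t * v) + (-(34 / 1125)) * (t * u) + 17 / 1250 * (t ^ 2)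

/-- the coefficients in the block of dimension 6 -/
noncomputable def qa (t u v : ℝ) : ℝ := (-(53 / 160)) * (v) + 189 / 800 * (u) + 47 / 5625 * (t * v) + 47 / 5625 * (t * u) + 2961 / 25000 * (t ^ 2)

/-- the coefficients in the block of dimension 6 -/
noncomputable def qb (t u v : ℝ) : ℝ := 133 / 288 * (v) + 133 / 288 * (u) + 180107 / 144000 * (t) + (-(47 / 1125)) * (t * v) + (-(47 / 1125)) * (t * u) + 47 / 2500 * (t ^ 2)

/-- the certificate -/
lemma cert {t u v g g' a1 B1 a2 B2 : ℝ} (hρ : 0 ≤ 4 / 9 + t) (hr : 0 ≤ 5 / 9 - t)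
    (hu : 0 ≤ u) (hv : 0 ≤ v) (hg : 0 ≤ g) (hg' : 0 ≤ g')
    (hgd : g = (4 / 9 + t) * u - (9 / 2 * t + 10 / 9 * (u + v)) ^ 2 / 20)
    (hgd' : g' = (5 / 9 - t) * v - (9 / 2 * t - 10 / 9 * (u + v)) ^ 2 / 20)
    (ha1 : a1 = pa t u v) (hb1 : B1 = pb t u v) (ha2 : a2 = qa t u v) (hb2 : B2 = qb t u v) :
    (20 * a1 ^ 2 * (4 / 9 + t) - 2 * a1 * B1 * (9 / 2 * t + 10 / 9 * (u + v)) + B1 ^ 2 * u
      + (20 * a2 ^ 2 * (5 / 9 - t) - 2 * a2 * B2 * (9 / 2 * t - 10 / 9 * (u + v)) + B2 ^ 2 * v))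
      ≤ (131 / 100 * (1 * u + v)) ^ 2 := by
  have hQ0 : 0 ≤ 195719 / 7200000 * (u + 79200 / 195719 * (t ^ 2) + (-(288000 / 195719)) * (t * u)) ^ 2 +
      34152083814033 / 78287600000000 * (t ^ 2 + (-(7344436000000 / 34152083814033)) * (t * u)) ^ 2 +
      382267150850891 / 6830416762806600 * (t * u) ^ 2 := by positivity
  have hQ1 : 0 ≤ 97937 / 1600000 * (v + (-(1050299 / 3147975)) * (t ^ 2) + 5180348 / 1133271 * (t * v)) ^ 2 +
      154667044191233 / 1133271000000000 * (t ^ 2 + 790883927381350 / 1392003397721097 * (t * v)) ^ 2 +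
      1074084858698527259291 / 928002265147398000000 * (t * v) ^ 2 := by positivity
  have hQ2 : 0 ≤ 764354090219 / 129600000000 * (t + (-(180295413020 / 764354090219)) * (u) + 4917592656 / 764354090219 * (t ^ 2) + (-(1274928160 / 764354090219)) * (t * u)) ^ 2 +
      426641335214993 / 51593901089782500 * (u + 6805266598170245397 / 853282670429986000 * (t ^ 2) + (-(167940292818008581 / 85328267042998600)) * (t * u)) ^ 2 +
      91456907611637335209979621 / 12799240056449790000000000 * (t ^ 2 + (-(22568437853193000251843330 / 91456907611637335209979621)) * (t * u)) ^ 2 +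
      4336501824711168558253916531177 / 3704004758271312076004174650500000 * (t * u) ^ 2 := by positivity
  have hQ3 : 0 ≤ 118872678223 / 34560000000 * (t + 112507818604 / 356618034669 * (u) + 55863405860 / 246889408617 * (v) + (-(57784320000 / 118872678223)) * (t ^ 2) + (-(113556418048 / 356618034669)) * (t * u) + (-(24503040000 / 118872678223)) * (t * v)) ^ 2 +
      41315972426389479577 / 72215152020472500000 * (u + 427165153852925012915 / 1487375007350021264772 * (v) + (-(92833173390174322500 / 41315972426389479577)) * (t ^ 2) + 16361362845890720321 / 41315972426389479577 * (t * u) + 10875263748619271190 / 41315972426389479577 * (t * v)) ^ 2 +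
      884200703788238030726481599 / 48190950238140688978612800000 * (v + (-(5035380377492728802562771600 / 884200703788238030726481599)) * (t ^ 2) + 14398291411783054311238053044 / 4421003518941190153632407995 * (t * u) + 1258267853069527122627590312 / 884200703788238030726481599 * (t * v)) ^ 2 +
      1853970219016646994759616917207 / 884200703788238030726481599000 * (t ^ 2 + 6416719428063696849248917475048477 / 20857164963937278691045690318578750 * (t * u) + 3791254135961708862329200694990 / 16685731971149822952836552254863 * (t * v)) ^ 2 +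
      346855966363350064544427145993559324947787 / 703929317532883155822792048252032812500000 * (t * u + 73760703060444637571065777174688130043750 / 346855966363350064544427145993559324947787 * (t * v)) ^ 2 +
      5996661520078976967905514147703318633149373217 / 175595832971445970175616242659239408254817168750 * (t * v) ^ 2 := by positivity
  have hQ4 : 0 ≤ 9433931 / 1600000 * (1 + (-(2444800 / 9433931)) * (t)) ^ 2 +
      55575469797 / 9433931000 * (t) ^ 2 := by positivity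
  have hQ5 : 0 ≤ 3571 / 500 * (1 + (-(159 / 3571)) * (t)) ^ 2 +
      27021189 / 3571000 * (t) ^ 2 := by positivity
  have e : (131 / 100 * (1 * u + v)) ^ 2 - (20 * a1 ^ 2 * (4 / 9 + t) - 2 * a1 * B1 * (9 / 2 * t + 10 / 9 * (u + v)) + B1 ^ 2 * u
      + (20 * a2 ^ 2 * (5 / 9 - t) - 2 * a2 * B2 * (9 / 2 * t - 10 / 9 * (u + v)) + B2 ^ 2 * v))
      = (195719 / 7200000 * (u + 79200 / 195719 * (t ^ 2) + (-(288000 / 195719)) * (t * u)) ^ 2 +
      34152083814033 / 78287600000000 * (t ^ 2 + (-(7344436000000 / 34152083814033)) * (t * u)) ^ 2 +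
      382267150850891 / 6830416762806600 * (t * u) ^ 2)
      + (4 / 9 + t) * (97937 / 1600000 * (v + (-(1050299 / 3147975)) * (t ^ 2) + 5180348 / 1133271 * (t * v)) ^ 2 +
      154667044191233 / 1133271000000000 * (t ^ 2 + 790883927381350 / 1392003397721097 * (t * v)) ^ 2 +
      1074084858698527259291 / 928002265147398000000 * (t * v) ^ 2)
      + u * (764354090219 / 129600000000 * (t + (-(180295413020 / 764354090219)) * (u) + 4917592656 / 764354090219 * (t ^ 2) + (-(1274928160 / 764354090219)) * (t * u)) ^ 2 +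
      426641335214993 / 51593901089782500 * (u + 6805266598170245397 / 853282670429986000 * (t ^ 2) + (-(167940292818008581 / 85328267042998600)) * (t * u)) ^ 2 +
      91456907611637335209979621 / 12799240056449790000000000 * (t ^ 2 + (-(22568437853193000251843330 / 91456907611637335209979621)) * (t * u)) ^ 2 +
      4336501824711168558253916531177 / 3704004758271312076004174650500000 * (t * u) ^ 2)
      + v * (118872678223 / 34560000000 * (t + 112507818604 / 356618034669 * (u) + 55863405860 / 246889408617 * (v) + (-(57784320000 / 118872678223)) * (t ^ 2) + (-(113556418048 / 356618034669)) * (t * u) + (-(24503040000 / 118872678223)) * (t * v)) ^ 2 +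
      41315972426389479577 / 72215152020472500000 * (u + 427165153852925012915 / 1487375007350021264772 * (v) + (-(92833173390174322500 / 41315972426389479577)) * (t ^ 2) + 16361362845890720321 / 41315972426389479577 * (t * u) + 10875263748619271190 / 41315972426389479577 * (t * v)) ^ 2 +
      884200703788238030726481599 / 48190950238140688978612800000 * (v + (-(5035380377492728802562771600 / 884200703788238030726481599)) * (t ^ 2) + 14398291411783054311238053044 / 4421003518941190153632407995 * (t * u) + 1258267853069527122627590312 / 884200703788238030726481599 * (t * v)) ^ 2 +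
      1853970219016646994759616917207 / 884200703788238030726481599000 * (t ^ 2 + 6416719428063696849248917475048477 / 20857164963937278691045690318578750 * (t * u) + 3791254135961708862329200694990 / 16685731971149822952836552254863 * (t * v)) ^ 2 +
      346855966363350064544427145993559324947787 / 703929317532883155822792048252032812500000 * (t * u + 73760703060444637571065777174688130043750 / 346855966363350064544427145993559324947787 * (t * v)) ^ 2 +
      5996661520078976967905514147703318633149373217 / 175595832971445970175616242659239408254817168750 * (t * v) ^ 2)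
      + (g * v) * (9433931 / 1600000 * (1 + (-(2444800 / 9433931)) * (t)) ^ 2 +
      55575469797 / 9433931000 * (t) ^ 2)
      + (g' * u) * (3571 / 500 * (1 + (-(159 / 3571)) * (t)) ^ 2 +
      27021189 / 3571000 * (t) ^ 2) := by
    rw [ha1, hb1, ha2, hb2, hgd, hgd']
    unfold pa pb qa qb
    ring
  have h1 := mul_nonneg hρ hQ1
  have h2 := mul_nonneg hu hQ2
  have h3 := mul_nonneg hv hQ3
  have h4 := mul_nonneg (mul_nonneg hg hv) hQ4
  have h5 := mul_nonneg (mul_nonneg hg' hu) hQ5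
  rw [← sub_nonneg, e]
  exact add_nonneg (add_nonneg (add_nonneg (add_nonneg (add_nonneg hQ0 h1) h2) h3) h4) h5

/-- the first block -/
noncomputable def uQ (ρ σ ν : ℝ) : ℝ := ν + 1 / 2 * √20 * σ + 5 / 4 * ρ

/-- the second block -/
noncomputable def vQ (ρ σ ν : ℝ) : ℝ := 1 - ν + 2 / 5 * √20 * σ + 4 / 5 * (1 - ρ)

/-- the integrand, for a coordinate -/
noncomputable def Ps (k : Prop) [Decidable k] (ρ σ ν x n : ℝ) : ℝ :=
  if k then -(√20 * qa (ρ - 4 / 9) (uQ ρ σ ν) (vQ ρ σ ν)) * x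
      + qb (ρ - 4 / 9) (uQ ρ σ ν) (vQ ρ σ ν) * (n - √20 / 5 * x)
    else -(√20 * pa (ρ - 4 / 9) (uQ ρ σ ν) (vQ ρ σ ν)) * x
      + pb (ρ - 4 / 9) (uQ ρ σ ν) (vQ ρ σ ν) * (n + √20 / 4 * x)

lemma Ps_in {k : Prop} [Decidable k] (hk : k) (ρ σ ν x n : ℝ) : Ps k ρ σ ν x n
    = n + (93067 / 180000 * √20) * x + ((-(48659 / 720000)) * √20) * (11 * (ρ * x) + 2 * (σ * n))
      + ((-(227 / 400)) * √20) * (ν * x - σ * n) + 11 / 80 * (10 * (ρ * n - σ * x) - 5 * n)
      + (47 / 5000 * √20) * (4 * (ρ * (0 * x)) - 13 * (ρ ^ 2 * x) - 4 * (ρ * σ * n)) := by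
  unfold Ps qa qb uQ vQ
  rw [if_pos hk]
  linear_combination ((-(11 / 160)) * σ * x) * sqK

lemma Ps_out {k : Prop} [Decidable k] (hk : ¬k) (ρ σ ν x n : ℝ) : Ps k ρ σ ν x n
    = n + (50119 / 72000 * √20) * x + ((-(45301 / 720000)) * √20) * (11 * (ρ * x) + 2 * (σ * n))
      + ((-(4613 / 8000)) * √20) * (ν * x - σ * n) + (-(113 / 2000)) * (10 * (ρ * n - σ * x) - 4 * n)
      + (17 / 2500 * √20) * (4 * (ρ * (1 * x)) - 13 * (ρ ^ 2 * x) - 4 * (ρ * σ * n)) := by
  unfold Ps pa pb uQ vQ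
  rw [if_neg hk]
  linear_combination (113 / 4000 * σ * x) * sqK

/-- the pointwise inequality -/
lemma pointwise' (S : Finset (Fin 11)) (x N u : Fin 11 → ℝ) (hx : ∑ i, x i ^ 2 = 1)
    (hN : ∑ i, N i ^ 2 = 1) (hu : ∑ i, u i ^ 2 = 1) (hxN : ∑ i, x i * N i = 0) :
    ∑ k, Ps (k ∈ S) (∑ i ∈ Finset.univ \ S, x i ^ 2) (∑ i ∈ Finset.univ \ S, x i * N i)
        (∑ i ∈ Finset.univ \ S, N i ^ 2) (x k) (N k) * u k
      ≤ 131 / 100 * ∑ i, (if i ∈ S then 1 else 1)
        * (N i - (if i ∈ S then √20 / 5 else -(√20 / 4)) * x i) ^ 2 := by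
  obtain ⟨ρ, hρ⟩ : ∃ ρ, ρ = ∑ i ∈ Finset.univ \ S, x i ^ 2 := ⟨_, rfl⟩
  obtain ⟨ν, hν⟩ : ∃ ν, ν = ∑ i ∈ Finset.univ \ S, N i ^ 2 := ⟨_, rfl⟩
  obtain ⟨σ, hσ⟩ : ∃ σ, σ = ∑ i ∈ Finset.univ \ S, x i * N i := ⟨_, rfl⟩
  rw [← hρ, ← hν, ← hσ]
  have spl : ∀ f : Fin 11 → ℝ, ∑ i, f i = ∑ i ∈ S, f i + ∑ i ∈ Finset.univ \ S, f i := fun f => by
    rw [add_comm, Finset.sum_sdiff (Finset.subset_univ S)]
  have hρ2 : ∑ i ∈ S, x i ^ 2 = 1 - ρ := by
    have := spl fun i => x i ^ 2
    rw [hx, ← hρ] at this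
    linarith
  have hν2 : ∑ i ∈ S, N i ^ 2 = 1 - ν := by
    have := spl fun i => N i ^ 2
    rw [hN, ← hν] at this
    linarith
  have hσ2 : ∑ i ∈ S, x i * N i = -σ := by
    have := spl fun i => x i * N i
    rw [hxN, ← hσ] at this
    linarith
  have q6 := sqK
  have hA : ∑ i ∈ Finset.univ \ S, (N i + √20 / 4 * x i) ^ 2 = uQ ρ σ ν := by
    have : ∑ i ∈ Finset.univ \ S, (N i + √20 / 4 * x i) ^ 2 = ∑ i ∈ Finset.univ \ S,
        (N i ^ 2 + (1 / 2 * √20) * (x i * N i) + 5 / 4 * x i ^ 2) :=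
      Finset.sum_congr rfl fun i _ => by linear_combination (x i ^ 2 / 16) * q6
    rw [this, Finset.sum_add_distrib, Finset.sum_add_distrib, ← Finset.mul_sum,
      ← Finset.mul_sum, ← hρ, ← hν, ← hσ]
    rfl
  have hB : ∑ i ∈ S, (N i - √20 / 5 * x i) ^ 2 = vQ ρ σ ν := by
    have : ∑ i ∈ S, (N i - √20 / 5 * x i) ^ 2 = ∑ i ∈ S,
        (N i ^ 2 + (-(2 / 5 * √20)) * (x i * N i) + 4 / 5 * x i ^ 2) :=
      Finset.sum_congr rfl fun i _ => by linear_combination (x i ^ 2 / 25) * q6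
    rw [this, Finset.sum_add_distrib, Finset.sum_add_distrib, ← Finset.mul_sum,
      ← Finset.mul_sum, hρ2, hν2, hσ2]
    unfold vQ
    ring
  obtain ⟨U, hU⟩ : ∃ U, U = uQ ρ σ ν := ⟨_, rfl⟩
  obtain ⟨V, hV⟩ : ∃ V, V = vQ ρ σ ν := ⟨_, rfl⟩
  obtain ⟨t, ht⟩ : ∃ t, t = ρ - 4 / 9 := ⟨_, rfl⟩
  obtain ⟨a, ha⟩ : ∃ a, a = pa t U V := ⟨_, rfl⟩
  obtain ⟨α, hα⟩ : ∃ α, α = pb t U V := ⟨_, rfl⟩
  obtain ⟨b, hb⟩ : ∃ b, b = qa t U V := ⟨_, rfl⟩
  obtain ⟨β, hβ⟩ : ∃ β, β = qb t U V := ⟨_, rfl⟩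
  obtain ⟨y, hy⟩ : ∃ y, y = 9 / 2 * t + 10 / 9 * (U + V) := ⟨_, rfl⟩
  obtain ⟨z, hz⟩ : ∃ z, z = 9 / 2 * t - 10 / 9 * (U + V) := ⟨_, rfl⟩
  obtain ⟨g, hg⟩ : ∃ g, g = (4 / 9 + t) * U - (9 / 2 * t + 10 / 9 * (U + V)) ^ 2 / 20 := ⟨_, rfl⟩
  obtain ⟨g', hg'⟩ : ∃ g', g' = (5 / 9 - t) * V - (9 / 2 * t - 10 / 9 * (U + V)) ^ 2 / 20 := ⟨_, rfl⟩
  have hU0 : 0 ≤ U := by
    rw [hU, ← hA]
    exact Finset.sum_nonneg fun i _ => sq_nonneg _
  have hV0 : 0 ≤ V := by
    rw [hV, ← hB]
    exact Finset.sum_nonneg fun i _ => sq_nonneg _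
  have hρ0 : 0 ≤ ρ := by
    rw [hρ]
    exact Finset.sum_nonneg fun i _ => sq_nonneg _
  have hρ1 : 0 ≤ 1 - ρ := by
    rw [← hρ2]
    exact Finset.sum_nonneg fun i _ => sq_nonneg _
  have hp1 : √20 * (σ + √20 / 4 * ρ) = y := by
    rw [hy, hU, hV, ht]
    unfold uQ vQ
    linear_combination (ρ / 4) * q6
  have hp1' : ∑ i ∈ Finset.univ \ S, x i * (N i + √20 / 4 * x i) = σ + √20 / 4 * ρ := by
    rw [hσ, hρ, Finset.mul_sum, ← Finset.sum_add_distrib]
    exact Finset.sum_congr rfl fun i _ => by ring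
  have hp2' : ∑ i ∈ S, x i * (N i - √20 / 5 * x i) = -σ - √20 / 5 * (1 - ρ) := by
    rw [← hσ2, ← hρ2, Finset.mul_sum, ← Finset.sum_sub_distrib]
    exact Finset.sum_congr rfl fun i _ => by ring
  have hp2 : √20 * (-σ - √20 / 5 * (1 - ρ)) = z := by
    rw [hz, hU, hV, ht]
    unfold uQ vQ
    linear_combination (-(1 - ρ) / 5) * q6
  have hcs := Finset.sum_mul_sq_le_sq_mul_sq (Finset.univ \ S) x fun i => N i + √20 / 4 * x i
  rw [hp1', ← hρ, hA, ← hU] at hcs
  have hcs' := Finset.sum_mul_sq_le_sq_mul_sq S x fun i => N i - √20 / 5 * x i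
  rw [hp2', hρ2, hB, ← hV] at hcs'
  have hg0 : 0 ≤ g := by
    have e : y ^ 2 = 20 * (σ + √20 / 4 * ρ) ^ 2 := by
      rw [← hp1]
      linear_combination ((σ + √20 / 4 * ρ) ^ 2) * q6
    rw [hg, ← hy, e, ht]
    linarith
  have hg0' : 0 ≤ g' := by
    have e : z ^ 2 = 20 * (-σ - √20 / 5 * (1 - ρ)) ^ 2 := by
      rw [← hp2]
      linear_combination ((-σ - √20 / 5 * (1 - ρ)) ^ 2) * q6
    rw [hg', ← hz, e, ht]
    linarith
  have hρt : 0 ≤ 4 / 9 + t := by rw [ht]; linarith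
  have hρt' : 0 ≤ 5 / 9 - t := by rw [ht]; linarith
  have key := cert hρt hρt' hU0 hV0 hg0 hg0' hg hg' ha hα hb hβ
  rw [← hy, ← hz] at key
  have hPs : ∀ k, Ps (k ∈ S) ρ σ ν (x k) (N k)
      = if k ∈ S then -(√20 * b) * x k + β * (N k - √20 / 5 * x k)
        else -(√20 * a) * x k + α * (N k + √20 / 4 * x k) := by
    intro k
    unfold Ps
    rw [← hU, ← hV, ← ht, ← ha, ← hβ, ← hα, ← hb]
  have nS : ∑ k ∈ S, (-(√20 * b) * x k + β * (N k - √20 / 5 * x k)) ^ 2
      = 20 * b ^ 2 * (5 / 9 - t) - 2 * b * β * z + β ^ 2 * V := by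
    have : ∑ k ∈ S, (-(√20 * b) * x k + β * (N k - √20 / 5 * x k)) ^ 2
        = ∑ k ∈ S, (20 * b ^ 2 * x k ^ 2 + (-2 * √20 * b * β) * (x k * (N k - √20 / 5 * x k))
          + β ^ 2 * (N k - √20 / 5 * x k) ^ 2) :=
      Finset.sum_congr rfl fun i _ => by linear_combination (b ^ 2 * x i ^ 2) * q6
    rw [this, Finset.sum_add_distrib, Finset.sum_add_distrib, ← Finset.mul_sum,
      ← Finset.mul_sum, ← Finset.mul_sum, hρ2, hB, ← hV, hp2', ht]
    linear_combination (-2 * b * β) * hp2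
  have nA : ∑ k ∈ Finset.univ \ S, (-(√20 * a) * x k + α * (N k + √20 / 4 * x k)) ^ 2
      = 20 * a ^ 2 * (4 / 9 + t) - 2 * a * α * y + α ^ 2 * U := by
    have : ∑ k ∈ Finset.univ \ S, (-(√20 * a) * x k + α * (N k + √20 / 4 * x k)) ^ 2
        = ∑ k ∈ Finset.univ \ S, (20 * a ^ 2 * x k ^ 2
          + (-2 * √20 * a * α) * (x k * (N k + √20 / 4 * x k))
          + α ^ 2 * (N k + √20 / 4 * x k) ^ 2) :=
      Finset.sum_congr rfl fun i _ => by linear_combination (a ^ 2 * x i ^ 2) * q6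
    rw [this, Finset.sum_add_distrib, Finset.sum_add_distrib, ← Finset.mul_sum,
      ← Finset.mul_sum, ← Finset.mul_sum, ← hρ, hA, ← hU, hp1', ht]
    linear_combination (-2 * a * α) * hp1
  have hn2 : ∑ k, Ps (k ∈ S) ρ σ ν (x k) (N k) ^ 2 ≤ (131 / 100 * (1 * U + V)) ^ 2 := by
    refine le_trans (le_of_eq ?_) key
    rw [spl, ← nS, ← nA, add_comm]
    congr 1
    · refine Finset.sum_congr rfl fun i hi => ?_
      rw [hPs, if_neg (Finset.mem_sdiff.1 hi).2]
    · refine Finset.sum_congr rfl fun i hi => ?_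
      rw [hPs, if_pos hi]
  have hfin : ∑ i, (if i ∈ S then (1 : ℝ) else 1)
      * (N i - (if i ∈ S then √20 / 5 else -(√20 / 4)) * x i) ^ 2 = 1 * U + V := by
    rw [spl, hU, hV, ← hA, ← hB, Finset.mul_sum, add_comm]
    congr 1
    · refine Finset.sum_congr rfl fun i hi => ?_
      have := (Finset.mem_sdiff.1 hi).2
      rw [if_neg this, if_neg this]
      ring
    · refine Finset.sum_congr rfl fun i hi => ?_
      rw [if_pos hi, if_pos hi, one_mul]
  rw [hfin]
  have hcs2 := Finset.sum_mul_sq_le_sq_mul_sq Finset.univ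
    (fun k => Ps (k ∈ S) ρ σ ν (x k) (N k)) u
  rw [hu, mul_one] at hcs2
  exact (abs_le_of_sq_le_sq' (hcs2.trans hn2) (by positivity)).2

section

variable {X : Type*} [MeasurableSpace X] {E : Type*} [NormedAddCommGroup E]
  [InnerProductSpace ℝ E] [FiniteDimensional ℝ E] [MeasurableSpace E] [BorelSpace E]
  {μ : Measure X} [IsFiniteMeasure μ] {p n : X → E}

/-- the integrand differs from the normal by a null function -/
lemma coord' (h : TwoG μ 9 p n) (hp : UF p) (hn : UF n) [Nonempty X]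
    (hsp : ∀ w, (∀ x, ⟪p x, w⟫ = 0) → w = 0) (b : OrthonormalBasis (Fin 11) ℝ E)
    (S : Finset (Fin 11)) (hS : S.card = 6) (k : Fin 11) :
    Nul μ (fun x => Ps (k ∈ S) (bρ p b (Finset.univ \ S) x) (bσ p n b (Finset.univ \ S) x)
      (bρ n b (Finset.univ \ S) x) ⟪p x, b k⟫ ⟪n x, b k⟫ - ⟪n x, b k⟫) := by
  have hc : (Finset.univ \ S).card = 5 := by
    rw [Finset.card_sdiff_of_subset (Finset.subset_univ S), hS]
    simp
  have n0 := nul0 h (by norm_num) hp (b k) (μ := μ)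
  have n1 := blk1 h (by norm_num) hp hn hsp b (Finset.univ \ S) (b k)
  have n2 := blk2 h (by norm_num) hp hn hsp b (Finset.univ \ S) (b k)
  have n3 := blk3 h hp hn hsp b (Finset.univ \ S) k
  have n4 := blk4 h hp hn hsp b (Finset.univ \ S) k
  by_cases hk : k ∈ S
  · have hk' : k ∉ Finset.univ \ S := fun hh => (Finset.mem_sdiff.1 hh).2 hk
    refine (((((n0.cmul (93067 / 180000 * √20)).add (n1.cmul ((-(48659 / 720000)) * √20))).add
      (n2.cmul ((-(227 / 400)) * √20))).add (n3.cmul (11 / 80))).add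
      (n4.cmul (47 / 5000 * √20))).congr fun x => ?_
    rw [Ps_in hk, hc, if_neg hk']
    push_cast
    ring
  · have hk' : k ∈ Finset.univ \ S := Finset.mem_sdiff.2 ⟨Finset.mem_univ k, hk⟩
    refine (((((n0.cmul (50119 / 72000 * √20)).add (n1.cmul ((-(45301 / 720000)) * √20))).add
      (n2.cmul ((-(4613 / 8000)) * √20))).add (n3.cmul ((-(113 / 2000))))).add
      (n4.cmul (17 / 2500 * √20))).congr fun x => ?_
    rw [Ps_out hk, hc, if_pos hk']
    push_cast
    ring

/-- the one point identity -/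
theorem one (h : TwoG μ 9 p n) [Nonempty X]
    (hsp : ∀ w, (∀ x, ⟪p x, w⟫ = 0) → w = 0) (b : OrthonormalBasis (Fin 11) ℝ E)
    (S : Finset (Fin 11)) (hS : S.card = 6) :
    ‖∫ x, n x ∂μ‖ ≤ 131 / 100 * ∫ x, ∑ i, (if i ∈ S then 1 else 1)
      * (⟪n x, b i⟫ - (if i ∈ S then √20 / 5 else -(√20 / 4)) * ⟪p x, b i⟫) ^ 2 ∂μ :=
  one_abs h b (Cc := 131 / 100) (by norm_num) (fun i => if i ∈ S then (1 : ℝ) else 1)
    (fun i => by split_ifs <;> norm_num) (fun i => if i ∈ S then √20 / 5 else -(√20 / 4))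
    (fun k x => Ps (k ∈ S) (bρ p b (Finset.univ \ S) x) (bσ p n b (Finset.univ \ S) x)
      (bρ n b (Finset.univ \ S) x) ⟪p x, b k⟫ ⟪n x, b k⟫)
    (fun k => coord' h ⟨h.mp, h.np⟩ ⟨h.mn, h.nn⟩ hsp b S hS k)
    (fun x u hx hN hu hxN => pointwise' S (fun i => ⟪p x, b i⟫) (fun i => ⟪n x, b i⟫) u hx hN
      hu hxN)

/-- the one point identity with the norm -/
theorem one_norm (h : TwoG μ 9 p n) [Nonempty X]
    (hsp : ∀ w, (∀ x, ⟪p x, w⟫ = 0) → w = 0) {α : ℝ} (hα : 0 < α) (hα2 : α ^ 2 = 4 / 5)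
    (b : OrthonormalBasis (Fin 11) ℝ E) (S : Finset (Fin 11)) (hS : S.card = 6) :
    ‖∫ x, n x ∂μ‖ ≤ 131 / 100 * ∫ x, ‖n x - ∑ i, ((if i ∈ S then α else -(1 / α))
      * ⟪p x, b i⟫) • b i‖ ^ 2 ∂μ := by
  have h1 : α = √20 / 5 := by
    have h2 : (√20 / 5 : ℝ) ^ 2 = α ^ 2 := by
      rw [hα2, div_pow, sqK]
      norm_num
    exact ((sq_eq_sq₀ (by positivity) hα.le).1 h2).symm
  have h3 : 1 / α = √20 / 4 := by
    rw [h1, one_div_div, div_eq_div_iff (by positivity) (by norm_num)]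
    linear_combination -sqK
  have h4 := one h hsp b S hS
  rw [h1] at *
  rw [h3]
  refine h4.trans (le_of_eq ?_)
  congr 1
  refine integral_congr_ae (Eventually.of_forall fun x => ?_)
  simp only
  rw [norm_dev]
  exact Finset.sum_congr rfl fun i _ => by rw [ite_self, one_mul]

end

end Vale.Agent.P224.SO.One9
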