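import Vale.Agent.P224.SO.NulF

/-!
The bound of the mean normal from a pointwise inequality, in general.
-/

namespace Vale.Agent.P224.SO

open MeasureTheory Set Filter Function Module Vale.Agent.P224.UE
open scoped Topology RealInnerProductSpace ContDiff

set_option linter.unusedSectionVars false

section

variable {X : Type*} [MeasurableSpace X] {E : Type*} [NormedAddCommGroup E]
  [InnerProductSpace ℝ E] [FiniteDimensional ℝ E] [MeasurableSpace E] [BorelSpace E]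
  {μ : Measure X} [IsFiniteMeasure μ] {p n : X → E} {m : ℕ}
  {ι : Type*} [Fintype ι] [DecidableEq ι]

lemma ips_b (b : OrthonormalBasis ι ℝ E) (u v : E) : ∑ i, ⟪u, b i⟫ * ⟪v, b i⟫ = ⟪u, v⟫ := by
  rw [← b.sum_inner_mul_inner u v]
  exact Finset.sum_congr rfl fun i _ => by rw [real_inner_comm v]

lemma norm_dev (b : OrthonormalBasis ι ℝ E) (z : ι → ℝ) (x y : E) :
    ‖y - ∑ i, (z i * ⟪x, b i⟫) • b i‖ ^ 2 = ∑ i, (⟪y, b i⟫ - z i * ⟪x, b i⟫) ^ 2 := by
  rw [← real_inner_self_eq_norm_sq, ← ips_b b]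
  refine Finset.sum_congr rfl fun i _ => ?_
  have : ⟪y - ∑ j, (z j * ⟪x, b j⟫) • b j, b i⟫ = ⟪y, b i⟫ - z i * ⟪x, b i⟫ := by
    rw [inner_sub_left, sum_inner]
    congr 1
    rw [Finset.sum_eq_single i]
    · rw [real_inner_smul_left, inner_b, if_pos rfl, mul_one]
    · intro j _ hj
      rw [real_inner_smul_left, inner_b, if_neg hj, mul_zero]
    · intro hi
      exact absurd (Finset.mem_univ i) hi
  rw [this, sq]

theorem one_abs (h : TwoG μ m p n) (b : OrthonormalBasis ι ℝ E) {Cc : ℝ} (hC : 0 ≤ Cc)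
    (w : ι → ℝ) (hw : ∀ i, 0 ≤ w i) (z : ι → ℝ) (Psi : ι → X → ℝ)
    (hΨ : ∀ k, Nul μ (fun x => Psi k x - ⟪n x, b k⟫))
    (hpt : ∀ (x : X) (u : ι → ℝ), ∑ i, ⟪p x, b i⟫ ^ 2 = 1 → ∑ i, ⟪n x, b i⟫ ^ 2 = 1 →
      ∑ i, u i ^ 2 = 1 → ∑ i, ⟪p x, b i⟫ * ⟪n x, b i⟫ = 0 →
      ∑ k, Psi k x * u k ≤ Cc * ∑ i, w i * (⟪n x, b i⟫ - z i * ⟪p x, b i⟫) ^ 2) :
    ‖∫ x, n x ∂μ‖ ≤ Cc * ∫ x, ∑ i, w i * (⟪n x, b i⟫ - z i * ⟪p x, b i⟫) ^ 2 ∂μ := by
  have hp : UF p := ⟨h.mp, h.np⟩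
  have hn : UF n := ⟨h.mn, h.nn⟩
  have bx : ∀ i, BM fun x => ⟪p x, b i⟫ := fun i => bm_inner hp _
  have bn : ∀ i, BM fun x => ⟪n x, b i⟫ := fun i => bm_inner hn _
  have ips : ∀ u v : E, ∑ i, ⟪u, b i⟫ * ⟪v, b i⟫ = ⟪u, v⟫ := ips_b b
  have hxx : ∀ x, ∑ i, ⟪p x, b i⟫ ^ 2 = 1 := fun x => by
    have := ips (p x) (p x)
    rw [real_inner_self_eq_norm_sq, hp.unit, one_pow] at this
    simpa only [sq] using this
  have hnn : ∀ x, ∑ i, ⟪n x, b i⟫ ^ 2 = 1 := fun x => by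
    have := ips (n x) (n x)
    rw [real_inner_self_eq_norm_sq, hn.unit, one_pow] at this
    simpa only [sq] using this
  have hxn : ∀ x, ∑ i, ⟪p x, b i⟫ * ⟪n x, b i⟫ = 0 := fun x => by rw [ips, h.pn]
  set v := ∫ x, n x ∂μ with hv
  have hIn : Integrable n μ :=
    Integrable.of_bound hn.meas.aestronglyMeasurable 1
      (Eventually.of_forall fun x => (hn.unit x).le)
  have bh : ∀ i, BM fun x => ⟪n x, b i⟫ - z i * ⟪p x, b i⟫ := fun i => by
    have := (bn i).add ((bx i).cmul (-(z i)))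
    simpa only [neg_mul, ← sub_eq_add_neg] using this
  have bH : BM fun x => ∑ i, w i * (⟪n x, b i⟫ - z i * ⟪p x, b i⟫) ^ 2 := by
    simpa only [sq] using BM.sum Finset.univ fun i => ((bh i).mul (bh i)).cmul (w i)
  rcases eq_or_ne v 0 with h0 | h0
  · rw [h0, norm_zero]
    exact mul_nonneg hC (integral_nonneg fun x => Finset.sum_nonneg fun i _ =>
      mul_nonneg (hw i) (sq_nonneg _))
  have hvp : 0 < ‖v‖ := norm_pos_iff.2 h0
  have hvk : ∀ k, ⟪v, b k⟫ = ∫ x, ⟪n x, b k⟫ ∂μ := by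
    intro k
    rw [hv, real_inner_comm, ← integral_inner hIn]
    exact integral_congr_ae (Eventually.of_forall fun x => real_inner_comm _ _)
  set u : ι → ℝ := fun k => ⟪v, b k⟫ / ‖v‖ with hu
  have huu : ∑ k, u k ^ 2 = 1 := by
    have : ∑ k, u k ^ 2 = (∑ k, ⟪v, b k⟫ * ⟪v, b k⟫) / ‖v‖ ^ 2 := by
      rw [Finset.sum_div]
      exact Finset.sum_congr rfl fun i _ => by simp only [hu]; rw [div_pow, sq ⟪v, b i⟫]
    rw [this, ips, real_inner_self_eq_norm_sq, div_self (by positivity)]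
  have bV : ∀ k, BM (Psi k) := fun k => by
    have := ((hΨ k).bm).add (bn k)
    simpa only [sub_add_cancel] using this
  have hVk : ∀ k, ∫ x, Psi k x ∂μ = ⟪v, b k⟫ := fun k => by
    have := (hΨ k).int
    rw [integral_sub (bV k).int (bn k).int, sub_eq_zero] at this
    rw [hvk]
    exact this
  have h1 : ‖v‖ = ∫ x, ∑ k, Psi k x * u k ∂μ := by
    rw [integral_finsetSum _ fun k _ => (bV k).int.mul_const _]
    have : ∀ k, ∫ x, Psi k x * u k ∂μ = ⟪v, b k⟫ * ⟪v, b k⟫ / ‖v‖ := by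
      intro k
      rw [integral_mul_const, hVk]
      simp only [hu]
      ring
    simp only [this]
    rw [← Finset.sum_div, ips, real_inner_self_eq_norm_sq, sq, mul_div_assoc,
      div_self hvp.ne', mul_one]
  rw [h1, ← integral_const_mul]
  exact integral_mono (BM.sum Finset.univ fun k => (bV k).mul (BM.const (u k))).int
    (bH.cmul Cc).int fun x => hpt x u (hxx x) (hnn x) huu (hxn x)

end

end Vale.Agent.P224.SO
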