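import Vale.Agent.P224.SO.NulF

/-!
The one point identity in dimension five with the constant 11/8 and the weight two on the block of
dimension three.
-/

namespace Vale.Agent.P224.SO

open MeasureTheory Set Filter Function Module Vale.Agent.P224.UE
open scoped Topology RealInnerProductSpace ContDiff

set_option linter.unusedSectionVars false

/-- the certificate -/
lemma certQ {t u v g : ℝ} (hρ : 0 ≤ 2 / 5 + t) (hu : 0 ≤ u) (hv : 0 ≤ v) (hg : 0 ≤ g)
    (hgd : g = (2 / 5 + t) * u - (5 / 2 * t + 3 / 5 * (u + v)) ^ 2 / 6) :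
    6 * u * g + (6 * (5 / 8 * (u - v) + 25 / 6 * t ^ 2 + 2 / 5 * t * (u + v)) ^ 2 * (3 / 5 - t)
      + 2 * (5 / 8 * (u - v) + 25 / 6 * t ^ 2 + 2 / 5 * t * (u + v))
        * (3 / 8 * (u + v) + 367 / 80 * t - 6 / 5 * t * (u + v) + t ^ 2)
        * (3 / 5 * (u + v) - 5 / 2 * t)
      + (3 / 8 * (u + v) + 367 / 80 * t - 6 / 5 * t * (u + v) + t ^ 2) ^ 2 * v)
      ≤ 121 / 64 * (2 * u + v) ^ 2 := by
  have hQ0 : 0 ≤ 1 / 96 * (t ^ 2) ^ 2 := by positivity
  have hQ1 : 0 ≤ 813 / 320 * (u + (-398 / 1355) * (v) + (-11564 / 4065) * (t ^ 2) + (-279976 / 101625) * (t * v)) ^ 2 +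
      4300201 / 4336000 * (v + (-131569348 / 12900603) * (t ^ 2) + 415322424 / 107505025 * (t * v)) ^ 2 +
      9944307859 / 7740361800 * (t ^ 2 + (-2106626433909 / 9944307859000) * (t * v)) ^ 2 +
      610500583312961573 / 5966584715400000000 * (t * v) ^ 2 := by positivity
  have hQ2 : 0 ≤ 395969 / 48000 * (t + (-111 / 8081) * (u) + (-147663 / 9899225) * (v) + (-108000 / 395969) * (t ^ 2) + (-580248 / 1979845) * (t * u)) ^ 2 +
      63121473 / 129296000 * (u + 496091606 / 175337425 * (v) + 73659680 / 21040491 * (t ^ 2) + (-6579864 / 7013497) * (t * u)) ^ 2 +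
      524621679231753 / 3436613530000000 * (v + 1157916006692000 / 174873893077251 * (t ^ 2) + (-327387215263960 / 174873893077251) * (t * u)) ^ 2 +
      22255824545213989 / 4663303815393360 * (t ^ 2 + (-160725204574989902 / 556395613630349725) * (t * u)) ^ 2 +
      157086355888616491 / 27819780681517486250 * (t * u) ^ 2 := by positivity
  have hQ3 : 0 ≤ 8800843 / 480000 * (t + 12919317 / 44004215 * (v) + (-10291200 / 8800843) * (t ^ 2) + (-4094400 / 8800843) * (t * u) + (-1848000 / 8800843) * (t * v)) ^ 2 +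
      7251933242937 / 35203372000000 * (v + (-113543976256000 / 7251933242937) * (t ^ 2) + 8067977652800 / 2417311080979 * (t * u) + 5096649816000 / 2417311080979 * (t * v)) ^ 2 +
      1499235799819952 / 181298331073425 * (t ^ 2 + (-1818908819521599 / 23987772797119232) * (t * u) + 992350277309259 / 5996943199279808 * (t * v)) ^ 2 +
      4236987652866992211 / 47975545594238464000 * (t * u + 11691075174291406108 / 7061646088111653685 * (t * v)) ^ 2 +
      1833586622884280122227 / 35308230440558268425000 * (t * v) ^ 2 := by positivity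
  have hQ4 : 0 ≤ 813 / 50 * (t) ^ 2 := by positivity
  have hQ5 : 0 ≤ 137 / 20 * (1 + (-1308 / 685) * (t)) ^ 2 +
      1503 / 34250 * (t) ^ 2 := by positivity
  have hQ6 : 0 ≤ 2743 / 100 * (1 + (-1010 / 2743) * (t)) ^ 2 +
      13191383 / 274300 * (t) ^ 2 := by positivity
  have e : 121 / 64 * (2 * u + v) ^ 2 - (6 * u * g + (6 * (5 / 8 * (u - v) + 25 / 6 * t ^ 2 + 2 / 5 * t * (u + v)) ^ 2 * (3 / 5 - t)
      + 2 * (5 / 8 * (u - v) + 25 / 6 * t ^ 2 + 2 / 5 * t * (u + v))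
        * (3 / 8 * (u + v) + 367 / 80 * t - 6 / 5 * t * (u + v) + t ^ 2)
        * (3 / 5 * (u + v) - 5 / 2 * t)
      + (3 / 8 * (u + v) + 367 / 80 * t - 6 / 5 * t * (u + v) + t ^ 2) ^ 2 * v))
      = (1 / 96 * (t ^ 2) ^ 2)
      + (2 / 5 + t) * (813 / 320 * (u + (-398 / 1355) * (v) + (-11564 / 4065) * (t ^ 2) + (-279976 / 101625) * (t * v)) ^ 2 +
      4300201 / 4336000 * (v + (-131569348 / 12900603) * (t ^ 2) + 415322424 / 107505025 * (t * v)) ^ 2 +
      9944307859 / 7740361800 * (t ^ 2 + (-2106626433909 / 9944307859000) * (t * v)) ^ 2 +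
      610500583312961573 / 5966584715400000000 * (t * v) ^ 2)
      + u * (395969 / 48000 * (t + (-111 / 8081) * (u) + (-147663 / 9899225) * (v) + (-108000 / 395969) * (t ^ 2) + (-580248 / 1979845) * (t * u)) ^ 2 +
      63121473 / 129296000 * (u + 496091606 / 175337425 * (v) + 73659680 / 21040491 * (t ^ 2) + (-6579864 / 7013497) * (t * u)) ^ 2 +
      524621679231753 / 3436613530000000 * (v + 1157916006692000 / 174873893077251 * (t ^ 2) + (-327387215263960 / 174873893077251) * (t * u)) ^ 2 +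
      22255824545213989 / 4663303815393360 * (t ^ 2 + (-160725204574989902 / 556395613630349725) * (t * u)) ^ 2 +
      157086355888616491 / 27819780681517486250 * (t * u) ^ 2)
      + v * (8800843 / 480000 * (t + 12919317 / 44004215 * (v) + (-10291200 / 8800843) * (t ^ 2) + (-4094400 / 8800843) * (t * u) + (-1848000 / 8800843) * (t * v)) ^ 2 +
      7251933242937 / 35203372000000 * (v + (-113543976256000 / 7251933242937) * (t ^ 2) + 8067977652800 / 2417311080979 * (t * u) + 5096649816000 / 2417311080979 * (t * v)) ^ 2 +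
      1499235799819952 / 181298331073425 * (t ^ 2 + (-1818908819521599 / 23987772797119232) * (t * u) + 992350277309259 / 5996943199279808 * (t * v)) ^ 2 +
      4236987652866992211 / 47975545594238464000 * (t * u + 11691075174291406108 / 7061646088111653685 * (t * v)) ^ 2 +
      1833586622884280122227 / 35308230440558268425000 * (t * v) ^ 2)
      + g * (813 / 50 * (t) ^ 2)
      + (g * u) * (137 / 20 * (1 + (-1308 / 685) * (t)) ^ 2 +
      1503 / 34250 * (t) ^ 2)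
      + (g * v) * (2743 / 100 * (1 + (-1010 / 2743) * (t)) ^ 2 +
      13191383 / 274300 * (t) ^ 2) := by
    rw [hgd]
    ring
  have h1 := mul_nonneg hρ hQ1
  have h2 := mul_nonneg hu hQ2
  have h3 := mul_nonneg hv hQ3
  have h4 := mul_nonneg hg hQ4
  have h5 := mul_nonneg (mul_nonneg hg hu) hQ5
  have h6 := mul_nonneg (mul_nonneg hg hv) hQ6
  rw [← sub_nonneg, e]
  exact add_nonneg (add_nonneg (add_nonneg (add_nonneg (add_nonneg (add_nonneg hQ0 h1) h2) h3) h4) h5) h6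

/-- the coefficient of the position in the block of dimension four -/
noncomputable def qa (t u v : ℝ) : ℝ := 5 / 8 * (u - v) + 25 / 6 * t ^ 2 + 2 / 5 * t * (u + v)

/-- the coefficient of the deviation in the block of dimension four -/
noncomputable def qb (t u v : ℝ) : ℝ :=
  3 / 8 * (u + v) + 367 / 80 * t - 6 / 5 * t * (u + v) + t ^ 2

/-- the first block -/
noncomputable def uQ (ρ σ ν : ℝ) : ℝ := ν + √6 * σ + 3 / 2 * ρ

/-- the second block -/
noncomputable def vQ (ρ σ ν : ℝ) : ℝ := 1 - ν + 2 / 3 * √6 * σ + 2 / 3 * (1 - ρ)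

/-- the integrand, for a coordinate -/
noncomputable def PsQ (k : Prop) [Decidable k] (ρ σ ν x n : ℝ) : ℝ :=
  if k then -(√6 * qa (ρ - 2 / 5) (uQ ρ σ ν) (vQ ρ σ ν)) * x
      + qb (ρ - 2 / 5) (uQ ρ σ ν) (vQ ρ σ ν) * (n - √6 / 3 * x)
    else -(√6 * uQ ρ σ ν) * x + (√6 * (σ + √6 / 2 * ρ)) * (n + √6 / 2 * x)

lemma PsQ_in {k : Prop} [Decidable k] (hk : k) (ρ σ ν x n : ℝ) : PsQ k ρ σ ν x n
    = n + (29 * √6 / 40) * x + (7 * √6 / 80) * (7 * (ρ * x) + 2 * (σ * n))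
      + (-(5 * √6 / 4)) * (ν * x - σ * n) + (5 / 12) * (6 * (ρ * n - σ * x) - 3 * n)
      + (√6 / 2) * (-9 * (ρ ^ 2 * x) - 4 * (ρ * σ * n)) := by
  unfold PsQ qa qb uQ vQ
  rw [if_pos hk]
  linear_combination ((-5 / 12) * σ * x) * sq6

lemma PsQ_out {k : Prop} [Decidable k] (hk : ¬k) (ρ σ ν x n : ℝ) : PsQ k ρ σ ν x n
    = n + (-√6) * (ν * x - σ * n) + (1 / 2) * (6 * (ρ * n - σ * x) - 2 * n) := by
  unfold PsQ uQ
  rw [if_neg hk]
  linear_combination ((-1 / 2) * σ * x + (1 / 2) * ρ * n + (1 / 4) * √6 * ρ * x) * sq6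

/-- the pointwise inequality with the constant 11/8 -/
lemma pointwiseQ (S : Finset (Fin 7)) (x N u : Fin 7 → ℝ) (hx : ∑ i, x i ^ 2 = 1)
    (hN : ∑ i, N i ^ 2 = 1) (hu : ∑ i, u i ^ 2 = 1) (hxN : ∑ i, x i * N i = 0) :
    ∑ k, PsQ (k ∈ S) (∑ i ∈ Finset.univ \ S, x i ^ 2) (∑ i ∈ Finset.univ \ S, x i * N i)
        (∑ i ∈ Finset.univ \ S, N i ^ 2) (x k) (N k) * u k
      ≤ 11 / 8 * ∑ i, (if i ∈ S then 1 else 2) * (N i - zc S i * x i) ^ 2 := by
  obtain ⟨ρ, hρ⟩ : ∃ ρ, ρ = ∑ i ∈ Finset.univ \ S, x i ^ 2 := ⟨_, rfl⟩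
  obtain ⟨ν, hν⟩ : ∃ ν, ν = ∑ i ∈ Finset.univ \ S, N i ^ 2 := ⟨_, rfl⟩
  obtain ⟨σ, hσ⟩ : ∃ σ, σ = ∑ i ∈ Finset.univ \ S, x i * N i := ⟨_, rfl⟩
  rw [← hρ, ← hν, ← hσ]
  have spl : ∀ f : Fin 7 → ℝ, ∑ i, f i = ∑ i ∈ S, f i + ∑ i ∈ Finset.univ \ S, f i := fun f => by
    rw [add_comm, Finset.sum_sdiff (Finset.subset_univ S)]
  have hρ2 : ∑ i ∈ S, x i ^ 2 = 1 - ρ := by
    have := spl fun i => x i ^ 2
    rw [hx, ← hρ] at this
    linarith
  have hν2 : ∑ i ∈ S, N i ^ 2 = 1 - ν := by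
    have := spl fun i => N i ^ 2
    rw [hN, ← hν] at this
    linarith
  have hσ2 : ∑ i ∈ S, x i * N i = -σ := by
    have := spl fun i => x i * N i
    rw [hxN, ← hσ] at this
    linarith
  have q6 := sq6
  -- the blocks
  have hA : ∑ i ∈ Finset.univ \ S, (N i + √6 / 2 * x i) ^ 2 = uQ ρ σ ν := by
    have : ∑ i ∈ Finset.univ \ S, (N i + √6 / 2 * x i) ^ 2 = ∑ i ∈ Finset.univ \ S,
        (N i ^ 2 + √6 * (x i * N i) + 3 / 2 * x i ^ 2) :=
      Finset.sum_congr rfl fun i _ => by linear_combination (x i ^ 2 / 4) * q6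
    rw [this, Finset.sum_add_distrib, Finset.sum_add_distrib, ← Finset.mul_sum,
      ← Finset.mul_sum, ← hρ, ← hν, ← hσ]
    rfl
  have hB : ∑ i ∈ S, (N i - √6 / 3 * x i) ^ 2 = vQ ρ σ ν := by
    have : ∑ i ∈ S, (N i - √6 / 3 * x i) ^ 2 = ∑ i ∈ S,
        (N i ^ 2 + (-(2 / 3 * √6)) * (x i * N i) + 2 / 3 * x i ^ 2) :=
      Finset.sum_congr rfl fun i _ => by linear_combination (x i ^ 2 / 9) * q6
    rw [this, Finset.sum_add_distrib, Finset.sum_add_distrib, ← Finset.mul_sum,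
      ← Finset.mul_sum, hρ2, hν2, hσ2]
    unfold vQ
    ring
  obtain ⟨U, hU⟩ : ∃ U, U = uQ ρ σ ν := ⟨_, rfl⟩
  obtain ⟨V, hV⟩ : ∃ V, V = vQ ρ σ ν := ⟨_, rfl⟩
  obtain ⟨t, ht⟩ : ∃ t, t = ρ - 2 / 5 := ⟨_, rfl⟩
  obtain ⟨a, ha⟩ : ∃ a, a = qa t U V := ⟨_, rfl⟩
  obtain ⟨β, hβ⟩ : ∃ β, β = qb t U V := ⟨_, rfl⟩
  obtain ⟨g, hg⟩ : ∃ g, g = (2 / 5 + t) * U - (5 / 2 * t + 3 / 5 * (U + V)) ^ 2 / 6 := ⟨_, rfl⟩
  have hU0 : 0 ≤ U := by
    rw [hU, ← hA]
    exact Finset.sum_nonneg fun i _ => sq_nonneg _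
  have hV0 : 0 ≤ V := by
    rw [hV, ← hB]
    exact Finset.sum_nonneg fun i _ => sq_nonneg _
  have hρ0 : 0 ≤ ρ := by
    rw [hρ]
    exact Finset.sum_nonneg fun i _ => sq_nonneg _
  -- the product of the blocks with the position
  have hp1 : √6 * (σ + √6 / 2 * ρ) = 5 / 2 * t + 3 / 5 * (U + V) := by
    rw [hU, hV, ht]
    unfold uQ vQ
    linear_combination (ρ / 2) * q6
  have hp1' : ∑ i ∈ Finset.univ \ S, x i * (N i + √6 / 2 * x i) = σ + √6 / 2 * ρ := by
    rw [hσ, hρ, Finset.mul_sum, ← Finset.sum_add_distrib]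
    exact Finset.sum_congr rfl fun i _ => by ring
  have hp2' : ∑ i ∈ S, x i * (N i - √6 / 3 * x i) = -σ - √6 / 3 * (1 - ρ) := by
    rw [← hσ2, ← hρ2, Finset.mul_sum, ← Finset.sum_sub_distrib]
    exact Finset.sum_congr rfl fun i _ => by ring
  have hp2 : √6 * (-σ - √6 / 3 * (1 - ρ)) = 5 / 2 * t - 3 / 5 * (U + V) := by
    rw [hU, hV, ht]
    unfold uQ vQ
    linear_combination (-(1 - ρ) / 3) * q6
  have hcs := Finset.sum_mul_sq_le_sq_mul_sq (Finset.univ \ S) x fun i => N i + √6 / 2 * x i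
  rw [hp1', ← hρ, hA, ← hU] at hcs
  have hg0 : 0 ≤ g := by
    have e : (5 / 2 * t + 3 / 5 * (U + V)) ^ 2 = 6 * (σ + √6 / 2 * ρ) ^ 2 := by
      rw [← hp1]
      linear_combination ((σ + √6 / 2 * ρ) ^ 2) * q6
    rw [hg, e, ht]
    linarith
  have hρt : 0 ≤ 2 / 5 + t := by rw [ht]; linarith
  have key := certQ hρt hU0 hV0 hg0 hg
  -- the vector
  have hPs : ∀ k, PsQ (k ∈ S) ρ σ ν (x k) (N k)
      = if k ∈ S then -(√6 * a) * x k + β * (N k - √6 / 3 * x k)
        else -(√6 * U) * x k + (5 / 2 * t + 3 / 5 * (U + V)) * (N k + √6 / 2 * x k) := by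
    intro k
    unfold PsQ
    rw [← hU, ← hV, ← ht, ← ha, ← hβ, hp1]
  have nS : ∑ k ∈ S, (-(√6 * a) * x k + β * (N k - √6 / 3 * x k)) ^ 2
      = 6 * a ^ 2 * (3 / 5 - t) + 2 * a * β * (3 / 5 * (U + V) - 5 / 2 * t) + β ^ 2 * V := by
    have : ∑ k ∈ S, (-(√6 * a) * x k + β * (N k - √6 / 3 * x k)) ^ 2
        = ∑ k ∈ S, (6 * a ^ 2 * x k ^ 2 + (-2 * √6 * a * β) * (x k * (N k - √6 / 3 * x k))
          + β ^ 2 * (N k - √6 / 3 * x k) ^ 2) :=
      Finset.sum_congr rfl fun i _ => by linear_combination (a ^ 2 * x i ^ 2) * q6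
    rw [this, Finset.sum_add_distrib, Finset.sum_add_distrib, ← Finset.mul_sum,
      ← Finset.mul_sum, ← Finset.mul_sum, hρ2, hB, ← hV, hp2', ht]
    rw [ht] at hp2
    linear_combination (-2 * a * β) * hp2
  have nA : ∑ k ∈ Finset.univ \ S,
      (-(√6 * U) * x k + (5 / 2 * t + 3 / 5 * (U + V)) * (N k + √6 / 2 * x k)) ^ 2
      = 6 * U * g := by
    have : ∑ k ∈ Finset.univ \ S,
      (-(√6 * U) * x k + (5 / 2 * t + 3 / 5 * (U + V)) * (N k + √6 / 2 * x k)) ^ 2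
        = ∑ k ∈ Finset.univ \ S, (6 * U ^ 2 * x k ^ 2
          + (-2 * √6 * U * (5 / 2 * t + 3 / 5 * (U + V))) * (x k * (N k + √6 / 2 * x k))
          + (5 / 2 * t + 3 / 5 * (U + V)) ^ 2 * (N k + √6 / 2 * x k) ^ 2) :=
      Finset.sum_congr rfl fun i _ => by linear_combination (U ^ 2 * x i ^ 2) * q6
    rw [this, Finset.sum_add_distrib, Finset.sum_add_distrib, ← Finset.mul_sum,
      ← Finset.mul_sum, ← Finset.mul_sum, ← hρ, hA, ← hU, hp1', hg]
    rw [ht]
    rw [ht] at hp1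
    linear_combination (-2 * U * (5 / 2 * (ρ - 2 / 5) + 3 / 5 * (U + V))) * hp1
  have hn2 : ∑ k, PsQ (k ∈ S) ρ σ ν (x k) (N k) ^ 2 ≤ (11 / 8 * (2 * U + V)) ^ 2 := by
    have e1 : ∑ k, PsQ (k ∈ S) ρ σ ν (x k) (N k) ^ 2 = 6 * U * g
        + (6 * a ^ 2 * (3 / 5 - t) + 2 * a * β * (3 / 5 * (U + V) - 5 / 2 * t) + β ^ 2 * V) := by
      rw [spl, ← nS, ← nA, add_comm]
      congr 1
      · refine Finset.sum_congr rfl fun i hi => ?_
        rw [hPs, if_neg (Finset.mem_sdiff.1 hi).2]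
      · refine Finset.sum_congr rfl fun i hi => ?_
        rw [hPs, if_pos hi]
    rw [e1, ha, hβ]
    unfold qa qb
    rw [mul_pow]
    norm_num at key ⊢
    linarith only [key]
  have hfin : ∑ i, (if i ∈ S then (1 : ℝ) else 2) * (N i - zc S i * x i) ^ 2 = 2 * U + V := by
    rw [spl, hU, hV, ← hA, ← hB, Finset.mul_sum, add_comm]
    congr 1
    · refine Finset.sum_congr rfl fun i hi => ?_
      have := (Finset.mem_sdiff.1 hi).2
      unfold zc
      rw [if_neg this, if_neg this]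
      ring
    · refine Finset.sum_congr rfl fun i hi => ?_
      unfold zc
      rw [if_pos hi, if_pos hi, one_mul]
  rw [hfin]
  have hcs2 := Finset.sum_mul_sq_le_sq_mul_sq Finset.univ
    (fun k => PsQ (k ∈ S) ρ σ ν (x k) (N k)) u
  rw [hu, mul_one] at hcs2
  exact (abs_le_of_sq_le_sq' (hcs2.trans hn2) (by positivity)).2

section

variable {X : Type*} [MeasurableSpace X] {E : Type*} [NormedAddCommGroup E]
  [InnerProductSpace ℝ E] [FiniteDimensional ℝ E] [MeasurableSpace E] [BorelSpace E]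
  {μ : Measure X} [IsFiniteMeasure μ] {p n : X → E}

/-- the integrand differs from the normal by a null function -/
lemma coordQ (h : TwoG μ 5 p n) (hp : UF p) (hn : UF n) [Nonempty X]
    (hsp : ∀ w, (∀ x, ⟪p x, w⟫ = 0) → w = 0) (b : OrthonormalBasis (Fin 7) ℝ E)
    (S : Finset (Fin 7)) (hS : S.card = 4) (k : Fin 7) :
    Nul μ (fun x => PsQ (k ∈ S) (bρ p b (Finset.univ \ S) x) (bσ p n b (Finset.univ \ S) x)
      (bρ n b (Finset.univ \ S) x) ⟪p x, b k⟫ ⟪n x, b k⟫ - ⟪n x, b k⟫) := by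
  have hc : (Finset.univ \ S).card = 3 := by
    rw [Finset.card_sdiff_of_subset (Finset.subset_univ S), hS]
    simp
  have n0 := nul0 h (by norm_num) hp (b k) (μ := μ)
  have n1 := blk1 h (by norm_num) hp hn hsp b (Finset.univ \ S) (b k)
  have n2 := blk2 h (by norm_num) hp hn hsp b (Finset.univ \ S) (b k)
  have n3 := blk3 h hp hn hsp b (Finset.univ \ S) k
  have n4 := blk4 h hp hn hsp b (Finset.univ \ S) k
  by_cases hk : k ∈ S
  · have hk' : k ∉ Finset.univ \ S := fun hh => (Finset.mem_sdiff.1 hh).2 hk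
    refine (((((n0.cmul (29 * √6 / 40)).add (n1.cmul (7 * √6 / 80))).add
      (n2.cmul (-(5 * √6 / 4)))).add (n3.cmul (5 / 12))).add (n4.cmul (√6 / 2))).congr
      fun x => ?_
    rw [PsQ_in hk, hc, if_neg hk']
    push_cast
    ring
  · have hk' : k ∈ Finset.univ \ S := Finset.mem_sdiff.2 ⟨Finset.mem_univ k, hk⟩
    refine ((n2.cmul (-√6)).add (n3.cmul (1 / 2))).congr fun x => ?_
    rw [PsQ_out hk, hc, if_pos hk']
    push_cast
    ring

/-- the one point identity with the constant 11/8 and the weight two on the block of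
dimension three -/
theorem one_pointQ (h : TwoG μ 5 p n) [Nonempty X]
    (hsp : ∀ w, (∀ x, ⟪p x, w⟫ = 0) → w = 0) (b : OrthonormalBasis (Fin 7) ℝ E)
    (S : Finset (Fin 7)) (hS : S.card = 4) :
    ‖∫ x, n x ∂μ‖ ≤ 11 / 8 * ∫ x, ∑ i, (if i ∈ S then 1 else 2)
      * (⟪n x, b i⟫ - (if i ∈ S then √6 / 3 else -(√6 / 2)) * ⟪p x, b i⟫) ^ 2 ∂μ := by
  have hp : UF p := ⟨h.mp, h.np⟩
  have hn : UF n := ⟨h.mn, h.nn⟩
  have bx : ∀ i, BM fun x => ⟪p x, b i⟫ := fun i => bm_inner hp _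
  have bn : ∀ i, BM fun x => ⟪n x, b i⟫ := fun i => bm_inner hn _
  have ips : ∀ u v : E, ∑ i, ⟪u, b i⟫ * ⟪v, b i⟫ = ⟪u, v⟫ := by
    intro u v
    rw [← b.sum_inner_mul_inner u v]
    exact Finset.sum_congr rfl fun i _ => by rw [real_inner_comm v]
  have hxx : ∀ x, ∑ i, ⟪p x, b i⟫ ^ 2 = 1 := fun x => by
    have := ips (p x) (p x)
    rw [real_inner_self_eq_norm_sq, hp.unit, one_pow] at this
    simpa only [sq] using this
  have hnn : ∀ x, ∑ i, ⟪n x, b i⟫ ^ 2 = 1 := fun x => by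
    have := ips (n x) (n x)
    rw [real_inner_self_eq_norm_sq, hn.unit, one_pow] at this
    simpa only [sq] using this
  have hxn : ∀ x, ∑ i, ⟪p x, b i⟫ * ⟪n x, b i⟫ = 0 := fun x => by rw [ips, h.pn]
  set v := ∫ x, n x ∂μ with hv
  have hIn : Integrable n μ :=
    Integrable.of_bound hn.meas.aestronglyMeasurable 1
      (Eventually.of_forall fun x => (hn.unit x).le)
  have bh : ∀ i, BM fun x => ⟪n x, b i⟫ - (if i ∈ S then √6 / 3 else -(√6 / 2))
      * ⟪p x, b i⟫ := fun i => by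
    have := (bn i).add ((bx i).cmul (-(if i ∈ S then √6 / 3 else -(√6 / 2))))
    simpa only [neg_mul, ← sub_eq_add_neg] using this
  have bH : BM fun x => ∑ i, (if i ∈ S then (1 : ℝ) else 2)
      * (⟪n x, b i⟫ - (if i ∈ S then √6 / 3 else -(√6 / 2)) * ⟪p x, b i⟫) ^ 2 := by
    simpa only [sq] using BM.sum Finset.univ fun i => ((bh i).mul (bh i)).cmul
      (if i ∈ S then (1 : ℝ) else 2)
  rcases eq_or_ne v 0 with h0 | h0
  · rw [h0, norm_zero]
    refine mul_nonneg (by norm_num) (integral_nonneg fun x => Finset.sum_nonneg fun i _ => ?_)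
    refine mul_nonneg ?_ (sq_nonneg _)
    split_ifs <;> norm_num
  have hvp : 0 < ‖v‖ := norm_pos_iff.2 h0
  have hvk : ∀ k, ⟪v, b k⟫ = ∫ x, ⟪n x, b k⟫ ∂μ := by
    intro k
    rw [hv, real_inner_comm, ← integral_inner hIn]
    exact integral_congr_ae (Eventually.of_forall fun x => real_inner_comm _ _)
  set u : Fin 7 → ℝ := fun k => ⟪v, b k⟫ / ‖v‖ with hu
  have huu : ∑ k, u k ^ 2 = 1 := by
    have : ∑ k, u k ^ 2 = (∑ k, ⟪v, b k⟫ * ⟪v, b k⟫) / ‖v‖ ^ 2 := by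
      rw [Finset.sum_div]
      exact Finset.sum_congr rfl fun i _ => by simp only [hu]; rw [div_pow, sq ⟪v, b i⟫]
    rw [this, ips, real_inner_self_eq_norm_sq, div_self (by positivity)]
  set V : Fin 7 → X → ℝ := fun k x => PsQ (k ∈ S) (bρ p b (Finset.univ \ S) x)
    (bσ p n b (Finset.univ \ S) x) (bρ n b (Finset.univ \ S) x) ⟪p x, b k⟫ ⟪n x, b k⟫ with hV
  have bV : ∀ k, BM (V k) := fun k => by
    have := ((coordQ h hp hn hsp b S hS k).bm).add (bn k)
    simpa only [sub_add_cancel] using this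
  have hVk : ∀ k, ∫ x, V k x ∂μ = ⟪v, b k⟫ := fun k => by
    have := (coordQ h hp hn hsp b S hS k).int
    rw [integral_sub (bV k).int (bn k).int, sub_eq_zero] at this
    rw [hvk]
    exact this
  have h1 : ‖v‖ = ∫ x, ∑ k, V k x * u k ∂μ := by
    rw [integral_finsetSum _ fun k _ => (bV k).int.mul_const _]
    have : ∀ k, ∫ x, V k x * u k ∂μ = ⟪v, b k⟫ * ⟪v, b k⟫ / ‖v‖ := by
      intro k
      rw [integral_mul_const, hVk]
      simp only [hu]
      ring
    simp only [this]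
    rw [← Finset.sum_div, ips, real_inner_self_eq_norm_sq, sq, mul_div_assoc,
      div_self hvp.ne', mul_one]
  rw [h1, ← integral_const_mul]
  refine integral_mono (BM.sum Finset.univ fun k => (bV k).mul (BM.const (u k))).int
    (bH.cmul (11 / 8)).int fun x => ?_
  exact pointwiseQ S (fun i => ⟪p x, b i⟫) (fun i => ⟪n x, b i⟫) u (hxx x) (hnn x) huu (hxn x)

end

end Vale.Agent.P224.SO
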