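import Vale.Agent.P224.MathlibUsed

/-!
Dimension five: the scalar inequality behind the orientation resource. The seven points
`(d i, z i)` lie in the disc `z ^ 2 ≤ d - d ^ 2`, the `d i` have sum one, the `z i` have sum zero.
-/

namespace Vale.Agent.P224.SO

open Finset

/-- the quadratic form -/
noncomputable def q5 (a b s d z : ℝ) : ℝ :=
  14 * d ^ 2 - 6 * z ^ 2 - (1 - s) * d * z - a * d - b * z

section

variable {d z : ℝ}

lemma lin_nonneg (h : z ^ 2 ≤ d - d ^ 2) (u v : ℝ) :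
    0 ≤ (1 - 2 * u) * d - 2 * v * z + u ^ 2 + v ^ 2 := by
  nlinarith [sq_nonneg (d - u), sq_nonneg (z - v)]

lemma d_nonneg (h : z ^ 2 ≤ d - d ^ 2) : 0 ≤ d := by nlinarith [sq_nonneg z, sq_nonneg d]

lemma d_le_one (h : z ^ 2 ≤ d - d ^ 2) : d ≤ 1 := by nlinarith [sq_nonneg z, sq_nonneg (d - 1)]

lemma a_pos (h : z ^ 2 ≤ d - d ^ 2) (hz : 18 / 100 ≤ z) :
    212 / 1000 ≤ q5 (756 / 1000) (-(2392 / 1000)) 0 d z := by
  unfold q5
  nlinarith [mul_nonneg (sub_nonneg.2 hz) (lin_nonneg h (1 / 10) (3 / 10)),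
    sq_nonneg (2876 / 100 * (d - 1 / 10) - 13 * (z - 3 / 10)), sq_nonneg (z - 3 / 10)]

lemma a_all (h : z ^ 2 ≤ d - d ^ 2) :
    -(1428 / 1000) ≤ q5 (756 / 1000) (-(2392 / 1000)) 0 d z := by
  unfold q5
  nlinarith [sq_nonneg (d - 2 / 10), sq_nonneg (z + 4 / 10),
    sq_nonneg ((d - 2 / 10) - (z + 4 / 10))]

lemma b_all (h : z ^ 2 ≤ d - d ^ 2) : -(8 / 10) ≤ q5 2 0 1 d z := by
  unfold q5
  nlinarith [sq_nonneg (d - 2 / 10)]

lemma b_mid (hz : z ≤ 18 / 100) (hz' : -(18 / 100) ≤ z) :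
    -(27 / 100) ≤ q5 2 0 1 d z := by
  unfold q5
  nlinarith [sq_nonneg (14 * d - 1), mul_nonneg (sub_nonneg.2 hz) (sub_nonneg.2 hz')]

lemma c1_pos (h : z ^ 2 ≤ d - d ^ 2) (hz : 18 / 100 ≤ z) :
    -(373 / 1000) ≤ q5 (535 / 1000) (-(6 / 10)) 0 d z := by
  unfold q5
  nlinarith [mul_nonneg (sub_nonneg.2 hz) (lin_nonneg h (1626 / 10000) (369 / 1000)),
    sq_nonneg (d - 1626 / 10000), sq_nonneg (z - 369 / 1000),
    sq_nonneg ((d - 1626 / 10000) - (z - 369 / 1000))]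

lemma c1_all (h : z ^ 2 ≤ d - d ^ 2) :
    -(696 / 1000) ≤ q5 (535 / 1000) (-(6 / 10)) 0 d z := by
  unfold q5
  nlinarith [sq_nonneg (d - 164 / 1000), sq_nonneg (z + 3703 / 10000),
    sq_nonneg ((d - 164 / 1000) - (z + 3703 / 10000))]

lemma c1_mid (hz0 : 0 ≤ z) (hz : z ≤ 9 / 100) :
    -(55 / 10000) ≤ q5 (535 / 1000) (-(6 / 10)) 0 d z := by
  unfold q5
  nlinarith [sq_nonneg (28 * d - z - 535 / 1000), mul_nonneg hz0 (sub_nonneg.2 hz)]

lemma c2_pos (h : z ^ 2 ≤ d - d ^ 2) (hz : 18 / 100 ≤ z) :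
    -(41 / 1000) ≤ q5 (7 / 10) (-(16 / 10)) 0 d z := by
  unfold q5
  nlinarith [mul_nonneg (sub_nonneg.2 hz) (lin_nonneg h (13767 / 100000) (34455 / 100000)),
    sq_nonneg (d - 13767 / 100000), sq_nonneg (z - 34455 / 100000),
    sq_nonneg ((d - 13767 / 100000) - (z - 34455 / 100000))]

lemma c2_all (h : z ^ 2 ≤ d - d ^ 2) :
    -(1106 / 1000) ≤ q5 (7 / 10) (-(16 / 10)) 0 d z := by
  unfold q5
  nlinarith [sq_nonneg (d - 18624 / 100000), sq_nonneg (z + 3893 / 10000),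
    sq_nonneg ((d - 18624 / 100000) - (z + 3893 / 10000))]

lemma c2_mid (hz0 : 9 / 100 ≤ z) (hz : z ≤ 18 / 100) :
    75 / 1000 ≤ q5 (7 / 10) (-(16 / 10)) 0 d z := by
  unfold q5
  nlinarith [sq_nonneg (28 * d - z - 7 / 10), mul_nonneg (sub_nonneg.2 hz0) (sub_nonneg.2 hz)]

end

section

variable {d z : Fin 7 → ℝ}

/-- the functional with the multipliers -/
lemma sum_q5 (a b s : ℝ) (h1 : ∑ i, d i = 1) (h0 : ∑ i, z i = 0) :
    ∑ i, q5 a b s (d i) (z i)
      = 14 * ∑ i, d i ^ 2 - 6 * ∑ i, z i ^ 2 - (1 - s) * ∑ i, d i * z i - a := by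
  have e : ∑ i, q5 a b s (d i) (z i)
      = 14 * ∑ i, d i ^ 2 - 6 * ∑ i, z i ^ 2 - (1 - s) * ∑ i, d i * z i - a * ∑ i, d i
        - b * ∑ i, z i := by
    unfold q5
    simp only [sum_sub_distrib, mul_sum, mul_assoc]
  rw [e, h1, h0]
  ring

/-- the lower bound from three levels -/
lemma sum_levels (f : ℝ → ℝ → ℝ) {ap am an : ℝ}
    (hp : ∀ i, 18 / 100 ≤ z i → ap ≤ f (d i) (z i))
    (hn : ∀ i, z i ≤ -(18 / 100) → an ≤ f (d i) (z i))
    (hm : ∀ i, z i < 18 / 100 → -(18 / 100) < z i → am ≤ f (d i) (z i)) :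
    ((univ.filter fun i => 18 / 100 ≤ z i).card : ℝ) * ap
      + ((univ.filter fun i => z i ≤ -(18 / 100)).card : ℝ) * an
      + (7 - ((univ.filter fun i => 18 / 100 ≤ z i).card : ℝ)
        - ((univ.filter fun i => z i ≤ -(18 / 100)).card : ℝ)) * am ≤ ∑ i, f (d i) (z i) := by
  have e : ∀ i, (if 18 / 100 ≤ z i then ap - am else 0)
      + (if z i ≤ -(18 / 100) then an - am else 0) + am ≤ f (d i) (z i) := by
    intro i
    split_ifs with h1 h2 h3
    · exfalso; linarith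
    · have := hp i h1; linarith
    · have := hn i h3; linarith
    · have := hm i (not_le.1 h1) (not_le.1 h3); linarith
  have e2 := sum_le_sum (s := (univ : Finset (Fin 7))) fun i _ => e i
  simp only [sum_add_distrib, sum_const, card_univ, Fintype.card_fin, ← sum_filter,
    nsmul_eq_mul] at e2
  push_cast at e2
  linarith

/-- at least two middle points -/
lemma scal_mid (h : ∀ i, z i ^ 2 ≤ d i - d i ^ 2) (h1 : ∑ i, d i = 1) (h0 : ∑ i, z i = 0)
    (hc : (univ.filter fun i => 18 / 100 ≤ z i).card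
      + (univ.filter fun i => z i ≤ -(18 / 100)).card ≤ 5) :
    -(268 / 100) ≤ 14 * ∑ i, d i ^ 2 - 6 * ∑ i, z i ^ 2 := by
  have e := sum_levels (d := d) (z := z) (q5 2 0 1) (fun i _ => b_all (h i))
    (fun i _ => b_all (h i)) (fun i hi hi' => b_mid hi.le hi'.le)
  rw [sum_q5 _ _ _ h1 h0] at e
  have hc' : ((univ.filter fun i => 18 / 100 ≤ z i).card : ℝ)
      + ((univ.filter fun i => z i ≤ -(18 / 100)).card : ℝ) ≤ 5 := by exact_mod_cast hc
  linarith

/-- at least four points to the right -/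
lemma scal_four (h : ∀ i, z i ^ 2 ≤ d i - d i ^ 2) (h1 : ∑ i, d i = 1) (h0 : ∑ i, z i = 0)
    (hc : 4 ≤ (univ.filter fun i => 18 / 100 ≤ z i).card) :
    -(268 / 100) ≤ 14 * ∑ i, d i ^ 2 - 6 * ∑ i, z i ^ 2 - ∑ i, d i * z i := by
  have e := sum_levels (d := d) (z := z) (q5 (756 / 1000) (-(2392 / 1000)) 0)
    (fun i hi => a_pos (h i) hi) (fun i _ => a_all (h i)) (fun i hi hi' => a_all (h i))
  rw [sum_q5 _ _ _ h1 h0] at e
  have hc' : (4 : ℝ) ≤ ((univ.filter fun i => 18 / 100 ≤ z i).card : ℝ) := by exact_mod_cast hc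
  linarith

/-- three points on each side -/
lemma scal_three (h : ∀ i, z i ^ 2 ≤ d i - d i ^ 2) (h1 : ∑ i, d i = 1) (h0 : ∑ i, z i = 0)
    (hc : (univ.filter fun i => 18 / 100 ≤ z i).card = 3)
    (hc' : (univ.filter fun i => z i ≤ -(18 / 100)).card = 3) (i₀ : Fin 7)
    (hi : ∀ i, z i < 18 / 100 → -(18 / 100) < z i → z i = z i₀) (hi0 : 0 ≤ z i₀) :
    -(268 / 100) ≤ 14 * ∑ i, d i ^ 2 - 6 * ∑ i, z i ^ 2 - ∑ i, d i * z i := by
  rcases le_total (z i₀) (9 / 100) with hy | hy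
  · have e := sum_levels (d := d) (z := z) (q5 (535 / 1000) (-(6 / 10)) 0)
      (fun i hi => c1_pos (h i) hi) (fun i _ => c1_all (h i))
      (fun i h1 h2 => c1_mid (by rw [hi i h1 h2]; exact hi0) (by rw [hi i h1 h2]; exact hy))
    rw [sum_q5 _ _ _ h1 h0, hc, hc'] at e
    push_cast at e
    linarith
  · have e := sum_levels (d := d) (z := z) (q5 (7 / 10) (-(16 / 10)) 0)
      (fun i hi => c2_pos (h i) hi) (fun i _ => c2_all (h i))
      (fun i h1 h2 => c2_mid (by rw [hi i h1 h2]; exact hy) h1.le)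
    rw [sum_q5 _ _ _ h1 h0, hc, hc'] at e
    push_cast at e
    linarith

lemma sum_neg' (f : Fin 7 → ℝ) : ∑ i, -f i = -∑ i, f i := by simp

/-- the scalar inequality -/
theorem scal (h : ∀ i, z i ^ 2 ≤ d i - d i ^ 2) (h1 : ∑ i, d i = 1) (h0 : ∑ i, z i = 0)
    (hv : ∑ i, d i * z i ≤ 0) :
    -(268 / 100) ≤ 14 * ∑ i, d i ^ 2 - 6 * ∑ i, z i ^ 2 - ∑ i, d i * z i := by
  set P := univ.filter fun i => 18 / 100 ≤ z i with hP
  set N := univ.filter fun i => z i ≤ -(18 / 100) with hN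
  have h' : ∀ i, (-z i) ^ 2 ≤ d i - d i ^ 2 := fun i => by rw [neg_sq]; exact h i
  have h0' : ∑ i, -z i = 0 := by rw [sum_neg', h0, neg_zero]
  have eN : (univ.filter fun i => 18 / 100 ≤ -z i) = N := by
    rw [hN]; congr 1; funext i; simp only [eq_iff_iff]; constructor <;> intro h <;> linarith
  have eP : (univ.filter fun i => -z i ≤ -(18 / 100)) = P := by
    rw [hP]; congr 1; funext i; simp only [eq_iff_iff]; constructor <;> intro h <;> linarith
  have hm : -(268 / 100) ≤ 14 * ∑ i, d i ^ 2 - 6 * ∑ i, (-z i) ^ 2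
      - ∑ i, d i * -z i → -(268 / 100) ≤ 14 * ∑ i, d i ^ 2 - 6 * ∑ i, z i ^ 2
      - ∑ i, d i * z i := by
    intro hh
    simp only [neg_sq, mul_neg, sum_neg'] at hh
    linarith
  by_cases c1 : P.card + N.card ≤ 5
  · have := scal_mid h h1 h0 c1
    linarith
  by_cases c2 : 4 ≤ P.card
  · exact scal_four h h1 h0 c2
  by_cases c3 : 4 ≤ N.card
  · exact hm (scal_four (z := fun i => -z i) h' h1 h0' (by rw [eN]; exact c3))
  have cP : P.card = 3 := by omega
  have cN : N.card = 3 := by omega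
  have hd : Disjoint P N := by
    rw [disjoint_left]
    intro i hi hj
    rw [hP, mem_filter] at hi
    rw [hN, mem_filter] at hj
    linarith [hi.2, hj.2]
  have hu : (univ \ (P ∪ N)).card = 1 := by
    rw [card_sdiff_of_subset (subset_univ _), card_union_of_disjoint hd, cP, cN, card_univ,
      Fintype.card_fin]
  obtain ⟨i₀, hi₀⟩ := card_eq_one.1 hu
  have hi : ∀ i, z i < 18 / 100 → -(18 / 100) < z i → z i = z i₀ := by
    intro i a b
    have : i ∈ univ \ (P ∪ N) := by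
      rw [mem_sdiff, mem_union, hP, hN, mem_filter, mem_filter]
      refine ⟨mem_univ _, ?_⟩
      rintro (⟨-, c⟩ | ⟨-, c⟩) <;> linarith
    rw [hi₀, mem_singleton] at this
    rw [this]
  rcases le_total 0 (z i₀) with hy | hy
  · exact scal_three h h1 h0 cP cN i₀ hi hy
  · refine hm (scal_three (z := fun i => -z i) h' h1 h0' (by rw [eN]; exact cN)
      (by rw [eP]; exact cP) i₀ (fun i a b => ?_) (by linarith))
    rw [hi i (by linarith) (by linarith)]

end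

end Vale.Agent.P224.SO
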