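import Vale.Agent.P224.SO.Rc5a

/-!
Dimension five: the orientation resource for the data of the two point method.
-/

namespace Vale.Agent.P224.SO

open MeasureTheory Set Filter Function Module
open scoped Topology RealInnerProductSpace

set_option linter.unusedSectionVars false

section

variable {X : Type*} [MeasurableSpace X] {E : Type*} [NormedAddCommGroup E]
  [InnerProductSpace ℝ E] [FiniteDimensional ℝ E] [MeasurableSpace E] [BorelSpace E]
  {μ : Measure X} [IsFiniteMeasure μ]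

/-- a unit vector field -/
structure UF (f : X → E) : Prop where
  meas : Measurable f
  unit : ∀ x, ‖f x‖ = 1

/-- the moment of two coordinates -/
noncomputable def mom (μ : Measure X) (f g : X → E) (u v : E) : ℝ :=
  ∫ x, ⟪f x, u⟫ * ⟪g x, v⟫ ∂μ

lemma UF.abs_le {f : X → E} (hf : UF f) (u : E) (x : X) : |⟪f x, u⟫| ≤ ‖u‖ := by
  have := abs_real_inner_le_norm (f x) u
  rwa [hf.unit, one_mul] at this

lemma UF.measI {f : X → E} (hf : UF f) (u : E) : Measurable fun x => ⟪f x, u⟫ :=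
  hf.meas.inner measurable_const

lemma integrable_bdd {f : X → ℝ} (hf : Measurable f) {C : ℝ} (h : ∀ x, |f x| ≤ C) :
    Integrable f μ :=
  Integrable.of_bound hf.aestronglyMeasurable C (Eventually.of_forall h)

lemma UF.integrable_mul {f g : X → E} (hf : UF f) (hg : UF g) (u v : E) :
    Integrable (fun x => ⟪f x, u⟫ * ⟪g x, v⟫) μ := by
  refine integrable_bdd (C := ‖u‖ * ‖v‖) ((hf.measI u).mul (hg.measI v)) fun x => ?_
  rw [abs_mul]
  exact mul_le_mul (hf.abs_le u x) (hg.abs_le v x) (abs_nonneg _) (norm_nonneg _)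

/-- the integral of a product of two pair functions -/
lemma integral_pair {ι : Type*} [Fintype ι] (b : OrthonormalBasis ι ℝ E) {f g f' g' : X → E}
    (hf : UF f) (hg : UF g) (hf' : UF f') (hg' : UF g') :
    ∫ q : X × X, ⟪f q.1, f' q.2⟫ * ⟪g q.1, g' q.2⟫ ∂(μ.prod μ)
      = ∑ i, ∑ j, mom μ f g (b i) (b j) * mom μ f' g' (b i) (b j) := by
  have e : ∀ q : X × X, ⟪f q.1, f' q.2⟫ * ⟪g q.1, g' q.2⟫
      = ∑ i, ∑ j, (⟪f q.1, b i⟫ * ⟪g q.1, b j⟫) * (⟪f' q.2, b i⟫ * ⟪g' q.2, b j⟫) := by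
    intro q
    rw [← b.sum_inner_mul_inner (f q.1) (f' q.2), ← b.sum_inner_mul_inner (g q.1) (g' q.2),
      Finset.sum_mul_sum]
    refine Finset.sum_congr rfl fun i _ => Finset.sum_congr rfl fun j _ => ?_
    rw [real_inner_comm (b i) (f' q.2), real_inner_comm (b j) (g' q.2)]
    ring
  simp only [e]
  have hi : ∀ i j, Integrable (fun q : X × X =>
      (⟪f q.1, b i⟫ * ⟪g q.1, b j⟫) * (⟪f' q.2, b i⟫ * ⟪g' q.2, b j⟫)) (μ.prod μ) :=
    fun i j => (hf.integrable_mul hg _ _).mul_prod (hf'.integrable_mul hg' _ _)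
  rw [integral_finsetSum _ fun i _ => integrable_finsetSum _ fun j _ => hi i j]
  refine Finset.sum_congr rfl fun i _ => ?_
  rw [integral_finsetSum _ fun j _ => hi i j]
  refine Finset.sum_congr rfl fun j _ => ?_
  exact integral_prod_mul (fun x => ⟪f x, b i⟫ * ⟪g x, b j⟫)
    (fun x => ⟪f' x, b i⟫ * ⟪g' x, b j⟫)

lemma mom_sq_le {f g : X → E} (hf : UF f) (hg : UF g) (u v : E) :
    mom μ f g u v ^ 2 ≤ mom μ f f u u * mom μ g g v v := by
  have key : ∀ t : ℝ, 0 ≤ mom μ f f u u * (t * t) + (2 * mom μ f g u v) * t + mom μ g g v v := by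
    intro t
    have h1 : ∫ x, (t * ⟪f x, u⟫ + ⟪g x, v⟫) ^ 2 ∂μ
        = mom μ f f u u * (t * t) + (2 * mom μ f g u v) * t + mom μ g g v v := by
      have e : ∀ x, (t * ⟪f x, u⟫ + ⟪g x, v⟫) ^ 2 = t * t * (⟪f x, u⟫ * ⟪f x, u⟫)
          + 2 * t * (⟪f x, u⟫ * ⟪g x, v⟫) + ⟪g x, v⟫ * ⟪g x, v⟫ := fun x => by ring
      simp only [e]
      have i1 : Integrable (fun x => t * t * (⟪f x, u⟫ * ⟪f x, u⟫)) μ :=
        (hf.integrable_mul hf _ _).const_mul _
      have i2 : Integrable (fun x => 2 * t * (⟪f x, u⟫ * ⟪g x, v⟫)) μ :=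
        (hf.integrable_mul hg _ _).const_mul _
      have i3 : Integrable (fun x => t * t * (⟪f x, u⟫ * ⟪f x, u⟫)
        + 2 * t * (⟪f x, u⟫ * ⟪g x, v⟫)) μ := i1.add i2
      rw [integral_add i3 (hg.integrable_mul hg _ _), integral_add i1 i2, integral_const_mul,
        integral_const_mul]
      unfold mom
      ring
    rw [← h1]
    exact integral_nonneg fun x => sq_nonneg _
  have := discrim_le_zero key
  unfold discrim at this
  nlinarith

variable {p n : X → E}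

/-- the linear map of the mixed moments -/
noncomputable def momL (μ : Measure X) [IsFiniteMeasure μ] (hp : UF p) (hn : UF n) :
    E →ₗ[ℝ] E where
  toFun w := ∫ x, ⟪p x, w⟫ • n x ∂μ
  map_add' u v := by
    have hi : ∀ w, Integrable (fun x => ⟪p x, w⟫ • n x) μ := fun w =>
      Integrable.of_bound ((hp.measI w).smul hn.meas).aestronglyMeasurable ‖w‖
        (Eventually.of_forall fun x => by
          rw [norm_smul, hn.unit, mul_one]; exact hp.abs_le w x)
    simp only [inner_add_right, add_smul]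
    exact integral_add (hi u) (hi v)
  map_smul' c u := by
    simp only [inner_smul_right, mul_smul, RingHom.id_apply]
    exact integral_smul c _

lemma inner_momL (hp : UF p) (hn : UF n) (u v : E) :
    ⟪momL μ hp hn u, v⟫ = mom μ p n u v := by
  have hi : Integrable (fun x => ⟪p x, u⟫ • n x) μ :=
      Integrable.of_bound ((hp.measI u).smul hn.meas).aestronglyMeasurable ‖u‖
        (Eventually.of_forall fun x => by
          rw [norm_smul, hn.unit, mul_one]; exact hp.abs_le u x)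
  have h1 : momL μ hp hn u = ∫ x, ⟪p x, u⟫ • n x ∂μ := rfl
  rw [h1, real_inner_comm, ← integral_inner hi v]
  unfold mom
  refine integral_congr_ae (Eventually.of_forall fun x => ?_)
  simp only [inner_smul_right]
  rw [real_inner_comm v (n x)]

/-- the mixed moments are symmetric -/
lemma momL_symm (hp : UF p) (hn : UF n)
    (hsym : ∀ (z : X) (e : E), ∫ x, (⟪n x, p z⟫ * ⟪p x, e⟫ - ⟪n x, e⟫ * ⟪p x, p z⟫) ∂μ = 0)
    (hsp : ∀ w, (∀ x, ⟪p x, w⟫ = 0) → w = 0) : (momL μ hp hn).IsSymmetric := by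
  set B := momL μ hp hn with hB
  have h1 : ∀ (z : X) (e : E), mom μ p n e (p z) = mom μ p n (p z) e := by
    intro z e
    have h2 := hsym z e
    have e1 : ∀ x, ⟪n x, p z⟫ * ⟪p x, e⟫ - ⟪n x, e⟫ * ⟪p x, p z⟫
        = ⟪p x, e⟫ * ⟪n x, p z⟫ - ⟪p x, p z⟫ * ⟪n x, e⟫ := fun x => by ring
    simp only [e1] at h2
    rw [integral_sub (hp.integrable_mul hn _ _) (hp.integrable_mul hn _ _)] at h2
    unfold mom
    linarith
  have h3 : ∀ z : X, p z ∈ LinearMap.ker (LinearMap.adjoint B - B) := by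
    intro z
    rw [LinearMap.mem_ker]
    refine ext_inner_left ℝ fun e => ?_
    rw [LinearMap.sub_apply, inner_sub_right, LinearMap.adjoint_inner_right, inner_zero_right,
      real_inner_comm (B (p z)) e, inner_momL, inner_momL, h1, sub_self]
  have h4 : LinearMap.ker (LinearMap.adjoint B - B) = ⊤ := by
    rw [← Submodule.orthogonal_eq_bot_iff, Submodule.eq_bot_iff]
    intro w hw
    exact hsp w fun x => hw _ (h3 x)
  have h5 : LinearMap.adjoint B = B := by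
    rw [LinearMap.ker_eq_top] at h4
    exact sub_eq_zero.1 h4
  intro u v
  rw [← LinearMap.adjoint_inner_right, h5]

lemma sum_mom {ι : Type*} [Fintype ι] (b : OrthonormalBasis ι ℝ E) {f g : X → E}
    (hf : UF f) (hg : UF g) : ∑ i, mom μ f g (b i) (b i) = ∫ x, ⟪f x, g x⟫ ∂μ := by
  unfold mom
  rw [← integral_finsetSum _ fun i _ => hf.integrable_mul hg _ _]
  refine integral_congr_ae (Eventually.of_forall fun x => ?_)
  simp only
  rw [← b.sum_inner_mul_inner (f x) (g x)]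
  refine Finset.sum_congr rfl fun i _ => ?_
  rw [real_inner_comm (b i) (g x)]

lemma integrable_pair {f g f' g' : X → E} (hf : UF f) (hg : UF g) (hf' : UF f') (hg' : UF g') :
    Integrable (fun q : X × X => ⟪f q.1, f' q.2⟫ * ⟪g q.1, g' q.2⟫) (μ.prod μ) := by
  refine integrable_bdd (C := 1) ?_ fun q => ?_
  · exact ((hf.meas.comp measurable_fst).inner (hf'.meas.comp measurable_snd)).mul
      ((hg.meas.comp measurable_fst).inner (hg'.meas.comp measurable_snd))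
  · rw [abs_mul]
    have h1 := hf.abs_le (f' q.2) q.1
    have h2 := hg.abs_le (g' q.2) q.1
    rw [hf'.unit] at h1
    rw [hg'.unit] at h2
    nlinarith [abs_nonneg ⟪f q.1, f' q.2⟫, abs_nonneg ⟪g q.1, g' q.2⟫]

/-- the orientation resource in dimension five -/
theorem rc5 (hE : finrank ℝ E = 7) (hp : UF p) (hn : UF n) (pn : ∀ x, ⟪p x, n x⟫ = 0)
    (hrow : ∀ e : E, ∫ x, (⟪e, e⟫ - ⟪n x, e⟫ ^ 2 - 6 * ⟪p x, e⟫ ^ 2) ∂μ = 0)
    (hsym : ∀ (z : X) (e : E), ∫ x, (⟪n x, p z⟫ * ⟪p x, e⟫ - ⟪n x, e⟫ * ⟪p x, p z⟫) ∂μ = 0)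
    (hsp : ∀ w, (∀ x, ⟪p x, w⟫ = 0) → w = 0)
    (hor : 0 ≤ ∫ q : X × X, ⟪p q.1, p q.2⟫ * ⟪p q.1, n q.2⟫ ∂(μ.prod μ)) :
    0 ≤ ∫ q : X × X, ((1 - 6 * ⟪p q.1, p q.2⟫ ^ 2 - ⟪p q.1, p q.2⟫ * ⟪n q.1, n q.2⟫)
      + 20 * (⟪p q.1, p q.2⟫ ^ 2 - 1 / 7 - 1 / 2100)
      + 1 / √6 * (⟪p q.1, p q.2⟫ * (⟪p q.1, n q.2⟫ + ⟪n q.1, p q.2⟫) / 2) - 1 / 300)
      ∂(μ.prod μ) := by
  have hB := momL_symm hp hn hsym hsp
  set B := momL μ hp hn with hBd
  set b := hB.eigenvectorBasis hE with hb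
  set β := hB.eigenvalues hE with hβ
  set A := μ.real univ with hA
  have hA0 : 0 ≤ A := measureReal_nonneg
  set ξ : Fin 7 → ℝ := fun i => mom μ p p (b i) (b i) with hξ
  have hpn : ∀ i j, mom μ p n (b i) (b j) = if i = j then β i else 0 := by
    intro i j
    rw [← inner_momL hp hn, ← hBd, hb, hB.apply_eigenvectorBasis hE i, ← hb, ← hβ]
    rw [RCLike.ofReal_real_eq_id, id, real_inner_smul_left, orthonormal_iff_ite.1 b.orthonormal i j]
    split_ifs <;> simp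
  have hnp : ∀ i j, mom μ n p (b i) (b j) = if i = j then β i else 0 := by
    intro i j
    have : mom μ n p (b i) (b j) = mom μ p n (b j) (b i) := by
      unfold mom
      refine integral_congr_ae (Eventually.of_forall fun x => ?_)
      simp only
      ring
    rw [this, hpn]
    by_cases h : i = j
    · rw [h]
    · rw [if_neg h, if_neg (Ne.symm h)]
  -- the four integrals
  have I1 : ∫ q : X × X, ⟪p q.1, p q.2⟫ * ⟪p q.1, n q.2⟫ ∂(μ.prod μ) = ∑ i, ξ i * β i := by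
    rw [integral_pair b hp hp hp hn]
    refine Finset.sum_congr rfl fun i _ => ?_
    simp only [hpn, mul_ite, mul_zero, Finset.sum_ite_eq, Finset.mem_univ, if_true, hξ]
  have I2 : ∫ q : X × X, ⟪p q.1, p q.2⟫ * ⟪n q.1, p q.2⟫ ∂(μ.prod μ) = ∑ i, ξ i * β i := by
    rw [integral_pair b hp hn hp hp]
    refine Finset.sum_congr rfl fun i _ => ?_
    simp only [hpn, ite_mul, zero_mul, Finset.sum_ite_eq, Finset.mem_univ, if_true, hξ]
    ring
  have I3 : ∫ q : X × X, ⟪p q.1, p q.2⟫ * ⟪n q.1, n q.2⟫ ∂(μ.prod μ) = ∑ i, β i ^ 2 := by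
    rw [integral_pair b hp hn hp hn]
    refine Finset.sum_congr rfl fun i _ => ?_
    simp only [hpn, mul_ite, mul_zero, Finset.sum_ite_eq, Finset.mem_univ, if_true]
    ring
  have I4 : ∑ i, ξ i ^ 2 ≤ ∫ q : X × X, ⟪p q.1, p q.2⟫ * ⟪p q.1, p q.2⟫ ∂(μ.prod μ) := by
    rw [integral_pair b hp hp hp hp]
    refine Finset.sum_le_sum fun i _ => ?_
    have := Finset.single_le_sum (s := Finset.univ)
      (f := fun j => mom μ p p (b i) (b j) * mom μ p p (b i) (b j))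
      (fun j _ => mul_self_nonneg _) (Finset.mem_univ i)
    simp only [hξ]
    rw [sq]
    exact this
  -- the constraints
  have s1 : ∑ i, ξ i = A := by
    rw [hξ, sum_mom b hp hp]
    have : ∀ x, ⟪p x, p x⟫ = (1 : ℝ) := fun x => by
      rw [real_inner_self_eq_norm_sq, hp.unit, one_pow]
    simp only [this, integral_const, smul_eq_mul, mul_one, hA]
  have s2 : ∑ i, β i = 0 := by
    have h1 := sum_mom (μ := μ) b hp hn
    simp only [hpn, if_true, pn, integral_zero] at h1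
    exact h1
  have s3 : ∀ i, mom μ n n (b i) (b i) = A - 6 * ξ i := by
    intro i
    have h1 := hrow (b i)
    have e1 : ∀ x, ⟪b i, b i⟫ - ⟪n x, b i⟫ ^ 2 - 6 * ⟪p x, b i⟫ ^ 2
        = 1 - ⟪n x, b i⟫ * ⟪n x, b i⟫ - 6 * (⟪p x, b i⟫ * ⟪p x, b i⟫) := fun x => by
      rw [real_inner_self_eq_norm_sq, b.orthonormal.1 i]; ring
    simp only [e1] at h1
    have i1 : Integrable (fun x => 1 - ⟪n x, b i⟫ * ⟪n x, b i⟫) μ :=
      (integrable_const _).sub (hn.integrable_mul hn _ _)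
    have i2 : Integrable (fun x => 6 * (⟪p x, b i⟫ * ⟪p x, b i⟫)) μ :=
      (hp.integrable_mul hp _ _).const_mul _
    rw [integral_sub i1 i2, integral_sub (integrable_const _) (hn.integrable_mul hn _ _),
      integral_const_mul, integral_const, smul_eq_mul, mul_one] at h1
    simp only [hξ, hA]
    unfold mom
    linarith
  have s4 : ∀ i, β i ^ 2 ≤ ξ i * (A - 6 * ξ i) := by
    intro i
    have h1 := mom_sq_le (μ := μ) hp hn (b i) (b i)
    rw [s3, hpn, if_pos rfl] at h1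
    exact h1
  rw [I1] at hor
  -- the double integral
  have hcast : ∀ q : X × X, ((1 - 6 * ⟪p q.1, p q.2⟫ ^ 2 - ⟪p q.1, p q.2⟫ * ⟪n q.1, n q.2⟫)
      + 20 * (⟪p q.1, p q.2⟫ ^ 2 - 1 / 7 - 1 / 2100)
      + 1 / √6 * (⟪p q.1, p q.2⟫ * (⟪p q.1, n q.2⟫ + ⟪n q.1, p q.2⟫) / 2) - 1 / 300)
      = (-(187 / 100) + 14 * (⟪p q.1, p q.2⟫ * ⟪p q.1, p q.2⟫)
        - ⟪p q.1, p q.2⟫ * ⟪n q.1, n q.2⟫)
        + 1 / √6 / 2 * (⟪p q.1, p q.2⟫ * ⟪p q.1, n q.2⟫ + ⟪p q.1, p q.2⟫ * ⟪n q.1, p q.2⟫) := by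
    intro q
    ring
  simp only [hcast]
  have j1 : Integrable (fun q : X × X => 14 * (⟪p q.1, p q.2⟫ * ⟪p q.1, p q.2⟫)) (μ.prod μ) :=
    (integrable_pair hp hp hp hp).const_mul _
  have j2 : Integrable (fun q : X × X => -(187 / 100)
      + 14 * (⟪p q.1, p q.2⟫ * ⟪p q.1, p q.2⟫)) (μ.prod μ) := (integrable_const _).add j1
  have j3 : Integrable (fun q : X × X => -(187 / 100)
      + 14 * (⟪p q.1, p q.2⟫ * ⟪p q.1, p q.2⟫) - ⟪p q.1, p q.2⟫ * ⟪n q.1, n q.2⟫)
      (μ.prod μ) := j2.sub (integrable_pair hp hn hp hn)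
  have j4 : Integrable (fun q : X × X => 1 / √6 / 2 * (⟪p q.1, p q.2⟫ * ⟪p q.1, n q.2⟫
      + ⟪p q.1, p q.2⟫ * ⟪n q.1, p q.2⟫)) (μ.prod μ) :=
    ((integrable_pair hp hp hp hn).add (integrable_pair hp hn hp hp)).const_mul _
  have hAA : (μ.prod μ).real univ = A * A := by
    rw [hA, measureReal_def, measureReal_def, ← univ_prod_univ, Measure.prod_prod,
      ENNReal.toReal_mul]
  rw [integral_add j3 j4, integral_sub j2 (integrable_pair hp hn hp hn),
    integral_add (integrable_const _) j1, integral_const_mul, integral_const_mul,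
    integral_add (integrable_pair hp hp hp hn) (integrable_pair hp hn hp hp), I1, I2, I3,
    integral_const, smul_eq_mul, hAA]
  set S := ∫ q : X × X, ⟪p q.1, p q.2⟫ * ⟪p q.1, p q.2⟫ ∂(μ.prod μ) with hS
  rcases hA0.eq_or_lt with hA1 | hA1
  · -- zero measure
    have hz : ∀ i, ξ i * β i = 0 ∧ β i ^ 2 = 0 := by
      intro i
      have h1 := s4 i
      rw [← hA1] at h1
      have h2 : β i ^ 2 = 0 := by nlinarith [sq_nonneg (ξ i), sq_nonneg (β i)]
      exact ⟨by rw [pow_eq_zero_iff (two_ne_zero)] at h2; rw [h2, mul_zero], h2⟩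
    have h0 : 0 ≤ S := le_trans (Finset.sum_nonneg fun i _ => sq_nonneg _) I4
    simp only [(hz _).1, (hz _).2, Finset.sum_const_zero, ← hA1]
    linarith
  have hr : √6 * √6 = 6 := Real.mul_self_sqrt (by norm_num)
  have hr0 : 0 < √6 := Real.sqrt_pos.2 (by norm_num)
  have key := scal (d := fun i => 1 - 6 * (ξ i / A)) (z := fun i => √6 * (β i / A)) ?_ ?_ ?_ ?_
  · have e1 : ∑ i : Fin 7, (1 - 6 * (ξ i / A)) ^ 2
        = 7 - 12 * ((∑ i, ξ i) / A) + 36 * ((∑ i, ξ i ^ 2) / A ^ 2) := by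
      have : ∀ i, (1 - 6 * (ξ i / A)) ^ 2
          = 1 - 12 * (ξ i / A) + 36 * (ξ i ^ 2 / A ^ 2) := fun i => by ring
      simp only [this, Finset.sum_add_distrib, Finset.sum_sub_distrib, ← Finset.mul_sum,
        ← Finset.sum_div]
      simp
    have e2 : ∑ i : Fin 7, (√6 * (β i / A)) ^ 2 = 6 * ((∑ i, β i ^ 2) / A ^ 2) := by
      have : ∀ i, (√6 * (β i / A)) ^ 2 = 6 * (β i ^ 2 / A ^ 2) := fun i => by
        rw [mul_pow, sq √6, hr, div_pow]
      simp only [this, ← Finset.mul_sum, ← Finset.sum_div]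
    have e3 : ∑ i : Fin 7, (1 - 6 * (ξ i / A)) * (√6 * (β i / A))
        = √6 * ((∑ i, β i) / A) - 6 * √6 * ((∑ i, ξ i * β i) / A ^ 2) := by
      have : ∀ i, (1 - 6 * (ξ i / A)) * (√6 * (β i / A))
          = √6 * (β i / A) - 6 * √6 * (ξ i * β i / A ^ 2) := fun i => by ring
      simp only [this, Finset.sum_sub_distrib, ← Finset.mul_sum, ← Finset.sum_div]
    rw [e1, e2, e3, s1, s2, div_self hA1.ne', zero_div, mul_zero, zero_sub] at key
    have hk : 1 / √6 = √6 / 6 := by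
      rw [div_eq_div_iff hr0.ne' (by norm_num)]
      linarith
    rw [hk]
    have hA2 : 0 < A ^ 2 := by positivity
    have k1 : (∑ i, ξ i ^ 2) / A ^ 2 * A ^ 2 = ∑ i, ξ i ^ 2 := div_mul_cancel₀ _ hA2.ne'
    have k2 : (∑ i, β i ^ 2) / A ^ 2 * A ^ 2 = ∑ i, β i ^ 2 := div_mul_cancel₀ _ hA2.ne'
    have k3 : (∑ i, ξ i * β i) / A ^ 2 * A ^ 2 = ∑ i, ξ i * β i := div_mul_cancel₀ _ hA2.ne'
    have k4 := mul_le_mul_of_nonneg_right key hA2.le
    have k5 : (14 * (7 - 12 * 1 + 36 * ((∑ i, ξ i ^ 2) / A ^ 2))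
        - 6 * (6 * ((∑ i, β i ^ 2) / A ^ 2)) - -(6 * √6 * ((∑ i, ξ i * β i) / A ^ 2))) * A ^ 2
        = -70 * A ^ 2 + 504 * ∑ i, ξ i ^ 2 - 36 * ∑ i, β i ^ 2
          + 6 * √6 * ∑ i, ξ i * β i := by
      have : (14 * (7 - 12 * 1 + 36 * ((∑ i, ξ i ^ 2) / A ^ 2))
        - 6 * (6 * ((∑ i, β i ^ 2) / A ^ 2)) - -(6 * √6 * ((∑ i, ξ i * β i) / A ^ 2))) * A ^ 2
        = -70 * A ^ 2 + 504 * ((∑ i, ξ i ^ 2) / A ^ 2 * A ^ 2)
          - 36 * ((∑ i, β i ^ 2) / A ^ 2 * A ^ 2)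
          + 6 * √6 * ((∑ i, ξ i * β i) / A ^ 2 * A ^ 2) := by ring
      rw [this, k1, k2, k3]
    rw [k5] at k4
    nlinarith
  · intro i
    have h1 := s4 i
    have h2 : (√6 * (β i / A)) ^ 2 = 6 * β i ^ 2 / A ^ 2 := by
      rw [mul_pow, sq √6, hr, div_pow]; ring
    have h3 : (1 - 6 * (ξ i / A)) - (1 - 6 * (ξ i / A)) ^ 2
        = 6 * (ξ i * (A - 6 * ξ i)) / A ^ 2 := by
      field_simp
      ring
    rw [h2, h3]
    gcongr
  · have : ∑ i : Fin 7, (1 - 6 * (ξ i / A)) = 7 - 6 * ((∑ i, ξ i) / A) := by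
      simp only [Finset.sum_sub_distrib, ← Finset.mul_sum, ← Finset.sum_div]
      simp
    rw [this, s1, div_self hA1.ne']
    norm_num
  · have : ∑ i : Fin 7, √6 * (β i / A) = √6 * ((∑ i, β i) / A) := by
      rw [Finset.sum_div, Finset.mul_sum]
    rw [this, s2, zero_div, mul_zero]
  · have : ∑ i : Fin 7, (1 - 6 * (ξ i / A)) * (√6 * (β i / A))
        = √6 * ((∑ i, β i) / A) - 6 * √6 * ((∑ i, ξ i * β i) / A ^ 2) := by
      have : ∀ i, (1 - 6 * (ξ i / A)) * (√6 * (β i / A))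
          = √6 * (β i / A) - 6 * √6 * (ξ i * β i / A ^ 2) := fun i => by ring
      simp only [this, Finset.sum_sub_distrib, ← Finset.mul_sum, ← Finset.sum_div]
    rw [this, s2, zero_div, mul_zero, zero_sub, neg_nonpos]
    positivity

end

end Vale.Agent.P224.SO
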