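import Vale.Agent.P224.SO.Rc5c

/-!
The reduction of the quadratic resources to a scalar inequality, every dimension.
-/

namespace Vale.Agent.P224.SO

open MeasureTheory Set Filter Function Module Vale.Agent.P224.UE
open scoped Topology RealInnerProductSpace ContDiff

set_option linter.unusedSectionVars false

section

variable {X : Type*} [MeasurableSpace X] {E : Type*} [NormedAddCommGroup E]
  [InnerProductSpace ℝ E] [FiniteDimensional ℝ E] [MeasurableSpace E] [BorelSpace E]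
  {μ : Measure X} [IsFiniteMeasure μ] {p n : X → E} {m : ℕ}

/-- the reduction -/
theorem reduction (hE : finrank ℝ E = m + 2) (hp : UF p) (hn : UF n)
    (pn : ∀ x, ⟪p x, n x⟫ = 0)
    (hrow : ∀ e : E, ∫ x, (⟪e, e⟫ - ⟪n x, e⟫ ^ 2 - (m + 1) * ⟪p x, e⟫ ^ 2) ∂μ = 0)
    (hsym : ∀ (z : X) (e : E), ∫ x, (⟪n x, p z⟫ * ⟪p x, e⟫ - ⟪n x, e⟫ * ⟪p x, p z⟫) ∂μ = 0)
    (hsp : ∀ w, (∀ x, ⟪p x, w⟫ = 0) → w = 0) (hA1 : 0 < μ.real univ) :
    ∃ d z : Fin (m + 2) → ℝ, (∀ i, z i ^ 2 ≤ d i - d i ^ 2) ∧ ∑ i, d i = 1 ∧ ∑ i, z i = 0 ∧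
      μ.real univ ^ 2 * ((m + ∑ i, d i ^ 2) / ((m : ℝ) + 1) ^ 2)
        ≤ ∫ q : X × X, ⟪p q.1, p q.2⟫ * ⟪p q.1, p q.2⟫ ∂(μ.prod μ) ∧
      ∫ q : X × X, ⟪p q.1, p q.2⟫ * ⟪n q.1, n q.2⟫ ∂(μ.prod μ)
        = μ.real univ ^ 2 * ((∑ i, z i ^ 2) / ((m : ℝ) + 1)) ∧
      ∫ q : X × X, ⟪p q.1, p q.2⟫ * ⟪p q.1, n q.2⟫ ∂(μ.prod μ)
        = -(μ.real univ ^ 2 * ((∑ i, d i * z i) / (((m : ℝ) + 1) * √((m : ℝ) + 1)))) ∧
      ∫ q : X × X, ⟪p q.1, p q.2⟫ * ⟪n q.1, p q.2⟫ ∂(μ.prod μ)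
        = -(μ.real univ ^ 2 * ((∑ i, d i * z i) / (((m : ℝ) + 1) * √((m : ℝ) + 1)))) := by
  have hB := momL_symm hp hn hsym hsp
  set B := momL μ hp hn with hBd
  set b := hB.eigenvectorBasis hE with hb
  set β := hB.eigenvalues hE with hβ
  set A := μ.real univ with hA
  set ξ : Fin (m + 2) → ℝ := fun i => mom μ p p (b i) (b i) with hξ
  have hpn : ∀ i j, mom μ p n (b i) (b j) = if i = j then β i else 0 := by
    intro i j
    rw [← inner_momL hp hn, ← hBd, hb, hB.apply_eigenvectorBasis hE i, ← hb, ← hβ]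
    rw [RCLike.ofReal_real_eq_id, id, real_inner_smul_left, orthonormal_iff_ite.1 b.orthonormal i j]
    split_ifs <;> simp
  have I1 : ∫ q : X × X, ⟪p q.1, p q.2⟫ * ⟪p q.1, n q.2⟫ ∂(μ.prod μ) = ∑ i, ξ i * β i := by
    rw [integral_pair b hp hp hp hn]
    refine Finset.sum_congr rfl fun i _ => ?_
    simp only [hpn, mul_ite, mul_zero, Finset.sum_ite_eq, Finset.mem_univ, if_true, hξ]
  have I2 : ∫ q : X × X, ⟪p q.1, p q.2⟫ * ⟪n q.1, p q.2⟫ ∂(μ.prod μ) = ∑ i, ξ i * β i := by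
    rw [integral_pair b hp hn hp hp]
    refine Finset.sum_congr rfl fun i _ => ?_
    simp only [hpn, ite_mul, zero_mul, Finset.sum_ite_eq, Finset.mem_univ, if_true, hξ]
    ring
  have I3 : ∫ q : X × X, ⟪p q.1, p q.2⟫ * ⟪n q.1, n q.2⟫ ∂(μ.prod μ) = ∑ i, β i ^ 2 := by
    rw [integral_pair b hp hn hp hn]
    refine Finset.sum_congr rfl fun i _ => ?_
    simp only [hpn, mul_ite, mul_zero, Finset.sum_ite_eq, Finset.mem_univ, if_true]
    ring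
  have I4 : ∑ i, ξ i ^ 2 ≤ ∫ q : X × X, ⟪p q.1, p q.2⟫ * ⟪p q.1, p q.2⟫ ∂(μ.prod μ) := by
    rw [integral_pair b hp hp hp hp]
    refine Finset.sum_le_sum fun i _ => ?_
    have := Finset.single_le_sum (s := Finset.univ)
      (f := fun j => mom μ p p (b i) (b j) * mom μ p p (b i) (b j))
      (fun j _ => mul_self_nonneg _) (Finset.mem_univ i)
    simp only [hξ]
    rw [sq]
    exact this
  have s1 : ∑ i, ξ i = A := by
    rw [hξ, sum_mom b hp hp]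
    have : ∀ x, ⟪p x, p x⟫ = (1 : ℝ) := fun x => by
      rw [real_inner_self_eq_norm_sq, hp.unit, one_pow]
    simp only [this, integral_const, smul_eq_mul, mul_one, hA]
  have s2 : ∑ i, β i = 0 := by
    have h1 := sum_mom (μ := μ) b hp hn
    simp only [hpn, if_true, pn, integral_zero] at h1
    exact h1
  have s3 : ∀ i, mom μ n n (b i) (b i) = A - (m + 1) * ξ i := by
    intro i
    have h1 := hrow (b i)
    have e1 : ∀ x, ⟪b i, b i⟫ - ⟪n x, b i⟫ ^ 2 - (m + 1) * ⟪p x, b i⟫ ^ 2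
        = 1 - ⟪n x, b i⟫ * ⟪n x, b i⟫ - (m + 1) * (⟪p x, b i⟫ * ⟪p x, b i⟫) := fun x => by
      rw [real_inner_self_eq_norm_sq, b.orthonormal.1 i]; ring
    simp only [e1] at h1
    have i1 : Integrable (fun x => 1 - ⟪n x, b i⟫ * ⟪n x, b i⟫) μ :=
      (integrable_const _).sub (hn.integrable_mul hn _ _)
    have i2 : Integrable (fun x => ((m : ℝ) + 1) * (⟪p x, b i⟫ * ⟪p x, b i⟫)) μ :=
      (hp.integrable_mul hp _ _).const_mul _
    rw [integral_sub i1 i2, integral_sub (integrable_const _) (hn.integrable_mul hn _ _),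
      integral_const_mul, integral_const, smul_eq_mul, mul_one] at h1
    simp only [hξ, hA]
    unfold mom
    linarith
  have s4 : ∀ i, β i ^ 2 ≤ ξ i * (A - (m + 1) * ξ i) := by
    intro i
    have h1 := mom_sq_le (μ := μ) hp hn (b i) (b i)
    rw [s3, hpn, if_pos rfl] at h1
    exact h1
  have hm1 : (0 : ℝ) < (m : ℝ) + 1 := by positivity
  have hr : √((m : ℝ) + 1) * √((m : ℝ) + 1) = (m : ℝ) + 1 := Real.mul_self_sqrt hm1.le
  have hr0 : 0 < √((m : ℝ) + 1) := Real.sqrt_pos.2 hm1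
  set r := √((m : ℝ) + 1) with hrd
  refine ⟨fun i => 1 - (m + 1) * (ξ i / A), fun i => r * (β i / A), ?_, ?_, ?_, ?_, ?_, ?_, ?_⟩
  · intro i
    have h1 := s4 i
    have h2 : (r * (β i / A)) ^ 2 = (m + 1) * β i ^ 2 / A ^ 2 := by
      rw [mul_pow, sq r, hr, div_pow]; ring
    have h3 : (1 - (m + 1) * (ξ i / A)) - (1 - (m + 1) * (ξ i / A)) ^ 2
        = (m + 1) * (ξ i * (A - (m + 1) * ξ i)) / A ^ 2 := by
      field_simp
      ring
    rw [h2, h3]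
    gcongr
  · have : ∑ i : Fin (m + 2), (1 - (m + 1) * (ξ i / A))
        = (m + 2) - (m + 1) * ((∑ i, ξ i) / A) := by
      rw [Finset.sum_sub_distrib, Finset.sum_div, Finset.mul_sum]
      simp
    rw [this, s1, div_self hA1.ne']
    ring
  · have : ∑ i : Fin (m + 2), r * (β i / A) = r * ((∑ i, β i) / A) := by
      rw [Finset.sum_div, Finset.mul_sum]
    rw [this, s2, zero_div, mul_zero]
  · refine le_trans (le_of_eq ?_) I4
    have e1 : ∑ i : Fin (m + 2), (1 - (m + 1) * (ξ i / A)) ^ 2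
        = (m + 2) - 2 * (m + 1) * ((∑ i, ξ i) / A)
          + (m + 1) ^ 2 * ((∑ i, ξ i ^ 2) / A ^ 2) := by
      have : ∀ i, (1 - (m + 1) * (ξ i / A)) ^ 2
          = 1 - 2 * (m + 1) * (ξ i / A) + (m + 1) ^ 2 * (ξ i ^ 2 / A ^ 2) := fun i => by ring
      simp only [this, Finset.sum_add_distrib, Finset.sum_sub_distrib]
      rw [Finset.sum_div, Finset.mul_sum, Finset.sum_div, Finset.mul_sum]
      simp
    simp only
    rw [e1, s1, div_self hA1.ne']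
    field_simp
    ring
  · rw [I3]
    have e2 : ∑ i : Fin (m + 2), (r * (β i / A)) ^ 2 = (m + 1) * ((∑ i, β i ^ 2) / A ^ 2) := by
      have : ∀ i, (r * (β i / A)) ^ 2 = (m + 1) * (β i ^ 2 / A ^ 2) := fun i => by
        rw [mul_pow, sq r, hr, div_pow]
      simp only [this]
      rw [Finset.sum_div, Finset.mul_sum]
    simp only
    rw [e2]
    field_simp
  all_goals
    first | rw [I1] | rw [I2]
    have e3 : ∑ i : Fin (m + 2), (1 - (m + 1) * (ξ i / A)) * (r * (β i / A))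
        = r * ((∑ i, β i) / A) - (m + 1) * r * ((∑ i, ξ i * β i) / A ^ 2) := by
      have : ∀ i, (1 - (m + 1) * (ξ i / A)) * (r * (β i / A))
          = r * (β i / A) - (m + 1) * r * (ξ i * β i / A ^ 2) := fun i => by ring
      simp only [this, Finset.sum_sub_distrib]
      rw [Finset.sum_div, Finset.mul_sum, Finset.sum_div, Finset.mul_sum]
    simp only
    rw [e3, s2]
    field_simp
    ring

/-- the resource from a scalar inequality -/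
theorem res_of_scal (hE : finrank ℝ E = m + 2) (hp : UF p) (hn : UF n)
    (pn : ∀ x, ⟪p x, n x⟫ = 0)
    (hrow : ∀ e : E, ∫ x, (⟪e, e⟫ - ⟪n x, e⟫ ^ 2 - (m + 1) * ⟪p x, e⟫ ^ 2) ∂μ = 0)
    (hsym : ∀ (z : X) (e : E), ∫ x, (⟪n x, p z⟫ * ⟪p x, e⟫ - ⟪n x, e⟫ * ⟪p x, p z⟫) ∂μ = 0)
    (hsp : ∀ w, (∀ x, ⟪p x, w⟫ = 0) → w = 0)
    (hor : 0 ≤ ∫ q : X × X, ⟪p q.1, p q.2⟫ * ⟪p q.1, n q.2⟫ ∂(μ.prod μ))
    {k0 k1 c : ℝ} (hk1 : 0 ≤ k1)
    (hs : ∀ d z : Fin (m + 2) → ℝ, (∀ i, z i ^ 2 ≤ d i - d i ^ 2) → ∑ i, d i = 1 →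
      ∑ i, z i = 0 → ∑ i, d i * z i ≤ 0 →
      0 ≤ (k0 * (m + 1) ^ 2 + k1 * m) + (k1 * ∑ i, d i ^ 2 - (m + 1) * ∑ i, z i ^ 2
        - c * √((m : ℝ) + 1) * ∑ i, d i * z i)) :
    0 ≤ ∫ q : X × X, (k0 + k1 * ⟪p q.1, p q.2⟫ ^ 2 - ⟪p q.1, p q.2⟫ * ⟪n q.1, n q.2⟫
      + c * (⟪p q.1, p q.2⟫ * ((⟪p q.1, n q.2⟫ + ⟪n q.1, p q.2⟫) / 2))) ∂(μ.prod μ) := by
  rcases (measureReal_nonneg (μ := μ) (s := univ)).eq_or_lt with hA0 | hA1
  · have hμ : μ = 0 := by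
      rw [measureReal_def, eq_comm, ENNReal.toReal_eq_zero_iff] at hA0
      rcases hA0 with h | h
      · exact Measure.measure_univ_eq_zero.1 h
      · exact absurd h (measure_ne_top _ _)
    rw [hμ]
    simp
  obtain ⟨d, z, h1, h2, h3, h4, h5, h6, h7⟩ := reduction hE hp hn pn hrow hsym hsp hA1
  have hcast : ∀ q : X × X, (k0 + k1 * ⟪p q.1, p q.2⟫ ^ 2
      - ⟪p q.1, p q.2⟫ * ⟪n q.1, n q.2⟫
      + c * (⟪p q.1, p q.2⟫ * ((⟪p q.1, n q.2⟫ + ⟪n q.1, p q.2⟫) / 2)))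
      = (k0 + k1 * (⟪p q.1, p q.2⟫ * ⟪p q.1, p q.2⟫)
        - ⟪p q.1, p q.2⟫ * ⟪n q.1, n q.2⟫)
        + c / 2 * (⟪p q.1, p q.2⟫ * ⟪p q.1, n q.2⟫ + ⟪p q.1, p q.2⟫ * ⟪n q.1, p q.2⟫) := by
    intro q
    ring
  simp only [hcast]
  have j1 : Integrable (fun q : X × X => k1 * (⟪p q.1, p q.2⟫ * ⟪p q.1, p q.2⟫)) (μ.prod μ) :=
    (integrable_pair hp hp hp hp).const_mul _
  have j2 : Integrable (fun q : X × X => k0
      + k1 * (⟪p q.1, p q.2⟫ * ⟪p q.1, p q.2⟫)) (μ.prod μ) := (integrable_const _).add j1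
  have j3 : Integrable (fun q : X × X => k0
      + k1 * (⟪p q.1, p q.2⟫ * ⟪p q.1, p q.2⟫) - ⟪p q.1, p q.2⟫ * ⟪n q.1, n q.2⟫)
      (μ.prod μ) := j2.sub (integrable_pair hp hn hp hn)
  have j4 : Integrable (fun q : X × X => c / 2 * (⟪p q.1, p q.2⟫ * ⟪p q.1, n q.2⟫
      + ⟪p q.1, p q.2⟫ * ⟪n q.1, p q.2⟫)) (μ.prod μ) :=
    ((integrable_pair hp hp hp hn).add (integrable_pair hp hn hp hp)).const_mul _
  have hAA : (μ.prod μ).real univ = μ.real univ ^ 2 := by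
    rw [sq, measureReal_def, measureReal_def, ← univ_prod_univ, Measure.prod_prod,
      ENNReal.toReal_mul]
  rw [integral_add j3 j4, integral_sub j2 (integrable_pair hp hn hp hn),
    integral_add (integrable_const _) j1, integral_const_mul, integral_const_mul,
    integral_add (integrable_pair hp hp hp hn) (integrable_pair hp hn hp hp),
    integral_const, smul_eq_mul, hAA, h5, h6, h7]
  have hm1 : (0 : ℝ) < (m : ℝ) + 1 := by positivity
  have hr : √((m : ℝ) + 1) * √((m : ℝ) + 1) = (m : ℝ) + 1 := Real.mul_self_sqrt hm1.le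
  have hr0 : 0 < √((m : ℝ) + 1) := Real.sqrt_pos.2 hm1
  have hA2 : 0 < μ.real univ ^ 2 := by positivity
  have h8 : ∑ i, d i * z i ≤ 0 := by
    rw [h6] at hor
    by_contra hc
    rw [not_le] at hc
    have : 0 < μ.real univ ^ 2 * ((∑ i, d i * z i) / (((m : ℝ) + 1) * √((m : ℝ) + 1))) := by
      positivity
    linarith
  have h9 := hs d z h1 h2 h3 h8
  have h10 := mul_le_mul_of_nonneg_left h4 hk1
  have h11 : 0 ≤ μ.real univ ^ 2 / ((m : ℝ) + 1) ^ 2 *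
      ((k0 * (m + 1) ^ 2 + k1 * m) + (k1 * ∑ i, d i ^ 2 - (m + 1) * ∑ i, z i ^ 2
        - c * √((m : ℝ) + 1) * ∑ i, d i * z i)) := by positivity
  have h12 : μ.real univ ^ 2 / ((m : ℝ) + 1) ^ 2 *
      ((k0 * (m + 1) ^ 2 + k1 * m) + (k1 * ∑ i, d i ^ 2 - (m + 1) * ∑ i, z i ^ 2
        - c * √((m : ℝ) + 1) * ∑ i, d i * z i))
      = μ.real univ ^ 2 * k0 + k1 * (μ.real univ ^ 2 * ((m + ∑ i, d i ^ 2) / ((m : ℝ) + 1) ^ 2))
        - μ.real univ ^ 2 * ((∑ i, z i ^ 2) / ((m : ℝ) + 1))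
        + c / 2 * (-(μ.real univ ^ 2 * ((∑ i, d i * z i) / (((m : ℝ) + 1) * √((m : ℝ) + 1))))
          + -(μ.real univ ^ 2 * ((∑ i, d i * z i) / (((m : ℝ) + 1) * √((m : ℝ) + 1))))) := by
    field_simp
    linear_combination (-(2 * c * ∑ x, d x * z x)) * hr
  rw [h12] at h11
  linarith

end

end Vale.Agent.P224.SO
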