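import Vale.Agent.P224.SO.R3b

/-!
The orientation resource from inequalities for one point of the disc.
-/

namespace Vale.Agent.P224.SO.Rg

open Finset Vale.Agent.P224.SO

/-- the quadratic form -/
noncomputable def Q (A B c a b s d x : ℝ) : ℝ :=
  A * d ^ 2 - B * x ^ 2 - (c - s) * d * x - a * d - b * x

/-- the disc and one of its tangent lines -/
lemma lin_q {q d x : ℝ} (hq : 0 ≤ q) (h : q * x ^ 2 ≤ d - d ^ 2) (u v : ℝ) :
    0 ≤ (1 - 2 * u) * d - 2 * q * v * x + (u ^ 2 + q * v ^ 2) := by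
  nlinarith [sq_nonneg (d - u), mul_nonneg hq (sq_nonneg (x - v))]

section

variable {n : ℕ} {d x : Fin n → ℝ}

/-- the functional with the multipliers -/
lemma sum_Q (A B c a b s : ℝ) (h1 : ∑ i, d i = 1) (h0 : ∑ i, x i = 0) :
    ∑ i, Q A B c a b s (d i) (x i)
      = A * ∑ i, d i ^ 2 - B * ∑ i, x i ^ 2 - (c - s) * ∑ i, d i * x i - a := by
  have e : ∑ i, Q A B c a b s (d i) (x i)
      = A * ∑ i, d i ^ 2 - B * ∑ i, x i ^ 2 - (c - s) * ∑ i, d i * x i - a * ∑ i, d i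
        - b * ∑ i, x i := by
    unfold Q
    simp only [sum_sub_distrib, mul_sum, mul_assoc]
  rw [e, h1, h0]
  ring

/-- the one point inequalities -/
structure Dat (K : ℕ) (q A B c T : ℝ) where
  Z : ℝ
  (aA bA ap an aB bp bm aC bC gp gn g0 : ℝ)
  Zpos : 0 < Z
  cnn : 0 ≤ c
  A1 : ∀ d x : ℝ, q * x ^ 2 ≤ d - d ^ 2 → Z ≤ x → ap ≤ Q A B c aA bA 0 d x
  A2 : ∀ d x : ℝ, q * x ^ 2 ≤ d - d ^ 2 → an ≤ Q A B c aA bA 0 d x
  A3 : an ≤ ap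
  A4 : T ≤ (K + 1) * ap + K * an + aA
  B1 : ∀ d x : ℝ, q * x ^ 2 ≤ d - d ^ 2 → bp ≤ Q A B c aB 0 c d x
  B2 : ∀ d x : ℝ, q * x ^ 2 ≤ d - d ^ 2 → -Z ≤ x → x ≤ Z → bm ≤ Q A B c aB 0 c d x
  B3 : bp ≤ bm
  B4 : T ≤ (2 * K - 1) * bp + 2 * bm + aB
  C1 : ∀ d x : ℝ, q * x ^ 2 ≤ d - d ^ 2 → Z ≤ x → gp ≤ Q A B c aC bC 0 d x
  C2 : ∀ d x : ℝ, q * x ^ 2 ≤ d - d ^ 2 → gn ≤ Q A B c aC bC 0 d x
  C3 : ∀ d x : ℝ, q * x ^ 2 ≤ d - d ^ 2 → 0 ≤ x → x ≤ Z → g0 ≤ Q A B c aC bC 0 d x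
  C4 : T ≤ K * gp + K * gn + g0 + aC

variable {K : ℕ} {q A B c T : ℝ}

lemma Dat.caseA (D : Dat K q A B c T) (hn : n = 2 * K + 1)
    (h : ∀ i, q * x i ^ 2 ≤ d i - d i ^ 2) (h1 : ∑ i, d i = 1) (h0 : ∑ i, x i = 0)
    (hR : K + 1 ≤ (Rt D.Z x).card) :
    T ≤ A * ∑ i, d i ^ 2 - B * ∑ i, x i ^ 2 - c * ∑ i, d i * x i := by
  have e := sum_lev D.Zpos (fun i => Q A B c D.aA D.bA 0 (d i) (x i)) (ap := D.ap) (an := D.an)
    (am := D.an) (fun i hi => D.A1 _ _ (h i) hi) (fun i _ => D.A2 _ _ (h i))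
    (fun i _ _ => D.A2 _ _ (h i))
  rw [sum_Q _ _ _ _ _ _ h1 h0, sub_zero] at e
  have h3 : (n : ℝ) = 2 * K + 1 := by rw [hn]; push_cast; ring
  have h4 : (K : ℝ) + 1 ≤ ((Rt D.Z x).card : ℝ) := by exact_mod_cast hR
  have h5 := mul_nonneg (sub_nonneg.2 h4) (sub_nonneg.2 D.A3)
  have h6 := D.A4
  rw [h3] at e
  nlinarith

lemma Dat.caseB (D : Dat K q A B c T) (hn : n = 2 * K + 1)
    (h : ∀ i, q * x i ^ 2 ≤ d i - d i ^ 2) (h1 : ∑ i, d i = 1) (h0 : ∑ i, x i = 0)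
    (hR : (Rt D.Z x).card + (Lt D.Z x).card + 2 ≤ n) :
    T ≤ A * ∑ i, d i ^ 2 - B * ∑ i, x i ^ 2 := by
  have e := sum_lev D.Zpos (fun i => Q A B c D.aB 0 c (d i) (x i)) (ap := D.bp) (an := D.bp)
    (am := D.bm) (fun i hi => D.B1 _ _ (h i)) (fun i _ => D.B1 _ _ (h i))
    (fun i hi hi' => D.B2 _ _ (h i) hi'.le hi.le)
  rw [sum_Q _ _ _ _ _ _ h1 h0, sub_self, zero_mul, sub_zero] at e
  have h3 : (n : ℝ) = 2 * K + 1 := by rw [hn]; push_cast; ring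
  have h4 : ((Rt D.Z x).card : ℝ) + ((Lt D.Z x).card : ℝ) + 2 ≤ n := by exact_mod_cast hR
  rw [h3] at e h4
  have h5 := mul_nonneg (sub_nonneg.2 h4) (sub_nonneg.2 D.B3)
  have h6 := D.B4
  nlinarith

lemma Dat.caseC (D : Dat K q A B c T) (hn : n = 2 * K + 1)
    (h : ∀ i, q * x i ^ 2 ≤ d i - d i ^ 2) (h1 : ∑ i, d i = 1) (h0 : ∑ i, x i = 0)
    (hR : (Rt D.Z x).card = K) (hL : (Lt D.Z x).card = K) (i₀ : Fin n)
    (hi : ∀ i, x i < D.Z → -D.Z < x i → x i = x i₀) (hi0 : 0 ≤ x i₀) :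
    T ≤ A * ∑ i, d i ^ 2 - B * ∑ i, x i ^ 2 - c * ∑ i, d i * x i := by
  have e := sum_lev D.Zpos (fun i => Q A B c D.aC D.bC 0 (d i) (x i)) (ap := D.gp) (an := D.gn)
    (am := D.g0) (fun i hi => D.C1 _ _ (h i) hi) (fun i _ => D.C2 _ _ (h i))
    (fun i h1 h2 => D.C3 _ _ (h i) (by rw [hi i h1 h2]; exact hi0) h1.le)
  rw [sum_Q _ _ _ _ _ _ h1 h0, sub_zero, hR, hL] at e
  have h3 : (n : ℝ) = 2 * K + 1 := by rw [hn]; push_cast; ring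
  have h6 := D.C4
  rw [h3] at e
  linarith

/-- the scalar inequality -/
theorem Dat.scal (D : Dat K q A B c T) (hn : n = 2 * K + 1)
    (h : ∀ i, q * x i ^ 2 ≤ d i - d i ^ 2) (h1 : ∑ i, d i = 1) (h0 : ∑ i, x i = 0)
    (hv : ∑ i, d i * x i ≤ 0) :
    T ≤ A * ∑ i, d i ^ 2 - B * ∑ i, x i ^ 2 - c * ∑ i, d i * x i := by
  have hcv := mul_nonneg D.cnn (neg_nonneg.2 hv)
  have h' : ∀ i, q * (-x i) ^ 2 ≤ d i - d i ^ 2 := fun i => by rw [neg_sq]; exact h i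
  have h0' : ∑ i, -x i = 0 := by rw [sum_neg1, h0, neg_zero]
  have hm : T ≤ A * ∑ i, d i ^ 2 - B * ∑ i, (-x i) ^ 2 - c * ∑ i, d i * -x i →
      T ≤ A * ∑ i, d i ^ 2 - B * ∑ i, x i ^ 2 - c * ∑ i, d i * x i := by
    intro hh
    simp only [neg_sq, mul_neg, sum_neg1] at hh
    linarith
  by_cases c1 : (Rt D.Z x).card + (Lt D.Z x).card + 2 ≤ n
  · have := D.caseB hn h h1 h0 c1
    linarith
  by_cases c2 : K + 1 ≤ (Rt D.Z x).card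
  · exact D.caseA hn h h1 h0 c2
  by_cases c3 : K + 1 ≤ (Lt D.Z x).card
  · exact hm (D.caseA (x := fun i => -x i) hn h' h1 h0' (by rw [Rt_neg]; exact c3))
  have cP : (Rt D.Z x).card = K := by omega
  have cN : (Lt D.Z x).card = K := by omega
  obtain ⟨i₀, hi⟩ := exists_mid (k := K) (l := K) D.Zpos (by omega) cP cN
  rcases le_total 0 (x i₀) with hy | hy
  · exact D.caseC hn h h1 h0 cP cN i₀ hi hy
  · refine hm (D.caseC (x := fun i => -x i) hn h' h1 h0' (by rw [Rt_neg]; exact cN)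
      (by rw [Lt_neg]; exact cP) i₀ (fun i a b => ?_) (by linarith))
    rw [hi i (by linarith) (by linarith)]

end

section

open MeasureTheory Set Filter Function Module Vale.Agent.P224.UE
open scoped Topology RealInnerProductSpace ContDiff

variable {X : Type*} [MeasurableSpace X] {E : Type*} [NormedAddCommGroup E]
  [InnerProductSpace ℝ E] [FiniteDimensional ℝ E] [MeasurableSpace E] [BorelSpace E]
  {μ : Measure X} [IsFiniteMeasure μ] {p n : X → E} {m : ℕ}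

/-- the orientation resource -/
theorem resD {K : ℕ} {q B A T k0 c' c : ℝ} (D : Dat K q A B c' T) (hm : 1 < m)
    (hK : m + 1 = 2 * K) (hqm : q = (m : ℝ) - 1) (hB : B = ((m : ℝ) - 1) * (m + 1)) (hA : 0 ≤ A)
    (hT : k0 * (m + 1) ^ 2 + A * m + T = 0) (hc0 : 0 ≤ c)
    (hc : c' ^ 2 ≤ ((m : ℝ) - 1) * (m + 1) * c ^ 2)
    (hE : finrank ℝ E = m + 2) (h : TwoG μ m p n) [Nonempty X]
    (hsp : ∀ w, (∀ x, ⟪p x, w⟫ = 0) → w = 0)
    (hor : 0 ≤ ∫ q : X × X, ⟪p q.1, p q.2⟫ * ⟪p q.1, n q.2⟫ ∂(μ.prod μ)) :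
    0 ≤ ∫ q : X × X, (k0 + A * ⟪p q.1, p q.2⟫ ^ 2 - ⟪p q.1, p q.2⟫ * ⟪n q.1, n q.2⟫
      + c * (⟪p q.1, p q.2⟫ * ((⟪p q.1, n q.2⟫ + ⟪n q.1, p q.2⟫) / 2))) ∂(μ.prod μ) := by
  subst hqm hB
  have hm1 : (1 : ℝ) < m := by exact_mod_cast hm
  have hq : 0 < (m : ℝ) - 1 := by linarith
  have hq2 : 0 < (m : ℝ) + 1 := by linarith
  refine resG (by omega) hE h hsp hor hA fun d z h1 h2 h3 h4 => ?_
  set r := √((m : ℝ) - 1) with hr
  have hr0 : 0 < r := Real.sqrt_pos.2 hq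
  have hrr : r ^ 2 = (m : ℝ) - 1 := Real.sq_sqrt hq.le
  set R := √((m : ℝ) + 1) with hR
  have hR0 : 0 < R := Real.sqrt_pos.2 hq2
  have hRR : R ^ 2 = (m : ℝ) + 1 := Real.sq_sqrt hq2.le
  have hx : ∀ i, ((m : ℝ) - 1) * (z i / r) ^ 2 = z i ^ 2 := fun i => by
    rw [div_pow, hrr]; field_simp
  have e1 : ∑ i, z i / r = (∑ i, z i) / r := by rw [Finset.sum_div]
  have e2 : ∑ i, d i * (z i / r) = (∑ i, d i * z i) / r := by
    rw [Finset.sum_div]; exact Finset.sum_congr rfl fun i _ => by ring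
  have e3 : ((m : ℝ) - 1) * (m + 1) * ∑ i, (z i / r) ^ 2 = (m + 1) * ∑ i, z i ^ 2 := by
    rw [Finset.mul_sum, Finset.mul_sum]
    refine Finset.sum_congr rfl fun i _ => ?_
    rw [← hx i]; ring
  have h4' : (∑ i, d i * z i) / r ≤ 0 := div_nonpos_of_nonpos_of_nonneg h4 hr0.le
  have key := D.scal (d := d) (x := fun i => z i / r) (by omega)
    (fun i => by rw [hx]; exact h1 i) h2 (by rw [e1, h3, zero_div]) (by rw [e2]; exact h4')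
  rw [e3, e2] at key
  have h5 : c' ≤ c * R * r := by
    refine abs_le_of_sq_le_sq' ?_ (by positivity) |>.2
    calc c' ^ 2 ≤ ((m : ℝ) - 1) * (m + 1) * c ^ 2 := hc
      _ = (c * R * r) ^ 2 := by rw [mul_pow, mul_pow, hrr, hRR]; ring
  have h6 : c' * ((∑ i, d i * z i) / r) ≥ c * R * r * ((∑ i, d i * z i) / r) := by
    have := mul_nonneg (sub_nonneg.2 h5) (neg_nonneg.2 h4')
    nlinarith
  have h7 : c * R * r * ((∑ i, d i * z i) / r) = c * R * ∑ i, d i * z i := by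
    field_simp
  rw [h7] at h6
  linarith

end

end Vale.Agent.P224.SO.Rg
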