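import Vale.Agent.P224.SO.Rg

/-!
The number of points on the right from the value of the functional with additional terms.
-/

namespace Vale.Agent.P224.SO.Rg

open Finset Vale.Agent.P224.SO

section

variable {n : ℕ} {d x : Fin n → ℝ} {K : ℕ} {q A B c T : ℝ}

/-- classification of the configurations with a small value -/
theorem Dat.cls (D : Dat K q A B c T) (hn : n = 2 * K + 1) (hK : 1 ≤ K)
    (h : ∀ i, q * x i ^ 2 ≤ d i - d i ^ 2) (h1 : ∑ i, d i = 1) (h0 : ∑ i, x i = 0)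
    (hv : ∑ i, d i * x i ≤ 0) {P : ℝ → ℝ → ℝ}
    (hP : ∀ d x : ℝ, q * x ^ 2 ≤ d - d ^ 2 → 0 ≤ P d x) {t aL bL sL lp ln g1 : ℝ}
    (tA : T + t ≤ (K + 2) * D.ap + (K - 1) * D.an + D.aA)
    (tB : T + t ≤ (2 * K - 1) * D.bp + 2 * D.bm + D.aB) (hsL : sL ≤ 2 * c)
    (L1 : ∀ d x : ℝ, q * x ^ 2 ≤ d - d ^ 2 → D.Z ≤ x → lp ≤ Q A B c aL bL sL d x)
    (L2 : ∀ d x : ℝ, q * x ^ 2 ≤ d - d ^ 2 → ln ≤ Q A B c aL bL sL d x) (L3 : ln ≤ lp)
    (tL : T + t ≤ (K + 1) * lp + K * ln + aL)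
    (M1 : ∀ d x : ℝ, q * x ^ 2 ≤ d - d ^ 2 → 0 ≤ x → x ≤ D.Z →
      g1 ≤ Q A B c D.aC D.bC 0 d x + P d x)
    (M2 : ∀ d x : ℝ, q * x ^ 2 ≤ d - d ^ 2 → 0 ≤ x → x ≤ D.Z →
      g1 ≤ Q A B c D.aC D.bC 0 d x + P d (-x))
    (tC : T + t ≤ K * D.gp + K * D.gn + g1 + D.aC)
    (hS : A * ∑ i, d i ^ 2 - B * ∑ i, x i ^ 2 - c * ∑ i, d i * x i + ∑ i, P (d i) (x i)
      < T + t) : (Rt D.Z x).card = K + 1 := by
  have h' : ∀ i, q * (-x i) ^ 2 ≤ d i - d i ^ 2 := fun i => by rw [neg_sq]; exact h i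
  have h0' : ∑ i, -x i = 0 := by rw [sum_neg1, h0, neg_zero]
  have hcv := mul_nonneg D.cnn (neg_nonneg.2 hv)
  have hPs : 0 ≤ ∑ i, P (d i) (x i) := sum_nonneg fun i _ => hP _ _ (h i)
  have h3 : (n : ℝ) = 2 * K + 1 := by rw [hn]; push_cast; ring
  have hK1 : (1 : ℝ) ≤ K := by exact_mod_cast hK
  -- at least `K + 1`
  have hge : K + 1 ≤ (Rt D.Z x).card := by
    by_contra c2
    by_cases c1 : (Rt D.Z x).card + (Lt D.Z x).card + 2 ≤ n
    · have e := sum_lev D.Zpos (fun i => Q A B c D.aB 0 c (d i) (x i)) (ap := D.bp) (an := D.bp)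
        (am := D.bm) (fun i hi => D.B1 _ _ (h i)) (fun i _ => D.B1 _ _ (h i))
        (fun i hi hi' => D.B2 _ _ (h i) hi'.le hi.le)
      rw [sum_Q _ _ _ _ _ _ h1 h0, sub_self, zero_mul, sub_zero] at e
      have h4 : ((Rt D.Z x).card : ℝ) + ((Lt D.Z x).card : ℝ) + 2 ≤ n := by exact_mod_cast c1
      rw [h3] at e h4
      have h5 := mul_nonneg (sub_nonneg.2 h4) (sub_nonneg.2 D.B3)
      nlinarith
    by_cases c3 : K + 1 ≤ (Lt D.Z x).card
    · have e := sum_lev (z := fun i => -x i) D.Zpos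
        (fun i => Q A B c aL bL sL (d i) (-x i)) (ap := lp) (an := ln)
        (am := ln) (fun i hi => L1 _ _ (h' i) hi) (fun i _ => L2 _ _ (h' i))
        (fun i _ _ => L2 _ _ (h' i))
      rw [sum_Q (x := fun i => -x i) _ _ _ _ _ _ h1 h0', Rt_neg] at e
      simp only [neg_sq, mul_neg, sum_neg1] at e
      have h4 : (K : ℝ) + 1 ≤ ((Lt D.Z x).card : ℝ) := by exact_mod_cast c3
      have h5 := mul_nonneg (sub_nonneg.2 h4) (sub_nonneg.2 L3)
      have h6 := mul_nonneg (sub_nonneg.2 hsL) (neg_nonneg.2 hv)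
      rw [h3] at e
      nlinarith
    have cP : (Rt D.Z x).card = K := by omega
    have cN : (Lt D.Z x).card = K := by omega
    obtain ⟨i₀, hi⟩ := exists_mid (k := K) (l := K) D.Zpos (by omega) cP cN
    rcases le_total 0 (x i₀) with hy | hy
    · have e := sum_lev D.Zpos (fun i => Q A B c D.aC D.bC 0 (d i) (x i) + P (d i) (x i))
        (ap := D.gp) (an := D.gn) (am := g1)
        (fun i hi => by have := D.C1 _ _ (h i) hi; have := hP _ _ (h i); linarith)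
        (fun i _ => by have := D.C2 _ _ (h i); have := hP _ _ (h i); linarith)
        (fun i h1 h2 => M1 _ _ (h i) (by rw [hi i h1 h2]; exact hy) h1.le)
      rw [sum_add_distrib, sum_Q _ _ _ _ _ _ h1 h0, sub_zero, cP, cN, h3] at e
      linarith
    · have e := sum_lev (z := fun i => -x i) D.Zpos
        (fun i => Q A B c D.aC D.bC 0 (d i) (-x i) + P (d i) (x i))
        (ap := D.gp) (an := D.gn) (am := g1)
        (fun i hi => by have := D.C1 _ _ (h' i) hi; have := hP _ _ (h i); linarith)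
        (fun i _ => by have := D.C2 _ _ (h' i); have := hP _ _ (h i); linarith)
        (fun i h1 h2 => by
          have := M2 _ _ (h' i) (by rw [hi i (by linarith) (by linarith)]; linarith) h1.le
          rwa [neg_neg] at this)
      rw [sum_add_distrib, sum_Q (x := fun i => -x i) _ _ _ _ _ _ h1 h0', sub_zero, Rt_neg,
        Lt_neg, cP, cN, h3] at e
      simp only [neg_sq, mul_neg, sum_neg1] at e
      nlinarith
  -- at most `K + 1`
  by_contra hne
  have h5 : K + 2 ≤ (Rt D.Z x).card := by omega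
  have e := sum_lev D.Zpos (fun i => Q A B c D.aA D.bA 0 (d i) (x i)) (ap := D.ap) (an := D.an)
    (am := D.an) (fun i hi => D.A1 _ _ (h i) hi) (fun i _ => D.A2 _ _ (h i))
    (fun i _ _ => D.A2 _ _ (h i))
  rw [sum_Q _ _ _ _ _ _ h1 h0, sub_zero] at e
  have h4 : (K : ℝ) + 2 ≤ ((Rt D.Z x).card : ℝ) := by exact_mod_cast h5
  have h6 := mul_nonneg (sub_nonneg.2 h4) (sub_nonneg.2 D.A3)
  rw [h3] at e
  nlinarith

end

end Vale.Agent.P224.SO.Rg
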