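import Vale.Agent.P224.SO.Rg

/-!
The stable form of the inequality: configurations near the Clifford configuration.
-/

namespace Vale.Agent.P224.SO.Rg

open Finset Vale.Agent.P224.SO

section

variable {n K : ℕ} {d x : Fin n → ℝ} {q A B c T Z : ℝ} {P : ℝ → ℝ → ℝ}

/-- the sum over a configuration, one point on the right apart -/
lemma sumB {G : Fin n → ℝ} {r l μ : ℝ} (hn : n = 2 * K + 1) (hc : (Rt Z x).card = K + 1)
    {i₀ : Fin n} (hi₀ : i₀ ∈ Rt Z x) (hR : ∀ i ∈ Rt Z x, r ≤ G i) (hL : ∀ i ∉ Rt Z x, l ≤ G i)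
    (hM : μ ≤ G i₀) : μ + K * r + K * l ≤ ∑ i, G i := by
  rw [← sum_add_sum_compl (Rt Z x), ← add_sum_erase _ _ hi₀]
  have c1 : ((Rt Z x).erase i₀).card = K := by rw [card_erase_of_mem hi₀, hc]; rfl
  have c2 : ((Rt Z x)ᶜ).card = K := by rw [card_compl, hc, Fintype.card_fin]; omega
  have e1 := card_nsmul_le_sum ((Rt Z x).erase i₀) G r fun i hi => hR i (mem_of_mem_erase hi)
  have e2 := card_nsmul_le_sum (Rt Z x)ᶜ G l fun i hi => hL i (mem_compl.1 hi)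
  rw [c1, nsmul_eq_mul] at e1
  rw [c2, nsmul_eq_mul] at e2
  linarith

/-- exclusion: a point in the interval makes the value large -/
lemma stepS {t a b r l μ Z1 Z2 : ℝ} (hn : n = 2 * K + 1) (hc : (Rt Z x).card = K + 1)
    (h : ∀ i, q * x i ^ 2 ≤ d i - d i ^ 2) (h1 : ∑ i, d i = 1) (h0 : ∑ i, x i = 0)
    {i₀ : Fin n} (hi₀ : i₀ ∈ Rt Z x) (hmin : ∀ i ∈ Rt Z x, x i₀ ≤ x i)
    (hz1 : Z1 ≤ x i₀) (hz2 : x i₀ ≤ Z2)
    (hR : ∀ d x : ℝ, q * x ^ 2 ≤ d - d ^ 2 → Z1 ≤ x → r ≤ Q A B c a b 0 d x + P d x)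
    (hL : ∀ d x : ℝ, q * x ^ 2 ≤ d - d ^ 2 → l ≤ Q A B c a b 0 d x + P d x)
    (hM : ∀ d x : ℝ, q * x ^ 2 ≤ d - d ^ 2 → Z1 ≤ x → x ≤ Z2 →
      μ ≤ Q A B c a b 0 d x + P d x)
    (hT : T + t ≤ a + K * r + K * l + μ) :
    T + t ≤ A * ∑ i, d i ^ 2 - B * ∑ i, x i ^ 2 - c * ∑ i, d i * x i
      + ∑ i, P (d i) (x i) := by
  have e := sumB (G := fun i => Q A B c a b 0 (d i) (x i) + P (d i) (x i)) hn hc hi₀
    (fun i hi => hR _ _ (h i) (hz1.trans (hmin i hi))) (fun i _ => hL _ _ (h i))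
    (hM _ _ (h i₀) hz1 hz2)
  rw [sum_add_distrib, sum_Q _ _ _ _ _ _ h1 h0, sub_zero] at e
  linarith

/-- the distance from the Clifford configuration is controlled, one point in an interval -/
lemma stepG {κ w a2 b2 c2 a1 b1 c1 a b r l μ Z1 Z2 ZL : ℝ} (hn : n = 2 * K + 1)
    (hc : (Rt Z x).card = K + 1)
    (h : ∀ i, q * x i ^ 2 ≤ d i - d i ^ 2) (h1 : ∑ i, d i = 1) (h0 : ∑ i, x i = 0)
    {i₀ : Fin n} (hi₀ : i₀ ∈ Rt Z x) (hmin : ∀ i ∈ Rt Z x, x i₀ ≤ x i)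
    (hz1 : Z1 ≤ x i₀) (hz2 : x i₀ ≤ Z2) (hZL : ∀ i, i ∉ Rt Z x → x i ≤ ZL)
    (hR : ∀ d x : ℝ, q * x ^ 2 ≤ d - d ^ 2 → Z1 ≤ x →
      r + κ * (a2 * d - b2 * x + c2) ≤ Q A B c a b 0 d x + P d x)
    (hL : ∀ d x : ℝ, q * x ^ 2 ≤ d - d ^ 2 → x ≤ ZL →
      l + κ * (w * (a1 * d + b1 * x + c1)) ≤ Q A B c a b 0 d x + P d x)
    (hM : ∀ d x : ℝ, q * x ^ 2 ≤ d - d ^ 2 → Z1 ≤ x → x ≤ Z2 →
      μ + κ * (a2 * d - b2 * x + c2) ≤ Q A B c a b 0 d x + P d x)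
    (hT : T ≤ a + K * r + K * l + μ) :
    T + κ * ∑ i, (if Z ≤ x i then a2 * d i - b2 * x i + c2
        else w * (a1 * d i + b1 * x i + c1))
      ≤ A * ∑ i, d i ^ 2 - B * ∑ i, x i ^ 2 - c * ∑ i, d i * x i
      + ∑ i, P (d i) (x i) := by
  have e := sumB (G := fun i => Q A B c a b 0 (d i) (x i) + P (d i) (x i)
      - κ * (if Z ≤ x i then a2 * d i - b2 * x i + c2
        else w * (a1 * d i + b1 * x i + c1))) (r := r) (l := l) (μ := μ) hn hc hi₀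
    (fun i hi => by
      have := hR _ _ (h i) (hz1.trans (hmin i hi))
      rw [if_pos (mem_Rt.1 hi)]
      linarith)
    (fun i hi => by
      have := hL _ _ (h i) (hZL i hi)
      rw [if_neg fun hh => hi (mem_Rt.2 hh)]
      linarith)
    (by
      have := hM _ _ (h i₀) hz1 hz2
      rw [if_pos (mem_Rt.1 hi₀)]
      linarith)
  rw [sum_sub_distrib, sum_add_distrib, sum_Q _ _ _ _ _ _ h1 h0, sub_zero, ← mul_sum] at e
  linarith

/-- the points on the left are near the Clifford value -/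
lemma left_le {t a b ap an ZL : ℝ} (hn : n = 2 * K + 1) (hc : (Rt Z x).card = K + 1)
    (h : ∀ i, q * x i ^ 2 ≤ d i - d i ^ 2) (h1 : ∑ i, d i = 1) (h0 : ∑ i, x i = 0)
    (hR : ∀ d x : ℝ, q * x ^ 2 ≤ d - d ^ 2 → Z ≤ x → ap ≤ Q A B c a b 0 d x + P d x)
    (hL : ∀ d x : ℝ, q * x ^ 2 ≤ d - d ^ 2 → an ≤ Q A B c a b 0 d x + P d x)
    (hF : ∀ d x : ℝ, q * x ^ 2 ≤ d - d ^ 2 → ZL ≤ x → an + t ≤ Q A B c a b 0 d x + P d x)
    (hT : T ≤ a + (K + 1) * ap + K * an)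
    (hS : A * ∑ i, d i ^ 2 - B * ∑ i, x i ^ 2 - c * ∑ i, d i * x i
      + ∑ i, P (d i) (x i) < T + t) : ∀ i, i ∉ Rt Z x → x i ≤ ZL := by
  intro i hi
  by_contra hlt
  push Not at hlt
  have hiL : i ∈ (Rt Z x)ᶜ := mem_compl.2 hi
  have e : ∑ i, (Q A B c a b 0 (d i) (x i) + P (d i) (x i))
      = A * ∑ i, d i ^ 2 - B * ∑ i, x i ^ 2 - c * ∑ i, d i * x i - a
        + ∑ i, P (d i) (x i) := by
    rw [sum_add_distrib, sum_Q _ _ _ _ _ _ h1 h0, sub_zero]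
  rw [← sum_add_sum_compl (Rt Z x), ← add_sum_erase (Rt Z x)ᶜ _ hiL] at e
  have c2 : ((Rt Z x)ᶜ.erase i).card + 1 = K := by
    rw [card_erase_add_one hiL, card_compl, hc, Fintype.card_fin]; omega
  have c2' : (((Rt Z x)ᶜ.erase i).card : ℝ) + 1 = K := by exact_mod_cast c2
  have e1 := card_nsmul_le_sum (Rt Z x) (fun i => Q A B c a b 0 (d i) (x i) + P (d i) (x i)) ap
    fun i hi => hR _ _ (h i) (mem_Rt.1 hi)
  have e2 := card_nsmul_le_sum ((Rt Z x)ᶜ.erase i)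
    (fun i => Q A B c a b 0 (d i) (x i) + P (d i) (x i)) an fun i _ => hL _ _ (h i)
  have e3 := hF _ _ (h i) hlt.le
  rw [hc, nsmul_eq_mul] at e1
  rw [nsmul_eq_mul, ← sub_eq_of_eq_add c2'.symm] at e2
  push_cast at e1
  linarith

/-- the distance from the Clifford configuration is controlled, all points near it -/
lemma stepB {κ w a2 b2 c2 a1 b1 c1 a b ap an Z1 ZL : ℝ} (hn : n = 2 * K + 1)
    (hc : (Rt Z x).card = K + 1)
    (h : ∀ i, q * x i ^ 2 ≤ d i - d i ^ 2) (h1 : ∑ i, d i = 1) (h0 : ∑ i, x i = 0)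
    (hz1 : ∀ i ∈ Rt Z x, Z1 ≤ x i) (hZL : ∀ i, i ∉ Rt Z x → x i ≤ ZL)
    (hR : ∀ d x : ℝ, q * x ^ 2 ≤ d - d ^ 2 → Z1 ≤ x →
      ap + κ * (a2 * d - b2 * x + c2) ≤ Q A B c a b 0 d x + P d x)
    (hL : ∀ d x : ℝ, q * x ^ 2 ≤ d - d ^ 2 → x ≤ ZL →
      an + κ * (w * (a1 * d + b1 * x + c1)) ≤ Q A B c a b 0 d x + P d x)
    (hT : T ≤ a + (K + 1) * ap + K * an) :
    T + κ * ∑ i, (if Z ≤ x i then a2 * d i - b2 * x i + c2
        else w * (a1 * d i + b1 * x i + c1))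
      ≤ A * ∑ i, d i ^ 2 - B * ∑ i, x i ^ 2 - c * ∑ i, d i * x i
      + ∑ i, P (d i) (x i) := by
  have hne : (Rt Z x).Nonempty := by
    rw [← card_pos, hc]; omega
  obtain ⟨i₀, hi₀⟩ := hne
  have e := sumB (G := fun i => Q A B c a b 0 (d i) (x i) + P (d i) (x i)
      - κ * (if Z ≤ x i then a2 * d i - b2 * x i + c2
        else w * (a1 * d i + b1 * x i + c1))) (r := ap) (l := an) (μ := ap) hn hc hi₀
    (fun i hi => by
      have := hR _ _ (h i) (hz1 i hi)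
      rw [if_pos (mem_Rt.1 hi)]
      linarith)
    (fun i hi => by
      have := hL _ _ (h i) (hZL i hi)
      rw [if_neg fun hh => hi (mem_Rt.2 hh)]
      linarith)
    (by
      have := hR _ _ (h i₀) (hz1 i₀ hi₀)
      rw [if_pos (mem_Rt.1 hi₀)]
      linarith)
  rw [sum_sub_distrib, sum_add_distrib, sum_Q _ _ _ _ _ _ h1 h0, sub_zero, ← mul_sum] at e
  linarith

end

end Vale.Agent.P224.SO.Rg
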