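import Vale.Agent.P224.SO.NearG

/-!
Dimension eleven: the stable scalar inequalities near the Clifford configuration (file written by a
program).
-/

namespace Vale.Agent.P224.SO.S11

open Finset Vale.Agent.P224.SO

section

variable {d x : ℝ}

lemma lin (h : 10 * x ^ 2 ≤ d - d ^ 2) (u v : ℝ) :
    0 ≤ (1 - 2 * u) * d - 20 * v * x + u ^ 2 + 10 * v ^ 2 := by
  nlinarith [sq_nonneg (d - u), sq_nonneg (x - v)]

lemma e2_nonneg (h : 10 * x ^ 2 ≤ d - d ^ 2) : 0 ≤ 67 / 72 * d - 5 / 3 * x + 5 / 72 := by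
  have := lin h (5 / 77) (6 / 77)
  linarith

lemma e1_nonneg (h : 10 * x ^ 2 ≤ d - d ^ 2) : 0 ≤ 9 / 10 * d + 2 * x + 1 / 10 := by
  have := lin h (1 / 11) (-(1 / 11))
  linarith

/-- the right block, near the minimum -/
lemma aS (h : 10 * x ^ 2 ≤ d - d ^ 2) (hx : 513 / 10000 ≤ x) :
    6 / 49 + 28 / 5 * (67 / 72 * d - 5 / 3 * x + 5 / 72) ≤ 74 * d ^ 2 - 120 * x ^ 2 - 24 * (d * x) + (-(76 / 35)) * d + 72 / 7 * x
      + (6 * (d - d ^ 2 - 10 * x ^ 2)) := by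
  have hs := lin (d := d) (x := x) h (5 / 77) (6 / 77)
  nlinarith [mul_nonneg (sub_nonneg.2 hx) hs,
    sq_nonneg ((12 / 77 * (d - 5 / 77) + 67 / 77 * (x - 6 / 77)) + 159 / 50 * (67 / 77 * (d - 5 / 77) - 120 / 77 * (x - 6 / 77))),
    sq_nonneg (67 / 77 * (d - 5 / 77) - 120 / 77 * (x - 6 / 77))]

/-- the right block, far from the minimum -/
lemma bS (h : 10 * x ^ 2 ≤ d - d ^ 2) (hx : 3 / 100 ≤ x) (hx' : x ≤ 513 / 10000) :
    6 / 49 + 1 / 20 ≤ 74 * d ^ 2 - 120 * x ^ 2 - 24 * (d * x) + (-(76 / 35)) * d + 72 / 7 * x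
      + (6 * (d - d ^ 2 - 10 * x ^ 2)) := by
  have hs := lin (d := d) (x := x) h (541 / 20000) (513 / 10000)
  nlinarith [mul_nonneg (sub_nonneg.2 hx) (sub_nonneg.2 hx'),
    mul_nonneg (sub_nonneg.2 hx') hs, sq_nonneg (d - 541 / 20000), sq_nonneg (x - 513 / 10000),
    sq_nonneg ((d - 541 / 20000) - (x - 513 / 10000))]

/-- the left block, near the minimum -/
lemma lS (h : 10 * x ^ 2 ≤ d - d ^ 2) (hx : x ≤ -(77 / 1000)) :
    -(46 / 35) + 56 / 5 * (9 / 10 * d + 2 * x + 1 / 10) ≤ 74 * d ^ 2 - 120 * x ^ 2 - 24 * (d * x) + (-(76 / 35)) * d + 72 / 7 * x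
      + (6 * (d - d ^ 2 - 10 * x ^ 2)) := by
  have hs := lin (d := d) (x := x) h (1 / 11) (-(1 / 11))
  nlinarith [mul_nonneg (sub_nonneg.2 hx) hs,
    sq_nonneg ((9 / 11 * (x + 1 / 11) - 2 / 11 * (d - 1 / 11)) + 1 / 10 * (9 / 11 * (d - 1 / 11) + 20 / 11 * (x + 1 / 11))),
    sq_nonneg (9 / 11 * (d - 1 / 11) + 20 / 11 * (x + 1 / 11))]

/-- the left block, far from the minimum -/
lemma mS (h : 10 * x ^ 2 ≤ d - d ^ 2) (hx : -(77 / 1000) ≤ x) (hx' : x ≤ 3 / 100) :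
    -(46 / 35) + 1 / 20 ≤ 74 * d ^ 2 - 120 * x ^ 2 - 24 * (d * x) + (-(76 / 35)) * d + 72 / 7 * x
      + (6 * (d - d ^ 2 - 10 * x ^ 2)) := by
  nlinarith [mul_nonneg (sub_nonneg.2 hx) (sub_nonneg.2 hx'),
    sq_nonneg (9 / 11 * (x + 1 / 11) - 2 / 11 * (d - 1 / 11)), sq_nonneg (9 / 11 * (d - 1 / 11) + 20 / 11 * (x + 1 / 11))]

/-- the right block, near the minimum -/
lemma aT (h : 10 * x ^ 2 ≤ d - d ^ 2) (hx : 113 / 2500 ≤ x) :
    6 / 49 + 56 / 5 * (67 / 72 * d - 5 / 3 * x + 5 / 72) ≤ 74 * d ^ 2 - 120 * x ^ 2 - 24 * (d * x) + (-(76 / 35)) * d + 72 / 7 * x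
      + (12 * (d - d ^ 2 - 10 * x ^ 2)
      + 9 / 40 * ((1 - 13 * d - 2 * x) ^ 2 + 121 / 5 * (d - d ^ 2 - 10 * x ^ 2))) := by
  have hs := lin (d := d) (x := x) h (5 / 77) (6 / 77)
  nlinarith [mul_nonneg (sub_nonneg.2 hx) hs,
    sq_nonneg ((12 / 77 * (d - 5 / 77) + 67 / 77 * (x - 6 / 77)) + 257 / 100 * (67 / 77 * (d - 5 / 77) - 120 / 77 * (x - 6 / 77))),
    sq_nonneg (67 / 77 * (d - 5 / 77) - 120 / 77 * (x - 6 / 77))]

/-- the right block, far from the minimum -/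
lemma bT (h : 10 * x ^ 2 ≤ d - d ^ 2) (hx : 3 / 100 ≤ x) (hx' : x ≤ 113 / 2500) :
    6 / 49 + 37 / 250 ≤ 74 * d ^ 2 - 120 * x ^ 2 - 24 * (d * x) + (-(76 / 35)) * d + 72 / 7 * x
      + (12 * (d - d ^ 2 - 10 * x ^ 2)
      + 9 / 40 * ((1 - 13 * d - 2 * x) ^ 2 + 121 / 5 * (d - d ^ 2 - 10 * x ^ 2))) := by
  have hs := lin (d := d) (x := x) h (2087 / 100000) (113 / 2500)
  nlinarith [mul_nonneg (sub_nonneg.2 hx) (sub_nonneg.2 hx'),
    mul_nonneg (sub_nonneg.2 hx') hs, sq_nonneg (d - 2087 / 100000), sq_nonneg (x - 113 / 2500),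
    sq_nonneg ((d - 2087 / 100000) - (x - 113 / 2500))]

/-- the left block, near the minimum -/
lemma lT (h : 10 * x ^ 2 ≤ d - d ^ 2) (hx : x ≤ -(73 / 1000)) :
    -(46 / 35) + 112 / 5 * (9 / 10 * d + 2 * x + 1 / 10) ≤ 74 * d ^ 2 - 120 * x ^ 2 - 24 * (d * x) + (-(76 / 35)) * d + 72 / 7 * x
      + (12 * (d - d ^ 2 - 10 * x ^ 2)
      + 9 / 40 * ((1 - 13 * d - 2 * x) ^ 2 + 121 / 5 * (d - d ^ 2 - 10 * x ^ 2))) := by
  have hs := lin (d := d) (x := x) h (1 / 11) (-(1 / 11))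
  nlinarith [mul_nonneg (sub_nonneg.2 hx) hs,
    sq_nonneg ((9 / 11 * (x + 1 / 11) - 2 / 11 * (d - 1 / 11)) + 0 * (9 / 11 * (d - 1 / 11) + 20 / 11 * (x + 1 / 11))),
    sq_nonneg (9 / 11 * (d - 1 / 11) + 20 / 11 * (x + 1 / 11))]

/-- the left block, far from the minimum -/
lemma mT (h : 10 * x ^ 2 ≤ d - d ^ 2) (hx : -(73 / 1000) ≤ x) (hx' : x ≤ 3 / 100) :
    -(46 / 35) + 37 / 250 ≤ 74 * d ^ 2 - 120 * x ^ 2 - 24 * (d * x) + (-(76 / 35)) * d + 72 / 7 * x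
      + (12 * (d - d ^ 2 - 10 * x ^ 2)
      + 9 / 40 * ((1 - 13 * d - 2 * x) ^ 2 + 121 / 5 * (d - d ^ 2 - 10 * x ^ 2))) := by
  nlinarith [mul_nonneg (sub_nonneg.2 hx) (sub_nonneg.2 hx'),
    sq_nonneg (9 / 11 * (x + 1 / 11) - 2 / 11 * (d - 1 / 11)), sq_nonneg (9 / 11 * (d - 1 / 11) + 20 / 11 * (x + 1 / 11))]

end

section

variable {d x : Fin 13 → ℝ}

/-- the functional near the minimum, weight `w` on the small block -/
theorem nearSg {lu : ℝ} (hu : 6 ≤ lu)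
    (h : ∀ i, 10 * x i ^ 2 ≤ d i - d i ^ 2) (h1 : ∑ i, d i = 1)
    (h0 : ∑ i, x i = 0) (hc : (Rt (3 / 100) x).card = 7) {w : ℝ} (hw0 : 0 ≤ w) (hw : w ≤ 2)
    (hS : 34 / 7 + (74 * ∑ i, d i ^ 2 - 120 * ∑ i, x i ^ 2 - 24 * ∑ i, d i * x i)
      + ∑ i, lu * (d i - d i ^ 2 - 10 * x i ^ 2) < 1 / 20) :
    28 / 5 * ∑ i, (if 3 / 100 ≤ x i then 67 / 72 * d i - 5 / 3 * x i + 5 / 72
        else w * (9 / 10 * d i + 2 * x i + 1 / 10))
      ≤ 34 / 7 + (74 * ∑ i, d i ^ 2 - 120 * ∑ i, x i ^ 2 - 24 * ∑ i, d i * x i)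
      + ∑ i, lu * (d i - d i ^ 2 - 10 * x i ^ 2) := by
  refine near_of (a := -(76 / 35)) (b := 72 / 7) (qR := 6 / 49) (qL := -(46 / 35))
    (P := fun i => lu * (d i - d i ^ 2 - 10 * x i ^ 2)) (r := 7) (l := 6) (t := 1 / 20)
    (by norm_num) h1 h0 hc (by norm_num) (fun i => ?_) (by norm_num) (by norm_num)
    (fun i hi => ?_) (fun i hi => ?_) hS
  · split_ifs
    · exact e2_nonneg (h i)
    · exact mul_nonneg hw0 (e1_nonneg (h i))
  · rw [if_pos hi]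
    have hw2 : 0 ≤ (lu - 6) * (d i - d i ^ 2 - 10 * x i ^ 2) :=
      mul_nonneg (sub_nonneg.2 hu) (by linarith [h i])
    rcases le_total (513 / 10000) (x i) with hx | hx
    · left
      have := aS (h i) hx
      linarith
    · right
      have := bS (h i) hi hx
      linarith
  · rw [if_neg hi]
    have hw2 : 0 ≤ (lu - 6) * (d i - d i ^ 2 - 10 * x i ^ 2) :=
      mul_nonneg (sub_nonneg.2 hu) (by linarith [h i])
    rcases le_total (x i) (-(77 / 1000)) with hx | hx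
    · left
      have := lS (h i) hx
      have h2 := mul_nonneg (sub_nonneg.2 hw) (e1_nonneg (h i))
      linarith
    · right
      have := mS (h i) hx (not_le.1 hi).le
      linarith

/-- **The functional near the minimum.** -/
theorem nearS (h : ∀ i, 10 * x i ^ 2 ≤ d i - d i ^ 2) (h1 : ∑ i, d i = 1)
    (h0 : ∑ i, x i = 0) (hc : (Rt (3 / 100) x).card = 7)
    (hS : 34 / 7 + (74 * ∑ i, d i ^ 2 - 120 * ∑ i, x i ^ 2 - 24 * ∑ i, d i * x i)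
      + ∑ i, 6 * (d i - d i ^ 2 - 10 * x i ^ 2) < 1 / 20) :
    28 / 5 * ∑ i, (if 3 / 100 ≤ x i then 67 / 72 * d i - 5 / 3 * x i + 5 / 72
        else 9 / 10 * d i + 2 * x i + 1 / 10)
      ≤ 34 / 7 + (74 * ∑ i, d i ^ 2 - 120 * ∑ i, x i ^ 2 - 24 * ∑ i, d i * x i)
      + ∑ i, 6 * (d i - d i ^ 2 - 10 * x i ^ 2) := by
  have := nearSg le_rfl h h1 h0 hc (w := 1) (by norm_num) (by norm_num) hS
  simpa only [one_mul] using this

/-- the functional near the minimum, weight `w` on the small block -/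
theorem nearTg {lu lv : ℝ} (hu : 12 ≤ lu) (hv : 9 / 40 ≤ lv)
    (h : ∀ i, 10 * x i ^ 2 ≤ d i - d i ^ 2) (h1 : ∑ i, d i = 1)
    (h0 : ∑ i, x i = 0) (hc : (Rt (3 / 100) x).card = 7) {w : ℝ} (hw0 : 0 ≤ w) (hw : w ≤ 2)
    (hS : 34 / 7 + (74 * ∑ i, d i ^ 2 - 120 * ∑ i, x i ^ 2 - 24 * ∑ i, d i * x i)
      + ∑ i, (lu * (d i - d i ^ 2 - 10 * x i ^ 2) + lv * ((1 - 13 * d i - 2 * x i) ^ 2
        + 121 / 5 * (d i - d i ^ 2 - 10 * x i ^ 2))) < 37 / 250) :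
    56 / 5 * ∑ i, (if 3 / 100 ≤ x i then 67 / 72 * d i - 5 / 3 * x i + 5 / 72
        else w * (9 / 10 * d i + 2 * x i + 1 / 10))
      ≤ 34 / 7 + (74 * ∑ i, d i ^ 2 - 120 * ∑ i, x i ^ 2 - 24 * ∑ i, d i * x i)
      + ∑ i, (lu * (d i - d i ^ 2 - 10 * x i ^ 2) + lv * ((1 - 13 * d i - 2 * x i) ^ 2
        + 121 / 5 * (d i - d i ^ 2 - 10 * x i ^ 2))) := by
  refine near_of (a := -(76 / 35)) (b := 72 / 7) (qR := 6 / 49) (qL := -(46 / 35))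
    (P := fun i => (lu * (d i - d i ^ 2 - 10 * x i ^ 2) + lv * ((1 - 13 * d i - 2 * x i) ^ 2
        + 121 / 5 * (d i - d i ^ 2 - 10 * x i ^ 2)))) (r := 7) (l := 6) (t := 37 / 250)
    (by norm_num) h1 h0 hc (by norm_num) (fun i => ?_) (by norm_num) (by norm_num)
    (fun i hi => ?_) (fun i hi => ?_) hS
  · split_ifs
    · exact e2_nonneg (h i)
    · exact mul_nonneg hw0 (e1_nonneg (h i))
  · rw [if_pos hi]
    have hw2 : 0 ≤ (lu - 12) * (d i - d i ^ 2 - 10 * x i ^ 2) :=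
      mul_nonneg (sub_nonneg.2 hu) (by linarith [h i])
    have hG2 : 0 ≤ (lv - 9 / 40) * ((1 - 13 * d i - 2 * x i) ^ 2 + 121 / 5 * (d i - d i ^ 2 - 10 * x i ^ 2)) :=
      mul_nonneg (sub_nonneg.2 hv) (add_nonneg (sq_nonneg _) (mul_nonneg (by norm_num)
        (by linarith [h i])))
    rcases le_total (113 / 2500) (x i) with hx | hx
    · left
      have := aT (h i) hx
      linarith
    · right
      have := bT (h i) hi hx
      linarith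
  · rw [if_neg hi]
    have hw2 : 0 ≤ (lu - 12) * (d i - d i ^ 2 - 10 * x i ^ 2) :=
      mul_nonneg (sub_nonneg.2 hu) (by linarith [h i])
    have hG2 : 0 ≤ (lv - 9 / 40) * ((1 - 13 * d i - 2 * x i) ^ 2 + 121 / 5 * (d i - d i ^ 2 - 10 * x i ^ 2)) :=
      mul_nonneg (sub_nonneg.2 hv) (add_nonneg (sq_nonneg _) (mul_nonneg (by norm_num)
        (by linarith [h i])))
    rcases le_total (x i) (-(73 / 1000)) with hx | hx
    · left
      have := lT (h i) hx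
      have h2 := mul_nonneg (sub_nonneg.2 hw) (e1_nonneg (h i))
      linarith
    · right
      have := mT (h i) hx (not_le.1 hi).le
      linarith

/-- **The functional near the minimum.** -/
theorem nearT (h : ∀ i, 10 * x i ^ 2 ≤ d i - d i ^ 2) (h1 : ∑ i, d i = 1)
    (h0 : ∑ i, x i = 0) (hc : (Rt (3 / 100) x).card = 7)
    (hS : 34 / 7 + (74 * ∑ i, d i ^ 2 - 120 * ∑ i, x i ^ 2 - 24 * ∑ i, d i * x i)
      + ∑ i, (12 * (d i - d i ^ 2 - 10 * x i ^ 2) + 9 / 40 * ((1 - 13 * d i - 2 * x i) ^ 2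
        + 121 / 5 * (d i - d i ^ 2 - 10 * x i ^ 2))) < 37 / 250) :
    56 / 5 * ∑ i, (if 3 / 100 ≤ x i then 67 / 72 * d i - 5 / 3 * x i + 5 / 72
        else 9 / 10 * d i + 2 * x i + 1 / 10)
      ≤ 34 / 7 + (74 * ∑ i, d i ^ 2 - 120 * ∑ i, x i ^ 2 - 24 * ∑ i, d i * x i)
      + ∑ i, (12 * (d i - d i ^ 2 - 10 * x i ^ 2) + 9 / 40 * ((1 - 13 * d i - 2 * x i) ^ 2
        + 121 / 5 * (d i - d i ^ 2 - 10 * x i ^ 2))) := by
  have := nearTg le_rfl le_rfl h h1 h0 hc (w := 1) (by norm_num) (by norm_num) hS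
  simpa only [one_mul] using this

end

end Vale.Agent.P224.SO.S11
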