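import Vale.Agent.P224.SO.ClsG

/-!
Dimension 13: the number of points on the right from the value of the scalar functionals.
-/

namespace Vale.Agent.P224.SO.M13S

open Vale.Agent.P224.SO Vale.Agent.P224.SO.Rg

lemma A1 (d x : ℝ) (h : 12 * x ^ 2 ≤ d - d ^ 2) (hz : (3 / 100) ≤ x) :
    (8153 / 100000) ≤ QP 96 168 33 12 6 0 15 (169 / 6) (515 / 338) (-(1881 / 169)) 0 d x := by
  unfold QP Q
  nlinarith [mul_nonneg (sub_nonneg.2 hz) (lin_q (q := 12) (by norm_num) h (19 / 329) (20 / 297)),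
    sq_nonneg (d + (-(1515291 / 1269940)) * x + (433126557 / 21461986000)),
    sq_nonneg (x + (-(10959765188360735113 / 169124125108080671100)))]

lemma A2 (d x : ℝ) (h : 12 * x ^ 2 ≤ d - d ^ 2) :
    (-(24283 / 20000)) ≤ QP 96 168 33 12 6 0 15 (169 / 6) (515 / 338) (-(1881 / 169)) 0 d x := by
  unfold QP Q
  nlinarith [sq_nonneg (d + (-(275 / 1912)) * x + (-(171059 / 1938768))),
    sq_nonneg (x + (132782375 / 1753513242))]

lemma L1 (d x : ℝ) (h : 12 * x ^ 2 ≤ d - d ^ 2) (hz' : x ≤ -(3 / 100)) :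
    (5137 / 12500) ≤ QP 96 168 33 12 6 0 15 (169 / 6) (23 / 10) (203 / 10) (1249 / 10) d x := by
  unfold QP Q
  nlinarith [mul_nonneg (sub_nonneg.2 hz') (lin_q (q := 12) (by norm_num) h (71 / 874) (-(25 / 317))),
    sq_nonneg (d + (5855590 / 4068907) * x + (513275 / 16275628)),
    sq_nonneg (x + (19049865262906755 / 348239925235459456))]

lemma L2 (d x : ℝ) (h : 12 * x ^ 2 ≤ d - d ^ 2) :
    (-(81371 / 50000)) ≤ QP 96 168 33 12 6 0 15 (169 / 6) (23 / 10) (203 / 10) (1249 / 10) d x := by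
  unfold QP Q
  nlinarith [sq_nonneg (d + (4595 / 11762) * x + (-(598 / 5881))),
    sq_nonneg (x + (-(585710 / 7857973)))]

lemma M1 (d x : ℝ) (h : 12 * x ^ 2 ≤ d - d ^ 2) :
    (-(62551 / 100000)) ≤ QP 96 168 33 12 6 0 15 (169 / 6) (51 / 20) 0 33 d x := by
  unfold QP Q
  nlinarith [sq_nonneg (d + 0 * x + (-(1657 / 22004))),
    sq_nonneg (x + 0)]

lemma M2 (d x : ℝ) (h : 12 * x ^ 2 ≤ d - d ^ 2) (hz : -(3 / 100) ≤ x) (hz' : x ≤ (3 / 100)) :
    (-(853 / 5000)) ≤ QP 96 168 33 12 6 0 15 (169 / 6) (51 / 20) 0 33 d x := by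
  unfold QP Q
  nlinarith [mul_nonneg (sub_nonneg.2 hz) (sub_nonneg.2 hz'),
    sq_nonneg (d + 0 * x + (-(106 / 9557))),
    sq_nonneg (x + 0)]

lemma P1 (d x : ℝ) (h : 12 * x ^ 2 ≤ d - d ^ 2) (hz : (3 / 100) ≤ x) :
    (-(2557 / 12500)) ≤ QP 96 168 33 12 6 0 15 (169 / 6) (12 / 7) (-(589 / 84)) 2 d x := by
  unfold QP Q
  nlinarith [mul_nonneg (sub_nonneg.2 hz) (lin_q (q := 12) (by norm_num) h (53 / 744) (62 / 835)),
    sq_nonneg (d + (-(3890053 / 3649692)) * x + (6596771 / 851594800)),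
    sq_nonneg (x + (-(57225156389573401669 / 769059823665597817850)))]

lemma P2 (d x : ℝ) (h : 12 * x ^ 2 ≤ d - d ^ 2) (hz' : x ≤ -(3 / 100)) :
    (-(5737 / 6250)) ≤ QP 96 168 33 12 6 0 15 (169 / 6) (12 / 7) (-(589 / 84)) 2 d x := by
  unfold QP Q
  nlinarith [sq_nonneg (d + (-(1550 / 11269)) * x + (-(12883 / 157766))),
    sq_nonneg (x + (106030075 / 1426900944))]

lemma P3 (d x : ℝ) (h : 12 * x ^ 2 ≤ d - d ^ 2) (hz : 0 ≤ x) (hz' : x ≤ (3 / 100)) :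
    (-(1 / 50000)) ≤ QP 96 168 33 12 6 0 15 (169 / 6) (12 / 7) (-(589 / 84)) 2 d x := by
  unfold QP Q
  nlinarith [mul_nonneg (sub_nonneg.2 hz) (sub_nonneg.2 hz'),
    sq_nonneg (d + (-(1550 / 9429)) * x + (-(1 / 44002))),
    sq_nonneg (x + (-(1253893 / 56369215000)))]

lemma N1 (d x : ℝ) (h : 12 * x ^ 2 ≤ d - d ^ 2) (hz : (3 / 100) ≤ x) :
    (-(5737 / 6250)) ≤ QP 96 168 33 12 6 0 15 (169 / 6) (12 / 7) (589 / 84) 64 d x := by
  unfold QP Q
  nlinarith [sq_nonneg (d + (1550 / 11269) * x + (-(12883 / 157766))),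
    sq_nonneg (x + (-(106030075 / 1426900944)))]

lemma N2 (d x : ℝ) (h : 12 * x ^ 2 ≤ d - d ^ 2) (hz' : x ≤ -(3 / 100)) :
    (-(2557 / 12500)) ≤ QP 96 168 33 12 6 0 15 (169 / 6) (12 / 7) (589 / 84) 64 d x := by
  unfold QP Q
  nlinarith [mul_nonneg (sub_nonneg.2 hz') (lin_q (q := 12) (by norm_num) h (53 / 744) (-(62 / 835))),
    sq_nonneg (d + (3890053 / 3649692) * x + (6596771 / 851594800)),
    sq_nonneg (x + (57225156389573401669 / 769059823665597817850))]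

lemma N3 (d x : ℝ) (h : 12 * x ^ 2 ≤ d - d ^ 2) (hz : -(3 / 100) ≤ x) (hz' : x ≤ 0) :
    (-(1 / 50000)) ≤ QP 96 168 33 12 6 0 15 (169 / 6) (12 / 7) (589 / 84) 64 d x := by
  unfold QP Q
  nlinarith [mul_nonneg (sub_nonneg.2 hz) (sub_nonneg.2 hz'),
    sq_nonneg (d + (1550 / 9429) * x + (-(1 / 44002))),
    sq_nonneg (x + (1253893 / 56369215000))]

/-- the one point inequalities -/
noncomputable def dat : CDat 7 12 96 168 33 (321 / 52) 6 0 15 (169 / 6) (299 / 10000) where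
  Z := (3 / 100)
  aA := (515 / 338)
  bA := (-(1881 / 169))
  ap := (8153 / 100000)
  an := (-(24283 / 20000))
  aL := (23 / 10)
  bL := (203 / 10)
  sL := (1249 / 10)
  lp := (5137 / 12500)
  ln := (-(81371 / 50000))
  aM := (51 / 20)
  bM := 0
  sM := 33
  mp := (-(62551 / 100000))
  mm := (-(853 / 5000))
  aP := (12 / 7)
  bP := (-(589 / 84))
  sP := 2
  pp := (-(2557 / 12500))
  pn := (-(5737 / 6250))
  p0 := (-(1 / 50000))
  aN := (12 / 7)
  bN := (589 / 84)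
  sN := 64
  np := (-(5737 / 6250))
  nn := (-(2557 / 12500))
  n0 := (-(1 / 50000))
  Zpos := by norm_num
  sL0 := by norm_num
  sM0 := by norm_num
  sP0 := by norm_num
  sN0 := by norm_num
  A3 := by norm_num
  A4 := by norm_num
  L3 := by norm_num
  L4 := by norm_num
  M3 := by norm_num
  M4 := by norm_num
  P4 := by norm_num
  N4 := by norm_num
  A1 := A1
  A2 := A2
  L1 := L1
  L2 := L2
  M1 := M1
  M2 := M2
  P1 := P1
  P2 := P2
  P3 := P3
  N1 := N1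
  N2 := N2
  N3 := N3

end Vale.Agent.P224.SO.M13S

namespace Vale.Agent.P224.SO.M13T

open Vale.Agent.P224.SO Vale.Agent.P224.SO.Rg

lemma A1 (d x : ℝ) (h : 12 * x ^ 2 ≤ d - d ^ 2) (hz : (3 / 100) ≤ x) :
    (8153 / 100000) ≤ QP 96 168 33 12 4 (11 / 50) 15 (169 / 6) (515 / 338) (-(1881 / 169)) 0 d x := by
  unfold QP Q
  nlinarith [mul_nonneg (sub_nonneg.2 hz) (lin_q (q := 12) (by norm_num) h (19 / 329) (20 / 297)),
    sq_nonneg (d + (-(28405287 / 28218988)) * x + (4108064089 / 476900897200)),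
    sq_nonneg (x + (-(8977218160658401665577 / 135774093326072874601500)))]

lemma A2 (d x : ℝ) (h : 12 * x ^ 2 ≤ d - d ^ 2) :
    (-(24283 / 20000)) ≤ QP 96 168 33 12 4 (11 / 50) 15 (169 / 6) (515 / 338) (-(1881 / 169)) 0 d x := by
  unfold QP Q
  nlinarith [sq_nonneg (d + (-(2970 / 49267)) * x + (-(1361143 / 16652246))),
    sq_nonneg (x + (3593446153 / 47428253288))]

lemma L1 (d x : ℝ) (h : 12 * x ^ 2 ≤ d - d ^ 2) (hz' : x ≤ -(3 / 100)) :
    (80963 / 100000) ≤ QP 96 168 33 12 4 (11 / 50) 15 (169 / 6) 3 (283 / 10) (762 / 5) d x := by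
  unfold QP Q
  nlinarith [mul_nonneg (sub_nonneg.2 hz') (lin_q (q := 12) (by norm_num) h (8 / 99) (-(38 / 483))),
    sq_nonneg (d + (3677659 / 2691480) * x + (2353919 / 89716000)),
    sq_nonneg (x + (49261322761575091 / 947928865721579700))]

lemma L2 (d x : ℝ) (h : 12 * x ^ 2 ≤ d - d ^ 2) :
    (-(26443 / 12500)) ≤ QP 96 168 33 12 4 (11 / 50) 15 (169 / 6) 3 (283 / 10) (762 / 5) d x := by
  unfold QP Q
  nlinarith [sq_nonneg (d + (9945 / 25559) * x + (-(2587 / 25559))),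
    sq_nonneg (x + (-(20138771 / 270421090)))]

lemma M1 (d x : ℝ) (h : 12 * x ^ 2 ≤ d - d ^ 2) :
    (-(68601 / 100000)) ≤ QP 96 168 33 12 4 (11 / 50) 15 (169 / 6) (69 / 20) (-(9 / 10)) (99 / 5) d x := by
  unfold QP Q
  nlinarith [sq_nonneg (d + 0 * x + (-(3602 / 47839))),
    sq_nonneg (x + (1 / 44))]

lemma M2 (d x : ℝ) (h : 12 * x ^ 2 ≤ d - d ^ 2) (hz : -(3 / 100) ≤ x) (hz' : x ≤ (3 / 100)) :
    (-(33 / 1250)) ≤ QP 96 168 33 12 4 (11 / 50) 15 (169 / 6) (69 / 20) (-(9 / 10)) (99 / 5) d x := by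
  unfold QP Q
  nlinarith [mul_nonneg (sub_nonneg.2 hz) (sub_nonneg.2 hz'),
    sq_nonneg (d + 0 * x + (-(11 / 967))),
    sq_nonneg (x + (1 / 197))]

lemma P1 (d x : ℝ) (h : 12 * x ^ 2 ≤ d - d ^ 2) (hz : (3 / 100) ≤ x) :
    (-(961 / 6250)) ≤ QP 96 168 33 12 4 (11 / 50) 15 (169 / 6) (21977 / 10000) (-(821 / 100)) 0 d x := by
  unfold QP Q
  nlinarith [mul_nonneg (sub_nonneg.2 hz) (lin_q (q := 12) (by norm_num) h (52 / 787) (55 / 767)),
    sq_nonneg (d + (-(64630569 / 67866158)) * x + (1410077 / 678661580)),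
    sq_nonneg (x + (-(833954334621608406093 / 11612755069947384717650)))]

lemma P2 (d x : ℝ) (h : 12 * x ^ 2 ≤ d - d ^ 2) (hz' : x ≤ -(3 / 100)) :
    (-(12901 / 12500)) ≤ QP 96 168 33 12 4 (11 / 50) 15 (169 / 6) (21977 / 10000) (-(821 / 100)) 0 d x := by
  unfold QP Q
  nlinarith [sq_nonneg (d + (-(2970 / 48787)) * x + (-(777631 / 9757400))),
    sq_nonneg (x + (280623241 / 3684132640))]

lemma P3 (d x : ℝ) (h : 12 * x ^ 2 ≤ d - d ^ 2) (hz : 0 ≤ x) (hz' : x ≤ (3 / 100)) :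
    (10209 / 50000) ≤ QP 96 168 33 12 4 (11 / 50) 15 (169 / 6) (21977 / 10000) (-(821 / 100)) 0 d x := by
  unfold QP Q
  nlinarith [mul_nonneg (sub_nonneg.2 hz) (sub_nonneg.2 hz'),
    sq_nonneg (d + (-(2970 / 41731)) * x + (-(72031 / 8346200))),
    sq_nonneg (x + (-(5837233 / 198235600)))]

lemma N1 (d x : ℝ) (h : 12 * x ^ 2 ≤ d - d ^ 2) (hz : (3 / 100) ≤ x) :
    (-(144441 / 100000)) ≤ QP 96 168 33 12 4 (11 / 50) 15 (169 / 6) (11243 / 5000) (79239 / 5000) (937547 / 10000) d x := by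
  unfold QP Q
  nlinarith [sq_nonneg (d + (2218641 / 9950600) * x + (-(437879 / 4975300))),
    sq_nonneg (x + (-(1016852265174 / 13683134704373)))]

lemma N2 (d x : ℝ) (h : 12 * x ^ 2 ≤ d - d ^ 2) (hz' : x ≤ -(3 / 100)) :
    (1287 / 5000) ≤ QP 96 168 33 12 4 (11 / 50) 15 (169 / 6) (11243 / 5000) (79239 / 5000) (937547 / 10000) d x := by
  unfold QP Q
  nlinarith [mul_nonneg (sub_nonneg.2 hz') (lin_q (q := 12) (by norm_num) h (53 / 744) (-(62 / 835))),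
    sq_nonneg (d + (272283921 / 263605400) * x + (2776567 / 527210800)),
    sq_nonneg (x + (185284432842923302747 / 2491189699289671553502))]

lemma N3 (d x : ℝ) (h : 12 * x ^ 2 ≤ d - d ^ 2) (hz : -(3 / 100) ≤ x) (hz' : x ≤ 0) :
    (21989 / 100000) ≤ QP 96 168 33 12 4 (11 / 50) 15 (169 / 6) (11243 / 5000) (79239 / 5000) (937547 / 10000) d x := by
  unfold QP Q
  nlinarith [mul_nonneg (sub_nonneg.2 hz) (sub_nonneg.2 hz'),
    sq_nonneg (d + (2218641 / 8200400) * x + (-(329 / 4100200))),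
    sq_nonneg (x + (896641926 / 45055568464373))]

/-- the one point inequalities -/
noncomputable def dat : CDat 7 12 96 168 33 (321 / 52) 4 (11 / 50) 15 (169 / 6) (27 / 100) where
  Z := (3 / 100)
  aA := (515 / 338)
  bA := (-(1881 / 169))
  ap := (8153 / 100000)
  an := (-(24283 / 20000))
  aL := 3
  bL := (283 / 10)
  sL := (762 / 5)
  lp := (80963 / 100000)
  ln := (-(26443 / 12500))
  aM := (69 / 20)
  bM := (-(9 / 10))
  sM := (99 / 5)
  mp := (-(68601 / 100000))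
  mm := (-(33 / 1250))
  aP := (21977 / 10000)
  bP := (-(821 / 100))
  sP := 0
  pp := (-(961 / 6250))
  pn := (-(12901 / 12500))
  p0 := (10209 / 50000)
  aN := (11243 / 5000)
  bN := (79239 / 5000)
  sN := (937547 / 10000)
  np := (-(144441 / 100000))
  nn := (1287 / 5000)
  n0 := (21989 / 100000)
  Zpos := by norm_num
  sL0 := by norm_num
  sM0 := by norm_num
  sP0 := by norm_num
  sN0 := by norm_num
  A3 := by norm_num
  A4 := by norm_num
  L3 := by norm_num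
  L4 := by norm_num
  M3 := by norm_num
  M4 := by norm_num
  P4 := by norm_num
  N4 := by norm_num
  A1 := A1
  A2 := A2
  L1 := L1
  L2 := L2
  M1 := M1
  M2 := M2
  P1 := P1
  P2 := P2
  P3 := P3
  N1 := N1
  N2 := N2
  N3 := N3

end Vale.Agent.P224.SO.M13T

namespace Vale.Agent.P224.SO.C13

open Finset Vale.Agent.P224.SO Vale.Agent.P224.SO.Rg

/-- the static functional -/
theorem cls_S {d x : Fin 15 → ℝ}
    (h : ∀ i, 12 * x i ^ 2 ≤ d i - d i ^ 2) (h1 : ∑ i, d i = 1) (h0 : ∑ i, x i = 0)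
    (hv : ∑ i, d i * x i ≤ 0)
    (hS : 321 / 52 + (96 * ∑ i, d i ^ 2 - 168 * ∑ i, x i ^ 2 - 33 * ∑ i, d i * x i)
      + ∑ i, 6 * (d i - d i ^ 2 - 12 * x i ^ 2) < 299 / 10000) :
    (Rt (3 / 100) x).card = 8 := by
  refine CDat.cls M13S.dat (by norm_num) h h1 h0 hv ?_
  simp only [zero_mul, add_zero]
  exact hS.trans_le (by norm_num)

/-- the functional with a parameter -/
theorem cls_T {d x : Fin 15 → ℝ}
    (h : ∀ i, 12 * x i ^ 2 ≤ d i - d i ^ 2) (h1 : ∑ i, d i = 1) (h0 : ∑ i, x i = 0)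
    (hv : ∑ i, d i * x i ≤ 0)
    (hS : 321 / 52 + (96 * ∑ i, d i ^ 2 - 168 * ∑ i, x i ^ 2 - 33 * ∑ i, d i * x i)
      + ∑ i, (4 * (d i - d i ^ 2 - 12 * x i ^ 2) + 11 / 50 * ((1 - 15 * d i - 2 * x i) ^ 2
        + 169 / 6 * (d i - d i ^ 2 - 12 * x i ^ 2))) < 270 / 1000) :
    (Rt (3 / 100) x).card = 8 :=
  CDat.cls M13T.dat (by norm_num) h h1 h0 hv (hS.trans_le (by norm_num))

end Vale.Agent.P224.SO.C13
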