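import Vale.Agent.P224.SO.ClsG

/-!
Dimension 13: the number of points on the right from the value of the scalar functionals.
-/

namespace Vale.Agent.P224.SO.M13U

open Vale.Agent.P224.SO Vale.Agent.P224.SO.Rg

lemma A1 (d x : ℝ) (h : 12 * x ^ 2 ≤ d - d ^ 2) (hz : (1 / 50) ≤ x) :
    (8153 / 100000) ≤ QP 96 168 33 12 4 0 15 (169 / 6) (515 / 338) (-(1881 / 169)) 0 d x := by
  unfold QP Q
  nlinarith [mul_nonneg (sub_nonneg.2 hz) (lin_q (q := 12) (by norm_num) h (19 / 329) (20 / 297)),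
    sq_nonneg (d + (-(1050555 / 1055761)) * x + (19156531 / 2676354135)),
    sq_nonneg (x + (-(28626831686625838 / 465938342487743697)))]

lemma A2 (d x : ℝ) (h : 12 * x ^ 2 ≤ d - d ^ 2) :
    (-(24283 / 20000)) ≤ QP 96 168 33 12 4 0 15 (169 / 6) (515 / 338) (-(1881 / 169)) 0 d x := by
  unfold QP Q
  nlinarith [sq_nonneg (d + (-(275 / 1912)) * x + (-(171059 / 1938768))),
    sq_nonneg (x + (132782375 / 1753513242))]

lemma L1 (d x : ℝ) (h : 12 * x ^ 2 ≤ d - d ^ 2) (hz' : x ≤ -(1 / 50)) :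
    (6049 / 25000) ≤ QP 96 168 33 12 4 0 15 (169 / 6) (21 / 10) (83 / 5) (1081 / 10) d x := by
  unfold QP Q
  nlinarith [mul_nonneg (sub_nonneg.2 hz') (lin_q (q := 12) (by norm_num) h (77 / 1000) (-(1 / 13))),
    sq_nonneg (d + (11462483 / 9388000) * x + (7757483 / 469400000)),
    sq_nonneg (x + (1417594127129859 / 23751065761307950))]

lemma L2 (d x : ℝ) (h : 12 * x ^ 2 ≤ d - d ^ 2) :
    (-(35679 / 25000)) ≤ QP 96 168 33 12 4 0 15 (169 / 6) (21 / 10) (83 / 5) (1081 / 10) d x := by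
  unfold QP Q
  nlinarith [sq_nonneg (d + (3755 / 11627) * x + (-(2237 / 23254))),
    sq_nonneg (x + (-(10900885 / 146763046)))]

lemma M1 (d x : ℝ) (h : 12 * x ^ 2 ≤ d - d ^ 2) :
    (-(12813 / 20000)) ≤ QP 96 168 33 12 4 0 15 (169 / 6) (11 / 4) 0 33 d x := by
  unfold QP Q
  nlinarith [sq_nonneg (d + 0 * x + (-(1677 / 22004))),
    sq_nonneg (x + 0)]

lemma M2 (d x : ℝ) (h : 12 * x ^ 2 ≤ d - d ^ 2) (hz : -(1 / 50) ≤ x) (hz' : x ≤ (1 / 50)) :
    (-(2031 / 25000)) ≤ QP 96 168 33 12 4 0 15 (169 / 6) (11 / 4) 0 33 d x := by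
  unfold QP Q
  nlinarith [mul_nonneg (sub_nonneg.2 hz) (sub_nonneg.2 hz'),
    sq_nonneg (d + 0 * x + (-(51 / 9427))),
    sq_nonneg (x + 0)]

lemma P1 (d x : ℝ) (h : 12 * x ^ 2 ≤ d - d ^ 2) (hz : (1 / 50) ≤ x) :
    (-(2557 / 12500)) ≤ QP 96 168 33 12 4 0 15 (169 / 6) (12 / 7) (-(589 / 84)) 2 d x := by
  unfold QP Q
  nlinarith [mul_nonneg (sub_nonneg.2 hz) (lin_q (q := 12) (by norm_num) h (53 / 744) (62 / 835)),
    sq_nonneg (d + (-(530259 / 610390)) * x + (-(134467 / 19421500))),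
    sq_nonneg (x + (-(2577066752055725303 / 34639984481065248600)))]

lemma P2 (d x : ℝ) (h : 12 * x ^ 2 ≤ d - d ^ 2) (hz' : x ≤ -(1 / 50)) :
    (-(5737 / 6250)) ≤ QP 96 168 33 12 4 0 15 (169 / 6) (12 / 7) (-(589 / 84)) 2 d x := by
  unfold QP Q
  nlinarith [sq_nonneg (d + (-(1550 / 11269)) * x + (-(12883 / 157766))),
    sq_nonneg (x + (106030075 / 1426900944))]

lemma P3 (d x : ℝ) (h : 12 * x ^ 2 ≤ d - d ^ 2) (hz : 0 ≤ x) (hz' : x ≤ (1 / 50)) :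
    (-(1 / 50000)) ≤ QP 96 168 33 12 4 0 15 (169 / 6) (12 / 7) (-(589 / 84)) 2 d x := by
  unfold QP Q
  nlinarith [mul_nonneg (sub_nonneg.2 hz) (sub_nonneg.2 hz'),
    sq_nonneg (d + (-(1550 / 9429)) * x + (-(1 / 44002))),
    sq_nonneg (x + (-(1121969 / 105381716300)))]

lemma N1 (d x : ℝ) (h : 12 * x ^ 2 ≤ d - d ^ 2) (hz : (1 / 50) ≤ x) :
    (-(5737 / 6250)) ≤ QP 96 168 33 12 4 0 15 (169 / 6) (12 / 7) (589 / 84) 64 d x := by
  unfold QP Q
  nlinarith [sq_nonneg (d + (1550 / 11269) * x + (-(12883 / 157766))),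
    sq_nonneg (x + (-(106030075 / 1426900944)))]

lemma N2 (d x : ℝ) (h : 12 * x ^ 2 ≤ d - d ^ 2) (hz' : x ≤ -(1 / 50)) :
    (-(2557 / 12500)) ≤ QP 96 168 33 12 4 0 15 (169 / 6) (12 / 7) (589 / 84) 64 d x := by
  unfold QP Q
  nlinarith [mul_nonneg (sub_nonneg.2 hz') (lin_q (q := 12) (by norm_num) h (53 / 744) (-(62 / 835))),
    sq_nonneg (d + (530259 / 610390) * x + (-(134467 / 19421500))),
    sq_nonneg (x + (2577066752055725303 / 34639984481065248600))]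

lemma N3 (d x : ℝ) (h : 12 * x ^ 2 ≤ d - d ^ 2) (hz : -(1 / 50) ≤ x) (hz' : x ≤ 0) :
    (-(1 / 50000)) ≤ QP 96 168 33 12 4 0 15 (169 / 6) (12 / 7) (589 / 84) 64 d x := by
  unfold QP Q
  nlinarith [mul_nonneg (sub_nonneg.2 hz) (sub_nonneg.2 hz'),
    sq_nonneg (d + (1550 / 9429) * x + (-(1 / 44002))),
    sq_nonneg (x + (1121969 / 105381716300))]

/-- the one point inequalities -/
noncomputable def dat : CDat 7 12 96 168 33 (321 / 52) 4 0 15 (169 / 6) (299 / 10000) where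
  Z := (1 / 50)
  aA := (515 / 338)
  bA := (-(1881 / 169))
  ap := (8153 / 100000)
  an := (-(24283 / 20000))
  aL := (21 / 10)
  bL := (83 / 5)
  sL := (1081 / 10)
  lp := (6049 / 25000)
  ln := (-(35679 / 25000))
  aM := (11 / 4)
  bM := 0
  sM := 33
  mp := (-(12813 / 20000))
  mm := (-(2031 / 25000))
  aP := (12 / 7)
  bP := (-(589 / 84))
  sP := 2
  pp := (-(2557 / 12500))
  pn := (-(5737 / 6250))
  p0 := (-(1 / 50000))
  aN := (12 / 7)
  bN := (589 / 84)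
  sN := 64
  np := (-(5737 / 6250))
  nn := (-(2557 / 12500))
  n0 := (-(1 / 50000))
  Zpos := by norm_num
  sL0 := by norm_num
  sM0 := by norm_num
  sP0 := by norm_num
  sN0 := by norm_num
  A3 := by norm_num
  A4 := by norm_num
  L3 := by norm_num
  L4 := by norm_num
  M3 := by norm_num
  M4 := by norm_num
  P4 := by norm_num
  N4 := by norm_num
  A1 := A1
  A2 := A2
  L1 := L1
  L2 := L2
  M1 := M1
  M2 := M2
  P1 := P1
  P2 := P2
  P3 := P3
  N1 := N1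
  N2 := N2
  N3 := N3

end Vale.Agent.P224.SO.M13U

namespace Vale.Agent.P224.SO.M13V

open Vale.Agent.P224.SO Vale.Agent.P224.SO.Rg

lemma A1 (d x : ℝ) (h : 12 * x ^ 2 ≤ d - d ^ 2) (hz : (1 / 50) ≤ x) :
    (8153 / 100000) ≤ QP 96 168 33 12 4 (11 / 50) 15 (169 / 6) (515 / 338) (-(1881 / 169)) 0 d x := by
  unfold QP Q
  nlinarith [mul_nonneg (sub_nonneg.2 hz) (lin_q (q := 12) (by norm_num) h (19 / 329) (20 / 297)),
    sq_nonneg (d + (-(11893995 / 14050274)) * x + (-(46099393 / 23744963060))),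
    sq_nonneg (x + (-(2252002539460449143 / 34387518791128080006)))]

lemma A2 (d x : ℝ) (h : 12 * x ^ 2 ≤ d - d ^ 2) :
    (-(24283 / 20000)) ≤ QP 96 168 33 12 4 (11 / 50) 15 (169 / 6) (515 / 338) (-(1881 / 169)) 0 d x := by
  unfold QP Q
  nlinarith [sq_nonneg (d + (-(2970 / 49267)) * x + (-(1361143 / 16652246))),
    sq_nonneg (x + (3593446153 / 47428253288))]

lemma L1 (d x : ℝ) (h : 12 * x ^ 2 ≤ d - d ^ 2) (hz' : x ≤ -(1 / 50)) :
    (1149 / 2000) ≤ QP 96 168 33 12 4 (11 / 50) 15 (169 / 6) (14 / 5) (116 / 5) (643 / 5) d x := by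
  unfold QP Q
  nlinarith [mul_nonneg (sub_nonneg.2 hz') (lin_q (q := 12) (by norm_num) h (17 / 222) (-(75 / 977))),
    sq_nonneg (d + (1813103 / 1514410) * x + (1116763 / 75720500)),
    sq_nonneg (x + (687179326091068139 / 12252012137602847700))]

lemma L2 (d x : ℝ) (h : 12 * x ^ 2 ≤ d - d ^ 2) :
    (-(36967 / 20000)) ≤ QP 96 168 33 12 4 (11 / 50) 15 (169 / 6) (14 / 5) (116 / 5) (643 / 5) d x := by
  unfold QP Q
  nlinarith [sq_nonneg (d + (8160 / 25277) * x + (-(2431 / 25277))),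
    sq_nonneg (x + (-(4302217 / 57807502)))]

lemma M1 (d x : ℝ) (h : 12 * x ^ 2 ≤ d - d ^ 2) :
    (-(8859 / 12500)) ≤ QP 96 168 33 12 4 (11 / 50) 15 (169 / 6) (15 / 4) (-(9 / 10)) (99 / 5) d x := by
  unfold QP Q
  nlinarith [sq_nonneg (d + 0 * x + (-(3647 / 47839))),
    sq_nonneg (x + (1 / 44))]

lemma M2 (d x : ℝ) (h : 12 * x ^ 2 ≤ d - d ^ 2) (hz : -(1 / 50) ≤ x) (hz' : x ≤ (1 / 50)) :
    (10321 / 100000) ≤ QP 96 168 33 12 4 (11 / 50) 15 (169 / 6) (15 / 4) (-(9 / 10)) (99 / 5) d x := by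
  unfold QP Q
  nlinarith [mul_nonneg (sub_nonneg.2 hz) (sub_nonneg.2 hz'),
    sq_nonneg (d + 0 * x + (-(481 / 82052))),
    sq_nonneg (x + (1 / 406))]

lemma P1 (d x : ℝ) (h : 12 * x ^ 2 ≤ d - d ^ 2) (hz : (1 / 50) ≤ x) :
    (-(14859 / 50000)) ≤ QP 96 168 33 12 4 (11 / 50) 15 (169 / 6) (22471 / 10000) (-(62823 / 10000)) 0 d x := by
  unfold QP Q
  nlinarith [mul_nonneg (sub_nonneg.2 hz) (lin_q (q := 12) (by norm_num) h (25 / 357) (54 / 733)),
    sq_nonneg (d + (-(7994733 / 10311112)) * x + (-(13129001 / 1031111200))),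
    sq_nonneg (x + (-(17775036914017599085 / 241681655932233564732)))]

lemma P2 (d x : ℝ) (h : 12 * x ^ 2 ≤ d - d ^ 2) (hz' : x ≤ -(1 / 50)) :
    (-(89009 / 100000)) ≤ QP 96 168 33 12 4 (11 / 50) 15 (169 / 6) (22471 / 10000) (-(62823 / 10000)) 0 d x := by
  unfold QP Q
  nlinarith [sq_nonneg (d + (-(297 / 4849)) * x + (-(749413 / 9698000))),
    sq_nonneg (x + (4694141 / 62730610))]

lemma P3 (d x : ℝ) (h : 12 * x ^ 2 ≤ d - d ^ 2) (hz : 0 ≤ x) (hz' : x ≤ (1 / 50)) :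
    (10979 / 50000) ≤ QP 96 168 33 12 4 (11 / 50) 15 (169 / 6) (22471 / 10000) (-(62823 / 10000)) 0 d x := by
  unfold QP Q
  nlinarith [mul_nonneg (sub_nonneg.2 hz) (sub_nonneg.2 hz'),
    sq_nonneg (d + (-(1485 / 20567)) * x + (-(13813 / 8226800))),
    sq_nonneg (x + (-(5645 / 473822)))]

lemma N1 (d x : ℝ) (h : 12 * x ^ 2 ≤ d - d ^ 2) (hz : (1 / 50) ≤ x) :
    (-(45561 / 50000)) ≤ QP 96 168 33 12 4 (11 / 50) 15 (169 / 6) (11243 / 5000) (26837 / 5000) (2371 / 50) d x := by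
  unfold QP Q
  nlinarith [sq_nonneg (d + (4143 / 48547) * x + (-(377579 / 4854700))),
    sq_nonneg (x + (-(49751302 / 669498445)))]

lemma N2 (d x : ℝ) (h : 12 * x ^ 2 ≤ d - d ^ 2) (hz' : x ≤ -(1 / 50)) :
    (-(6891 / 25000)) ≤ QP 96 168 33 12 4 (11 / 50) 15 (169 / 6) (11243 / 5000) (26837 / 5000) (2371 / 50) d x := by
  unfold QP Q
  nlinarith [mul_nonneg (sub_nonneg.2 hz') (lin_q (q := 12) (by norm_num) h (53 / 744) (-(62 / 835))),
    sq_nonneg (d + (8507695 / 10736168) * x + (-(1350473 / 107361680))),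
    sq_nonneg (x + (90599297217293416246 / 1217775935206983459225))]

lemma N3 (d x : ℝ) (h : 12 * x ^ 2 ≤ d - d ^ 2) (hz : -(1 / 50) ≤ x) (hz' : x ≤ 0) :
    (21997 / 100000) ≤ QP 96 168 33 12 4 (11 / 50) 15 (169 / 6) (11243 / 5000) (26837 / 5000) (2371 / 50) d x := by
  unfold QP Q
  nlinarith [mul_nonneg (sub_nonneg.2 hz) (sub_nonneg.2 hz'),
    sq_nonneg (d + (4143 / 40999) * x + (-(179 / 4099900))),
    sq_nonneg (x + (390093 / 7778429150))]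

/-- the one point inequalities -/
noncomputable def dat : CDat 7 12 96 168 33 (321 / 52) 4 (11 / 50) 15 (169 / 6) (41 / 125) where
  Z := (1 / 50)
  aA := (515 / 338)
  bA := (-(1881 / 169))
  ap := (8153 / 100000)
  an := (-(24283 / 20000))
  aL := (14 / 5)
  bL := (116 / 5)
  sL := (643 / 5)
  lp := (1149 / 2000)
  ln := (-(36967 / 20000))
  aM := (15 / 4)
  bM := (-(9 / 10))
  sM := (99 / 5)
  mp := (-(8859 / 12500))
  mm := (10321 / 100000)
  aP := (22471 / 10000)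
  bP := (-(62823 / 10000))
  sP := 0
  pp := (-(14859 / 50000))
  pn := (-(89009 / 100000))
  p0 := (10979 / 50000)
  aN := (11243 / 5000)
  bN := (26837 / 5000)
  sN := (2371 / 50)
  np := (-(45561 / 50000))
  nn := (-(6891 / 25000))
  n0 := (21997 / 100000)
  Zpos := by norm_num
  sL0 := by norm_num
  sM0 := by norm_num
  sP0 := by norm_num
  sN0 := by norm_num
  A3 := by norm_num
  A4 := by norm_num
  L3 := by norm_num
  L4 := by norm_num
  M3 := by norm_num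
  M4 := by norm_num
  P4 := by norm_num
  N4 := by norm_num
  A1 := A1
  A2 := A2
  L1 := L1
  L2 := L2
  M1 := M1
  M2 := M2
  P1 := P1
  P2 := P2
  P3 := P3
  N1 := N1
  N2 := N2
  N3 := N3

end Vale.Agent.P224.SO.M13V

namespace Vale.Agent.P224.SO.D13

open Finset Vale.Agent.P224.SO Vale.Agent.P224.SO.Rg

/-- the static functional -/
theorem cls_S {d x : Fin 15 → ℝ}
    (h : ∀ i, 12 * x i ^ 2 ≤ d i - d i ^ 2) (h1 : ∑ i, d i = 1) (h0 : ∑ i, x i = 0)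
    (hv : ∑ i, d i * x i ≤ 0)
    (hS : 321 / 52 + (96 * ∑ i, d i ^ 2 - 168 * ∑ i, x i ^ 2 - 33 * ∑ i, d i * x i)
      + ∑ i, 4 * (d i - d i ^ 2 - 12 * x i ^ 2) < 299 / 10000) :
    (Rt (1 / 50) x).card = 8 := by
  refine CDat.cls M13U.dat (by norm_num) h h1 h0 hv ?_
  simp only [zero_mul, add_zero]
  exact hS.trans_le (by norm_num)

/-- the functional with a parameter -/
theorem cls_T {d x : Fin 15 → ℝ}
    (h : ∀ i, 12 * x i ^ 2 ≤ d i - d i ^ 2) (h1 : ∑ i, d i = 1) (h0 : ∑ i, x i = 0)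
    (hv : ∑ i, d i * x i ≤ 0)
    (hS : 321 / 52 + (96 * ∑ i, d i ^ 2 - 168 * ∑ i, x i ^ 2 - 33 * ∑ i, d i * x i)
      + ∑ i, (4 * (d i - d i ^ 2 - 12 * x i ^ 2) + 11 / 50 * ((1 - 15 * d i - 2 * x i) ^ 2
        + 169 / 6 * (d i - d i ^ 2 - 12 * x i ^ 2))) < 328 / 1000) :
    (Rt (1 / 50) x).card = 8 :=
  CDat.cls M13V.dat (by norm_num) h h1 h0 hv (hS.trans_le (by norm_num))

end Vale.Agent.P224.SO.D13
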