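import Vale.Agent.P224.SO.ClsG

/-!
Dimension 13: the number of points on the right from the value of the scalar functionals.
-/

namespace Vale.Agent.P224.SO.M13P

open Vale.Agent.P224.SO Vale.Agent.P224.SO.Rg

lemma A1 (d x : ℝ) (h : 12 * x ^ 2 ≤ d - d ^ 2) (hz : (1 / 50) ≤ x) :
    (1747 / 50000) ≤ QP 96 168 28 12 4 0 15 (169 / 6) (9515 / 6591) (-(22148 / 2197)) 0 d x := by
  unfold QP Q
  nlinarith [mul_nonneg (sub_nonneg.2 hz) (lin_q (q := 12) (by norm_num) h (19 / 329) (20 / 297)),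
    sq_nonneg (d + (-(3070579 / 3182088)) * x + (5473093889 / 1048657100400)),
    sq_nonneg (x + (-(287553542506768551863 / 4563454489557178450950)))]

lemma A2 (d x : ℝ) (h : 12 * x ^ 2 ≤ d - d ^ 2) :
    (-(115687 / 100000)) ≤ QP 96 168 28 12 4 0 15 (169 / 6) (9515 / 6591) (-(22148 / 2197)) 0 d x := by
  unfold QP Q
  nlinarith [sq_nonneg (d + (-(1400 / 11437)) * x + (-(13059167 / 150762534))),
    sq_nonneg (x + (424332125 / 5623250061))]

lemma L1 (d x : ℝ) (h : 12 * x ^ 2 ≤ d - d ^ 2) (hz' : x ≤ -(1 / 50)) :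
    (6049 / 25000) ≤ QP 96 168 28 12 4 0 15 (169 / 6) (21 / 10) (83 / 5) (1031 / 10) d x := by
  unfold QP Q
  nlinarith [mul_nonneg (sub_nonneg.2 hz') (lin_q (q := 12) (by norm_num) h (77 / 1000) (-(1 / 13))),
    sq_nonneg (d + (11462483 / 9388000) * x + (7757483 / 469400000)),
    sq_nonneg (x + (1417594127129859 / 23751065761307950))]

lemma L2 (d x : ℝ) (h : 12 * x ^ 2 ≤ d - d ^ 2) :
    (-(35679 / 25000)) ≤ QP 96 168 28 12 4 0 15 (169 / 6) (21 / 10) (83 / 5) (1031 / 10) d x := by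
  unfold QP Q
  nlinarith [sq_nonneg (d + (3755 / 11627) * x + (-(2237 / 23254))),
    sq_nonneg (x + (-(10900885 / 146763046)))]

lemma M1 (d x : ℝ) (h : 12 * x ^ 2 ≤ d - d ^ 2) :
    (-(12813 / 20000)) ≤ QP 96 168 28 12 4 0 15 (169 / 6) (11 / 4) 0 28 d x := by
  unfold QP Q
  nlinarith [sq_nonneg (d + 0 * x + (-(1677 / 22004))),
    sq_nonneg (x + 0)]

lemma M2 (d x : ℝ) (h : 12 * x ^ 2 ≤ d - d ^ 2) (hz : -(1 / 50) ≤ x) (hz' : x ≤ (1 / 50)) :
    (-(2031 / 25000)) ≤ QP 96 168 28 12 4 0 15 (169 / 6) (11 / 4) 0 28 d x := by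
  unfold QP Q
  nlinarith [mul_nonneg (sub_nonneg.2 hz) (sub_nonneg.2 hz'),
    sq_nonneg (d + 0 * x + (-(51 / 9427))),
    sq_nonneg (x + 0)]

lemma P1 (d x : ℝ) (h : 12 * x ^ 2 ≤ d - d ^ 2) (hz : (1 / 50) ≤ x) :
    (-(26209 / 100000)) ≤ QP 96 168 28 12 4 0 15 (169 / 6) (12 / 7) (-(247 / 42)) 2 d x := by
  unfold QP Q
  nlinarith [mul_nonneg (sub_nonneg.2 hz) (lin_q (q := 12) (by norm_num) h (53 / 744) (62 / 835)),
    sq_nonneg (d + (-(6273127 / 7344768)) * x + (-(20592911 / 2570668800))),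
    sq_nonneg (x + (-(176640306260084806541 / 2374477974095067823850)))]

lemma P2 (d x : ℝ) (h : 12 * x ^ 2 ≤ d - d ^ 2) (hz' : x ≤ -(1 / 50)) :
    (-(86039 / 100000)) ≤ QP 96 168 28 12 4 0 15 (169 / 6) (12 / 7) (-(247 / 42)) 2 d x := by
  unfold QP Q
  nlinarith [sq_nonneg (d + (-(650 / 5613)) * x + (-(2097 / 26194))),
    sq_nonneg (x + (1066325 / 14377456))]

lemma P3 (d x : ℝ) (h : 12 * x ^ 2 ≤ d - d ^ 2) (hz : 0 ≤ x) (hz' : x ≤ (1 / 50)) :
    (-(1 / 50000)) ≤ QP 96 168 28 12 4 0 15 (169 / 6) (12 / 7) (-(247 / 42)) 2 d x := by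
  unfold QP Q
  nlinarith [mul_nonneg (sub_nonneg.2 hz) (sub_nonneg.2 hz'),
    sq_nonneg (d + (-(1300 / 9429)) * x + (-(1 / 44002))),
    sq_nonneg (x + (-(1002751 / 68549169500)))]

lemma N1 (d x : ℝ) (h : 12 * x ^ 2 ≤ d - d ^ 2) (hz : (1 / 50) ≤ x) :
    (-(86039 / 100000)) ≤ QP 96 168 28 12 4 0 15 (169 / 6) (12 / 7) (247 / 42) 54 d x := by
  unfold QP Q
  nlinarith [sq_nonneg (d + (650 / 5613) * x + (-(2097 / 26194))),
    sq_nonneg (x + (-(1066325 / 14377456)))]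

lemma N2 (d x : ℝ) (h : 12 * x ^ 2 ≤ d - d ^ 2) (hz' : x ≤ -(1 / 50)) :
    (-(26209 / 100000)) ≤ QP 96 168 28 12 4 0 15 (169 / 6) (12 / 7) (247 / 42) 54 d x := by
  unfold QP Q
  nlinarith [mul_nonneg (sub_nonneg.2 hz') (lin_q (q := 12) (by norm_num) h (53 / 744) (-(62 / 835))),
    sq_nonneg (d + (6273127 / 7344768) * x + (-(20592911 / 2570668800))),
    sq_nonneg (x + (176640306260084806541 / 2374477974095067823850))]

lemma N3 (d x : ℝ) (h : 12 * x ^ 2 ≤ d - d ^ 2) (hz : -(1 / 50) ≤ x) (hz' : x ≤ 0) :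
    (-(1 / 50000)) ≤ QP 96 168 28 12 4 0 15 (169 / 6) (12 / 7) (247 / 42) 54 d x := by
  unfold QP Q
  nlinarith [mul_nonneg (sub_nonneg.2 hz) (sub_nonneg.2 hz'),
    sq_nonneg (d + (1300 / 9429) * x + (-(1 / 44002))),
    sq_nonneg (x + (1002751 / 68549169500))]

/-- the one point inequalities -/
noncomputable def dat : CDat 7 12 96 168 28 (1052 / 169) 4 0 15 (169 / 6) (51 / 625) where
  Z := (1 / 50)
  aA := (9515 / 6591)
  bA := (-(22148 / 2197))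
  ap := (1747 / 50000)
  an := (-(115687 / 100000))
  aL := (21 / 10)
  bL := (83 / 5)
  sL := (1031 / 10)
  lp := (6049 / 25000)
  ln := (-(35679 / 25000))
  aM := (11 / 4)
  bM := 0
  sM := 28
  mp := (-(12813 / 20000))
  mm := (-(2031 / 25000))
  aP := (12 / 7)
  bP := (-(247 / 42))
  sP := 2
  pp := (-(26209 / 100000))
  pn := (-(86039 / 100000))
  p0 := (-(1 / 50000))
  aN := (12 / 7)
  bN := (247 / 42)
  sN := 54
  np := (-(86039 / 100000))
  nn := (-(26209 / 100000))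
  n0 := (-(1 / 50000))
  Zpos := by norm_num
  sL0 := by norm_num
  sM0 := by norm_num
  sP0 := by norm_num
  sN0 := by norm_num
  A3 := by norm_num
  A4 := by norm_num
  L3 := by norm_num
  L4 := by norm_num
  M3 := by norm_num
  M4 := by norm_num
  P4 := by norm_num
  N4 := by norm_num
  A1 := A1
  A2 := A2
  L1 := L1
  L2 := L2
  M1 := M1
  M2 := M2
  P1 := P1
  P2 := P2
  P3 := P3
  N1 := N1
  N2 := N2
  N3 := N3

end Vale.Agent.P224.SO.M13P

namespace Vale.Agent.P224.SO.E13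

open Finset Vale.Agent.P224.SO Vale.Agent.P224.SO.Rg

/-- the static functional -/
theorem cls_S28 {d x : Fin 15 → ℝ}
    (h : ∀ i, 12 * x i ^ 2 ≤ d i - d i ^ 2) (h1 : ∑ i, d i = 1) (h0 : ∑ i, x i = 0)
    (hv : ∑ i, d i * x i ≤ 0)
    (hS : 1052 / 169 + (96 * ∑ i, d i ^ 2 - 168 * ∑ i, x i ^ 2 - 28 * ∑ i, d i * x i)
      + ∑ i, 4 * (d i - d i ^ 2 - 12 * x i ^ 2) < 816 / 10000) :
    (Rt (1 / 50) x).card = 8 := by
  refine CDat.cls M13P.dat (by norm_num) h h1 h0 hv ?_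
  simp only [zero_mul, add_zero]
  exact hS.trans_le (by norm_num)

end Vale.Agent.P224.SO.E13
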