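import Vale.Agent.P224.SO.ClsG

/-!
Dimension 13: the number of points on the right from the value of the scalar functionals.
-/

namespace Vale.Agent.P224.SO.G13_96_30

open Vale.Agent.P224.SO Vale.Agent.P224.SO.Rg

lemma A1 (d x : ℝ) (h : 12 * x ^ 2 ≤ d - d ^ 2) (hz : (1 / 50) ≤ x) :
    (2679 / 50000) ≤ QP 96 168 30 12 4 0 15 (169 / 6) (3242 / 2197) (-(23070 / 2197)) 0 d x := by
  unfold QP Q
  nlinarith [mul_nonneg (sub_nonneg.2 hz) (lin_q (q := 12) (by norm_num) h (19 / 329) (20 / 297)),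
    sq_nonneg (d + (-(3099987 / 3176495)) * x + (1033019532 / 174468987875)),
    sq_nonneg (x + (-(6464171109127914847 / 103450291158696027975)))]

lemma A2 (d x : ℝ) (h : 12 * x ^ 2 ≤ d - d ^ 2) :
    (-(58989 / 50000)) ≤ QP 96 168 30 12 4 0 15 (169 / 6) (3242 / 2197) (-(23070 / 2197)) 0 d x := by
  unfold QP Q
  nlinarith [sq_nonneg (d + (-(500 / 3817)) * x + (-(4390847 / 50315694))),
    sq_nonneg (x + (71852125 / 950804478))]

lemma L1 (d x : ℝ) (h : 12 * x ^ 2 ≤ d - d ^ 2) (hz' : x ≤ -(1 / 50)) :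
    (6049 / 25000) ≤ QP 96 168 30 12 4 0 15 (169 / 6) (21 / 10) (83 / 5) (1051 / 10) d x := by
  unfold QP Q
  nlinarith [mul_nonneg (sub_nonneg.2 hz') (lin_q (q := 12) (by norm_num) h (77 / 1000) (-(1 / 13))),
    sq_nonneg (d + (11462483 / 9388000) * x + (7757483 / 469400000)),
    sq_nonneg (x + (1417594127129859 / 23751065761307950))]

lemma L2 (d x : ℝ) (h : 12 * x ^ 2 ≤ d - d ^ 2) :
    (-(35679 / 25000)) ≤ QP 96 168 30 12 4 0 15 (169 / 6) (21 / 10) (83 / 5) (1051 / 10) d x := by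
  unfold QP Q
  nlinarith [sq_nonneg (d + (3755 / 11627) * x + (-(2237 / 23254))),
    sq_nonneg (x + (-(10900885 / 146763046)))]

lemma M1 (d x : ℝ) (h : 12 * x ^ 2 ≤ d - d ^ 2) :
    (-(12813 / 20000)) ≤ QP 96 168 30 12 4 0 15 (169 / 6) (11 / 4) 0 30 d x := by
  unfold QP Q
  nlinarith [sq_nonneg (d + 0 * x + (-(1677 / 22004))),
    sq_nonneg (x + 0)]

lemma M2 (d x : ℝ) (h : 12 * x ^ 2 ≤ d - d ^ 2) (hz : -(1 / 50) ≤ x) (hz' : x ≤ (1 / 50)) :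
    (-(2031 / 25000)) ≤ QP 96 168 30 12 4 0 15 (169 / 6) (11 / 4) 0 30 d x := by
  unfold QP Q
  nlinarith [mul_nonneg (sub_nonneg.2 hz) (sub_nonneg.2 hz'),
    sq_nonneg (d + 0 * x + (-(51 / 9427))),
    sq_nonneg (x + 0)]

lemma P1 (d x : ℝ) (h : 12 * x ^ 2 ≤ d - d ^ 2) (hz : (1 / 50) ≤ x) :
    (-(5977 / 25000)) ≤ QP 96 168 30 12 4 0 15 (169 / 6) (12 / 7) (-(19 / 3)) 2 d x := by
  unfold QP Q
  nlinarith [mul_nonneg (sub_nonneg.2 hz) (lin_q (q := 12) (by norm_num) h (53 / 744) (62 / 835)),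
    sq_nonneg (d + (-(66037 / 76384)) * x + (-(17581 / 2430400))),
    sq_nonneg (x + (-(18272927032792443 / 245620842026421050)))]

lemma P2 (d x : ℝ) (h : 12 * x ^ 2 ≤ d - d ^ 2) (hz' : x ≤ -(1 / 50)) :
    (-(4417 / 5000)) ≤ QP 96 168 30 12 4 0 15 (169 / 6) (12 / 7) (-(19 / 3)) 2 d x := by
  unfold QP Q
  nlinarith [sq_nonneg (d + (-(1400 / 11243)) * x + (-(12701 / 157402))),
    sq_nonneg (x + (3435275 / 46236882))]

lemma P3 (d x : ℝ) (h : 12 * x ^ 2 ≤ d - d ^ 2) (hz : 0 ≤ x) (hz' : x ≤ (1 / 50)) :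
    (-(1 / 50000)) ≤ QP 96 168 30 12 4 0 15 (169 / 6) (12 / 7) (-(19 / 3)) 2 d x := by
  unfold QP Q
  nlinarith [mul_nonneg (sub_nonneg.2 hz) (sub_nonneg.2 hz'),
    sq_nonneg (d + (-(200 / 1347)) * x + (-(1 / 44002))),
    sq_nonneg (x + (-(146291 / 11898578300)))]

lemma N1 (d x : ℝ) (h : 12 * x ^ 2 ≤ d - d ^ 2) (hz : (1 / 50) ≤ x) :
    (-(4417 / 5000)) ≤ QP 96 168 30 12 4 0 15 (169 / 6) (12 / 7) (19 / 3) 58 d x := by
  unfold QP Q
  nlinarith [sq_nonneg (d + (1400 / 11243) * x + (-(12701 / 157402))),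
    sq_nonneg (x + (-(3435275 / 46236882)))]

lemma N2 (d x : ℝ) (h : 12 * x ^ 2 ≤ d - d ^ 2) (hz' : x ≤ -(1 / 50)) :
    (-(5977 / 25000)) ≤ QP 96 168 30 12 4 0 15 (169 / 6) (12 / 7) (19 / 3) 58 d x := by
  unfold QP Q
  nlinarith [mul_nonneg (sub_nonneg.2 hz') (lin_q (q := 12) (by norm_num) h (53 / 744) (-(62 / 835))),
    sq_nonneg (d + (66037 / 76384) * x + (-(17581 / 2430400))),
    sq_nonneg (x + (18272927032792443 / 245620842026421050))]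

lemma N3 (d x : ℝ) (h : 12 * x ^ 2 ≤ d - d ^ 2) (hz : -(1 / 50) ≤ x) (hz' : x ≤ 0) :
    (-(1 / 50000)) ≤ QP 96 168 30 12 4 0 15 (169 / 6) (12 / 7) (19 / 3) 58 d x := by
  unfold QP Q
  nlinarith [mul_nonneg (sub_nonneg.2 hz) (sub_nonneg.2 hz'),
    sq_nonneg (d + (200 / 1347) * x + (-(1 / 44002))),
    sq_nonneg (x + (146291 / 11898578300))]

/-- the one point inequalities -/
noncomputable def dat : CDat 7 12 96 168 30 (2097 / 338) 4 0 15 (169 / 6) (61 / 1000) where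
  Z := (1 / 50)
  aA := (3242 / 2197)
  bA := (-(23070 / 2197))
  ap := (2679 / 50000)
  an := (-(58989 / 50000))
  aL := (21 / 10)
  bL := (83 / 5)
  sL := (1051 / 10)
  lp := (6049 / 25000)
  ln := (-(35679 / 25000))
  aM := (11 / 4)
  bM := 0
  sM := 30
  mp := (-(12813 / 20000))
  mm := (-(2031 / 25000))
  aP := (12 / 7)
  bP := (-(19 / 3))
  sP := 2
  pp := (-(5977 / 25000))
  pn := (-(4417 / 5000))
  p0 := (-(1 / 50000))
  aN := (12 / 7)
  bN := (19 / 3)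
  sN := 58
  np := (-(4417 / 5000))
  nn := (-(5977 / 25000))
  n0 := (-(1 / 50000))
  Zpos := by norm_num
  sL0 := by norm_num
  sM0 := by norm_num
  sP0 := by norm_num
  sN0 := by norm_num
  A3 := by norm_num
  A4 := by norm_num
  L3 := by norm_num
  L4 := by norm_num
  M3 := by norm_num
  M4 := by norm_num
  P4 := by norm_num
  N4 := by norm_num
  A1 := A1
  A2 := A2
  L1 := L1
  L2 := L2
  M1 := M1
  M2 := M2
  P1 := P1
  P2 := P2
  P3 := P3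
  N1 := N1
  N2 := N2
  N3 := N3

end Vale.Agent.P224.SO.G13_96_30

namespace Vale.Agent.P224.SO.G13a

open Finset Vale.Agent.P224.SO Vale.Agent.P224.SO.Rg

/-- the static functional -/
theorem cls_S {d x : Fin 15 → ℝ}
    (h : ∀ i, 12 * x i ^ 2 ≤ d i - d i ^ 2) (h1 : ∑ i, d i = 1) (h0 : ∑ i, x i = 0)
    (hv : ∑ i, d i * x i ≤ 0)
    (hS : 2097 / 338 + (96 * ∑ i, d i ^ 2 - 168 * ∑ i, x i ^ 2 - 30 * ∑ i, d i * x i)
      + ∑ i, 4 * (d i - d i ^ 2 - 12 * x i ^ 2) < 610 / 10000) :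
    (Rt (1 / 50) x).card = 8 := by
  refine CDat.cls G13_96_30.dat (by norm_num) h h1 h0 hv ?_
  simp only [zero_mul, add_zero]
  exact hS.trans_le (by norm_num)

end Vale.Agent.P224.SO.G13a
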