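import Vale.Agent.P224.SO.ClsG

/-!
Dimension 13: the number of points on the right from the value of the scalar functionals.
-/

namespace Vale.Agent.P224.SO.G13_97_31

open Vale.Agent.P224.SO Vale.Agent.P224.SO.Rg

lemma A1 (d x : ℝ) (h : 12 * x ^ 2 ≤ d - d ^ 2) (hz : (1 / 50) ≤ x) :
    (6093 / 100000) ≤ QP 97 168 31 12 4 0 15 (169 / 6) (10730 / 6591) (-(23615 / 2197)) 0 d x := by
  unfold QP Q
  nlinarith [mul_nonneg (sub_nonneg.2 hz) (lin_q (q := 12) (by norm_num) h (19 / 329) (20 / 297)),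
    sq_nonneg (d + (-(1560983 / 1602559)) * x + (3056755753 / 528123318450)),
    sq_nonneg (x + (-(5577125597020005187 / 89643739062225541050)))]

lemma A2 (d x : ℝ) (h : 12 * x ^ 2 ≤ d - d ^ 2) :
    (-(959 / 800)) ≤ QP 97 168 31 12 4 0 15 (169 / 6) (10730 / 6591) (-(23615 / 2197)) 0 d x := by
  unfold QP Q
  nlinarith [sq_nonneg (d + (-(155 / 1156)) * x + (-(666613 / 7619196))),
    sq_nonneg (x + (306159085 / 4047447417))]

lemma L1 (d x : ℝ) (h : 12 * x ^ 2 ≤ d - d ^ 2) (hz' : x ≤ -(1 / 50)) :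
    (25013 / 100000) ≤ QP 97 168 31 12 4 0 15 (169 / 6) (11 / 5) (84 / 5) (534 / 5) d x := by
  unfold QP Q
  nlinarith [mul_nonneg (sub_nonneg.2 hz') (lin_q (q := 12) (by norm_num) h (23 / 302) (-(67 / 875))),
    sq_nonneg (d + (891521 / 713475) * x + (220667 / 11891250)),
    sq_nonneg (x + (16807365560301 / 397695483073000))]

lemma L2 (d x : ℝ) (h : 12 * x ^ 2 ≤ d - d ^ 2) :
    (-(72017 / 50000)) ≤ QP 97 168 31 12 4 0 15 (169 / 6) (11 / 5) (84 / 5) (534 / 5) d x := by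
  unfold QP Q
  nlinarith [sq_nonneg (d + (1895 / 5868) * x + (-(47 / 489))),
    sq_nonneg (x + (-(1395780 / 18801263)))]

lemma M1 (d x : ℝ) (h : 12 * x ^ 2 ≤ d - d ^ 2) :
    (-(64627 / 100000)) ≤ QP 97 168 31 12 4 0 15 (169 / 6) (29 / 10) 0 31 d x := by
  unfold QP Q
  nlinarith [sq_nonneg (d + 0 * x + (-(423 / 5551))),
    sq_nonneg (x + 0)]

lemma M2 (d x : ℝ) (h : 12 * x ^ 2 ≤ d - d ^ 2) (hz : -(1 / 50) ≤ x) (hz' : x ≤ (1 / 50)) :
    (-(4097 / 50000)) ≤ QP 97 168 31 12 4 0 15 (169 / 6) (29 / 10) 0 31 d x := by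
  unfold QP Q
  nlinarith [mul_nonneg (sub_nonneg.2 hz) (sub_nonneg.2 hz'),
    sq_nonneg (d + 0 * x + (-(26 / 4757))),
    sq_nonneg (x + 0)]

lemma P1 (d x : ℝ) (h : 12 * x ^ 2 ≤ d - d ^ 2) (hz : (1 / 50) ≤ x) :
    (-(23267 / 100000)) ≤ QP 97 168 31 12 4 0 15 (169 / 6) (13 / 7) (-(551 / 84)) 2 d x := by
  unfold QP Q
  nlinarith [mul_nonneg (sub_nonneg.2 hz) (lin_q (q := 12) (by norm_num) h (53 / 744) (62 / 835)),
    sq_nonneg (d + (-(520231 / 618140)) * x + (-(1932183 / 216349000))),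
    sq_nonneg (x + (-(91578789805595439 / 1230888795852239860)))]

lemma P2 (d x : ℝ) (h : 12 * x ^ 2 ≤ d - d ^ 2) (hz' : x ≤ -(1 / 50)) :
    (-(90001 / 100000)) ≤ QP 97 168 31 12 4 0 15 (169 / 6) (13 / 7) (-(551 / 84)) 2 d x := by
  unfold QP Q
  nlinarith [sq_nonneg (d + (-(725 / 5676)) * x + (-(268 / 3311))),
    sq_nonneg (x + (4183975 / 56395409))]

lemma P3 (d x : ℝ) (h : 12 * x ^ 2 ≤ d - d ^ 2) (hz : 0 ≤ x) (hz' : x ≤ (1 / 50)) :
    (-(1 / 50000)) ≤ QP 97 168 31 12 4 0 15 (169 / 6) (13 / 7) (-(551 / 84)) 2 d x := by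
  unfold QP Q
  nlinarith [mul_nonneg (sub_nonneg.2 hz) (sub_nonneg.2 hz'),
    sq_nonneg (d + (-(725 / 4757)) * x + (1 / 66598)),
    sq_nonneg (x + (-(25483 / 3385761540)))]

lemma N1 (d x : ℝ) (h : 12 * x ^ 2 ≤ d - d ^ 2) (hz : (1 / 50) ≤ x) :
    (-(90001 / 100000)) ≤ QP 97 168 31 12 4 0 15 (169 / 6) (13 / 7) (551 / 84) 60 d x := by
  unfold QP Q
  nlinarith [sq_nonneg (d + (725 / 5676) * x + (-(268 / 3311))),
    sq_nonneg (x + (-(4183975 / 56395409)))]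

lemma N2 (d x : ℝ) (h : 12 * x ^ 2 ≤ d - d ^ 2) (hz' : x ≤ -(1 / 50)) :
    (-(23267 / 100000)) ≤ QP 97 168 31 12 4 0 15 (169 / 6) (13 / 7) (551 / 84) 60 d x := by
  unfold QP Q
  nlinarith [mul_nonneg (sub_nonneg.2 hz') (lin_q (q := 12) (by norm_num) h (53 / 744) (-(62 / 835))),
    sq_nonneg (d + (520231 / 618140) * x + (-(1932183 / 216349000))),
    sq_nonneg (x + (91578789805595439 / 1230888795852239860))]

lemma N3 (d x : ℝ) (h : 12 * x ^ 2 ≤ d - d ^ 2) (hz : -(1 / 50) ≤ x) (hz' : x ≤ 0) :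
    (-(1 / 50000)) ≤ QP 97 168 31 12 4 0 15 (169 / 6) (13 / 7) (551 / 84) 60 d x := by
  unfold QP Q
  nlinarith [mul_nonneg (sub_nonneg.2 hz) (sub_nonneg.2 hz'),
    sq_nonneg (d + (725 / 4757) * x + (1 / 66598)),
    sq_nonneg (x + (25483 / 3385761540))]

/-- the one point inequalities -/
noncomputable def dat : CDat 7 12 97 168 31 (4141 / 676) 4 0 15 (169 / 6) (541 / 10000) where
  Z := (1 / 50)
  aA := (10730 / 6591)
  bA := (-(23615 / 2197))
  ap := (6093 / 100000)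
  an := (-(959 / 800))
  aL := (11 / 5)
  bL := (84 / 5)
  sL := (534 / 5)
  lp := (25013 / 100000)
  ln := (-(72017 / 50000))
  aM := (29 / 10)
  bM := 0
  sM := 31
  mp := (-(64627 / 100000))
  mm := (-(4097 / 50000))
  aP := (13 / 7)
  bP := (-(551 / 84))
  sP := 2
  pp := (-(23267 / 100000))
  pn := (-(90001 / 100000))
  p0 := (-(1 / 50000))
  aN := (13 / 7)
  bN := (551 / 84)
  sN := 60
  np := (-(90001 / 100000))
  nn := (-(23267 / 100000))
  n0 := (-(1 / 50000))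
  Zpos := by norm_num
  sL0 := by norm_num
  sM0 := by norm_num
  sP0 := by norm_num
  sN0 := by norm_num
  A3 := by norm_num
  A4 := by norm_num
  L3 := by norm_num
  L4 := by norm_num
  M3 := by norm_num
  M4 := by norm_num
  P4 := by norm_num
  N4 := by norm_num
  A1 := A1
  A2 := A2
  L1 := L1
  L2 := L2
  M1 := M1
  M2 := M2
  P1 := P1
  P2 := P2
  P3 := P3
  N1 := N1
  N2 := N2
  N3 := N3

end Vale.Agent.P224.SO.G13_97_31

namespace Vale.Agent.P224.SO.G13c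

open Finset Vale.Agent.P224.SO Vale.Agent.P224.SO.Rg

/-- the static functional -/
theorem cls_S {d x : Fin 15 → ℝ}
    (h : ∀ i, 12 * x i ^ 2 ≤ d i - d i ^ 2) (h1 : ∑ i, d i = 1) (h0 : ∑ i, x i = 0)
    (hv : ∑ i, d i * x i ≤ 0)
    (hS : 4141 / 676 + (97 * ∑ i, d i ^ 2 - 168 * ∑ i, x i ^ 2 - 31 * ∑ i, d i * x i)
      + ∑ i, 4 * (d i - d i ^ 2 - 12 * x i ^ 2) < 541 / 10000) :
    (Rt (1 / 50) x).card = 8 := by
  refine CDat.cls G13_97_31.dat (by norm_num) h h1 h0 hv ?_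
  simp only [zero_mul, add_zero]
  exact hS.trans_le (by norm_num)

end Vale.Agent.P224.SO.G13c
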