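import Vale.Agent.P224.SO.ClsG

/-!
Dimension 13: the number of points on the right from the value of the scalar functionals.
-/

namespace Vale.Agent.P224.SO.G13_98_31

open Vale.Agent.P224.SO Vale.Agent.P224.SO.Rg

lemma A1 (d x : ℝ) (h : 12 * x ^ 2 ≤ d - d ^ 2) (hz : (1 / 50) ≤ x) :
    (5897 / 100000) ≤ QP 98 168 31 12 4 0 15 (169 / 6) (1789 / 1014) (-(1823 / 169)) 0 d x := by
  unfold QP Q
  nlinarith [mul_nonneg (sub_nonneg.2 hz) (lin_q (q := 12) (by norm_num) h (19 / 329) (20 / 297)),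
    sq_nonneg (d + (-(6254699 / 6472746)) * x + (874005043 / 164084111100)),
    sq_nonneg (x + (-(25889689016805067147 / 415247651608333336650)))]

lemma A2 (d x : ℝ) (h : 12 * x ^ 2 ≤ d - d ^ 2) :
    (-(60313 / 50000)) ≤ QP 98 168 31 12 4 0 15 (169 / 6) (1789 / 1014) (-(1823 / 169)) 0 d x := by
  unfold QP Q
  nlinarith [sq_nonneg (d + (-(775 / 5831)) * x + (-(258371 / 2956317))),
    sq_nonneg (x + (597005950 / 7890393849))]

lemma L1 (d x : ℝ) (h : 12 * x ^ 2 ≤ d - d ^ 2) (hz' : x ≤ -(1 / 50)) :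
    (3069 / 12500) ≤ QP 98 168 31 12 4 0 15 (169 / 6) (12 / 5) (169 / 10) (215 / 2) d x := by
  unfold QP Q
  nlinarith [mul_nonneg (sub_nonneg.2 hz') (lin_q (q := 12) (by norm_num) h (77 / 1000) (-(1 / 13))),
    sq_nonneg (d + (21966 / 18125) * x + (940381 / 59812500)),
    sq_nonneg (x + (958810098811 / 15777581996800))]

lemma L2 (d x : ℝ) (h : 12 * x ^ 2 ≤ d - d ^ 2) :
    (-(72663 / 50000)) ≤ QP 98 168 31 12 4 0 15 (169 / 6) (12 / 5) (169 / 10) (215 / 2) d x := by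
  unfold QP Q
  nlinarith [sq_nonneg (d + (1275 / 3946) * x + (-(1139 / 11838))),
    sq_nonneg (x + (-(1882145 / 25333701)))]

lemma M1 (d x : ℝ) (h : 12 * x ^ 2 ≤ d - d ^ 2) :
    (-(65189 / 100000)) ≤ QP 98 168 31 12 4 0 15 (169 / 6) (61 / 20) 0 31 d x := by
  unfold QP Q
  nlinarith [sq_nonneg (d + 0 * x + (-(569 / 7468))),
    sq_nonneg (x + 0)]

lemma M2 (d x : ℝ) (h : 12 * x ^ 2 ≤ d - d ^ 2) (hz : -(1 / 50) ≤ x) (hz' : x ≤ (1 / 50)) :
    (-(1033 / 12500)) ≤ QP 98 168 31 12 4 0 15 (169 / 6) (61 / 20) 0 31 d x := by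
  unfold QP Q
  nlinarith [mul_nonneg (sub_nonneg.2 hz) (sub_nonneg.2 hz'),
    sq_nonneg (d + 0 * x + (-(7 / 1280))),
    sq_nonneg (x + 0)]

lemma P1 (d x : ℝ) (h : 12 * x ^ 2 ≤ d - d ^ 2) (hz : (1 / 50) ≤ x) :
    (-(11889 / 50000)) ≤ QP 98 168 31 12 4 0 15 (169 / 6) 2 (-(551 / 84)) 2 d x := by
  unfold QP Q
  nlinarith [mul_nonneg (sub_nonneg.2 hz) (lin_q (q := 12) (by norm_num) h (53 / 744) (62 / 835)),
    sq_nonneg (d + (-(3205283 / 3735252)) * x + (-(1435417 / 186762600))),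
    sq_nonneg (x + (-(85638346186834072217 / 1150585702134944523700)))]

lemma P2 (d x : ℝ) (h : 12 * x ^ 2 ≤ d - d ^ 2) (hz' : x ≤ -(1 / 50)) :
    (-(90511 / 100000)) ≤ QP 98 168 31 12 4 0 15 (169 / 6) 2 (-(551 / 84)) 2 d x := by
  unfold QP Q
  nlinarith [sq_nonneg (d + (-(725 / 5726)) * x + (-(463 / 5726))),
    sq_nonneg (x + (3619925 / 48792522))]

lemma P3 (d x : ℝ) (h : 12 * x ^ 2 ≤ d - d ^ 2) (hz : 0 ≤ x) (hz' : x ≤ (1 / 50)) :
    (-(1 / 50000)) ≤ QP 98 168 31 12 4 0 15 (169 / 6) 2 (-(551 / 84)) 2 d x := by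
  unfold QP Q
  nlinarith [mul_nonneg (sub_nonneg.2 hz) (sub_nonneg.2 hz'),
    sq_nonneg (d + (-(29 / 192)) * x + 0),
    sq_nonneg (x + (-(416 / 44993725)))]

lemma N1 (d x : ℝ) (h : 12 * x ^ 2 ≤ d - d ^ 2) (hz : (1 / 50) ≤ x) :
    (-(90511 / 100000)) ≤ QP 98 168 31 12 4 0 15 (169 / 6) 2 (551 / 84) 60 d x := by
  unfold QP Q
  nlinarith [sq_nonneg (d + (725 / 5726) * x + (-(463 / 5726))),
    sq_nonneg (x + (-(3619925 / 48792522)))]

lemma N2 (d x : ℝ) (h : 12 * x ^ 2 ≤ d - d ^ 2) (hz' : x ≤ -(1 / 50)) :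
    (-(11889 / 50000)) ≤ QP 98 168 31 12 4 0 15 (169 / 6) 2 (551 / 84) 60 d x := by
  unfold QP Q
  nlinarith [mul_nonneg (sub_nonneg.2 hz') (lin_q (q := 12) (by norm_num) h (53 / 744) (-(62 / 835))),
    sq_nonneg (d + (3205283 / 3735252) * x + (-(1435417 / 186762600))),
    sq_nonneg (x + (85638346186834072217 / 1150585702134944523700))]

lemma N3 (d x : ℝ) (h : 12 * x ^ 2 ≤ d - d ^ 2) (hz : -(1 / 50) ≤ x) (hz' : x ≤ 0) :
    (-(1 / 50000)) ≤ QP 98 168 31 12 4 0 15 (169 / 6) 2 (551 / 84) 60 d x := by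
  unfold QP Q
  nlinarith [mul_nonneg (sub_nonneg.2 hz) (sub_nonneg.2 hz'),
    sq_nonneg (d + (29 / 192) * x + 0),
    sq_nonneg (x + (416 / 44993725))]

/-- the one point inequalities -/
noncomputable def dat : CDat 7 12 98 168 31 (315 / 52) 4 0 15 (169 / 6) (287 / 5000) where
  Z := (1 / 50)
  aA := (1789 / 1014)
  bA := (-(1823 / 169))
  ap := (5897 / 100000)
  an := (-(60313 / 50000))
  aL := (12 / 5)
  bL := (169 / 10)
  sL := (215 / 2)
  lp := (3069 / 12500)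
  ln := (-(72663 / 50000))
  aM := (61 / 20)
  bM := 0
  sM := 31
  mp := (-(65189 / 100000))
  mm := (-(1033 / 12500))
  aP := 2
  bP := (-(551 / 84))
  sP := 2
  pp := (-(11889 / 50000))
  pn := (-(90511 / 100000))
  p0 := (-(1 / 50000))
  aN := 2
  bN := (551 / 84)
  sN := 60
  np := (-(90511 / 100000))
  nn := (-(11889 / 50000))
  n0 := (-(1 / 50000))
  Zpos := by norm_num
  sL0 := by norm_num
  sM0 := by norm_num
  sP0 := by norm_num
  sN0 := by norm_num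
  A3 := by norm_num
  A4 := by norm_num
  L3 := by norm_num
  L4 := by norm_num
  M3 := by norm_num
  M4 := by norm_num
  P4 := by norm_num
  N4 := by norm_num
  A1 := A1
  A2 := A2
  L1 := L1
  L2 := L2
  M1 := M1
  M2 := M2
  P1 := P1
  P2 := P2
  P3 := P3
  N1 := N1
  N2 := N2
  N3 := N3

end Vale.Agent.P224.SO.G13_98_31

namespace Vale.Agent.P224.SO.G13e

open Finset Vale.Agent.P224.SO Vale.Agent.P224.SO.Rg

/-- the static functional -/
theorem cls_S {d x : Fin 15 → ℝ}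
    (h : ∀ i, 12 * x i ^ 2 ≤ d i - d i ^ 2) (h1 : ∑ i, d i = 1) (h0 : ∑ i, x i = 0)
    (hv : ∑ i, d i * x i ≤ 0)
    (hS : 315 / 52 + (98 * ∑ i, d i ^ 2 - 168 * ∑ i, x i ^ 2 - 31 * ∑ i, d i * x i)
      + ∑ i, 4 * (d i - d i ^ 2 - 12 * x i ^ 2) < 574 / 10000) :
    (Rt (1 / 50) x).card = 8 := by
  refine CDat.cls G13_98_31.dat (by norm_num) h h1 h0 hv ?_
  simp only [zero_mul, add_zero]
  exact hS.trans_le (by norm_num)

end Vale.Agent.P224.SO.G13e
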