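import Vale.Agent.P224.SO.ClsG

/-!
Dimension 13: the number of points on the right from the value of the scalar functionals.
-/

namespace Vale.Agent.P224.SO.G13_98_32

open Vale.Agent.P224.SO Vale.Agent.P224.SO.Rg

lemma A1 (d x : ℝ) (h : 12 * x ^ 2 ≤ d - d ^ 2) (hz : (1 / 50) ≤ x) :
    (1707 / 25000) ≤ QP 98 168 32 12 4 0 15 (169 / 6) (11734 / 6591) (-(24160 / 2197)) 0 d x := by
  unfold QP Q
  nlinarith [mul_nonneg (sub_nonneg.2 hz) (lin_q (q := 12) (by norm_num) h (19 / 329) (20 / 297)),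
    sq_nonneg (d + (-(483751 / 497448)) * x + (12171987533 / 2131141849200)),
    sq_nonneg (x + (-(8063396968874869991 / 130052276449071555150)))]

lemma A2 (d x : ℝ) (h : 12 * x ^ 2 ≤ d - d ^ 2) :
    (-(121771 / 100000)) ≤ QP 98 168 32 12 4 0 15 (169 / 6) (11734 / 6591) (-(24160 / 2197)) 0 d x := by
  unfold QP Q
  nlinarith [sq_nonneg (d + (-(1600 / 11669)) * x + (-(13491979 / 153820758))),
    sq_nonneg (x + (7873718200 / 103994663253))]

lemma L1 (d x : ℝ) (h : 12 * x ^ 2 ≤ d - d ^ 2) (hz' : x ≤ -(1 / 50)) :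
    (3069 / 12500) ≤ QP 98 168 32 12 4 0 15 (169 / 6) (12 / 5) (169 / 10) (217 / 2) d x := by
  unfold QP Q
  nlinarith [mul_nonneg (sub_nonneg.2 hz') (lin_q (q := 12) (by norm_num) h (77 / 1000) (-(1 / 13))),
    sq_nonneg (d + (21966 / 18125) * x + (940381 / 59812500)),
    sq_nonneg (x + (958810098811 / 15777581996800))]

lemma L2 (d x : ℝ) (h : 12 * x ^ 2 ≤ d - d ^ 2) :
    (-(72663 / 50000)) ≤ QP 98 168 32 12 4 0 15 (169 / 6) (12 / 5) (169 / 10) (217 / 2) d x := by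
  unfold QP Q
  nlinarith [sq_nonneg (d + (1275 / 3946) * x + (-(1139 / 11838))),
    sq_nonneg (x + (-(1882145 / 25333701)))]

lemma M1 (d x : ℝ) (h : 12 * x ^ 2 ≤ d - d ^ 2) :
    (-(65189 / 100000)) ≤ QP 98 168 32 12 4 0 15 (169 / 6) (61 / 20) 0 32 d x := by
  unfold QP Q
  nlinarith [sq_nonneg (d + 0 * x + (-(569 / 7468))),
    sq_nonneg (x + 0)]

lemma M2 (d x : ℝ) (h : 12 * x ^ 2 ≤ d - d ^ 2) (hz : -(1 / 50) ≤ x) (hz' : x ≤ (1 / 50)) :
    (-(1033 / 12500)) ≤ QP 98 168 32 12 4 0 15 (169 / 6) (61 / 20) 0 32 d x := by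
  unfold QP Q
  nlinarith [mul_nonneg (sub_nonneg.2 hz) (sub_nonneg.2 hz'),
    sq_nonneg (d + 0 * x + (-(7 / 1280))),
    sq_nonneg (x + 0)]

lemma P1 (d x : ℝ) (h : 12 * x ^ 2 ≤ d - d ^ 2) (hz : (1 / 50) ≤ x) :
    (-(22627 / 100000)) ≤ QP 98 168 32 12 4 0 15 (169 / 6) 2 (-(95 / 14)) 2 d x := by
  unfold QP Q
  nlinarith [mul_nonneg (sub_nonneg.2 hz) (lin_q (q := 12) (by norm_num) h (53 / 744) (62 / 835)),
    sq_nonneg (d + (-(3186241 / 3737112)) * x + (-(1519559 / 186855600))),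
    sq_nonneg (x + (-(20725124134753075116 / 278652496019157110725)))]

lemma P2 (d x : ℝ) (h : 12 * x ^ 2 ≤ d - d ^ 2) (hz' : x ≤ -(1 / 50)) :
    (-(45831 / 50000)) ≤ QP 98 168 32 12 4 0 15 (169 / 6) 2 (-(95 / 14)) 2 d x := by
  unfold QP Q
  nlinarith [sq_nonneg (d + (-(25 / 191)) * x + (-(31 / 382))),
    sq_nonneg (x + (58175 / 781788))]

lemma P3 (d x : ℝ) (h : 12 * x ^ 2 ≤ d - d ^ 2) (hz : 0 ≤ x) (hz' : x ≤ (1 / 50)) :
    (-(1 / 50000)) ≤ QP 98 168 32 12 4 0 15 (169 / 6) 2 (-(95 / 14)) 2 d x := by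
  unfold QP Q
  nlinarith [mul_nonneg (sub_nonneg.2 hz) (sub_nonneg.2 hz'),
    sq_nonneg (d + (-(5 / 32)) * x + 0),
    sq_nonneg (x + (-(174 / 20309275)))]

lemma N1 (d x : ℝ) (h : 12 * x ^ 2 ≤ d - d ^ 2) (hz : (1 / 50) ≤ x) :
    (-(45831 / 50000)) ≤ QP 98 168 32 12 4 0 15 (169 / 6) 2 (95 / 14) 62 d x := by
  unfold QP Q
  nlinarith [sq_nonneg (d + (25 / 191) * x + (-(31 / 382))),
    sq_nonneg (x + (-(58175 / 781788)))]

lemma N2 (d x : ℝ) (h : 12 * x ^ 2 ≤ d - d ^ 2) (hz' : x ≤ -(1 / 50)) :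
    (-(22627 / 100000)) ≤ QP 98 168 32 12 4 0 15 (169 / 6) 2 (95 / 14) 62 d x := by
  unfold QP Q
  nlinarith [mul_nonneg (sub_nonneg.2 hz') (lin_q (q := 12) (by norm_num) h (53 / 744) (-(62 / 835))),
    sq_nonneg (d + (3186241 / 3737112) * x + (-(1519559 / 186855600))),
    sq_nonneg (x + (20725124134753075116 / 278652496019157110725))]

lemma N3 (d x : ℝ) (h : 12 * x ^ 2 ≤ d - d ^ 2) (hz : -(1 / 50) ≤ x) (hz' : x ≤ 0) :
    (-(1 / 50000)) ≤ QP 98 168 32 12 4 0 15 (169 / 6) 2 (95 / 14) 62 d x := by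
  unfold QP Q
  nlinarith [mul_nonneg (sub_nonneg.2 hz) (sub_nonneg.2 hz'),
    sq_nonneg (d + (5 / 32) * x + 0),
    sq_nonneg (x + (174 / 20309275))]

/-- the one point inequalities -/
noncomputable def dat : CDat 7 12 98 168 32 (1022 / 169) 4 0 15 (169 / 6) (47 / 1000) where
  Z := (1 / 50)
  aA := (11734 / 6591)
  bA := (-(24160 / 2197))
  ap := (1707 / 25000)
  an := (-(121771 / 100000))
  aL := (12 / 5)
  bL := (169 / 10)
  sL := (217 / 2)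
  lp := (3069 / 12500)
  ln := (-(72663 / 50000))
  aM := (61 / 20)
  bM := 0
  sM := 32
  mp := (-(65189 / 100000))
  mm := (-(1033 / 12500))
  aP := 2
  bP := (-(95 / 14))
  sP := 2
  pp := (-(22627 / 100000))
  pn := (-(45831 / 50000))
  p0 := (-(1 / 50000))
  aN := 2
  bN := (95 / 14)
  sN := 62
  np := (-(45831 / 50000))
  nn := (-(22627 / 100000))
  n0 := (-(1 / 50000))
  Zpos := by norm_num
  sL0 := by norm_num
  sM0 := by norm_num
  sP0 := by norm_num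
  sN0 := by norm_num
  A3 := by norm_num
  A4 := by norm_num
  L3 := by norm_num
  L4 := by norm_num
  M3 := by norm_num
  M4 := by norm_num
  P4 := by norm_num
  N4 := by norm_num
  A1 := A1
  A2 := A2
  L1 := L1
  L2 := L2
  M1 := M1
  M2 := M2
  P1 := P1
  P2 := P2
  P3 := P3
  N1 := N1
  N2 := N2
  N3 := N3

end Vale.Agent.P224.SO.G13_98_32

namespace Vale.Agent.P224.SO.G13f

open Finset Vale.Agent.P224.SO Vale.Agent.P224.SO.Rg

/-- the static functional -/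
theorem cls_S {d x : Fin 15 → ℝ}
    (h : ∀ i, 12 * x i ^ 2 ≤ d i - d i ^ 2) (h1 : ∑ i, d i = 1) (h0 : ∑ i, x i = 0)
    (hv : ∑ i, d i * x i ≤ 0)
    (hS : 1022 / 169 + (98 * ∑ i, d i ^ 2 - 168 * ∑ i, x i ^ 2 - 32 * ∑ i, d i * x i)
      + ∑ i, 4 * (d i - d i ^ 2 - 12 * x i ^ 2) < 470 / 10000) :
    (Rt (1 / 50) x).card = 8 := by
  refine CDat.cls G13_98_32.dat (by norm_num) h h1 h0 hv ?_
  simp only [zero_mul, add_zero]
  exact hS.trans_le (by norm_num)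

end Vale.Agent.P224.SO.G13f
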