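import Vale.Agent.P224.SO.ClsG

/-!
Dimension 15: the number of points on the right from the value of the scalar functionals.
-/

namespace Vale.Agent.P224.SO.M15S

open Vale.Agent.P224.SO Vale.Agent.P224.SO.Rg

lemma A1 (d x : ℝ) (h : 14 * x ^ 2 ≤ d - d ^ 2) (hz : (3 / 100) ≤ x) :
    (3233 / 50000) ≤ QP 113 224 42 14 6 0 17 (225 / 7) (-(7 / 125)) (-(1442 / 125)) 0 d x := by
  unfold QP Q
  nlinarith [mul_nonneg (sub_nonneg.2 hz) (lin_q (q := 14) (by norm_num) h (20 / 387) (51 / 862)),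
    sq_nonneg (d + (-(659033 / 495919)) * x + (1217289 / 49591900)),
    sq_nonneg (x + (-(1933695128769798103 / 33398223461336628900)))]

lemma A2 (d x : ℝ) (h : 14 * x ^ 2 ≤ d - d ^ 2) :
    (-(108201 / 100000)) ≤ QP 113 224 42 14 6 0 17 (225 / 7) (-(7 / 125)) (-(1442 / 125)) 0 d x := by
  unfold QP Q
  nlinarith [sq_nonneg (d + (-(525 / 3344)) * x + (-(647 / 8360))),
    sq_nonneg (x + (247382 / 3782485))]

lemma L1 (d x : ℝ) (h : 14 * x ^ 2 ≤ d - d ^ 2) (hz' : x ≤ -(3 / 100)) :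
    (10819 / 25000) ≤ QP 113 224 42 14 6 0 17 (225 / 7) (7 / 10) (45 / 2) (798 / 5) d x := by
  unfold QP Q
  nlinarith [mul_nonneg (sub_nonneg.2 hz') (lin_q (q := 14) (by norm_num) h (71 / 980) (-(30 / 433))),
    sq_nonneg (d + (8340351 / 5476730) * x + (17675953 / 547673000)),
    sq_nonneg (x + (702049590899663979 / 12788604937790655550))]

lemma L2 (d x : ℝ) (h : 14 * x ^ 2 ≤ d - d ^ 2) :
    (-(30461 / 20000)) ≤ QP 113 224 42 14 6 0 17 (225 / 7) (7 / 10) (45 / 2) (798 / 5) d x := by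
  unfold QP Q
  nlinarith [sq_nonneg (d + (588 / 1373) * x + (-(125 / 1373))),
    sq_nonneg (x + (-(161925 / 2499364)))]

lemma M1 (d x : ℝ) (h : 14 * x ^ 2 ≤ d - d ^ 2) :
    (-(54673 / 100000)) ≤ QP 113 224 42 14 6 0 17 (225 / 7) (3 / 4) 0 42 d x := by
  unfold QP Q
  nlinarith [sq_nonneg (d + 0 * x + (-(1677 / 25804))),
    sq_nonneg (x + 0)]

lemma M2 (d x : ℝ) (h : 14 * x ^ 2 ≤ d - d ^ 2) (hz : -(3 / 100) ≤ x) (hz' : x ≤ (3 / 100)) :
    (-(19577 / 100000)) ≤ QP 113 224 42 14 6 0 17 (225 / 7) (3 / 4) 0 42 d x := by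
  unfold QP Q
  nlinarith [mul_nonneg (sub_nonneg.2 hz) (sub_nonneg.2 hz'),
    sq_nonneg (d + 0 * x + (-(148 / 11521))),
    sq_nonneg (x + 0)]

lemma P1 (d x : ℝ) (h : 14 * x ^ 2 ≤ d - d ^ 2) (hz : (3 / 100) ≤ x) :
    (-(3147 / 20000)) ≤ QP 113 224 42 14 6 0 17 (225 / 7) (1 / 8) (-(55 / 7)) 2 d x := by
  unfold QP Q
  nlinarith [mul_nonneg (sub_nonneg.2 hz) (lin_q (q := 14) (by norm_num) h (37 / 591) (9 / 139)),
    sq_nonneg (d + (-(8658337 / 6855600)) * x + (1099553 / 57130000)),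
    sq_nonneg (x + (-(13933915248742487699 / 215510143010455116425)))]

lemma P2 (d x : ℝ) (h : 14 * x ^ 2 ≤ d - d ^ 2) (hz' : x ≤ -(3 / 100)) :
    (-(85049 / 100000)) ≤ QP 113 224 42 14 6 0 17 (225 / 7) (1 / 8) (-(55 / 7)) 2 d x := by
  unfold QP Q
  nlinarith [sq_nonneg (d + (-(500 / 3299)) * x + (-(3817 / 52784))),
    sq_nonneg (x + (5732375 / 88697392))]

lemma P3 (d x : ℝ) (h : 14 * x ^ 2 ≤ d - d ^ 2) (hz : 0 ≤ x) (hz' : x ≤ (3 / 100)) :
    (-(1 / 50000)) ≤ QP 113 224 42 14 6 0 17 (225 / 7) (1 / 8) (-(55 / 7)) 2 d x := by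
  unfold QP Q
  nlinarith [mul_nonneg (sub_nonneg.2 hz) (sub_nonneg.2 hz'),
    sq_nonneg (d + (-(250 / 1411)) * x + (-(1 / 45152))),
    sq_nonneg (x + (-(95957 / 3231400200)))]

lemma N1 (d x : ℝ) (h : 14 * x ^ 2 ≤ d - d ^ 2) (hz : (3 / 100) ≤ x) :
    (-(85049 / 100000)) ≤ QP 113 224 42 14 6 0 17 (225 / 7) (1 / 8) (55 / 7) 82 d x := by
  unfold QP Q
  nlinarith [sq_nonneg (d + (500 / 3299) * x + (-(3817 / 52784))),
    sq_nonneg (x + (-(5732375 / 88697392)))]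

lemma N2 (d x : ℝ) (h : 14 * x ^ 2 ≤ d - d ^ 2) (hz' : x ≤ -(3 / 100)) :
    (-(3147 / 20000)) ≤ QP 113 224 42 14 6 0 17 (225 / 7) (1 / 8) (55 / 7) 82 d x := by
  unfold QP Q
  nlinarith [mul_nonneg (sub_nonneg.2 hz') (lin_q (q := 14) (by norm_num) h (37 / 591) (-(9 / 139))),
    sq_nonneg (d + (8658337 / 6855600) * x + (1099553 / 57130000)),
    sq_nonneg (x + (13933915248742487699 / 215510143010455116425))]

lemma N3 (d x : ℝ) (h : 14 * x ^ 2 ≤ d - d ^ 2) (hz : -(3 / 100) ≤ x) (hz' : x ≤ 0) :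
    (-(1 / 50000)) ≤ QP 113 224 42 14 6 0 17 (225 / 7) (1 / 8) (55 / 7) 82 d x := by
  unfold QP Q
  nlinarith [mul_nonneg (sub_nonneg.2 hz) (sub_nonneg.2 hz'),
    sq_nonneg (d + (250 / 1411) * x + (-(1 / 45152))),
    sq_nonneg (x + (95957 / 3231400200))]

/-- the one point inequalities -/
noncomputable def dat : CDat 8 14 113 224 42 (199 / 25) 6 0 17 (225 / 7) (111 / 5000) where
  Z := (3 / 100)
  aA := (-(7 / 125))
  bA := (-(1442 / 125))
  ap := (3233 / 50000)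
  an := (-(108201 / 100000))
  aL := (7 / 10)
  bL := (45 / 2)
  sL := (798 / 5)
  lp := (10819 / 25000)
  ln := (-(30461 / 20000))
  aM := (3 / 4)
  bM := 0
  sM := 42
  mp := (-(54673 / 100000))
  mm := (-(19577 / 100000))
  aP := (1 / 8)
  bP := (-(55 / 7))
  sP := 2
  pp := (-(3147 / 20000))
  pn := (-(85049 / 100000))
  p0 := (-(1 / 50000))
  aN := (1 / 8)
  bN := (55 / 7)
  sN := 82
  np := (-(85049 / 100000))
  nn := (-(3147 / 20000))
  n0 := (-(1 / 50000))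
  Zpos := by norm_num
  sL0 := by norm_num
  sM0 := by norm_num
  sP0 := by norm_num
  sN0 := by norm_num
  A3 := by norm_num
  A4 := by norm_num
  L3 := by norm_num
  L4 := by norm_num
  M3 := by norm_num
  M4 := by norm_num
  P4 := by norm_num
  N4 := by norm_num
  A1 := A1
  A2 := A2
  L1 := L1
  L2 := L2
  M1 := M1
  M2 := M2
  P1 := P1
  P2 := P2
  P3 := P3
  N1 := N1
  N2 := N2
  N3 := N3

end Vale.Agent.P224.SO.M15S

namespace Vale.Agent.P224.SO.M15T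

open Vale.Agent.P224.SO Vale.Agent.P224.SO.Rg

lemma A1 (d x : ℝ) (h : 14 * x ^ 2 ≤ d - d ^ 2) (hz : (3 / 100) ≤ x) :
    (3233 / 50000) ≤ QP 113 224 42 14 4 (23 / 100) 17 (225 / 7) (-(7 / 125)) (-(1442 / 125)) 0 d x := by
  unfold QP Q
  nlinarith [mul_nonneg (sub_nonneg.2 hz) (lin_q (q := 14) (by norm_num) h (20 / 387) (51 / 862)),
    sq_nonneg (d + (-(55791533 / 48167955)) * x + (24674411 / 1605598500)),
    sq_nonneg (x + (-(461303008958938902733 / 7874540094581276831300)))]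

lemma A2 (d x : ℝ) (h : 14 * x ^ 2 ≤ d - d ^ 2) :
    (-(108201 / 100000)) ≤ QP 113 224 42 14 4 (23 / 100) 17 (225 / 7) (-(7 / 125)) (-(1442 / 125)) 0 d x := by
  unfold QP Q
  nlinarith [sq_nonneg (d + (-(4613 / 70083)) * x + (-(99859 / 1401660))),
    sq_nonneg (x + (306193483 / 4681016440))]

lemma L1 (d x : ℝ) (h : 14 * x ^ 2 ≤ d - d ^ 2) (hz' : x ≤ -(3 / 100)) :
    (44597 / 50000) ≤ QP 113 224 42 14 4 (23 / 100) 17 (225 / 7) (3 / 2) (166 / 5) (1022 / 5) d x := by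
  unfold QP Q
  nlinarith [mul_nonneg (sub_nonneg.2 hz') (lin_q (q := 14) (by norm_num) h (25 / 347) (-(17 / 246))),
    sq_nonneg (d + (30782353 / 20604860) * x + (62905497 / 2060486000)),
    sq_nonneg (x + (35422695040346771 / 789664668467619900))]

lemma L2 (d x : ℝ) (h : 14 * x ^ 2 ≤ d - d ^ 2) :
    (-(20757 / 10000)) ≤ QP 113 224 42 14 4 (23 / 100) 17 (225 / 7) (3 / 2) (166 / 5) (1022 / 5) d x := by
  unfold QP Q
  nlinarith [sq_nonneg (d + (31157 / 72799) * x + (-(26493 / 291196))),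
    sq_nonneg (x + (-(130469845 / 2012173512)))]

lemma M1 (d x : ℝ) (h : 14 * x ^ 2 ≤ d - d ^ 2) :
    (-(30003 / 50000)) ≤ QP 113 224 42 14 4 (23 / 100) 17 (225 / 7) (33 / 20) (-(9 / 10)) (527 / 20) d x := by
  unfold QP Q
  nlinarith [sq_nonneg (d + (-(7 / 273612)) * x + (-(8903 / 136806))),
    sq_nonneg (x + (-(565030 / 25172297)))]

lemma M2 (d x : ℝ) (h : 14 * x ^ 2 ≤ d - d ^ 2) (hz : -(3 / 100) ≤ x) (hz' : x ≤ (3 / 100)) :
    (-(6601 / 100000)) ≤ QP 113 224 42 14 4 (23 / 100) 17 (225 / 7) (33 / 20) (-(9 / 10)) (527 / 20) d x := by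
  unfold QP Q
  nlinarith [mul_nonneg (sub_nonneg.2 hz) (sub_nonneg.2 hz'),
    sq_nonneg (d + (-(7 / 244338)) * x + (-(3169 / 244338))),
    sq_nonneg (x + (-(491845 / 99201221)))]

lemma P1 (d x : ℝ) (h : 14 * x ^ 2 ≤ d - d ^ 2) (hz : (3 / 100) ≤ x) :
    (-(10853 / 100000)) ≤ QP 113 224 42 14 4 (23 / 100) 17 (225 / 7) (5797 / 10000) (-(91017 / 10000)) 0 d x := by
  unfold QP Q
  nlinarith [mul_nonneg (sub_nonneg.2 hz) (lin_q (q := 14) (by norm_num) h (19 / 329) (25 / 401)),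
    sq_nonneg (d + (-(6479438 / 5861041)) * x + (12992083 / 1172208200)),
    sq_nonneg (x + (-(14710356306786256019 / 235674077896818637600)))]

lemma P2 (d x : ℝ) (h : 14 * x ^ 2 ≤ d - d ^ 2) (hz' : x ≤ -(3 / 100)) :
    (-(95247 / 100000)) ≤ QP 113 224 42 14 4 (23 / 100) 17 (225 / 7) (5797 / 10000) (-(91017 / 10000)) 0 d x := by
  unfold QP Q
  nlinarith [sq_nonneg (d + (-(9226 / 139221)) * x + (-(1947179 / 27844200))),
    sq_nonneg (x + (1764852527 / 26667269120))]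

lemma P3 (d x : ℝ) (h : 14 * x ^ 2 ≤ d - d ^ 2) (hz : 0 ≤ x) (hz' : x ≤ (3 / 100)) :
    (18651 / 100000) ≤ QP 113 224 42 14 4 (23 / 100) 17 (225 / 7) (5797 / 10000) (-(91017 / 10000)) 0 d x := by
  unfold QP Q
  nlinarith [mul_nonneg (sub_nonneg.2 hz) (sub_nonneg.2 hz'),
    sq_nonneg (d + (-(9226 / 122309)) * x + (-(255979 / 24461800))),
    sq_nonneg (x + (-(1987695659 / 66599226000)))]

lemma N1 (d x : ℝ) (h : 14 * x ^ 2 ≤ d - d ^ 2) (hz : (3 / 100) ≤ x) :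
    (-(121143 / 100000)) ≤ QP 113 224 42 14 4 (23 / 100) 17 (225 / 7) (839 / 1250) (144517 / 10000) (1046161 / 10000) d x := by
  unfold QP Q
  nlinarith [sq_nonneg (d + (5477927 / 28166200) * x + (-(264323 / 3520775))),
    sq_nonneg (x + (-(2674832795776 / 41319899008953)))]

lemma N2 (d x : ℝ) (h : 14 * x ^ 2 ≤ d - d ^ 2) (hz' : x ≤ -(3 / 100)) :
    (14463 / 100000) ≤ QP 113 224 42 14 4 (23 / 100) 17 (225 / 7) (839 / 1250) (144517 / 10000) (1046161 / 10000) d x := by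
  unfold QP Q
  nlinarith [mul_nonneg (sub_nonneg.2 hz') (lin_q (q := 14) (by norm_num) h (37 / 591) (-(9 / 139))),
    sq_nonneg (d + (16676973257 / 14622403800) * x + (362668 / 32066675)),
    sq_nonneg (x + (39268527943387374217432 / 607424934066947347100753))]

lemma N3 (d x : ℝ) (h : 14 * x ^ 2 ≤ d - d ^ 2) (hz : -(3 / 100) ≤ x) (hz' : x ≤ 0) :
    (22989 / 100000) ≤ QP 113 224 42 14 4 (23 / 100) 17 (225 / 7) (839 / 1250) (144517 / 10000) (1046161 / 10000) d x := by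
  unfold QP Q
  nlinarith [mul_nonneg (sub_nonneg.2 hz) (sub_nonneg.2 hz'),
    sq_nonneg (d + (5477927 / 23939600) * x + (-(321 / 5984900))),
    sq_nonneg (x + (2513003124 / 77538740768953))]

/-- the one point inequalities -/
noncomputable def dat : CDat 8 14 113 224 42 (199 / 25) 4 (23 / 100) 17 (225 / 7) (47 / 200) where
  Z := (3 / 100)
  aA := (-(7 / 125))
  bA := (-(1442 / 125))
  ap := (3233 / 50000)
  an := (-(108201 / 100000))
  aL := (3 / 2)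
  bL := (166 / 5)
  sL := (1022 / 5)
  lp := (44597 / 50000)
  ln := (-(20757 / 10000))
  aM := (33 / 20)
  bM := (-(9 / 10))
  sM := (527 / 20)
  mp := (-(30003 / 50000))
  mm := (-(6601 / 100000))
  aP := (5797 / 10000)
  bP := (-(91017 / 10000))
  sP := 0
  pp := (-(10853 / 100000))
  pn := (-(95247 / 100000))
  p0 := (18651 / 100000)
  aN := (839 / 1250)
  bN := (144517 / 10000)
  sN := (1046161 / 10000)
  np := (-(121143 / 100000))
  nn := (14463 / 100000)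
  n0 := (22989 / 100000)
  Zpos := by norm_num
  sL0 := by norm_num
  sM0 := by norm_num
  sP0 := by norm_num
  sN0 := by norm_num
  A3 := by norm_num
  A4 := by norm_num
  L3 := by norm_num
  L4 := by norm_num
  M3 := by norm_num
  M4 := by norm_num
  P4 := by norm_num
  N4 := by norm_num
  A1 := A1
  A2 := A2
  L1 := L1
  L2 := L2
  M1 := M1
  M2 := M2
  P1 := P1
  P2 := P2
  P3 := P3
  N1 := N1
  N2 := N2
  N3 := N3

end Vale.Agent.P224.SO.M15T

namespace Vale.Agent.P224.SO.C15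

open Finset Vale.Agent.P224.SO Vale.Agent.P224.SO.Rg

/-- the static functional -/
theorem cls_S {d x : Fin 17 → ℝ}
    (h : ∀ i, 14 * x i ^ 2 ≤ d i - d i ^ 2) (h1 : ∑ i, d i = 1) (h0 : ∑ i, x i = 0)
    (hv : ∑ i, d i * x i ≤ 0)
    (hS : 199 / 25 + (113 * ∑ i, d i ^ 2 - 224 * ∑ i, x i ^ 2 - 42 * ∑ i, d i * x i)
      + ∑ i, 6 * (d i - d i ^ 2 - 14 * x i ^ 2) < 222 / 10000) :
    (Rt (3 / 100) x).card = 9 := by
  refine CDat.cls M15S.dat (by norm_num) h h1 h0 hv ?_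
  simp only [zero_mul, add_zero]
  exact hS.trans_le (by norm_num)

/-- the functional with a parameter -/
theorem cls_T {d x : Fin 17 → ℝ}
    (h : ∀ i, 14 * x i ^ 2 ≤ d i - d i ^ 2) (h1 : ∑ i, d i = 1) (h0 : ∑ i, x i = 0)
    (hv : ∑ i, d i * x i ≤ 0)
    (hS : 199 / 25 + (113 * ∑ i, d i ^ 2 - 224 * ∑ i, x i ^ 2 - 42 * ∑ i, d i * x i)
      + ∑ i, (4 * (d i - d i ^ 2 - 14 * x i ^ 2) + 23 / 100 * ((1 - 17 * d i - 2 * x i) ^ 2
        + 225 / 7 * (d i - d i ^ 2 - 14 * x i ^ 2))) < 235 / 1000) :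
    (Rt (3 / 100) x).card = 9 :=
  CDat.cls M15T.dat (by norm_num) h h1 h0 hv (hS.trans_le (by norm_num))

end Vale.Agent.P224.SO.C15
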