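import Vale.Agent.P224.SO.ClsG

/-!
Dimension 15: the number of points on the right from the value of the scalar functionals.
-/

namespace Vale.Agent.P224.SO.M15U

open Vale.Agent.P224.SO Vale.Agent.P224.SO.Rg

lemma A1 (d x : ℝ) (h : 14 * x ^ 2 ≤ d - d ^ 2) (hz : (1 / 50) ≤ x) :
    (3233 / 50000) ≤ QP 113 224 42 14 4 0 17 (225 / 7) (-(7 / 125)) (-(1442 / 125)) 0 d x := by
  unfold QP Q
  nlinarith [mul_nonneg (sub_nonneg.2 hz) (lin_q (q := 14) (by norm_num) h (20 / 387) (51 / 862)),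
    sq_nonneg (d + (-(9666431 / 8887842)) * x + (4608341 / 444392100)),
    sq_nonneg (x + (-(17656270470515017627 / 317407715459048289550)))]

lemma A2 (d x : ℝ) (h : 14 * x ^ 2 ≤ d - d ^ 2) :
    (-(108201 / 100000)) ≤ QP 113 224 42 14 4 0 17 (225 / 7) (-(7 / 125)) (-(1442 / 125)) 0 d x := by
  unfold QP Q
  nlinarith [sq_nonneg (d + (-(525 / 3344)) * x + (-(647 / 8360))),
    sq_nonneg (x + (247382 / 3782485))]

lemma L1 (d x : ℝ) (h : 14 * x ^ 2 ≤ d - d ^ 2) (hz' : x ≤ -(1 / 50)) :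
    (25959 / 100000) ≤ QP 113 224 42 14 4 0 17 (225 / 7) (1 / 2) (181 / 10) (1359 / 10) d x := by
  unfold QP Q
  nlinarith [mul_nonneg (sub_nonneg.2 hz') (lin_q (q := 14) (by norm_num) h (54 / 803) (-(33 / 493))),
    sq_nonneg (d + (2356687 / 1799523) * x + (356669 / 17995230)),
    sq_nonneg (x + (41265180053678063 / 956286072218329450))]

lemma L2 (d x : ℝ) (h : 14 * x ^ 2 ≤ d - d ^ 2) :
    (-(132169 / 100000)) ≤ QP 113 224 42 14 4 0 17 (225 / 7) (1 / 2) (181 / 10) (1359 / 10) d x := by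
  unfold QP Q
  nlinarith [sq_nonneg (d + (1565 / 4524) * x + (-(129 / 1508))),
    sq_nonneg (x + (-(759085 / 11738039)))]

lemma M1 (d x : ℝ) (h : 14 * x ^ 2 ≤ d - d ^ 2) :
    (-(14077 / 25000)) ≤ QP 113 224 42 14 4 0 17 (225 / 7) 1 0 42 d x := by
  unfold QP Q
  nlinarith [sq_nonneg (d + 0 * x + (-(851 / 12902))),
    sq_nonneg (x + 0)]

lemma M2 (d x : ℝ) (h : 14 * x ^ 2 ≤ d - d ^ 2) (hz : -(1 / 50) ≤ x) (hz' : x ≤ (1 / 50)) :
    (-(1893 / 20000)) ≤ QP 113 224 42 14 4 0 17 (225 / 7) 1 0 42 d x := by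
  unfold QP Q
  nlinarith [mul_nonneg (sub_nonneg.2 hz) (sub_nonneg.2 hz'),
    sq_nonneg (d + 0 * x + (-(67 / 11334))),
    sq_nonneg (x + 0)]

lemma P1 (d x : ℝ) (h : 14 * x ^ 2 ≤ d - d ^ 2) (hz : (1 / 50) ≤ x) :
    (-(3147 / 20000)) ≤ QP 113 224 42 14 4 0 17 (225 / 7) (1 / 8) (-(55 / 7)) 2 d x := by
  unfold QP Q
  nlinarith [mul_nonneg (sub_nonneg.2 hz) (lin_q (q := 14) (by norm_num) h (37 / 591) (9 / 139)),
    sq_nonneg (d + (-(13773673 / 13731294)) * x + (418237 / 171641175)),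
    sq_nonneg (x + (-(36753927899734243704 / 568488199994223045425)))]

lemma P2 (d x : ℝ) (h : 14 * x ^ 2 ≤ d - d ^ 2) (hz' : x ≤ -(1 / 50)) :
    (-(85049 / 100000)) ≤ QP 113 224 42 14 4 0 17 (225 / 7) (1 / 8) (-(55 / 7)) 2 d x := by
  unfold QP Q
  nlinarith [sq_nonneg (d + (-(500 / 3299)) * x + (-(3817 / 52784))),
    sq_nonneg (x + (5732375 / 88697392))]

lemma P3 (d x : ℝ) (h : 14 * x ^ 2 ≤ d - d ^ 2) (hz : 0 ≤ x) (hz' : x ≤ (1 / 50)) :
    (-(1 / 50000)) ≤ QP 113 224 42 14 4 0 17 (225 / 7) (1 / 8) (-(55 / 7)) 2 d x := by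
  unfold QP Q
  nlinarith [mul_nonneg (sub_nonneg.2 hz) (sub_nonneg.2 hz'),
    sq_nonneg (d + (-(250 / 1411)) * x + (-(1 / 45152))),
    sq_nonneg (x + (-(174973 / 16175208700)))]

lemma N1 (d x : ℝ) (h : 14 * x ^ 2 ≤ d - d ^ 2) (hz : (1 / 50) ≤ x) :
    (-(85049 / 100000)) ≤ QP 113 224 42 14 4 0 17 (225 / 7) (1 / 8) (55 / 7) 82 d x := by
  unfold QP Q
  nlinarith [sq_nonneg (d + (500 / 3299) * x + (-(3817 / 52784))),
    sq_nonneg (x + (-(5732375 / 88697392)))]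

lemma N2 (d x : ℝ) (h : 14 * x ^ 2 ≤ d - d ^ 2) (hz' : x ≤ -(1 / 50)) :
    (-(3147 / 20000)) ≤ QP 113 224 42 14 4 0 17 (225 / 7) (1 / 8) (55 / 7) 82 d x := by
  unfold QP Q
  nlinarith [mul_nonneg (sub_nonneg.2 hz') (lin_q (q := 14) (by norm_num) h (37 / 591) (-(9 / 139))),
    sq_nonneg (d + (13773673 / 13731294) * x + (418237 / 171641175)),
    sq_nonneg (x + (36753927899734243704 / 568488199994223045425))]

lemma N3 (d x : ℝ) (h : 14 * x ^ 2 ≤ d - d ^ 2) (hz : -(1 / 50) ≤ x) (hz' : x ≤ 0) :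
    (-(1 / 50000)) ≤ QP 113 224 42 14 4 0 17 (225 / 7) (1 / 8) (55 / 7) 82 d x := by
  unfold QP Q
  nlinarith [mul_nonneg (sub_nonneg.2 hz) (sub_nonneg.2 hz'),
    sq_nonneg (d + (250 / 1411) * x + (-(1 / 45152))),
    sq_nonneg (x + (174973 / 16175208700))]

/-- the one point inequalities -/
noncomputable def dat : CDat 8 14 113 224 42 (199 / 25) 4 0 17 (225 / 7) (111 / 5000) where
  Z := (1 / 50)
  aA := (-(7 / 125))
  bA := (-(1442 / 125))
  ap := (3233 / 50000)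
  an := (-(108201 / 100000))
  aL := (1 / 2)
  bL := (181 / 10)
  sL := (1359 / 10)
  lp := (25959 / 100000)
  ln := (-(132169 / 100000))
  aM := 1
  bM := 0
  sM := 42
  mp := (-(14077 / 25000))
  mm := (-(1893 / 20000))
  aP := (1 / 8)
  bP := (-(55 / 7))
  sP := 2
  pp := (-(3147 / 20000))
  pn := (-(85049 / 100000))
  p0 := (-(1 / 50000))
  aN := (1 / 8)
  bN := (55 / 7)
  sN := 82
  np := (-(85049 / 100000))
  nn := (-(3147 / 20000))
  n0 := (-(1 / 50000))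
  Zpos := by norm_num
  sL0 := by norm_num
  sM0 := by norm_num
  sP0 := by norm_num
  sN0 := by norm_num
  A3 := by norm_num
  A4 := by norm_num
  L3 := by norm_num
  L4 := by norm_num
  M3 := by norm_num
  M4 := by norm_num
  P4 := by norm_num
  N4 := by norm_num
  A1 := A1
  A2 := A2
  L1 := L1
  L2 := L2
  M1 := M1
  M2 := M2
  P1 := P1
  P2 := P2
  P3 := P3
  N1 := N1
  N2 := N2
  N3 := N3

end Vale.Agent.P224.SO.M15U

namespace Vale.Agent.P224.SO.M15V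

open Vale.Agent.P224.SO Vale.Agent.P224.SO.Rg

lemma A1 (d x : ℝ) (h : 14 * x ^ 2 ≤ d - d ^ 2) (hz : (1 / 50) ≤ x) :
    (3233 / 50000) ≤ QP 113 224 42 14 4 (23 / 100) 17 (225 / 7) (-(7 / 125)) (-(1442 / 125)) 0 d x := by
  unfold QP Q
  nlinarith [mul_nonneg (sub_nonneg.2 hz) (lin_q (q := 14) (by norm_num) h (20 / 387) (51 / 862)),
    sq_nonneg (d + (-(14996590 / 15976521)) * x + (1009853 / 399413025)),
    sq_nonneg (x + (-(4179662172022987283 / 71976528951267904900)))]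

lemma A2 (d x : ℝ) (h : 14 * x ^ 2 ≤ d - d ^ 2) :
    (-(108201 / 100000)) ≤ QP 113 224 42 14 4 (23 / 100) 17 (225 / 7) (-(7 / 125)) (-(1442 / 125)) 0 d x := by
  unfold QP Q
  nlinarith [sq_nonneg (d + (-(4613 / 70083)) * x + (-(99859 / 1401660))),
    sq_nonneg (x + (306193483 / 4681016440))]

lemma L1 (d x : ℝ) (h : 14 * x ^ 2 ≤ d - d ^ 2) (hz' : x ≤ -(1 / 50)) :
    (7813 / 12500) ≤ QP 113 224 42 14 4 (23 / 100) 17 (225 / 7) (6 / 5) (53 / 2) (843 / 5) d x := by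
  unfold QP Q
  nlinarith [mul_nonneg (sub_nonneg.2 hz') (lin_q (q := 14) (by norm_num) h (47 / 703) (-(51 / 764))),
    sq_nonneg (d + (217773199 / 167281662) * x + (31931519 / 1672816620)),
    sq_nonneg (x + (2286070400219311001 / 64365735938120885860))]

lemma L2 (d x : ℝ) (h : 14 * x ^ 2 ≤ d - d ^ 2) :
    (-(176819 / 100000)) ≤ QP 113 224 42 14 4 (23 / 100) 17 (225 / 7) (6 / 5) (53 / 2) (843 / 5) d x := by
  unfold QP Q
  nlinarith [sq_nonneg (d + (49784 / 143911) * x + (-(12298 / 143911))),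
    sq_nonneg (x + (-(109838605 / 1697531408)))]

lemma M1 (d x : ℝ) (h : 14 * x ^ 2 ≤ d - d ^ 2) :
    (-(31149 / 50000)) ≤ QP 113 224 42 14 4 (23 / 100) 17 (225 / 7) 2 (-(9 / 10)) (527 / 20) d x := by
  unfold QP Q
  nlinarith [sq_nonneg (d + (-(7 / 273612)) * x + (-(6017 / 91204))),
    sq_nonneg (x + (-(565275 / 25172297)))]

lemma M2 (d x : ℝ) (h : 14 * x ^ 2 ≤ d - d ^ 2) (hz : -(1 / 50) ≤ x) (hz' : x ≤ (1 / 50)) :
    (351 / 4000) ≤ QP 113 224 42 14 4 (23 / 100) 17 (225 / 7) 2 (-(9 / 10)) (527 / 20) d x := by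
  unfold QP Q
  nlinarith [mul_nonneg (sub_nonneg.2 hz) (sub_nonneg.2 hz'),
    sq_nonneg (d + (-(7 / 240404)) * x + (-(1447 / 240404))),
    sq_nonneg (x + (-(96451 / 40291709)))]

lemma P1 (d x : ℝ) (h : 14 * x ^ 2 ≤ d - d ^ 2) (hz : (1 / 50) ≤ x) :
    (-(10299 / 50000)) ≤ QP 113 224 42 14 4 (23 / 100) 17 (225 / 7) (6641 / 10000) (-(9543 / 1250)) 0 d x := by
  unfold QP Q
  nlinarith [mul_nonneg (sub_nonneg.2 hz) (lin_q (q := 14) (by norm_num) h (7 / 116) (7 / 110)),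
    sq_nonneg (d + (-(12990089 / 14450932)) * x + (-(45041 / 14450932))),
    sq_nonneg (x + (-(66749779429621727 / 1049696759904143450)))]

lemma P2 (d x : ℝ) (h : 14 * x ^ 2 ≤ d - d ^ 2) (hz' : x ≤ -(1 / 50)) :
    (-(86137 / 100000)) ≤ QP 113 224 42 14 4 (23 / 100) 17 (225 / 7) (6641 / 10000) (-(9543 / 1250)) 0 d x := by
  unfold QP Q
  nlinarith [sq_nonneg (d + (-(9226 / 138703)) * x + (-(1901287 / 27740600))),
    sq_nonneg (x + (3403588983 / 52045965200))]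

lemma P3 (d x : ℝ) (h : 14 * x ^ 2 ≤ d - d ^ 2) (hz : 0 ≤ x) (hz' : x ≤ (1 / 50)) :
    (22989 / 100000) ≤ QP 113 224 42 14 4 (23 / 100) 17 (225 / 7) (6641 / 10000) (-(9543 / 1250)) 0 d x := by
  unfold QP Q
  nlinarith [mul_nonneg (sub_nonneg.2 hz) (lin_q (q := 14) (by norm_num) h (5 / 888) (1 / 50)),
    mul_nonneg (sub_nonneg.2 hz) (sub_nonneg.2 hz'),
    sq_nonneg (d + (-(30499595 / 106279392)) * x + (613 / 23936800)),
    sq_nonneg (x + (-(35663273964287 / 3536601315223025)))]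

lemma N1 (d x : ℝ) (h : 14 * x ^ 2 ≤ d - d ^ 2) (hz : (1 / 50) ≤ x) :
    (-(41627 / 50000)) ≤ QP 113 224 42 14 4 (23 / 100) 17 (225 / 7) (6713 / 10000) (58617 / 10000) (38053 / 625) d x := by
  unfold QP Q
  nlinarith [sq_nonneg (d + (151046 / 1732125) * x + (-(629497 / 9238000))),
    sq_nonneg (x + (-(76717662327 / 1185974620592)))]

lemma N2 (d x : ℝ) (h : 14 * x ^ 2 ≤ d - d ^ 2) (hz' : x ≤ -(1 / 50)) :
    (-(23427 / 100000)) ≤ QP 113 224 42 14 4 (23 / 100) 17 (225 / 7) (6713 / 10000) (58617 / 10000) (38053 / 625) d x := by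
  unfold QP Q
  nlinarith [mul_nonneg (sub_nonneg.2 hz') (lin_q (q := 14) (by norm_num) h (37 / 591) (-(9 / 139))),
    sq_nonneg (d + (1111625473 / 1228255600) * x + (-(19306829 / 4913022400))),
    sq_nonneg (x + (1263514194630447590851 / 19545665614023174446852))]

lemma N3 (d x : ℝ) (h : 14 * x ^ 2 ≤ d - d ^ 2) (hz : -(1 / 50) ≤ x) (hz' : x ≤ 0) :
    (22957 / 100000) ≤ QP 113 224 42 14 4 (23 / 100) 17 (225 / 7) (6713 / 10000) (58617 / 10000) (38053 / 625) d x := by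
  unfold QP Q
  nlinarith [mul_nonneg (sub_nonneg.2 hz) (sub_nonneg.2 hz'),
    sq_nonneg (d + (75523 / 750300) * x + (-(12097 / 8003200))),
    sq_nonneg (x + (29148699 / 3487655296))]

/-- the one point inequalities -/
noncomputable def dat : CDat 8 14 113 224 42 (199 / 25) 4 (23 / 100) 17 (225 / 7) (63 / 200) where
  Z := (1 / 50)
  aA := (-(7 / 125))
  bA := (-(1442 / 125))
  ap := (3233 / 50000)
  an := (-(108201 / 100000))
  aL := (6 / 5)
  bL := (53 / 2)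
  sL := (843 / 5)
  lp := (7813 / 12500)
  ln := (-(176819 / 100000))
  aM := 2
  bM := (-(9 / 10))
  sM := (527 / 20)
  mp := (-(31149 / 50000))
  mm := (351 / 4000)
  aP := (6641 / 10000)
  bP := (-(9543 / 1250))
  sP := 0
  pp := (-(10299 / 50000))
  pn := (-(86137 / 100000))
  p0 := (22989 / 100000)
  aN := (6713 / 10000)
  bN := (58617 / 10000)
  sN := (38053 / 625)
  np := (-(41627 / 50000))
  nn := (-(23427 / 100000))
  n0 := (22957 / 100000)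
  Zpos := by norm_num
  sL0 := by norm_num
  sM0 := by norm_num
  sP0 := by norm_num
  sN0 := by norm_num
  A3 := by norm_num
  A4 := by norm_num
  L3 := by norm_num
  L4 := by norm_num
  M3 := by norm_num
  M4 := by norm_num
  P4 := by norm_num
  N4 := by norm_num
  A1 := A1
  A2 := A2
  L1 := L1
  L2 := L2
  M1 := M1
  M2 := M2
  P1 := P1
  P2 := P2
  P3 := P3
  N1 := N1
  N2 := N2
  N3 := N3

end Vale.Agent.P224.SO.M15V

namespace Vale.Agent.P224.SO.D15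

open Finset Vale.Agent.P224.SO Vale.Agent.P224.SO.Rg

/-- the static functional -/
theorem cls_S {d x : Fin 17 → ℝ}
    (h : ∀ i, 14 * x i ^ 2 ≤ d i - d i ^ 2) (h1 : ∑ i, d i = 1) (h0 : ∑ i, x i = 0)
    (hv : ∑ i, d i * x i ≤ 0)
    (hS : 199 / 25 + (113 * ∑ i, d i ^ 2 - 224 * ∑ i, x i ^ 2 - 42 * ∑ i, d i * x i)
      + ∑ i, 4 * (d i - d i ^ 2 - 14 * x i ^ 2) < 222 / 10000) :
    (Rt (1 / 50) x).card = 9 := by
  refine CDat.cls M15U.dat (by norm_num) h h1 h0 hv ?_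
  simp only [zero_mul, add_zero]
  exact hS.trans_le (by norm_num)

/-- the functional with a parameter -/
theorem cls_T {d x : Fin 17 → ℝ}
    (h : ∀ i, 14 * x i ^ 2 ≤ d i - d i ^ 2) (h1 : ∑ i, d i = 1) (h0 : ∑ i, x i = 0)
    (hv : ∑ i, d i * x i ≤ 0)
    (hS : 199 / 25 + (113 * ∑ i, d i ^ 2 - 224 * ∑ i, x i ^ 2 - 42 * ∑ i, d i * x i)
      + ∑ i, (4 * (d i - d i ^ 2 - 14 * x i ^ 2) + 23 / 100 * ((1 - 17 * d i - 2 * x i) ^ 2
        + 225 / 7 * (d i - d i ^ 2 - 14 * x i ^ 2))) < 315 / 1000) :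
    (Rt (1 / 50) x).card = 9 :=
  CDat.cls M15V.dat (by norm_num) h h1 h0 hv (hS.trans_le (by norm_num))

end Vale.Agent.P224.SO.D15
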