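import Vale.Agent.P224.SO.ClsG

/-!
Dimension 15: the number of points on the right from the value of the scalar functionals.
-/

namespace Vale.Agent.P224.SO.M15P

open Vale.Agent.P224.SO Vale.Agent.P224.SO.Rg

lemma A1 (d x : ℝ) (h : 14 * x ^ 2 ≤ d - d ^ 2) (hz : (1 / 50) ≤ x) :
    (2143 / 100000) ≤ QP 113 224 36 14 4 0 17 (225 / 7) (-(1828 / 14175)) (-(21124 / 2025)) 0 d x := by
  unfold QP Q
  nlinarith [mul_nonneg (sub_nonneg.2 hz) (lin_q (q := 14) (by norm_num) h (20 / 387) (51 / 862)),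
    sq_nonneg (d + (-(9509183 / 8915706)) * x + (260055779 / 28084473900)),
    sq_nonneg (x + (-(1439377179508579343909 / 25475226824833418300850)))]

lemma A2 (d x : ℝ) (h : 14 * x ^ 2 ≤ d - d ^ 2) :
    (-(51509 / 50000)) ≤ QP 113 224 36 14 4 0 17 (225 / 7) (-(1828 / 14175)) (-(21124 / 2025)) 0 d x := by
  unfold QP Q
  nlinarith [sq_nonneg (d + (-(100 / 741)) * x + (-(574117 / 7562646))),
    sq_nonneg (x + (940283 / 14385357))]

lemma L1 (d x : ℝ) (h : 14 * x ^ 2 ≤ d - d ^ 2) (hz' : x ≤ -(1 / 50)) :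
    (25959 / 100000) ≤ QP 113 224 36 14 4 0 17 (225 / 7) (1 / 2) (181 / 10) (1299 / 10) d x := by
  unfold QP Q
  nlinarith [mul_nonneg (sub_nonneg.2 hz') (lin_q (q := 14) (by norm_num) h (54 / 803) (-(33 / 493))),
    sq_nonneg (d + (2356687 / 1799523) * x + (356669 / 17995230)),
    sq_nonneg (x + (41265180053678063 / 956286072218329450))]

lemma L2 (d x : ℝ) (h : 14 * x ^ 2 ≤ d - d ^ 2) :
    (-(132169 / 100000)) ≤ QP 113 224 36 14 4 0 17 (225 / 7) (1 / 2) (181 / 10) (1299 / 10) d x := by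
  unfold QP Q
  nlinarith [sq_nonneg (d + (1565 / 4524) * x + (-(129 / 1508))),
    sq_nonneg (x + (-(759085 / 11738039)))]

lemma M1 (d x : ℝ) (h : 14 * x ^ 2 ≤ d - d ^ 2) :
    (-(14077 / 25000)) ≤ QP 113 224 36 14 4 0 17 (225 / 7) 1 0 36 d x := by
  unfold QP Q
  nlinarith [sq_nonneg (d + 0 * x + (-(851 / 12902))),
    sq_nonneg (x + 0)]

lemma M2 (d x : ℝ) (h : 14 * x ^ 2 ≤ d - d ^ 2) (hz : -(1 / 50) ≤ x) (hz' : x ≤ (1 / 50)) :
    (-(1893 / 20000)) ≤ QP 113 224 36 14 4 0 17 (225 / 7) 1 0 36 d x := by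
  unfold QP Q
  nlinarith [mul_nonneg (sub_nonneg.2 hz) (sub_nonneg.2 hz'),
    sq_nonneg (d + 0 * x + (-(67 / 11334))),
    sq_nonneg (x + 0)]

lemma P1 (d x : ℝ) (h : 14 * x ^ 2 ≤ d - d ^ 2) (hz : (1 / 50) ≤ x) :
    (-(20933 / 100000)) ≤ QP 113 224 36 14 4 0 17 (225 / 7) (1 / 8) (-(187 / 28)) 2 d x := by
  unfold QP Q
  nlinarith [mul_nonneg (sub_nonneg.2 hz) (lin_q (q := 14) (by norm_num) h (37 / 591) (9 / 139)),
    sq_nonneg (d + (-(4491981 / 4592858)) * x + (91303 / 114821450)),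
    sq_nonneg (x + (-(13829766855323328013 / 213968305963273868475)))]

lemma P2 (d x : ℝ) (h : 14 * x ^ 2 ≤ d - d ^ 2) (hz' : x ≤ -(1 / 50)) :
    (-(79851 / 100000)) ≤ QP 113 224 36 14 4 0 17 (225 / 7) (1 / 8) (-(187 / 28)) 2 d x := by
  unfold QP Q
  nlinarith [sq_nonneg (d + (-(1700 / 13151)) * x + (-(3727 / 52604))),
    sq_nonneg (x + (39305275 / 606516596))]

lemma P3 (d x : ℝ) (h : 14 * x ^ 2 ≤ d - d ^ 2) (hz : 0 ≤ x) (hz' : x ≤ (1 / 50)) :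
    (-(1 / 50000)) ≤ QP 113 224 36 14 4 0 17 (225 / 7) (1 / 8) (-(187 / 28)) 2 d x := by
  unfold QP Q
  nlinarith [mul_nonneg (sub_nonneg.2 hz) (sub_nonneg.2 hz'),
    sq_nonneg (d + (-(25 / 166)) * x + (-(1 / 45152))),
    sq_nonneg (x + (-(3697 / 245901880)))]

lemma N1 (d x : ℝ) (h : 14 * x ^ 2 ≤ d - d ^ 2) (hz : (1 / 50) ≤ x) :
    (-(79851 / 100000)) ≤ QP 113 224 36 14 4 0 17 (225 / 7) (1 / 8) (187 / 28) 70 d x := by
  unfold QP Q
  nlinarith [sq_nonneg (d + (1700 / 13151) * x + (-(3727 / 52604))),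
    sq_nonneg (x + (-(39305275 / 606516596)))]

lemma N2 (d x : ℝ) (h : 14 * x ^ 2 ≤ d - d ^ 2) (hz' : x ≤ -(1 / 50)) :
    (-(20933 / 100000)) ≤ QP 113 224 36 14 4 0 17 (225 / 7) (1 / 8) (187 / 28) 70 d x := by
  unfold QP Q
  nlinarith [mul_nonneg (sub_nonneg.2 hz') (lin_q (q := 14) (by norm_num) h (37 / 591) (-(9 / 139))),
    sq_nonneg (d + (4491981 / 4592858) * x + (91303 / 114821450)),
    sq_nonneg (x + (13829766855323328013 / 213968305963273868475))]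

lemma N3 (d x : ℝ) (h : 14 * x ^ 2 ≤ d - d ^ 2) (hz : -(1 / 50) ≤ x) (hz' : x ≤ 0) :
    (-(1 / 50000)) ≤ QP 113 224 36 14 4 0 17 (225 / 7) (1 / 8) (187 / 28) 70 d x := by
  unfold QP Q
  nlinarith [mul_nonneg (sub_nonneg.2 hz) (sub_nonneg.2 hz'),
    sq_nonneg (d + (25 / 166) * x + (-(1 / 45152))),
    sq_nonneg (x + (3697 / 245901880))]

/-- the one point inequalities -/
noncomputable def dat : CDat 8 14 113 224 36 (1081 / 135) 4 0 17 (225 / 7) (87 / 1250) where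
  Z := (1 / 50)
  aA := (-(1828 / 14175))
  bA := (-(21124 / 2025))
  ap := (2143 / 100000)
  an := (-(51509 / 50000))
  aL := (1 / 2)
  bL := (181 / 10)
  sL := (1299 / 10)
  lp := (25959 / 100000)
  ln := (-(132169 / 100000))
  aM := 1
  bM := 0
  sM := 36
  mp := (-(14077 / 25000))
  mm := (-(1893 / 20000))
  aP := (1 / 8)
  bP := (-(187 / 28))
  sP := 2
  pp := (-(20933 / 100000))
  pn := (-(79851 / 100000))
  p0 := (-(1 / 50000))
  aN := (1 / 8)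
  bN := (187 / 28)
  sN := 70
  np := (-(79851 / 100000))
  nn := (-(20933 / 100000))
  n0 := (-(1 / 50000))
  Zpos := by norm_num
  sL0 := by norm_num
  sM0 := by norm_num
  sP0 := by norm_num
  sN0 := by norm_num
  A3 := by norm_num
  A4 := by norm_num
  L3 := by norm_num
  L4 := by norm_num
  M3 := by norm_num
  M4 := by norm_num
  P4 := by norm_num
  N4 := by norm_num
  A1 := A1
  A2 := A2
  L1 := L1
  L2 := L2
  M1 := M1
  M2 := M2
  P1 := P1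
  P2 := P2
  P3 := P3
  N1 := N1
  N2 := N2
  N3 := N3

end Vale.Agent.P224.SO.M15P

namespace Vale.Agent.P224.SO.E15

open Finset Vale.Agent.P224.SO Vale.Agent.P224.SO.Rg

/-- the static functional -/
theorem cls_S36 {d x : Fin 17 → ℝ}
    (h : ∀ i, 14 * x i ^ 2 ≤ d i - d i ^ 2) (h1 : ∑ i, d i = 1) (h0 : ∑ i, x i = 0)
    (hv : ∑ i, d i * x i ≤ 0)
    (hS : 1081 / 135 + (113 * ∑ i, d i ^ 2 - 224 * ∑ i, x i ^ 2 - 36 * ∑ i, d i * x i)
      + ∑ i, 4 * (d i - d i ^ 2 - 14 * x i ^ 2) < 696 / 10000) :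
    (Rt (1 / 50) x).card = 9 := by
  refine CDat.cls M15P.dat (by norm_num) h h1 h0 hv ?_
  simp only [zero_mul, add_zero]
  exact hS.trans_le (by norm_num)

end Vale.Agent.P224.SO.E15

namespace Vale.Agent.P224.SO.M15Q

open Vale.Agent.P224.SO Vale.Agent.P224.SO.Rg

lemma A1 (d x : ℝ) (h : 14 * x ^ 2 ≤ d - d ^ 2) (hz : (1 / 50) ≤ x) :
    (-(2179 / 100000)) ≤ QP 113 224 30 14 4 0 17 (225 / 7) (-(14311 / 70875)) (-(94438 / 10125)) 0 d x := by
  unfold QP Q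
  nlinarith [mul_nonneg (sub_nonneg.2 hz) (lin_q (q := 14) (by norm_num) h (20 / 387) (51 / 862)),
    sq_nonneg (d + (-(4692103 / 4470624)) * x + (117738149 / 14082465600)),
    sq_nonneg (x + (-(442594173979054249597 / 7756317651440971213650)))]

lemma A2 (d x : ℝ) (h : 14 * x ^ 2 ≤ d - d ^ 2) :
    (-(24459 / 25000)) ≤ QP 113 224 30 14 4 0 17 (225 / 7) (-(14311 / 70875)) (-(94438 / 10125)) 0 d x := by
  unfold QP Q
  nlinarith [sq_nonneg (d + (-(1500 / 13301)) * x + (-(5615591 / 75416670))),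
    sq_nonneg (x + (6686992241 / 102657921345))]

lemma L1 (d x : ℝ) (h : 14 * x ^ 2 ≤ d - d ^ 2) (hz' : x ≤ -(1 / 50)) :
    (25959 / 100000) ≤ QP 113 224 30 14 4 0 17 (225 / 7) (1 / 2) (181 / 10) (1239 / 10) d x := by
  unfold QP Q
  nlinarith [mul_nonneg (sub_nonneg.2 hz') (lin_q (q := 14) (by norm_num) h (54 / 803) (-(33 / 493))),
    sq_nonneg (d + (2356687 / 1799523) * x + (356669 / 17995230)),
    sq_nonneg (x + (41265180053678063 / 956286072218329450))]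

lemma L2 (d x : ℝ) (h : 14 * x ^ 2 ≤ d - d ^ 2) :
    (-(132169 / 100000)) ≤ QP 113 224 30 14 4 0 17 (225 / 7) (1 / 2) (181 / 10) (1239 / 10) d x := by
  unfold QP Q
  nlinarith [sq_nonneg (d + (1565 / 4524) * x + (-(129 / 1508))),
    sq_nonneg (x + (-(759085 / 11738039)))]

lemma M1 (d x : ℝ) (h : 14 * x ^ 2 ≤ d - d ^ 2) :
    (-(14077 / 25000)) ≤ QP 113 224 30 14 4 0 17 (225 / 7) 1 0 30 d x := by
  unfold QP Q
  nlinarith [sq_nonneg (d + 0 * x + (-(851 / 12902))),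
    sq_nonneg (x + 0)]

lemma M2 (d x : ℝ) (h : 14 * x ^ 2 ≤ d - d ^ 2) (hz : -(1 / 50) ≤ x) (hz' : x ≤ (1 / 50)) :
    (-(1893 / 20000)) ≤ QP 113 224 30 14 4 0 17 (225 / 7) 1 0 30 d x := by
  unfold QP Q
  nlinarith [mul_nonneg (sub_nonneg.2 hz) (sub_nonneg.2 hz'),
    sq_nonneg (d + 0 * x + (-(67 / 11334))),
    sq_nonneg (x + 0)]

lemma P1 (d x : ℝ) (h : 14 * x ^ 2 ≤ d - d ^ 2) (hz : (1 / 50) ≤ x) :
    (-(6533 / 25000)) ≤ QP 113 224 30 14 4 0 17 (225 / 7) (1 / 8) (-(11 / 2)) 2 d x := by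
  unfold QP Q
  nlinarith [mul_nonneg (sub_nonneg.2 hz) (lin_q (q := 14) (by norm_num) h (37 / 591) (9 / 139)),
    sq_nonneg (d + (-(3356981 / 3449667)) * x + (352049 / 689933400)),
    sq_nonneg (x + (-(3328319155701808303 / 51465505395263672200)))]

lemma P2 (d x : ℝ) (h : 14 * x ^ 2 ≤ d - d ^ 2) (hz' : x ≤ -(1 / 50)) :
    (-(18663 / 25000)) ≤ QP 113 224 30 14 4 0 17 (225 / 7) (1 / 8) (-(11 / 2)) 2 d x := by
  unfold QP Q
  nlinarith [sq_nonneg (d + (-(1400 / 13107)) * x + (-(1213 / 17476))),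
    sq_nonneg (x + (2330775 / 36024086))]

lemma P3 (d x : ℝ) (h : 14 * x ^ 2 ≤ d - d ^ 2) (hz : 0 ≤ x) (hz' : x ≤ (1 / 50)) :
    (-(1 / 50000)) ≤ QP 113 224 30 14 4 0 17 (225 / 7) (1 / 8) (-(11 / 2)) 2 d x := by
  unfold QP Q
  nlinarith [mul_nonneg (sub_nonneg.2 hz) (sub_nonneg.2 hz'),
    sq_nonneg (d + (-(175 / 1411)) * x + (-(1 / 45152))),
    sq_nonneg (x + (-(1658 / 56079775)))]

lemma N1 (d x : ℝ) (h : 14 * x ^ 2 ≤ d - d ^ 2) (hz : (1 / 50) ≤ x) :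
    (-(18663 / 25000)) ≤ QP 113 224 30 14 4 0 17 (225 / 7) (1 / 8) (11 / 2) 58 d x := by
  unfold QP Q
  nlinarith [sq_nonneg (d + (1400 / 13107) * x + (-(1213 / 17476))),
    sq_nonneg (x + (-(2330775 / 36024086)))]

lemma N2 (d x : ℝ) (h : 14 * x ^ 2 ≤ d - d ^ 2) (hz' : x ≤ -(1 / 50)) :
    (-(6533 / 25000)) ≤ QP 113 224 30 14 4 0 17 (225 / 7) (1 / 8) (11 / 2) 58 d x := by
  unfold QP Q
  nlinarith [mul_nonneg (sub_nonneg.2 hz') (lin_q (q := 14) (by norm_num) h (37 / 591) (-(9 / 139))),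
    sq_nonneg (d + (3356981 / 3449667) * x + (352049 / 689933400)),
    sq_nonneg (x + (3328319155701808303 / 51465505395263672200))]

lemma N3 (d x : ℝ) (h : 14 * x ^ 2 ≤ d - d ^ 2) (hz : -(1 / 50) ≤ x) (hz' : x ≤ 0) :
    (-(1 / 50000)) ≤ QP 113 224 30 14 4 0 17 (225 / 7) (1 / 8) (11 / 2) 58 d x := by
  unfold QP Q
  nlinarith [mul_nonneg (sub_nonneg.2 hz) (sub_nonneg.2 hz'),
    sq_nonneg (d + (175 / 1411) * x + (-(1 / 45152))),
    sq_nonneg (x + (1658 / 56079775))]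

/-- the one point inequalities -/
noncomputable def dat : CDat 8 14 113 224 30 (5437 / 675) 4 0 17 (225 / 7) (117 / 1000) where
  Z := (1 / 50)
  aA := (-(14311 / 70875))
  bA := (-(94438 / 10125))
  ap := (-(2179 / 100000))
  an := (-(24459 / 25000))
  aL := (1 / 2)
  bL := (181 / 10)
  sL := (1239 / 10)
  lp := (25959 / 100000)
  ln := (-(132169 / 100000))
  aM := 1
  bM := 0
  sM := 30
  mp := (-(14077 / 25000))
  mm := (-(1893 / 20000))
  aP := (1 / 8)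
  bP := (-(11 / 2))
  sP := 2
  pp := (-(6533 / 25000))
  pn := (-(18663 / 25000))
  p0 := (-(1 / 50000))
  aN := (1 / 8)
  bN := (11 / 2)
  sN := 58
  np := (-(18663 / 25000))
  nn := (-(6533 / 25000))
  n0 := (-(1 / 50000))
  Zpos := by norm_num
  sL0 := by norm_num
  sM0 := by norm_num
  sP0 := by norm_num
  sN0 := by norm_num
  A3 := by norm_num
  A4 := by norm_num
  L3 := by norm_num
  L4 := by norm_num
  M3 := by norm_num
  M4 := by norm_num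
  P4 := by norm_num
  N4 := by norm_num
  A1 := A1
  A2 := A2
  L1 := L1
  L2 := L2
  M1 := M1
  M2 := M2
  P1 := P1
  P2 := P2
  P3 := P3
  N1 := N1
  N2 := N2
  N3 := N3

end Vale.Agent.P224.SO.M15Q

namespace Vale.Agent.P224.SO.E15

open Finset Vale.Agent.P224.SO Vale.Agent.P224.SO.Rg

/-- the static functional -/
theorem cls_S30 {d x : Fin 17 → ℝ}
    (h : ∀ i, 14 * x i ^ 2 ≤ d i - d i ^ 2) (h1 : ∑ i, d i = 1) (h0 : ∑ i, x i = 0)
    (hv : ∑ i, d i * x i ≤ 0)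
    (hS : 5437 / 675 + (113 * ∑ i, d i ^ 2 - 224 * ∑ i, x i ^ 2 - 30 * ∑ i, d i * x i)
      + ∑ i, 4 * (d i - d i ^ 2 - 14 * x i ^ 2) < 1170 / 10000) :
    (Rt (1 / 50) x).card = 9 := by
  refine CDat.cls M15Q.dat (by norm_num) h h1 h0 hv ?_
  simp only [zero_mul, add_zero]
  exact hS.trans_le (by norm_num)

end Vale.Agent.P224.SO.E15
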