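import Vale.Agent.P224.SO.ClsG

/-!
Dimension 15: the number of points on the right from the value of the scalar functionals.
-/

namespace Vale.Agent.P224.SO.G15_115_42

open Vale.Agent.P224.SO Vale.Agent.P224.SO.Rg

lemma A1 (d x : ℝ) (h : 14 * x ^ 2 ≤ d - d ^ 2) (hz : (1 / 50) ≤ x) :
    (6113 / 100000) ≤ QP 115 224 42 14 4 0 17 (225 / 7) (5567 / 30375) (-(352198 / 30375)) 0 d x := by
  unfold QP Q
  nlinarith [mul_nonneg (sub_nonneg.2 hz) (lin_q (q := 14) (by norm_num) h (20 / 387) (51 / 862)),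
    sq_nonneg (d + (-(9715705 / 9034902)) * x + (23695829 / 2439423540)),
    sq_nonneg (x + (-(100656669239658690757 / 1805409664728036265170)))]

lemma A2 (d x : ℝ) (h : 14 * x ^ 2 ≤ d - d ^ 2) :
    (-(1093 / 1000)) ≤ QP 115 224 42 14 4 0 17 (225 / 7) (5567 / 30375) (-(352198 / 30375)) 0 d x := by
  unfold QP Q
  nlinarith [sq_nonneg (d + (-(2100 / 13579)) * x + (-(2548253 / 32996970))),
    sq_nonneg (x + (492094831 / 7520049315))]

lemma L1 (d x : ℝ) (h : 14 * x ^ 2 ≤ d - d ^ 2) (hz' : x ≤ -(1 / 50)) :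
    (26437 / 100000) ≤ QP 115 224 42 14 4 0 17 (225 / 7) (7 / 10) (92 / 5) (1373 / 10) d x := by
  unfold QP Q
  nlinarith [mul_nonneg (sub_nonneg.2 hz') (lin_q (q := 14) (by norm_num) h (22 / 331) (-(47 / 706))),
    sq_nonneg (d + (10013443 / 7537532) * x + (7587213 / 376876600)),
    sq_nonneg (x + (471806082261531861 / 14228250271628528350))]

lemma L2 (d x : ℝ) (h : 14 * x ^ 2 ≤ d - d ^ 2) :
    (-(13401 / 10000)) ≤ QP 115 224 42 14 4 0 17 (225 / 7) (7 / 10) (92 / 5) (1373 / 10) d x := by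
  unfold QP Q
  nlinarith [sq_nonneg (d + (953 / 2757) * x + (-(157 / 1838))),
    sq_nonneg (x + (-(565713 / 8759434)))]

lemma M1 (d x : ℝ) (h : 14 * x ^ 2 ≤ d - d ^ 2) :
    (-(57087 / 100000)) ≤ QP 115 224 42 14 4 0 17 (225 / 7) (5 / 4) 0 42 d x := by
  unfold QP Q
  nlinarith [sq_nonneg (d + 0 * x + (-(1727 / 26204))),
    sq_nonneg (x + 0)]

lemma M2 (d x : ℝ) (h : 14 * x ^ 2 ≤ d - d ^ 2) (hz : -(1 / 50) ≤ x) (hz' : x ≤ (1 / 50)) :
    (-(12 / 125)) ≤ QP 115 224 42 14 4 0 17 (225 / 7) (5 / 4) 0 42 d x := by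
  unfold QP Q
  nlinarith [mul_nonneg (sub_nonneg.2 hz) (sub_nonneg.2 hz'),
    sq_nonneg (d + 0 * x + (-(68 / 11511))),
    sq_nonneg (x + 0)]

lemma P1 (d x : ℝ) (h : 14 * x ^ 2 ≤ d - d ^ 2) (hz : (1 / 50) ≤ x) :
    (-(4129 / 25000)) ≤ QP 115 224 42 14 4 0 17 (225 / 7) (3 / 8) (-(55 / 7)) 2 d x := by
  unfold QP Q
  nlinarith [mul_nonneg (sub_nonneg.2 hz) (lin_q (q := 14) (by norm_num) h (37 / 591) (9 / 139)),
    sq_nonneg (d + (-(459829 / 465511)) * x + (67633 / 46551100)),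
    sq_nonneg (x + (-(29261881770053 / 452543307074460)))]

lemma P2 (d x : ℝ) (h : 14 * x ^ 2 ≤ d - d ^ 2) (hz' : x ≤ -(1 / 50)) :
    (-(85831 / 100000)) ≤ QP 115 224 42 14 4 0 17 (225 / 7) (3 / 8) (-(55 / 7)) 2 d x := by
  unfold QP Q
  nlinarith [sq_nonneg (d + (-(500 / 3349)) * x + (-(3867 / 53584))),
    sq_nonneg (x + (5826125 / 90147792))]

lemma P3 (d x : ℝ) (h : 14 * x ^ 2 ≤ d - d ^ 2) (hz : 0 ≤ x) (hz' : x ≤ (1 / 50)) :
    (-(1 / 50000)) ≤ QP 115 224 42 14 4 0 17 (225 / 7) (3 / 8) (-(55 / 7)) 2 d x := by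
  unfold QP Q
  nlinarith [mul_nonneg (sub_nonneg.2 hz) (sub_nonneg.2 hz'),
    sq_nonneg (d + (-(2000 / 11463)) * x + (-(1 / 45852))),
    sq_nonneg (x + (-(1416059 / 128642782100)))]

lemma N1 (d x : ℝ) (h : 14 * x ^ 2 ≤ d - d ^ 2) (hz : (1 / 50) ≤ x) :
    (-(85831 / 100000)) ≤ QP 115 224 42 14 4 0 17 (225 / 7) (3 / 8) (55 / 7) 82 d x := by
  unfold QP Q
  nlinarith [sq_nonneg (d + (500 / 3349) * x + (-(3867 / 53584))),
    sq_nonneg (x + (-(5826125 / 90147792)))]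

lemma N2 (d x : ℝ) (h : 14 * x ^ 2 ≤ d - d ^ 2) (hz' : x ≤ -(1 / 50)) :
    (-(4129 / 25000)) ≤ QP 115 224 42 14 4 0 17 (225 / 7) (3 / 8) (55 / 7) 82 d x := by
  unfold QP Q
  nlinarith [mul_nonneg (sub_nonneg.2 hz') (lin_q (q := 14) (by norm_num) h (37 / 591) (-(9 / 139))),
    sq_nonneg (d + (459829 / 465511) * x + (67633 / 46551100)),
    sq_nonneg (x + (29261881770053 / 452543307074460))]

lemma N3 (d x : ℝ) (h : 14 * x ^ 2 ≤ d - d ^ 2) (hz : -(1 / 50) ≤ x) (hz' : x ≤ 0) :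
    (-(1 / 50000)) ≤ QP 115 224 42 14 4 0 17 (225 / 7) (3 / 8) (55 / 7) 82 d x := by
  unfold QP Q
  nlinarith [mul_nonneg (sub_nonneg.2 hz) (sub_nonneg.2 hz'),
    sq_nonneg (d + (2000 / 11463) * x + (-(1 / 45852))),
    sq_nonneg (x + (1416059 / 128642782100))]

/-- the one point inequalities -/
noncomputable def dat : CDat 8 14 115 224 42 (15877 / 2025) 4 0 17 (225 / 7) (277 / 10000) where
  Z := (1 / 50)
  aA := (5567 / 30375)
  bA := (-(352198 / 30375))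
  ap := (6113 / 100000)
  an := (-(1093 / 1000))
  aL := (7 / 10)
  bL := (92 / 5)
  sL := (1373 / 10)
  lp := (26437 / 100000)
  ln := (-(13401 / 10000))
  aM := (5 / 4)
  bM := 0
  sM := 42
  mp := (-(57087 / 100000))
  mm := (-(12 / 125))
  aP := (3 / 8)
  bP := (-(55 / 7))
  sP := 2
  pp := (-(4129 / 25000))
  pn := (-(85831 / 100000))
  p0 := (-(1 / 50000))
  aN := (3 / 8)
  bN := (55 / 7)
  sN := 82
  np := (-(85831 / 100000))
  nn := (-(4129 / 25000))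
  n0 := (-(1 / 50000))
  Zpos := by norm_num
  sL0 := by norm_num
  sM0 := by norm_num
  sP0 := by norm_num
  sN0 := by norm_num
  A3 := by norm_num
  A4 := by norm_num
  L3 := by norm_num
  L4 := by norm_num
  M3 := by norm_num
  M4 := by norm_num
  P4 := by norm_num
  N4 := by norm_num
  A1 := A1
  A2 := A2
  L1 := L1
  L2 := L2
  M1 := M1
  M2 := M2
  P1 := P1
  P2 := P2
  P3 := P3
  N1 := N1
  N2 := N2
  N3 := N3

end Vale.Agent.P224.SO.G15_115_42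

namespace Vale.Agent.P224.SO.G15b

open Finset Vale.Agent.P224.SO Vale.Agent.P224.SO.Rg

/-- the static functional -/
theorem cls_S {d x : Fin 17 → ℝ}
    (h : ∀ i, 14 * x i ^ 2 ≤ d i - d i ^ 2) (h1 : ∑ i, d i = 1) (h0 : ∑ i, x i = 0)
    (hv : ∑ i, d i * x i ≤ 0)
    (hS : 15877 / 2025 + (115 * ∑ i, d i ^ 2 - 224 * ∑ i, x i ^ 2 - 42 * ∑ i, d i * x i)
      + ∑ i, 4 * (d i - d i ^ 2 - 14 * x i ^ 2) < 277 / 10000) :
    (Rt (1 / 50) x).card = 9 := by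
  refine CDat.cls G15_115_42.dat (by norm_num) h h1 h0 hv ?_
  simp only [zero_mul, add_zero]
  exact hS.trans_le (by norm_num)

end Vale.Agent.P224.SO.G15b
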