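import Vale.Agent.P224.SO.ClsG

/-!
Dimension 15: the number of points on the right from the value of the scalar functionals.
-/

namespace Vale.Agent.P224.SO.G15_116_41

open Vale.Agent.P224.SO Vale.Agent.P224.SO.Rg

lemma A1 (d x : ℝ) (h : 14 * x ^ 2 ≤ d - d ^ 2) (hz : (1 / 50) ≤ x) :
    (163 / 3125) ≤ QP 116 224 41 14 4 0 17 (225 / 7) (123643 / 425250) (-(347503 / 30375)) 0 d x := by
  unfold QP Q
  nlinarith [mul_nonneg (sub_nonneg.2 hz) (lin_q (q := 14) (by norm_num) h (20 / 387) (51 / 862)),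
    sq_nonneg (d + (-(1078847 / 1012650)) * x + (788898217 / 86125882500)),
    sq_nonneg (x + (-(60092285093452186273 / 1074156808285666384650)))]

lemma A2 (d x : ℝ) (h : 14 * x ^ 2 ≤ d - d ^ 2) :
    (-(54493 / 50000)) ≤ QP 116 224 41 14 4 0 17 (225 / 7) (123643 / 425250) (-(347503 / 30375)) 0 d x := by
  unfold QP Q
  nlinarith [sq_nonneg (d + (-(1025 / 6837)) * x + (-(4471664 / 58148685))),
    sq_nonneg (x + (12047690477 / 184001771205))]

lemma L1 (d x : ℝ) (h : 14 * x ^ 2 ≤ d - d ^ 2) (hz' : x ≤ -(1 / 50)) :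
    (13159 / 50000) ≤ QP 116 224 41 14 4 0 17 (225 / 7) (9 / 10) (37 / 2) (1371 / 10) d x := by
  unfold QP Q
  nlinarith [mul_nonneg (sub_nonneg.2 hz') (lin_q (q := 14) (by norm_num) h (54 / 803) (-(33 / 493))),
    sq_nonneg (d + (2181185 / 1675788) * x + (319291 / 16757880)),
    sq_nonneg (x + (547787598022828987 / 11106391197732348650))]

lemma L2 (d x : ℝ) (h : 14 * x ^ 2 ≤ d - d ^ 2) :
    (-(27039 / 20000)) ≤ QP 116 224 41 14 4 0 17 (225 / 7) (9 / 10) (37 / 2) (1371 / 10) d x := by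
  unfold QP Q
  nlinarith [sq_nonneg (d + (4805 / 13886) * x + (-(594 / 6943))),
    sq_nonneg (x + (-(7136210 / 110273119)))]

lemma M1 (d x : ℝ) (h : 14 * x ^ 2 ≤ d - d ^ 2) :
    (-(57641 / 100000)) ≤ QP 116 224 41 14 4 0 17 (225 / 7) (7 / 5) 0 41 d x := by
  unfold QP Q
  nlinarith [sq_nonneg (d + 0 * x + (-(871 / 13202))),
    sq_nonneg (x + 0)]

lemma M2 (d x : ℝ) (h : 14 * x ^ 2 ≤ d - d ^ 2) (hz : -(1 / 50) ≤ x) (hz' : x ≤ (1 / 50)) :
    (-(9681 / 100000)) ≤ QP 116 224 41 14 4 0 17 (225 / 7) (7 / 5) 0 41 d x := by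
  unfold QP Q
  nlinarith [mul_nonneg (sub_nonneg.2 hz) (sub_nonneg.2 hz'),
    sq_nonneg (d + 0 * x + (-(23 / 3866))),
    sq_nonneg (x + 0)]

lemma P1 (d x : ℝ) (h : 14 * x ^ 2 ≤ d - d ^ 2) (hz : (1 / 50) ≤ x) :
    (-(17773 / 100000)) ≤ QP 116 224 41 14 4 0 17 (225 / 7) (1 / 2) (-(429 / 56)) 2 d x := by
  unfold QP Q
  nlinarith [mul_nonneg (sub_nonneg.2 hz) (lin_q (q := 14) (by norm_num) h (37 / 591) (9 / 139)),
    sq_nonneg (d + (-(13784885 / 14087076)) * x + (121117 / 140870760)),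
    sq_nonneg (x + (-(15868710023791388061 / 245385203052868283930)))]

lemma P2 (d x : ℝ) (h : 14 * x ^ 2 ≤ d - d ^ 2) (hz' : x ≤ -(1 / 50)) :
    (-(17071 / 20000)) ≤ QP 116 224 41 14 4 0 17 (225 / 7) (1 / 2) (-(429 / 56)) 2 d x := by
  unfold QP Q
  nlinarith [sq_nonneg (d + (-(325 / 2248)) * x + (-(323 / 4496))),
    sq_nonneg (x + (1274325 / 19670434))]

lemma P3 (d x : ℝ) (h : 14 * x ^ 2 ≤ d - d ^ 2) (hz : 0 ≤ x) (hz' : x ≤ (1 / 50)) :
    (-(1 / 50000)) ≤ QP 116 224 41 14 4 0 17 (225 / 7) (1 / 2) (-(429 / 56)) 2 d x := by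
  unfold QP Q
  nlinarith [mul_nonneg (sub_nonneg.2 hz) (sub_nonneg.2 hz'),
    sq_nonneg (d + (-(13 / 77)) * x + 0),
    sq_nonneg (x + (-(319 / 38209400)))]

lemma N1 (d x : ℝ) (h : 14 * x ^ 2 ≤ d - d ^ 2) (hz : (1 / 50) ≤ x) :
    (-(17071 / 20000)) ≤ QP 116 224 41 14 4 0 17 (225 / 7) (1 / 2) (429 / 56) 80 d x := by
  unfold QP Q
  nlinarith [sq_nonneg (d + (325 / 2248) * x + (-(323 / 4496))),
    sq_nonneg (x + (-(1274325 / 19670434)))]

lemma N2 (d x : ℝ) (h : 14 * x ^ 2 ≤ d - d ^ 2) (hz' : x ≤ -(1 / 50)) :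
    (-(17773 / 100000)) ≤ QP 116 224 41 14 4 0 17 (225 / 7) (1 / 2) (429 / 56) 80 d x := by
  unfold QP Q
  nlinarith [mul_nonneg (sub_nonneg.2 hz') (lin_q (q := 14) (by norm_num) h (37 / 591) (-(9 / 139))),
    sq_nonneg (d + (13784885 / 14087076) * x + (121117 / 140870760)),
    sq_nonneg (x + (15868710023791388061 / 245385203052868283930))]

lemma N3 (d x : ℝ) (h : 14 * x ^ 2 ≤ d - d ^ 2) (hz : -(1 / 50) ≤ x) (hz' : x ≤ 0) :
    (-(1 / 50000)) ≤ QP 116 224 41 14 4 0 17 (225 / 7) (1 / 2) (429 / 56) 80 d x := by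
  unfold QP Q
  nlinarith [mul_nonneg (sub_nonneg.2 hz) (sub_nonneg.2 hz'),
    sq_nonneg (d + (13 / 77) * x + 0),
    sq_nonneg (x + (319 / 38209400))]

/-- the one point inequalities -/
noncomputable def dat : CDat 8 14 116 224 41 (15772 / 2025) 4 0 17 (225 / 7) (383 / 10000) where
  Z := (1 / 50)
  aA := (123643 / 425250)
  bA := (-(347503 / 30375))
  ap := (163 / 3125)
  an := (-(54493 / 50000))
  aL := (9 / 10)
  bL := (37 / 2)
  sL := (1371 / 10)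
  lp := (13159 / 50000)
  ln := (-(27039 / 20000))
  aM := (7 / 5)
  bM := 0
  sM := 41
  mp := (-(57641 / 100000))
  mm := (-(9681 / 100000))
  aP := (1 / 2)
  bP := (-(429 / 56))
  sP := 2
  pp := (-(17773 / 100000))
  pn := (-(17071 / 20000))
  p0 := (-(1 / 50000))
  aN := (1 / 2)
  bN := (429 / 56)
  sN := 80
  np := (-(17071 / 20000))
  nn := (-(17773 / 100000))
  n0 := (-(1 / 50000))
  Zpos := by norm_num
  sL0 := by norm_num
  sM0 := by norm_num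
  sP0 := by norm_num
  sN0 := by norm_num
  A3 := by norm_num
  A4 := by norm_num
  L3 := by norm_num
  L4 := by norm_num
  M3 := by norm_num
  M4 := by norm_num
  P4 := by norm_num
  N4 := by norm_num
  A1 := A1
  A2 := A2
  L1 := L1
  L2 := L2
  M1 := M1
  M2 := M2
  P1 := P1
  P2 := P2
  P3 := P3
  N1 := N1
  N2 := N2
  N3 := N3

end Vale.Agent.P224.SO.G15_116_41

namespace Vale.Agent.P224.SO.G15c

open Finset Vale.Agent.P224.SO Vale.Agent.P224.SO.Rg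

/-- the static functional -/
theorem cls_S {d x : Fin 17 → ℝ}
    (h : ∀ i, 14 * x i ^ 2 ≤ d i - d i ^ 2) (h1 : ∑ i, d i = 1) (h0 : ∑ i, x i = 0)
    (hv : ∑ i, d i * x i ≤ 0)
    (hS : 15772 / 2025 + (116 * ∑ i, d i ^ 2 - 224 * ∑ i, x i ^ 2 - 41 * ∑ i, d i * x i)
      + ∑ i, 4 * (d i - d i ^ 2 - 14 * x i ^ 2) < 383 / 10000) :
    (Rt (1 / 50) x).card = 9 := by
  refine CDat.cls G15_116_41.dat (by norm_num) h h1 h0 hv ?_
  simp only [zero_mul, add_zero]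
  exact hS.trans_le (by norm_num)

end Vale.Agent.P224.SO.G15c
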