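import Vale.Agent.P224.SO.Lev
import Vale.Agent.P224.SO.Red

/-!
Dimension five: the scalar inequality behind the orientation resource with the distance to the
Clifford configuration.
-/

namespace Vale.Agent.P224.SO.St

open Finset Vale.Agent.P224.SO

section

variable {d z : ℝ}

/-- the distance from the first tangent line -/
noncomputable def de1 (d z : ℝ) : ℝ := 3 / 4 * d + z + 1 / 4

/-- the distance from the second tangent line -/
noncomputable def de2 (d z : ℝ) : ℝ := 8 / 9 * d - 2 / 3 * z + 1 / 9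

lemma de1_nonneg (h : z ^ 2 ≤ d - d ^ 2) : 0 ≤ de1 d z := by
  have := lin_nonneg h (1 / 5) (-(2 / 5))
  unfold de1
  nlinarith

lemma de2_nonneg (h : z ^ 2 ≤ d - d ^ 2) : 0 ≤ de2 d z := by
  have := lin_nonneg h (1 / 10) (3 / 10)
  unfold de2
  nlinarith

lemma a_pos (h : z ^ 2 ≤ d - d ^ 2) (hz : 1 / 5 ≤ z) :
    212 / 1000 + 1 / 2 * de2 d z ≤ q5 (756 / 1000) (-(2392 / 1000)) 0 d z := by
  unfold q5 de2
  nlinarith [mul_nonneg (sub_nonneg.2 hz) (lin_nonneg h (1 / 10) (3 / 10)),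
    sq_nonneg (1402 / 100 * (d - 1 / 10) - 69 / 10 * (z - 3 / 10)), sq_nonneg (z - 3 / 10)]

lemma a_all (h : z ^ 2 ≤ d - d ^ 2) :
    -(1428 / 1000) + 2 * de1 d z ≤ q5 (756 / 1000) (-(2392 / 1000)) 0 d z := by
  unfold q5 de1
  nlinarith [sq_nonneg (2024 / 100 * (d - 2 / 10) - 1 / 2 * (z + 4 / 10)),
    sq_nonneg (z + 4 / 10)]

lemma b_mid (hz : z ≤ 1 / 5) (hz' : -(1 / 5) ≤ z) :
    -(32 / 100) ≤ q5 2 0 1 d z := by
  unfold q5
  nlinarith [sq_nonneg (14 * d - 1), mul_nonneg (sub_nonneg.2 hz) (sub_nonneg.2 hz')]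

lemma c1_pos (h : z ^ 2 ≤ d - d ^ 2) (hz : 1 / 5 ≤ z) :
    -(3844 / 10000) ≤ q5 (54 / 100) (-(57 / 100)) 0 d z := by
  unfold q5
  nlinarith [mul_nonneg (sub_nonneg.2 hz) (lin_nonneg h (1635 / 10000) (36982 / 100000)),
    sq_nonneg (d - 1635 / 10000), sq_nonneg (z - 36982 / 100000),
    sq_nonneg ((d - 1635 / 10000) - (z - 36982 / 100000))]

lemma c1_all (h : z ^ 2 ≤ d - d ^ 2) :
    -(685 / 1000) ≤ q5 (54 / 100) (-(57 / 100)) 0 d z := by
  unfold q5
  nlinarith [sq_nonneg (d - 1635 / 10000), sq_nonneg (z + 36982 / 100000),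
    sq_nonneg ((d - 1635 / 10000) - (z + 36982 / 100000))]

lemma c1_mid (hz0 : 0 ≤ z) (hz : z ≤ 9 / 100) :
    -(53 / 10000) ≤ q5 (54 / 100) (-(57 / 100)) 0 d z := by
  unfold q5
  nlinarith [sq_nonneg (28 * d - z - 54 / 100), mul_nonneg hz0 (sub_nonneg.2 hz)]

lemma c2_pos (h : z ^ 2 ≤ d - d ^ 2) (hz : 1 / 5 ≤ z) :
    -(6 / 1000) ≤ q5 (7 / 10) (-(17 / 10)) 0 d z := by
  unfold q5
  nlinarith [mul_nonneg (sub_nonneg.2 hz) (lin_nonneg h (13393 / 100000) (34058 / 100000)),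
    sq_nonneg (d - 13393 / 100000), sq_nonneg (z - 34058 / 100000),
    sq_nonneg ((d - 13393 / 100000) - (z - 34058 / 100000))]

lemma c2_all (h : z ^ 2 ≤ d - d ^ 2) :
    -(1144 / 1000) ≤ q5 (7 / 10) (-(17 / 10)) 0 d z := by
  unfold q5
  nlinarith [sq_nonneg (d - 18793 / 100000), sq_nonneg (z + 39066 / 100000),
    sq_nonneg ((d - 18793 / 100000) - (z + 39066 / 100000))]

lemma c2_mid (hz0 : 9 / 100 ≤ z) (hz : z ≤ 1 / 5) :
    85 / 1000 ≤ q5 (7 / 10) (-(17 / 10)) 0 d z := by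
  unfold q5
  nlinarith [sq_nonneg (28 * d - z - 7 / 10), mul_nonneg (sub_nonneg.2 hz0) (sub_nonneg.2 hz)]

lemma m_pos (h : z ^ 2 ≤ d - d ^ 2) (hz : 1 / 5 ≤ z) :
    23 / 100 ≤ q5 (8 / 10) (-(25 / 10)) (-(3 / 10)) d z := by
  unfold q5
  nlinarith [mul_nonneg (sub_nonneg.2 hz) (lin_nonneg h (102 / 1000) (3027 / 10000)),
    sq_nonneg (1402 / 100 * (d - 102 / 1000) - 69 / 10 * (z - 3027 / 10000)),
    sq_nonneg (z - 3027 / 10000)]

lemma m_all (h : z ^ 2 ≤ d - d ^ 2) :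
    -(14563 / 10000) ≤ q5 (8 / 10) (-(25 / 10)) (-(3 / 10)) d z := by
  unfold q5
  nlinarith [sq_nonneg (2024 / 100 * (d - 1992 / 10000) - 65 / 100 * (z + 39941 / 100000)),
    sq_nonneg (z + 39941 / 100000)]

end

section

variable {d z : Fin 7 → ℝ}

/-- the value of the scalar functional above its minimum -/
noncomputable def Sv (d z : Fin 7 → ℝ) : ℝ :=
  268 / 100 + (14 * ∑ i, d i ^ 2 - 6 * ∑ i, z i ^ 2 - ∑ i, d i * z i)

/-- the distance -/
noncomputable def dl (d z : Fin 7 → ℝ) (i : Fin 7) : ℝ :=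
  if 1 / 5 ≤ z i then de2 (d i) (z i) else de1 (d i) (z i)

lemma dl_nonneg (h : ∀ i, z i ^ 2 ≤ d i - d i ^ 2) (i : Fin 7) : 0 ≤ dl d z i := by
  unfold dl
  split_ifs
  · exact de2_nonneg (h i)
  · exact de1_nonneg (h i)

/-- at least two middle points -/
lemma s_mid (h : ∀ i, z i ^ 2 ≤ d i - d i ^ 2) (h1 : ∑ i, d i = 1) (h0 : ∑ i, z i = 0)
    (hv : ∑ i, d i * z i ≤ 0) (hc : (Rt (1 / 5) z).card + (Lt (1 / 5) z).card ≤ 5) :
    6 / 1000 ≤ Sv d z := by
  have e := sum_lev (Z := 1 / 5) (z := z) (by norm_num) (fun i => q5 2 0 1 (d i) (z i))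
    (fun i _ => b_all (h i)) (fun i _ => b_all (h i)) (fun i hi hi' => b_mid hi.le hi'.le)
  rw [sum_q5 _ _ _ h1 h0] at e
  have hc' : ((Rt (1 / 5) z).card : ℝ) + ((Lt (1 / 5) z).card : ℝ) ≤ 5 := by exact_mod_cast hc
  push_cast at e
  unfold Sv
  linarith

/-- at least four points on the left -/
lemma s_left (h : ∀ i, z i ^ 2 ≤ d i - d i ^ 2) (h1 : ∑ i, d i = 1) (h0 : ∑ i, z i = 0)
    (hv : ∑ i, d i * z i ≤ 0) (hc : 4 ≤ (Lt (1 / 5) z).card) :
    6 / 1000 ≤ Sv d z := by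
  have h' : ∀ i, (-z i) ^ 2 ≤ d i - d i ^ 2 := fun i => by rw [neg_sq]; exact h i
  have h0' : ∑ i, -z i = 0 := by rw [sum_neg', h0, neg_zero]
  have e := sum_lev (Z := 1 / 5) (z := fun i => -z i) (by norm_num)
    (fun i => q5 (8 / 10) (-(25 / 10)) (-(3 / 10)) (d i) (-z i))
    (fun i hi => m_pos (h' i) hi) (fun i _ => m_all (h' i)) (fun i hi hi' => m_all (h' i))
  rw [sum_q5 (z := fun i => -z i) _ _ _ h1 h0', Rt_neg] at e
  have hc' : (4 : ℝ) ≤ ((Lt (1 / 5) z).card : ℝ) := by exact_mod_cast hc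
  simp only [neg_sq, mul_neg, sum_neg'] at e
  push_cast at e
  unfold Sv
  nlinarith

/-- three points on each side -/
lemma s_three (h : ∀ i, z i ^ 2 ≤ d i - d i ^ 2) (h1 : ∑ i, d i = 1) (h0 : ∑ i, z i = 0)
    (hc : (Rt (1 / 5) z).card = 3) (hc' : (Lt (1 / 5) z).card = 3) (i₀ : Fin 7)
    (hi : ∀ i, z i < 1 / 5 → -(1 / 5) < z i → z i = z i₀) (hi0 : 0 ≤ z i₀) :
    6 / 1000 ≤ Sv d z := by
  unfold Sv
  rcases le_total (z i₀) (9 / 100) with hy | hy
  · have e := sum_lev (Z := 1 / 5) (z := z) (by norm_num)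
      (fun i => q5 (54 / 100) (-(57 / 100)) 0 (d i) (z i))
      (fun i hi => c1_pos (h i) hi) (fun i _ => c1_all (h i))
      (fun i h1 h2 => c1_mid (by rw [hi i h1 h2]; exact hi0) (by rw [hi i h1 h2]; exact hy))
    rw [sum_q5 _ _ _ h1 h0, hc, hc'] at e
    push_cast at e
    linarith
  · have e := sum_lev (Z := 1 / 5) (z := z) (by norm_num)
      (fun i => q5 (7 / 10) (-(17 / 10)) 0 (d i) (z i))
      (fun i hi => c2_pos (h i) hi) (fun i _ => c2_all (h i))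
      (fun i h1 h2 => c2_mid (by rw [hi i h1 h2]; exact hy) h1.le)
    rw [sum_q5 _ _ _ h1 h0, hc, hc'] at e
    push_cast at e
    linarith

/-- the stable scalar inequality -/
theorem stab (h : ∀ i, z i ^ 2 ≤ d i - d i ^ 2) (h1 : ∑ i, d i = 1) (h0 : ∑ i, z i = 0)
    (hv : ∑ i, d i * z i ≤ 0) (hS : Sv d z < 6 / 1000) :
    (Rt (1 / 5) z).card = 4 ∧ ∑ i, dl d z i ≤ 2 * Sv d z := by
  have h' : ∀ i, (-z i) ^ 2 ≤ d i - d i ^ 2 := fun i => by rw [neg_sq]; exact h i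
  have h0' : ∑ i, -z i = 0 := by rw [sum_neg', h0, neg_zero]
  have hR : 4 ≤ (Rt (1 / 5) z).card := by
    by_contra hR
    push Not at hR
    by_cases c1 : (Rt (1 / 5) z).card + (Lt (1 / 5) z).card ≤ 5
    · have := s_mid h h1 h0 hv c1
      linarith
    by_cases c3 : 4 ≤ (Lt (1 / 5) z).card
    · have := s_left h h1 h0 hv c3
      linarith
    have cP : (Rt (1 / 5) z).card = 3 := by omega
    have cN : (Lt (1 / 5) z).card = 3 := by omega
    obtain ⟨i₀, hi⟩ := exists_mid (z := z) (Z := 1 / 5) (by norm_num) (by norm_num) cP cN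
    rcases le_total 0 (z i₀) with hy | hy
    · have := s_three h h1 h0 cP cN i₀ hi hy
      linarith
    · have := s_three (z := fun i => -z i) h' h1 h0' (by rw [Rt_neg]; exact cN)
        (by rw [Lt_neg]; exact cP) i₀ (fun i a b => by rw [hi i (by linarith) (by linarith)])
        (by linarith)
      unfold Sv at this hS
      simp only [neg_sq, mul_neg, sum_neg'] at this
      linarith
  have e := sum_le_sum (s := (univ : Finset (Fin 7))) (f := fun i =>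
    (if 1 / 5 ≤ z i then 164 / 100 else 0) + (-(1428 / 1000) + 1 / 2 * dl d z i))
    (g := fun i => q5 (756 / 1000) (-(2392 / 1000)) 0 (d i) (z i)) (fun i _ => by
      have hd := dl_nonneg h i
      unfold dl at hd ⊢
      split_ifs at hd ⊢ with hz
      · have := a_pos (h i) hz
        linarith
      · have := a_all (h i)
        linarith)
  rw [sum_q5 _ _ _ h1 h0, sum_add_distrib, ← sum_filter, sum_const, sum_add_distrib, ← mul_sum]
    at e
  simp only [sum_const, card_univ, Fintype.card_fin, nsmul_eq_mul] at e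
  have hd0 : 0 ≤ ∑ i, dl d z i := sum_nonneg fun i _ => dl_nonneg h i
  have hR' : (4 : ℝ) ≤ ((Rt (1 / 5) z).card : ℝ) := by exact_mod_cast hR
  have e' : ((Rt (1 / 5) z).card : ℝ) * (164 / 100) + (7 * -(1428 / 1000)
      + 1 / 2 * ∑ i, dl d z i) ≤ 14 * ∑ i, d i ^ 2 - 6 * ∑ i, z i ^ 2 - (1 - 0) * ∑ i, d i * z i
        - 756 / 1000 := by
    unfold Rt
    push_cast at e
    linarith
  refine ⟨?_, ?_⟩
  · by_contra h4
    have h5 : 5 ≤ (Rt (1 / 5) z).card := by omega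
    have h5' : (5 : ℝ) ≤ ((Rt (1 / 5) z).card : ℝ) := by exact_mod_cast h5
    unfold Sv at hS
    linarith
  · unfold Sv
    linarith

end

end Vale.Agent.P224.SO.St
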