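import Vale.Agent.P224.SO.Stab5T

/-!
Dimension five: number of points on the right from the values of the functionals with
additional terms.
-/

namespace Vale.Agent.P224.SO.St

open Finset Vale.Agent.P224.SO

section

variable {d z : ℝ}

lemma midS (h : z ^ 2 ≤ d - d ^ 2) (hz0 : 0 ≤ z) (hz : z ≤ 8 / 100) :
    0 ≤ q5 (54 / 100) (-(57 / 100)) 0 d z + 7 / 10 * (d - d ^ 2 - z ^ 2) := by
  unfold q5
  nlinarith [mul_nonneg hz0 (sub_nonneg.2 hz), sq_nonneg (d - 2 / 100), sq_nonneg d,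
    sq_nonneg z]

lemma c2_mid2 (hz0 : 8 / 100 ≤ z) (hz : z ≤ 1 / 5) :
    85 / 1000 ≤ q5 (7 / 10) (-(17 / 10)) 0 d z := by
  unfold q5
  nlinarith [sq_nonneg (28 * d - z - 7 / 10), mul_nonneg (sub_nonneg.2 hz0) (sub_nonneg.2 hz)]

lemma midT2 (h : z ^ 2 ≤ d - d ^ 2) (hz0 : 0 ≤ z) (hz : z ≤ 8 / 100) :
    3 / 1000 ≤ q5 (54 / 100) (-(57 / 100)) 0 d z + pT d z := by
  unfold q5 pT
  nlinarith [mul_nonneg hz0 (sub_nonneg.2 hz), sq_nonneg (d - 2 / 100), sq_nonneg d,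
    sq_nonneg z, sq_nonneg (1 - 7 * d - z)]

lemma midT2' (h : z ^ 2 ≤ d - d ^ 2) (hz0 : 0 ≤ z) (hz : z ≤ 8 / 100) :
    3 / 1000 ≤ q5 (54 / 100) (-(57 / 100)) 0 d z + pT d (-z) := by
  unfold q5 pT
  nlinarith [mul_nonneg hz0 (sub_nonneg.2 hz), sq_nonneg (d - 2 / 100), sq_nonneg d,
    sq_nonneg z, sq_nonneg (1 - 7 * d + z)]

end

section

variable {d z : Fin 7 → ℝ}

/-- three points on each side -/
lemma s_three2 (h : ∀ i, z i ^ 2 ≤ d i - d i ^ 2) (h1 : ∑ i, d i = 1) (h0 : ∑ i, z i = 0)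
    (hc : (Rt (1 / 5) z).card = 3) (hc' : (Lt (1 / 5) z).card = 3) (i₀ : Fin 7)
    (hi : ∀ i, z i < 1 / 5 → -(1 / 5) < z i → z i = z i₀) (hi0 : 0 ≤ z i₀) {P : Fin 7 → ℝ}
    {e : ℝ} (he : e ≤ 3 / 1000) (hP : ∀ i, 0 ≤ P i) (hPm : ∀ i, 0 ≤ z i → z i ≤ 8 / 100 →
      e ≤ q5 (54 / 100) (-(57 / 100)) 0 (d i) (z i) + P i) :
    118 / 10000 + e ≤ Sv d z + ∑ i, P i := by
  unfold Sv
  rcases le_total (z i₀) (8 / 100) with hy | hy
  · have e' := sum_lev (Z := 1 / 5) (z := z) (by norm_num)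
      (fun i => q5 (54 / 100) (-(57 / 100)) 0 (d i) (z i) + P i)
      (ap := -(3844 / 10000)) (an := -(685 / 1000)) (am := e)
      (fun i hi => by have := c1_pos (h i) hi; have := hP i; linarith)
      (fun i _ => by have := c1_all (h i); have := hP i; linarith)
      (fun i h1 h2 => hPm i (by rw [hi i h1 h2]; exact hi0) (by rw [hi i h1 h2]; exact hy))
    rw [sum_add_distrib, sum_q5 _ _ _ h1 h0, hc, hc'] at e'
    push_cast at e'
    linarith
  · have e' := sum_lev (Z := 1 / 5) (z := z) (by norm_num)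
      (fun i => q5 (7 / 10) (-(17 / 10)) 0 (d i) (z i))
      (fun i hi => c2_pos (h i) hi) (fun i _ => c2_all (h i))
      (fun i h1 h2 => c2_mid2 (by rw [hi i h1 h2]; exact hy) h1.le)
    have hP' : 0 ≤ ∑ i, P i := sum_nonneg fun i _ => hP i
    rw [sum_q5 _ _ _ h1 h0, hc, hc'] at e'
    push_cast at e'
    linarith

/-- exactly four points on the right -/
lemma four_of (h : ∀ i, z i ^ 2 ≤ d i - d i ^ 2) (h1 : ∑ i, d i = 1) (h0 : ∑ i, z i = 0)
    (hv : ∑ i, d i * z i ≤ 0) {P : ℝ → ℝ → ℝ} {e : ℝ} (he : e ≤ 3 / 1000)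
    (hP : ∀ i, 0 ≤ P (d i) (z i)) (hm : ∀ i, 0 ≤ z i → z i ≤ 8 / 100 →
      e ≤ q5 (54 / 100) (-(57 / 100)) 0 (d i) (z i) + P (d i) (z i))
    (hm' : ∀ i, 0 ≤ -z i → -z i ≤ 8 / 100 →
      e ≤ q5 (54 / 100) (-(57 / 100)) 0 (d i) (-z i) + P (d i) (z i))
    (hS : Sv d z + ∑ i, P (d i) (z i) < 118 / 10000 + e) :
    (Rt (1 / 5) z).card = 4 := by
  have h' : ∀ i, (-z i) ^ 2 ≤ d i - d i ^ 2 := fun i => by rw [neg_sq]; exact h i
  have h0' : ∑ i, -z i = 0 := by rw [sum_neg', h0, neg_zero]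
  have hP' : 0 ≤ ∑ i, P (d i) (z i) := sum_nonneg fun i _ => hP i
  have h4 : 4 ≤ (Rt (1 / 5) z).card := by
    by_contra hR
    push Not at hR
    by_cases c1 : (Rt (1 / 5) z).card + (Lt (1 / 5) z).card ≤ 5
    · have := s_mid' h h1 h0 hv c1
      linarith
    by_cases c3 : 4 ≤ (Lt (1 / 5) z).card
    · have := s_left' h h1 h0 hv c3
      linarith
    have cP : (Rt (1 / 5) z).card = 3 := by omega
    have cN : (Lt (1 / 5) z).card = 3 := by omega
    obtain ⟨i₀, hi⟩ := exists_mid (z := z) (Z := 1 / 5) (by norm_num) (by norm_num) cP cN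
    rcases le_total 0 (z i₀) with hy | hy
    · have := s_three2 h h1 h0 cP cN i₀ hi hy (P := fun i => P (d i) (z i)) he hP hm
      linarith
    · have := s_three2 (z := fun i => -z i) h' h1 h0' (by rw [Rt_neg]; exact cN)
        (by rw [Lt_neg]; exact cP) i₀ (fun i a b => by rw [hi i (by linarith) (by linarith)])
        (by linarith) (P := fun i => P (d i) (z i)) he hP hm'
      have := Sv_neg hv
      linarith
  by_contra h5
  have h5 : 5 ≤ (Rt (1 / 5) z).card := by omega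
  have h5' : (5 : ℝ) ≤ ((Rt (1 / 5) z).card : ℝ) := by exact_mod_cast h5
  have e := sum_lev (Z := 1 / 5) (z := z) (by norm_num)
    (fun i => q5 (756 / 1000) (-(2392 / 1000)) 0 (d i) (z i))
    (ap := 212 / 1000) (an := -(1428 / 1000)) (am := -(1428 / 1000))
    (fun i hz => by have := a_pos (h i) hz; have := de2_nonneg (h i); linarith)
    (fun i _ => by have := a_all (h i); have := de1_nonneg (h i); linarith)
    (fun i _ _ => by have := a_all (h i); have := de1_nonneg (h i); linarith)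
  rw [sum_q5 _ _ _ h1 h0] at e
  push_cast at e
  unfold Sv at hS
  linarith

/-- four points on the right, static functional -/
theorem four_S (h : ∀ i, z i ^ 2 ≤ d i - d i ^ 2) (h1 : ∑ i, d i = 1) (h0 : ∑ i, z i = 0)
    (hv : ∑ i, d i * z i ≤ 0)
    (hS : Sv d z + ∑ i, 7 / 10 * (d i - d i ^ 2 - z i ^ 2) < 118 / 10000) :
    (Rt (1 / 5) z).card = 4 :=
  four_of h h1 h0 hv (P := fun d z => 7 / 10 * (d - d ^ 2 - z ^ 2)) (e := 0) (by norm_num)
    (fun i => by have := h i; linarith)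
    (fun i a b => midS (h i) a b)
    (fun i a b => by
      have := midS (d := d i) (z := -z i) (by rw [neg_sq]; exact h i) a b
      rwa [neg_sq] at this) (by rw [add_zero]; exact hS)

/-- four points on the right, functional with a parameter -/
theorem four_T (h : ∀ i, z i ^ 2 ≤ d i - d i ^ 2) (h1 : ∑ i, d i = 1) (h0 : ∑ i, z i = 0)
    (hv : ∑ i, d i * z i ≤ 0) (hS : Sv d z + ∑ i, pT (d i) (z i) < 148 / 10000) :
    (Rt (1 / 5) z).card = 4 :=
  four_of h h1 h0 hv (P := pT) (e := 3 / 1000) le_rfl (fun i => pT_nonneg (h i))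
    (fun i a b => midT2 (h i) a b)
    (fun i a b => by
      have := midT2' (d := d i) (z := -z i) (by rw [neg_sq]; exact h i) a b
      rwa [neg_neg] at this) (by linarith)

end

end Vale.Agent.P224.SO.St
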