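import Vale.Agent.P224.SO.Stab5T

/-!
Dimension five: sharp constants in the scalar inequality near the Clifford configuration.
-/

namespace Vale.Agent.P224.SO.St

open Finset Vale.Agent.P224.SO

section abs

variable {ι : Type*} [DecidableEq ι] {R : Finset ι} {s t : ι → ℝ}

omit [DecidableEq ι] in
lemma sum_sq_le' (h0 : ∀ i ∈ R, 0 ≤ s i) : ∑ i ∈ R, s i ^ 2 ≤ (∑ i ∈ R, s i) ^ 2 := by
  rw [sq (∑ i ∈ R, s i), sum_mul]
  refine sum_le_sum fun i hi => ?_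
  rw [sq]
  exact mul_le_mul_of_nonneg_left (single_le_sum h0 hi) (h0 i hi)

omit [DecidableEq ι] in
/-- the quadratic form on the four points -/
lemma quad_R (h0 : ∀ i ∈ R, 0 ≤ s i) (hc : R.card = 4) :
    -(86 * (∑ i ∈ R, s i) ^ 2) + 473 / 100 * (∑ i ∈ R, s i) * ∑ i ∈ R, t i
      ≤ ∑ i ∈ R, (72 / 100 * t i ^ 2 + 1892 / 100 * (t i * s i) + 728 / 100 * s i ^ 2) := by
  have h2 := sum_sq_le' h0
  set S := ∑ i ∈ R, s i with hS
  have e : ∑ i ∈ R, (473 / 100 * S * t i - 11702 / 100 * s i ^ 2 + 1243 / 20 * S * s i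
      - 1243 / 160 * S ^ 2)
      ≤ ∑ i ∈ R, (72 / 100 * t i ^ 2 + 1892 / 100 * (t i * s i) + 728 / 100 * s i ^ 2) :=
    sum_le_sum fun i hi => by
      nlinarith [sq_nonneg (t i + 1892 / 144 * (s i - S / 4)), sq_nonneg (s i - S / 4)]
  have e2 : ∑ i ∈ R, (473 / 100 * S * t i - 11702 / 100 * s i ^ 2 + 1243 / 20 * S * s i
      - 1243 / 160 * S ^ 2) = 473 / 100 * S * ∑ i ∈ R, t i - 11702 / 100 * ∑ i ∈ R, s i ^ 2
        + 1243 / 20 * S * S - 4 * (1243 / 160 * S ^ 2) := by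
    rw [sum_sub_distrib, sum_add_distrib, sum_sub_distrib, ← mul_sum, ← mul_sum, ← mul_sum,
      sum_const, hc, ← hS]
    norm_num
  rw [e2] at e
  nlinarith

/-- the cubic inequality of one point -/
lemma bil {q s t : ℝ} (hq : 0 ≤ q) (h1 : t ^ 2 ≤ s) (h2 : s + t ^ 2 / 3 ≤ q ^ 2) :
    0 ≤ t * s + 29 / 100 * q * s - 5 / 12 * q ^ 2 * t + 29 / 400 * q ^ 3 := by
  have h3 : t ^ 2 ≤ (8667 / 10000 * q) ^ 2 := by nlinarith [sq_nonneg q]
  have h4 := abs_le_of_sq_le_sq' h3 (by positivity)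
  have h5 : 0 ≤ t + 8667 / 10000 * q := by linarith [h4.1]
  have hq3 : 0 ≤ q ^ 3 := by positivity
  rcases le_total 0 (t + 29 / 100 * q) with h | h
  · have h6 := mul_nonneg h (sub_nonneg.2 h1)
    have h7 := mul_nonneg h5 (sq_nonneg (t - 28835 / 100000 * q))
    have h8 : t * q ^ 2 * (1 / 10000) ≤ 8667 / 10000 * q ^ 3 * (1 / 10000) := by
      have := mul_le_mul_of_nonneg_right h4.2 (sq_nonneg q)
      nlinarith
    have h9 : -(8667 / 10000 * q ^ 3 * (1 / 10000)) ≤ t * q ^ 2 * (1 / 10000) := by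
      have := mul_le_mul_of_nonneg_right h4.1 (sq_nonneg q)
      nlinarith
    have h10 : t ^ 2 * q * (1 / 10000) ≤ q ^ 3 * (1 / 10000) := by
      have := mul_le_mul_of_nonneg_right h3 hq
      nlinarith
    nlinarith
  · have h6 := mul_nonneg (neg_nonneg.2 h) (sub_nonneg.2 h2)
    have ht : t ≤ 0 := by linarith
    have h7 := mul_nonneg (sq_nonneg (t + 866 / 1000 * q))
      (show 0 ≤ 4806 / 10000 * q - t / 3 by linarith)
    have h8 : -(8667 / 10000 * q ^ 3) ≤ t * q ^ 2 := by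
      have := mul_le_mul_of_nonneg_right h4.1 (sq_nonneg q)
      nlinarith
    have h10 : t ^ 2 * q ≤ q ^ 3 := by
      have := mul_le_mul_of_nonneg_right h3 hq
      nlinarith
    have h11 : 0 ≤ t ^ 2 * q := by positivity
    nlinarith

/-- the bilinear form on the four points -/
lemma bil_R {q : ℝ} (hc : R.card = 4) (hT : ∑ i ∈ R, t i = 0) (ht : ∀ i ∈ R, t i ^ 2 ≤ s i)
    (hq : q ^ 2 = ∑ i ∈ R, s i) (hq0 : 0 ≤ q) : -(58 / 100 * q ^ 3) ≤ ∑ i ∈ R, t i * s i := by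
  have e : 0 ≤ ∑ i ∈ R, (t i * s i + 29 / 100 * q * s i - 5 / 12 * q ^ 2 * t i
      + 29 / 400 * q ^ 3) := by
    refine sum_nonneg fun i hi => bil hq0 (ht i hi) ?_
    have c3 : (R.erase i).card = 3 := by rw [card_erase_of_mem hi, hc]
    have h1 : ∑ j ∈ R.erase i, t j = -t i := by
      have := add_sum_erase R t hi
      linarith
    have h2 : ∑ j ∈ R.erase i, s j = q ^ 2 - s i := by
      have := add_sum_erase R s hi
      linarith
    have h3 : ∑ j ∈ R.erase i, t j ^ 2 ≤ ∑ j ∈ R.erase i, s j :=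
      sum_le_sum fun j hj => ht j (mem_of_mem_erase hj)
    have h4 := sq_sum_le_card_mul_sum_sq (s := R.erase i) (f := t)
    rw [h1, c3] at h4
    push_cast at h4
    nlinarith
  rw [sum_add_distrib, sum_sub_distrib, sum_add_distrib, ← mul_sum, ← mul_sum, sum_const, hc,
    hT, ← hq] at e
  simp only [nsmul_eq_mul] at e
  push_cast at e
  nlinarith

/-- the bilinear form on the four points, general sum -/
lemma bil_R' {q ε : ℝ} (hc : R.card = 4) (hT : ∑ i ∈ R, t i = -ε) (hε : 0 ≤ ε) (hε1 : ε ≤ 1 / 5)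
    (ht : ∀ i ∈ R, t i ^ 2 + s i ^ 2 ≤ s i) (ht' : ∀ i ∈ R, t i ≤ 17 / 100)
    (hq : q ^ 2 = ∑ i ∈ R, s i + 4 / 10 * ε) (hq0 : 0 ≤ q) :
    -(58 / 100 * q ^ 3) - ε / 4 * ∑ i ∈ R, s i ≤ ∑ i ∈ R, t i * s i := by
  have h := bil_R (R := R) (t := fun i => t i + ε / 4) (s := fun i => s i + ε / 10) (q := q) hc
    (by rw [sum_add_distrib, hT, sum_const, hc]; simp only [nsmul_eq_mul]; push_cast; ring)
    (fun i hi => by
      have h1 := ht i hi
      have h2 := ht' i hi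
      have h3 := mul_nonneg hε (sub_nonneg.2 h2)
      have h4 := mul_nonneg hε (sub_nonneg.2 hε1)
      nlinarith [sq_nonneg (s i)])
    (by rw [sum_add_distrib, sum_const, hc, hq]; simp only [nsmul_eq_mul]; push_cast; ring) hq0
  have e : ∑ i ∈ R, (t i + ε / 4) * (s i + ε / 10)
      = ∑ i ∈ R, t i * s i + ε / 10 * ∑ i ∈ R, t i + ε / 4 * ∑ i ∈ R, s i + ε ^ 2 / 10 := by
    have : ∀ i ∈ R, (t i + ε / 4) * (s i + ε / 10)
        = t i * s i + ε / 10 * t i + ε / 4 * s i + ε ^ 2 / 40 := fun i _ => by ring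
    rw [sum_congr rfl this, sum_add_distrib, sum_add_distrib, sum_add_distrib, ← mul_sum,
      ← mul_sum, sum_const, hc]
    simp only [nsmul_eq_mul]
    push_cast
    ring
  rw [e, hT] at h
  nlinarith

end abs

section

variable {d z : Fin 7 → ℝ}

/-- the functional in the coordinates at the Clifford configuration -/
theorem Sv_id {s t : Fin 7 → ℝ} {R : Finset (Fin 7)} (hc : R.card = 4)
    (hR : ∀ i ∈ R, d i = 1 / 10 + 6 / 10 * t i + 8 / 10 * s i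
      ∧ z i = 3 / 10 + 8 / 10 * t i - 6 / 10 * s i)
    (hL : ∀ i ∈ Rᶜ, d i = 1 / 5 + 8 / 10 * t i + 6 / 10 * s i
      ∧ z i = -(2 / 5) - 6 / 10 * t i + 8 / 10 * s i)
    (h1 : ∑ i, d i = 1) (h0 : ∑ i, z i = 0) :
    ∑ i ∈ R, t i = -∑ i ∈ Rᶜ, s i ∧ ∑ i ∈ Rᶜ, t i = -∑ i ∈ R, s i ∧
      Sv d z = ∑ i ∈ R, (218 / 100 * s i + 72 / 100 * t i ^ 2 + 1892 / 100 * (t i * s i)
          + 728 / 100 * s i ^ 2)
        + ∑ i ∈ Rᶜ, (874 / 100 * s i + 728 / 100 * t i ^ 2 + 1892 / 100 * (t i * s i)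
          + 72 / 100 * s i ^ 2) := by
  have c3 : Rᶜ.card = 3 := by
    rw [card_compl, hc]
    rfl
  have e1 : ∑ i, d i = ∑ i ∈ R, (1 / 10 + 6 / 10 * t i + 8 / 10 * s i)
      + ∑ i ∈ Rᶜ, (1 / 5 + 8 / 10 * t i + 6 / 10 * s i) := by
    rw [← sum_add_sum_compl R]
    exact congrArg₂ _ (sum_congr rfl fun i hi => (hR i hi).1)
      (sum_congr rfl fun i hi => (hL i hi).1)
  have e0 : ∑ i, z i = ∑ i ∈ R, (3 / 10 + 8 / 10 * t i - 6 / 10 * s i)
      + ∑ i ∈ Rᶜ, (-(2 / 5) - 6 / 10 * t i + 8 / 10 * s i) := by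
    rw [← sum_add_sum_compl R]
    exact congrArg₂ _ (sum_congr rfl fun i hi => (hR i hi).2)
      (sum_congr rfl fun i hi => (hL i hi).2)
  have e2 : 14 * ∑ i, d i ^ 2 - 6 * ∑ i, z i ^ 2 - ∑ i, d i * z i
      = ∑ i ∈ R, (-(43 / 100) - 146 / 100 * t i + 422 / 100 * s i + (72 / 100 * t i ^ 2
          + 1892 / 100 * (t i * s i) + 728 / 100 * s i ^ 2))
        + ∑ i ∈ Rᶜ, (-(32 / 100) + 204 / 100 * t i + 728 / 100 * s i + (728 / 100 * t i ^ 2
          + 1892 / 100 * (t i * s i) + 72 / 100 * s i ^ 2)) := by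
    have e3 : 14 * ∑ i, d i ^ 2 - 6 * ∑ i, z i ^ 2 - ∑ i, d i * z i
        = ∑ i, (14 * d i ^ 2 - 6 * z i ^ 2 - d i * z i) := by
      rw [sum_sub_distrib, sum_sub_distrib, mul_sum, mul_sum]
    rw [e3, ← sum_add_sum_compl R]
    refine congrArg₂ _ (sum_congr rfl fun i hi => ?_) (sum_congr rfl fun i hi => ?_)
    · rw [(hR i hi).1, (hR i hi).2]
      ring
    · rw [(hL i hi).1, (hL i hi).2]
      ring
  rw [e1] at h1
  rw [e0] at h0
  unfold Sv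
  rw [e2]
  simp only [sum_add_distrib, sum_sub_distrib, sum_neg_distrib, ← mul_sum, sum_const, hc, c3,
    nsmul_eq_mul] at h1 h0 ⊢
  push_cast at h1 h0 ⊢
  refine ⟨by linarith, by linarith, by linarith⟩

/-- the inward coordinate -/
noncomputable def sv (d z : ℝ) : ℝ := if 1 / 5 ≤ z then 9 / 10 * de2 d z else 4 / 5 * de1 d z

/-- the tangential coordinate -/
noncomputable def tv (d z : ℝ) : ℝ :=
  if 1 / 5 ≤ z then 6 / 10 * (d - 1 / 10) + 8 / 10 * (z - 3 / 10)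
  else 8 / 10 * (d - 1 / 5) - 6 / 10 * (z + 2 / 5)

lemma coord_R {d z : ℝ} (hz : 1 / 5 ≤ z) : d = 1 / 10 + 6 / 10 * tv d z + 8 / 10 * sv d z
    ∧ z = 3 / 10 + 8 / 10 * tv d z - 6 / 10 * sv d z := by
  unfold tv sv de2
  rw [if_pos hz, if_pos hz]
  constructor <;> ring

lemma coord_L {d z : ℝ} (hz : ¬ 1 / 5 ≤ z) : d = 1 / 5 + 8 / 10 * tv d z + 6 / 10 * sv d z
    ∧ z = -(2 / 5) - 6 / 10 * tv d z + 8 / 10 * sv d z := by
  unfold tv sv de1
  rw [if_neg hz, if_neg hz]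
  constructor <;> ring

lemma w_eq (d z : ℝ) : d - d ^ 2 - z ^ 2 = sv d z - sv d z ^ 2 - tv d z ^ 2 := by
  unfold tv sv de1 de2
  split_ifs <;> ring

lemma g_eq (d z : ℝ) : (1 - 7 * d - z) ^ 2 = 25 * (sv d z + tv d z) ^ 2 := by
  unfold tv sv de1 de2
  split_ifs <;> ring

/-- the coordinates of a configuration with four points on the right -/
theorem coords (h : ∀ i, z i ^ 2 ≤ d i - d i ^ 2) (h1 : ∑ i, d i = 1) (h0 : ∑ i, z i = 0)
    (hc : (Rt (1 / 5) z).card = 4) :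
    ∃ (R : Finset (Fin 7)) (s t : Fin 7 → ℝ), R.card = 4 ∧ (∀ i, 0 ≤ s i) ∧
      (∀ i, t i ^ 2 + s i ^ 2 ≤ s i) ∧
      ∑ i ∈ R, t i = -∑ i ∈ Rᶜ, s i ∧
      Sv d z = ∑ i ∈ R, (218 / 100 * s i + 72 / 100 * t i ^ 2 + 1892 / 100 * (t i * s i)
          + 728 / 100 * s i ^ 2)
        + ∑ i ∈ Rᶜ, (874 / 100 * s i + 728 / 100 * t i ^ 2 + 1892 / 100 * (t i * s i)
          + 72 / 100 * s i ^ 2) ∧
      (∀ i, d i - d i ^ 2 - z i ^ 2 = s i - s i ^ 2 - t i ^ 2) ∧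
      (∀ i, (1 - 7 * d i - z i) ^ 2 = 25 * (s i + t i) ^ 2) ∧
      ∑ i, dl d z i = 10 / 9 * ∑ i ∈ R, s i + 5 / 4 * ∑ i ∈ Rᶜ, s i ∧
      5 / 9 * ∑ i ∈ R, s i + 5 / 2 * ∑ i ∈ Rᶜ, s i ≤ Sv d z := by
  set s : Fin 7 → ℝ := fun i => sv (d i) (z i) with hs
  set t : Fin 7 → ℝ := fun i => tv (d i) (z i) with ht
  have hst : ∀ i, d i - d i ^ 2 - z i ^ 2 = s i - s i ^ 2 - t i ^ 2 := fun i => w_eq _ _
  have hs0 : ∀ i, 0 ≤ s i := by
    intro i
    simp only [hs, sv]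
    split_ifs
    · have := de2_nonneg (h i)
      linarith
    · have := de1_nonneg (h i)
      linarith
  have id := Sv_id (s := s) (t := t) (R := Rt (1 / 5) z) hc
    (fun i hi => coord_R (mem_Rt.1 hi))
    (fun i hi => coord_L (fun hh => (mem_compl.1 hi) (mem_Rt.2 hh))) h1 h0
  refine ⟨Rt (1 / 5) z, s, t, hc, hs0, fun i => ?_, id.1, id.2.2, hst, fun i => g_eq _ _, ?_, ?_⟩
  · have := hst i
    have := h i
    linarith
  · rw [← sum_add_sum_compl (Rt (1 / 5) z), mul_sum, mul_sum]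
    refine congrArg₂ _ (sum_congr rfl fun i hi => ?_) (sum_congr rfl fun i hi => ?_)
    · simp only [dl, hs, sv]
      rw [if_pos (mem_Rt.1 hi), if_pos (mem_Rt.1 hi)]
      ring
    · simp only [dl, hs, sv]
      rw [if_neg (fun hh => (mem_compl.1 hi) (mem_Rt.2 hh)),
        if_neg (fun hh => (mem_compl.1 hi) (mem_Rt.2 hh))]
      ring
  · rw [← sum_term h1 h0 hc, ← sum_add_sum_compl (Rt (1 / 5) z), mul_sum, mul_sum]
    refine add_le_add (sum_le_sum fun i hi => ?_) (sum_le_sum fun i hi => ?_)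
    · have hz := mem_Rt.1 hi
      have := a_pos (h i) hz
      simp only [hs, sv]
      rw [if_pos hz, if_pos hz]
      linarith
    · have hz : ¬ 1 / 5 ≤ z i := fun hh => (mem_compl.1 hi) (mem_Rt.2 hh)
      have := a_all (h i)
      simp only [hs, sv]
      rw [if_neg hz, if_neg hz]
      linarith

/-- the lower bound near the Clifford configuration -/
theorem low {R : Finset (Fin 7)} {s t : Fin 7 → ℝ} (hc : R.card = 4) (hs0 : ∀ i, 0 ≤ s i)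
    (hst : ∀ i, t i ^ 2 + s i ^ 2 ≤ s i) (hT : ∑ i ∈ R, t i = -∑ i ∈ Rᶜ, s i)
    {fR fL : ℝ → ℝ → ℝ} {A B : ℝ} (hB : 0 ≤ B) (hB1 : B ≤ 20)
    (hfR : ∀ i, A * s i + B * (t i * s i) ≤ fR (s i) (t i))
    (hfL : ∀ i, 94 / 10 * s i - 15 * s i ^ 2 ≤ fL (s i) (t i))
    (hS : ∑ i ∈ R, s i ≤ 24 / 1000) (hE : ∑ i ∈ Rᶜ, s i ≤ 6 / 1000) :
    ∃ q : ℝ, 0 ≤ q ∧ q ^ 2 = ∑ i ∈ R, s i + 4 / 10 * ∑ i ∈ Rᶜ, s i ∧
      A * ∑ i ∈ R, s i - 58 / 100 * B * q ^ 3 + 91 / 10 * ∑ i ∈ Rᶜ, s i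
        ≤ ∑ i ∈ R, fR (s i) (t i) + ∑ i ∈ Rᶜ, fL (s i) (t i) := by
  set S := ∑ i ∈ R, s i with hSd
  set ε := ∑ i ∈ Rᶜ, s i with hεd
  have hS0 : 0 ≤ S := sum_nonneg fun i _ => hs0 i
  have hε0 : 0 ≤ ε := sum_nonneg fun i _ => hs0 i
  have hq : √(S + 4 / 10 * ε) ^ 2 = S + 4 / 10 * ε := Real.sq_sqrt (by positivity)
  refine ⟨√(S + 4 / 10 * ε), Real.sqrt_nonneg _, hq, ?_⟩
  set q := √(S + 4 / 10 * ε) with hqd
  have h1 : A * S + B * ∑ i ∈ R, t i * s i ≤ ∑ i ∈ R, fR (s i) (t i) := by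
    rw [hSd, mul_sum, mul_sum, ← sum_add_distrib]
    exact sum_le_sum fun i _ => hfR i
  have h2 : 94 / 10 * ε - 15 * ∑ i ∈ Rᶜ, s i ^ 2 ≤ ∑ i ∈ Rᶜ, fL (s i) (t i) := by
    rw [hεd, mul_sum, mul_sum, ← sum_sub_distrib]
    exact sum_le_sum fun i _ => hfL i
  have h3 := sum_sq_le' (R := Rᶜ) (s := s) fun i _ => hs0 i
  rw [← hεd] at h3
  have h4 := bil_R' (R := R) (s := s) (t := t) (q := q) (ε := ε) hc hT hε0 (by linarith)
    (fun i _ => hst i) (fun i hi => by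
      have h5 : s i ≤ S := single_le_sum (f := s) (fun j _ => hs0 j) hi
      have h6 := hst i
      have h7 := sq_nonneg (s i)
      nlinarith) hq (Real.sqrt_nonneg _)
  rw [← hSd] at h4
  have h8 := mul_le_mul_of_nonneg_left h4 hB
  have h9 : ε * S ≤ ε * (24 / 1000) := mul_le_mul_of_nonneg_left hS hε0
  have h10 : ε * ε ≤ ε * (6 / 1000) := mul_le_mul_of_nonneg_left hE hε0
  have h11 : B * (ε * S) ≤ 20 * (ε * (24 / 1000)) :=
    mul_le_mul hB1 h9 (by positivity) (by norm_num)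
  nlinarith

lemma split2 {R : Finset (Fin 7)} (f g p : Fin 7 → ℝ) : ∑ i ∈ R, (f i + p i)
    + ∑ i ∈ Rᶜ, (g i + p i) = ∑ i ∈ R, f i + ∑ i ∈ Rᶜ, g i + ∑ i, p i := by
  rw [sum_add_distrib, sum_add_distrib, ← sum_add_sum_compl R p]
  ring

/-- the strong form with the additional terms, four points on the right -/
theorem cardT (h : ∀ i, z i ^ 2 ≤ d i - d i ^ 2) (h1 : ∑ i, d i = 1) (h0 : ∑ i, z i = 0)
    (hc : (Rt (1 / 5) z).card = 4)
    (hS : Sv d z + ∑ i, pT (d i) (z i) < 129 / 10000) :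
    205 / 100 * ∑ i, dl d z i ≤ Sv d z + ∑ i, pT (d i) (z i) := by
  obtain ⟨R, s, t, hc4, hs0, hst, hT, hSv, hw, hg, hD, hap⟩ := coords h h1 h0 hc
  have hP : 0 ≤ ∑ i, pT (d i) (z i) := sum_nonneg fun i _ => pT_nonneg (h i)
  have hS0 : 0 ≤ ∑ i ∈ R, s i := sum_nonneg fun i _ => hs0 i
  have hε0 : 0 ≤ ∑ i ∈ Rᶜ, s i := sum_nonneg fun i _ => hs0 i
  have hp : ∀ i, pT (d i) (z i) = 106875 / 100000 * (s i - s i ^ 2 - t i ^ 2)
      + 2375 / 10000 * (s i + t i) ^ 2 := by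
    intro i
    unfold pT
    rw [hw i, hg i]
    ring
  obtain ⟨q, hq0, hq, hlow⟩ := low hc4 hs0 hst hT
    (fR := fun s t => (218 / 100 * s + 72 / 100 * t ^ 2 + 1892 / 100 * (t * s)
      + 728 / 100 * s ^ 2) + (106875 / 100000 * (s - s ^ 2 - t ^ 2)
      + 2375 / 10000 * (s + t) ^ 2))
    (fL := fun s t => (874 / 100 * s + 728 / 100 * t ^ 2 + 1892 / 100 * (t * s)
      + 72 / 100 * s ^ 2) + (106875 / 100000 * (s - s ^ 2 - t ^ 2)
      + 2375 / 10000 * (s + t) ^ 2)) (A := 31375 / 10000) (B := 19395 / 1000) (by norm_num)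
    (by norm_num) (fun i => by nlinarith [hst i, hs0 i, sq_nonneg (s i)])
    (fun i => by nlinarith [hst i, hs0 i, sq_nonneg (s i), sq_nonneg (t i + 15 / 10 * s i)])
    (by linarith) (by linarith)
  have hV : ∑ i ∈ R, ((218 / 100 * s i + 72 / 100 * t i ^ 2 + 1892 / 100 * (t i * s i)
      + 728 / 100 * s i ^ 2) + (106875 / 100000 * (s i - s i ^ 2 - t i ^ 2)
      + 2375 / 10000 * (s i + t i) ^ 2)) + ∑ i ∈ Rᶜ, ((874 / 100 * s i + 728 / 100 * t i ^ 2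
      + 1892 / 100 * (t i * s i) + 72 / 100 * s i ^ 2)
      + (106875 / 100000 * (s i - s i ^ 2 - t i ^ 2) + 2375 / 10000 * (s i + t i) ^ 2))
      = Sv d z + ∑ i, pT (d i) (z i) := by
    rw [hSv, sum_congr rfl fun i _ => hp i]
    exact split2 _ _ _
  rw [hV] at hlow
  set V := Sv d z + ∑ i, pT (d i) (z i) with hVd
  set S := ∑ i ∈ R, s i with hSd
  set ε := ∑ i ∈ Rᶜ, s i with hεd
  have hS' : S = q ^ 2 - 4 / 10 * ε := by linarith
  have hq16 : q ≤ 16 / 100 := by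
    have : q ^ 2 ≤ (16 / 100) ^ 2 := by linarith
    exact abs_le_of_sq_le_sq' this (by norm_num) |>.2
  have hfq : 31375 / 10000 * q ^ 2 - 112491 / 10000 * q ^ 3 + 7 * ε ≤ V := by
    rw [hS'] at hlow
    linarith
  have hq1 : q ≤ 754 / 10000 := by
    by_contra hh
    rw [not_le] at hh
    have a1 : 0 ≤ (q - 754 / 10000) * (16 / 100 - q) := mul_nonneg (by linarith) (by linarith)
    have a2 : 0 ≤ (q - 754 / 10000) ^ 2 := sq_nonneg _
    nlinarith [mul_nonneg a1 hq0]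
  rw [hD, hS']
  have h5 : q ^ 3 ≤ 754 / 10000 * q ^ 2 := by
    have := mul_le_mul_of_nonneg_right hq1 (sq_nonneg q)
    nlinarith
  nlinarith [sq_nonneg q]

/-- the additional term of the static functional -/
noncomputable def pS (d z : ℝ) : ℝ := 7 / 10 * (d - d ^ 2 - z ^ 2)

lemma pS_nonneg {d z : ℝ} (h : z ^ 2 ≤ d - d ^ 2) : 0 ≤ pS d z := by
  unfold pS
  linarith

/-- the strong form of the static functional, four points on the right -/
theorem cardS (h : ∀ i, z i ^ 2 ≤ d i - d i ^ 2) (h1 : ∑ i, d i = 1) (h0 : ∑ i, z i = 0)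
    (hc : (Rt (1 / 5) z).card = 4)
    (hS : Sv d z + ∑ i, pS (d i) (z i) < 110 / 10000) :
    186 / 100 * ∑ i, dl d z i ≤ Sv d z + ∑ i, pS (d i) (z i) := by
  obtain ⟨R, s, t, hc4, hs0, hst, hT, hSv, hw, hg, hD, hap⟩ := coords h h1 h0 hc
  have hP : 0 ≤ ∑ i, pS (d i) (z i) := sum_nonneg fun i _ => pS_nonneg (h i)
  have hS0 : 0 ≤ ∑ i ∈ R, s i := sum_nonneg fun i _ => hs0 i
  have hε0 : 0 ≤ ∑ i ∈ Rᶜ, s i := sum_nonneg fun i _ => hs0 i
  have hp : ∀ i, pS (d i) (z i) = 7 / 10 * (s i - s i ^ 2 - t i ^ 2) := by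
    intro i
    unfold pS
    rw [hw i]
  obtain ⟨q, hq0, hq, hlow⟩ := low hc4 hs0 hst hT
    (fR := fun s t => (218 / 100 * s + 72 / 100 * t ^ 2 + 1892 / 100 * (t * s)
      + 728 / 100 * s ^ 2) + 7 / 10 * (s - s ^ 2 - t ^ 2))
    (fL := fun s t => (874 / 100 * s + 728 / 100 * t ^ 2 + 1892 / 100 * (t * s)
      + 72 / 100 * s ^ 2) + 7 / 10 * (s - s ^ 2 - t ^ 2)) (A := 288 / 100) (B := 1892 / 100)
    (by norm_num) (by norm_num)
    (fun i => by nlinarith [hst i, hs0 i, sq_nonneg (s i), sq_nonneg (t i)])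
    (fun i => by nlinarith [hst i, hs0 i, sq_nonneg (s i), sq_nonneg (t i + 144 / 100 * s i)])
    (by linarith) (by linarith)
  have hV : ∑ i ∈ R, ((218 / 100 * s i + 72 / 100 * t i ^ 2 + 1892 / 100 * (t i * s i)
      + 728 / 100 * s i ^ 2) + 7 / 10 * (s i - s i ^ 2 - t i ^ 2))
      + ∑ i ∈ Rᶜ, ((874 / 100 * s i + 728 / 100 * t i ^ 2
      + 1892 / 100 * (t i * s i) + 72 / 100 * s i ^ 2) + 7 / 10 * (s i - s i ^ 2 - t i ^ 2))
      = Sv d z + ∑ i, pS (d i) (z i) := by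
    rw [hSv, sum_congr rfl fun i _ => hp i]
    exact split2 _ _ _
  rw [hV] at hlow
  set V := Sv d z + ∑ i, pS (d i) (z i) with hVd
  set S := ∑ i ∈ R, s i with hSd
  set ε := ∑ i ∈ Rᶜ, s i with hεd
  have hS' : S = q ^ 2 - 4 / 10 * ε := by linarith
  have hq16 : q ≤ 15 / 100 := by
    have : q ^ 2 ≤ (15 / 100) ^ 2 := by linarith
    exact abs_le_of_sq_le_sq' this (by norm_num) |>.2
  have hfq : 288 / 100 * q ^ 2 - 109736 / 10000 * q ^ 3 + 7 * ε ≤ V := by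
    rw [hS'] at hlow
    linarith
  have hq1 : q ≤ 731 / 10000 := by
    by_contra hh
    rw [not_le] at hh
    have a1 : 0 ≤ (q - 731 / 10000) * (15 / 100 - q) := mul_nonneg (by linarith) (by linarith)
    have a2 : 0 ≤ (q - 731 / 10000) ^ 2 := sq_nonneg _
    nlinarith [mul_nonneg a1 hq0]
  rw [hD, hS']
  have h5 : q ^ 3 ≤ 731 / 10000 * q ^ 2 := by
    have := mul_le_mul_of_nonneg_right hq1 (sq_nonneg q)
    nlinarith
  nlinarith [sq_nonneg q]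

/-- the plain functional, four points on the right -/
theorem cardS0 (h : ∀ i, z i ^ 2 ≤ d i - d i ^ 2) (h1 : ∑ i, d i = 1) (h0 : ∑ i, z i = 0)
    (hc : (Rt (1 / 5) z).card = 4) (hS : Sv d z < 6 / 1000) :
    170 / 100 * ∑ i, dl d z i ≤ Sv d z := by
  obtain ⟨R, s, t, hc4, hs0, hst, hT, hSv, hw, hg, hD, hap⟩ := coords h h1 h0 hc
  have hS0 : 0 ≤ ∑ i ∈ R, s i := sum_nonneg fun i _ => hs0 i
  have hε0 : 0 ≤ ∑ i ∈ Rᶜ, s i := sum_nonneg fun i _ => hs0 i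
  have h2 := quad_R (t := t) (fun i _ => hs0 i) hc4
  have h3 : 94 / 10 * ∑ i ∈ Rᶜ, s i - 10 / 10 * ∑ i ∈ Rᶜ, s i - 15 * ∑ i ∈ Rᶜ, s i ^ 2
      ≤ ∑ i ∈ Rᶜ, (874 / 100 * s i + 728 / 100 * t i ^ 2 + 1892 / 100 * (t i * s i)
          + 72 / 100 * s i ^ 2) := by
    rw [mul_sum, mul_sum, mul_sum, ← sum_sub_distrib, ← sum_sub_distrib]
    exact sum_le_sum fun i _ => by
      nlinarith [hst i, hs0 i, sq_nonneg (s i), sq_nonneg (t i + 13 / 10 * s i)]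
  have h4 := sum_sq_le' (R := Rᶜ) (s := s) fun i _ => hs0 i
  have h5 : ∑ i ∈ R, (218 / 100 * s i + 72 / 100 * t i ^ 2 + 1892 / 100 * (t i * s i)
          + 728 / 100 * s i ^ 2) = 218 / 100 * ∑ i ∈ R, s i
        + ∑ i ∈ R, (72 / 100 * t i ^ 2 + 1892 / 100 * (t i * s i) + 728 / 100 * s i ^ 2) := by
    rw [mul_sum, ← sum_add_distrib]
    exact sum_congr rfl fun i _ => by ring
  rw [h5] at hSv
  rw [hT] at h2
  rw [hD]
  set S := ∑ i ∈ R, s i with hSd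
  set ε := ∑ i ∈ Rᶜ, s i with hεd
  have hS1 : S ≤ 108 / 10000 := by linarith
  have hε1 : ε ≤ 24 / 10000 := by linarith
  have h6 : S * ε ≤ 108 / 10000 * ε := mul_le_mul_of_nonneg_right hS1 hε0
  have h7 : ε * ε ≤ 24 / 10000 * ε := mul_le_mul_of_nonneg_right hε1 hε0
  have h8 : 218 / 100 * S - 86 * S ^ 2 + 8 * ε ≤ Sv d z := by
    nlinarith
  have h9 : S ≤ 32 / 10000 := by
    by_contra hh
    rw [not_le] at hh
    nlinarith [mul_nonneg (sub_nonneg.2 hh.le) (sub_nonneg.2 hS1)]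
  have h10 : S ^ 2 ≤ 32 / 10000 * S := by
    have := mul_le_mul_of_nonneg_right h9 hS0
    nlinarith
  nlinarith

/-- three points on each side, general multipliers -/
lemma s_threeG (h : ∀ i, z i ^ 2 ≤ d i - d i ^ 2) (h1 : ∑ i, d i = 1) (h0 : ∑ i, z i = 0)
    (hc : (Rt (1 / 5) z).card = 3) (hc' : (Lt (1 / 5) z).card = 3) (i₀ : Fin 7)
    (hi : ∀ i, z i < 1 / 5 → -(1 / 5) < z i → z i = z i₀) (hi0 : 0 ≤ z i₀) {P : Fin 7 → ℝ}
    (hP : ∀ i, 0 ≤ P i) {a b ap an am τ : ℝ} (hsum : τ ≤ 268 / 100 + a + (3 * ap + 3 * an + am))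
    (hτ : τ ≤ 149 / 10000) (c_pos : ∀ i, 1 / 5 ≤ z i → ap ≤ q5 a b 0 (d i) (z i))
    (c_all : ∀ i, an ≤ q5 a b 0 (d i) (z i)) (hPm : ∀ i, 0 ≤ z i → z i ≤ 9 / 100 →
      am ≤ q5 a b 0 (d i) (z i) + P i) :
    τ ≤ Sv d z + ∑ i, P i := by
  unfold Sv
  rcases le_total (z i₀) (9 / 100) with hy | hy
  · have e := sum_lev (Z := 1 / 5) (z := z) (by norm_num)
      (fun i => q5 a b 0 (d i) (z i) + P i) (ap := ap) (an := an) (am := am)
      (fun i hi => by have := c_pos i hi; have := hP i; linarith)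
      (fun i _ => by have := c_all i; have := hP i; linarith)
      (fun i h1 h2 => hPm i (by rw [hi i h1 h2]; exact hi0) (by rw [hi i h1 h2]; exact hy))
    rw [sum_add_distrib, sum_q5 _ _ _ h1 h0, hc, hc'] at e
    push_cast at e
    linarith
  · have e := sum_lev (Z := 1 / 5) (z := z) (by norm_num)
      (fun i => q5 (7 / 10) (-(17 / 10)) 0 (d i) (z i))
      (fun i hi => c2_pos (h i) hi) (fun i _ => c2_all (h i))
      (fun i h1 h2 => c2_mid (by rw [hi i h1 h2]; exact hy) h1.le)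
    have hP' : 0 ≤ ∑ i, P i := sum_nonneg fun i _ => hP i
    rw [sum_q5 _ _ _ h1 h0, hc, hc'] at e
    push_cast at e
    linarith

/-- four points on the right, general additional terms -/
lemma four_G (h : ∀ i, z i ^ 2 ≤ d i - d i ^ 2) (h1 : ∑ i, d i = 1) (h0 : ∑ i, z i = 0)
    (hv : ∑ i, d i * z i ≤ 0) {P : ℝ → ℝ → ℝ}
    (hP : ∀ d z : ℝ, z ^ 2 ≤ d - d ^ 2 → 0 ≤ P d z) {a b ap an am τ : ℝ}
    (hsum : τ ≤ 268 / 100 + a + (3 * ap + 3 * an + am)) (hτ : τ ≤ 149 / 10000)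
    (c_pos : ∀ d z : ℝ, z ^ 2 ≤ d - d ^ 2 → 1 / 5 ≤ z → ap ≤ q5 a b 0 d z)
    (c_all : ∀ d z : ℝ, z ^ 2 ≤ d - d ^ 2 → an ≤ q5 a b 0 d z)
    (hPm : ∀ d z : ℝ, z ^ 2 ≤ d - d ^ 2 → 0 ≤ z → z ≤ 9 / 100 → am ≤ q5 a b 0 d z + P d z)
    (hPn : ∀ d z : ℝ, z ^ 2 ≤ d - d ^ 2 → 0 ≤ z → z ≤ 9 / 100 → am ≤ q5 a b 0 d z + P d (-z))
    (hS : Sv d z + ∑ i, P (d i) (z i) < τ) : (Rt (1 / 5) z).card = 4 := by
  have h' : ∀ i, (-z i) ^ 2 ≤ d i - d i ^ 2 := fun i => by rw [neg_sq]; exact h i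
  have h0' : ∑ i, -z i = 0 := by rw [sum_neg', h0, neg_zero]
  have hP0 : 0 ≤ ∑ i, P (d i) (z i) := sum_nonneg fun i _ => hP _ _ (h i)
  have hR : 4 ≤ (Rt (1 / 5) z).card := by
    by_contra hR
    push Not at hR
    by_cases c1 : (Rt (1 / 5) z).card + (Lt (1 / 5) z).card ≤ 5
    · have := s_mid' h h1 h0 hv c1
      linarith
    by_cases c3 : 4 ≤ (Lt (1 / 5) z).card
    · have := s_left' h h1 h0 hv c3
      linarith
    have cP : (Rt (1 / 5) z).card = 3 := by omega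
    have cN : (Lt (1 / 5) z).card = 3 := by omega
    obtain ⟨i₀, hi⟩ := exists_mid (z := z) (Z := 1 / 5) (by norm_num) (by norm_num) cP cN
    rcases le_total 0 (z i₀) with hy | hy
    · have := s_threeG h h1 h0 cP cN i₀ hi hy (P := fun i => P (d i) (z i))
        (fun i => hP _ _ (h i)) hsum hτ (fun i => c_pos _ _ (h i)) (fun i => c_all _ _ (h i))
        (fun i a b => hPm _ _ (h i) a b)
      linarith
    · have := s_threeG (z := fun i => -z i) h' h1 h0' (by rw [Rt_neg]; exact cN)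
        (by rw [Lt_neg]; exact cP) i₀ (fun i a b => by rw [hi i (by linarith) (by linarith)])
        (by linarith) (P := fun i => P (d i) (z i)) (fun i => hP _ _ (h i)) hsum hτ
        (fun i => c_pos _ _ (h' i)) (fun i => c_all _ _ (h' i))
        (fun i a b => by have := hPn _ _ (h' i) a b; rwa [neg_neg] at this)
      have := Sv_neg hv
      linarith
  by_contra h4
  have h5 : 5 ≤ (Rt (1 / 5) z).card := by omega
  have h5' : (5 : ℝ) ≤ ((Rt (1 / 5) z).card : ℝ) := by exact_mod_cast h5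
  have e := sum_lev (Z := 1 / 5) (z := z) (by norm_num)
    (fun i => q5 (756 / 1000) (-(2392 / 1000)) 0 (d i) (z i))
    (ap := 212 / 1000) (an := -(1428 / 1000)) (am := -(1428 / 1000))
    (fun i hz => by have := a_pos (h i) hz; have := de2_nonneg (h i); linarith)
    (fun i _ => by have := a_all (h i); have := de1_nonneg (h i); linarith)
    (fun i _ _ => by have := a_all (h i); have := de1_nonneg (h i); linarith)
  rw [sum_q5 _ _ _ h1 h0] at e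
  push_cast at e
  unfold Sv at hS
  linarith

section

variable {d z : ℝ}

lemma midU (h : z ^ 2 ≤ d - d ^ 2) (hz0 : 0 ≤ z) (hz : z ≤ 9 / 100) :
    15 / 10000 ≤ q5 (54 / 100) (-(57 / 100)) 0 d z + pT d z := by
  unfold q5 pT
  have hd : 0 ≤ d := by nlinarith [sq_nonneg z, sq_nonneg d]
  nlinarith [mul_nonneg hz0 (sub_nonneg.2 hz), mul_nonneg hd (sub_nonneg.2 hz)]

lemma midU' (h : z ^ 2 ≤ d - d ^ 2) (hz0 : 0 ≤ z) (hz : z ≤ 9 / 100) :
    15 / 10000 ≤ q5 (54 / 100) (-(57 / 100)) 0 d z + pT d (-z) := by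
  unfold q5 pT
  have hd : 0 ≤ d := by nlinarith [sq_nonneg z, sq_nonneg d]
  nlinarith [mul_nonneg hz0 (sub_nonneg.2 hz), mul_nonneg hd (sub_nonneg.2 hz)]

lemma e1_pos (h : z ^ 2 ≤ d - d ^ 2) (hz : 1 / 5 ≤ z) :
    -(3832 / 10000) ≤ q5 (6 / 10) (-(6 / 10)) 0 d z := by
  unfold q5
  nlinarith [mul_nonneg (sub_nonneg.2 hz) (lin_nonneg h (16441 / 100000) (37064 / 100000)),
    sq_nonneg (d - 16441 / 100000), sq_nonneg (z - 37064 / 100000),
    sq_nonneg ((d - 16441 / 100000) - (z - 37064 / 100000))]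

lemma e1_all (h : z ^ 2 ≤ d - d ^ 2) :
    -(7061 / 10000) ≤ q5 (6 / 10) (-(6 / 10)) 0 d z := by
  unfold q5
  nlinarith [lin_nonneg h (16549 / 100000) (-(37162 / 100000)),
    sq_nonneg (d - 16549 / 100000), sq_nonneg (z + 37162 / 100000),
    sq_nonneg ((d - 16549 / 100000) - (z + 37162 / 100000))]

lemma e1_mid (h : z ^ 2 ≤ d - d ^ 2) (hz0 : 0 ≤ z) (hz : z ≤ 9 / 100) :
    0 ≤ q5 (6 / 10) (-(6 / 10)) 0 d z + pS d z := by
  unfold q5 pS
  have hd : 0 ≤ d := by nlinarith [sq_nonneg z, sq_nonneg d]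
  nlinarith [mul_nonneg hz0 (sub_nonneg.2 hz), mul_nonneg hd (sub_nonneg.2 hz)]

lemma pS_neg : pS d (-z) = pS d z := by
  unfold pS
  rw [neg_sq]

end

/-- **The strong stable inequality with the additional terms.** -/
theorem stabTU (h : ∀ i, z i ^ 2 ≤ d i - d i ^ 2) (h1 : ∑ i, d i = 1) (h0 : ∑ i, z i = 0)
    (hv : ∑ i, d i * z i ≤ 0) (hS : Sv d z + ∑ i, pT (d i) (z i) < 129 / 10000) :
    (Rt (1 / 5) z).card = 4 ∧
      205 / 100 * ∑ i, dl d z i ≤ Sv d z + ∑ i, pT (d i) (z i) := by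
  have hc := four_G h h1 h0 hv (P := pT) (fun _ _ hh => pT_nonneg hh) (a := 54 / 100)
    (b := -(57 / 100)) (ap := -(3844 / 10000)) (an := -(685 / 1000)) (am := 15 / 10000)
    (by norm_num) (by norm_num) (fun _ _ hh hz => c1_pos hh hz) (fun _ _ hh => c1_all hh)
    (fun _ _ hh a b => midU hh a b) (fun _ _ hh a b => midU' hh a b) hS
  exact ⟨hc, cardT h h1 h0 hc hS⟩

/-- **The strong stable inequality of the static functional.** -/
theorem stabSU (h : ∀ i, z i ^ 2 ≤ d i - d i ^ 2) (h1 : ∑ i, d i = 1) (h0 : ∑ i, z i = 0)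
    (hv : ∑ i, d i * z i ≤ 0) (hS : Sv d z + ∑ i, pS (d i) (z i) < 110 / 10000) :
    (Rt (1 / 5) z).card = 4 ∧
      186 / 100 * ∑ i, dl d z i ≤ Sv d z + ∑ i, pS (d i) (z i) := by
  have hc := four_G h h1 h0 hv (P := pS) (fun _ _ hh => pS_nonneg hh) (a := 6 / 10)
    (b := -(6 / 10)) (ap := -(3832 / 10000)) (an := -(7061 / 10000)) (am := 0)
    (by norm_num) (by norm_num) (fun _ _ hh hz => e1_pos hh hz) (fun _ _ hh => e1_all hh)
    (fun _ _ hh a b => e1_mid hh a b)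
    (fun _ _ hh a b => by rw [pS_neg]; exact e1_mid hh a b) hS
  exact ⟨hc, cardS h h1 h0 hc hS⟩

/-- **The strong stable inequality without additional terms.** -/
theorem stabS0 (h : ∀ i, z i ^ 2 ≤ d i - d i ^ 2) (h1 : ∑ i, d i = 1) (h0 : ∑ i, z i = 0)
    (hv : ∑ i, d i * z i ≤ 0) (hS : Sv d z < 6 / 1000) :
    (Rt (1 / 5) z).card = 4 ∧ 170 / 100 * ∑ i, dl d z i ≤ Sv d z := by
  have hc := (stab h h1 h0 hv hS).1
  exact ⟨hc, cardS0 h h1 h0 hc hS⟩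

end

end Vale.Agent.P224.SO.St
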