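import Vale.Agent.P224.SO.Stab7C

/-!
Dimension 7: the functional without a parameter, with a larger range.
-/

namespace Vale.Agent.P224.SO.M7

open Finset Vale.Agent.P224.SO Vale.Agent.P224.SO.Rg

section

variable {d x : ℝ}

lemma aS' (h : 6 * x ^ 2 ≤ d - d ^ 2) (hx : 86 / 1000 ≤ x) :
    61 / 350 + 36 / 10 * S7.e2 d x ≤ S7.q7 d x + S7.pS d x := by
  have hs := S7.lin6 h (3 / 35) (4 / 35)
  unfold S7.q7 S7.e2 S7.pS
  nlinarith [mul_nonneg (sub_nonneg.2 hx) hs,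
    sq_nonneg ((8 / 35 * (d - 3 / 35) + 29 / 35 * (x - 4 / 35))
      + 451 / 100 * (29 / 35 * (d - 3 / 35) - 48 / 35 * (x - 4 / 35))),
    sq_nonneg (29 / 35 * (d - 3 / 35) - 48 / 35 * (x - 4 / 35))]

lemma bS' (h : 6 * x ^ 2 ≤ d - d ^ 2) (hx : 1 / 20 ≤ x) (hx' : x ≤ 86 / 1000) :
    61 / 350 + 25 / 1000 ≤ S7.q7 d x + S7.pS d x := by
  unfold S7.q7 S7.pS
  nlinarith [mul_nonneg (sub_nonneg.2 hx) (sub_nonneg.2 hx'),
    mul_nonneg (sub_nonneg.2 hx') (S7.lin6 h (465 / 10000) (86 / 1000)),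
    sq_nonneg (d - 465 / 10000), sq_nonneg (x - 86 / 1000),
    sq_nonneg ((d - 465 / 10000) - (x - 86 / 1000))]

end

section

variable {d x : Fin 9 → ℝ}

/-- the functional without a parameter, weight `w` on the small block, larger range -/
theorem nearSw' (h : ∀ i, 6 * x i ^ 2 ≤ d i - d i ^ 2) (h1 : ∑ i, d i = 1) (h0 : ∑ i, x i = 0)
    (hc : (Rt (1 / 20) x).card = 5) {w : ℝ} (hw0 : 0 ≤ w) (hw : w ≤ 2)
    (hS : 14 / 5 + (34 * ∑ i, d i ^ 2 - 48 * ∑ i, x i ^ 2 - 7 * ∑ i, d i * x i)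
      + ∑ i, 4 * (d i - d i ^ 2 - 6 * x i ^ 2) < 25 / 1000) :
    36 / 10 * ∑ i, (if 1 / 20 ≤ x i then 29 / 32 * d i - 3 / 2 * x i + 3 / 32
        else w * (5 / 6 * d i + 2 * x i + 1 / 6))
      ≤ 14 / 5 + (34 * ∑ i, d i ^ 2 - 48 * ∑ i, x i ^ 2 - 7 * ∑ i, d i * x i)
        + ∑ i, 4 * (d i - d i ^ 2 - 6 * x i ^ 2) := by
  refine near_of (a := -(101 / 42)) (b := 253 / 35) (qR := 61 / 350) (qL := -(319 / 210))
    (P := fun i => 4 * (d i - d i ^ 2 - 6 * x i ^ 2)) (r := 5) (l := 4) (t := 25 / 1000)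
    (by norm_num) h1 h0 hc (by norm_num) (fun i => ?_) (by norm_num) (by norm_num)
    (fun i hi => ?_) (fun i hi => ?_) hS
  · split_ifs
    · exact S7.e2_nonneg (h i)
    · exact mul_nonneg hw0 (S7.e1_nonneg (h i))
  · rw [if_pos hi]
    rcases le_total (86 / 1000) (x i) with hx | hx
    · left
      have := aS' (h i) hx
      unfold S7.q7 S7.pS S7.e2 at this
      linarith
    · right
      have := bS' (h i) hi hx
      unfold S7.q7 S7.pS at this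
      linarith
  · rw [if_neg hi]
    rcases le_total (x i) (-(9 / 100)) with hx | hx
    · left
      have := S7.lS (h i) hx
      have h2 := mul_nonneg (sub_nonneg.2 hw) (S7.e1_nonneg (h i))
      have h3 := S7.e1_nonneg (h i)
      unfold S7.q7 S7.pS at this
      unfold S7.e1 at this h2 h3
      linarith
    · right
      have := S7.mS (h i) hx (not_le.1 hi).le
      unfold S7.q7 S7.pS at this
      linarith

/-- **Five points on the right, the functional without a parameter, larger range.** -/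
theorem card_S' (h : ∀ i, 6 * x i ^ 2 ≤ d i - d i ^ 2) (h1 : ∑ i, d i = 1) (h0 : ∑ i, x i = 0)
    (hv : ∑ i, d i * x i ≤ 0)
    (hS : 14 / 5 + (34 * ∑ i, d i ^ 2 - 48 * ∑ i, x i ^ 2 - 7 * ∑ i, d i * x i)
      + ∑ i, 4 * (d i - d i ^ 2 - 6 * x i ^ 2) < 28 / 1000) : (Rt (1 / 20) x).card = 5 := by
  refine dat.cls (by norm_num) (by norm_num) h h1 h0 hv pS_nn (t := 28 / 1000) ?_ ?_ ?_ L1 L2 ?_ ?_
    MS MS' ?_ ?_
  · simp only [dat]; norm_num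
  · simp only [dat]; norm_num
  · norm_num
  · norm_num
  · norm_num
  · simp only [dat]; norm_num
  · simp only [pS]
    linarith

/-- the functional without a parameter, weight `w` on the small block, larger range -/
theorem stabS' (w : ℝ) (hw0 : 0 ≤ w) (hw : w ≤ 2) (d x : Fin 9 → ℝ)
    (h : ∀ i, 6 * x i ^ 2 ≤ d i - d i ^ 2) (h1 : ∑ i, d i = 1) (h0 : ∑ i, x i = 0)
    (hv : ∑ i, d i * x i ≤ 0)
    (hS : 14 / 5 + (34 * ∑ i, d i ^ 2 - 48 * ∑ i, x i ^ 2 - 7 * ∑ i, d i * x i)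
      + ∑ i, 4 * (d i - d i ^ 2 - 6 * x i ^ 2) < 25 / 1000) :
    (Rt (1 / 20) x).card = 5 ∧
    36 / 10 * ∑ i, (if 1 / 20 ≤ x i then 29 / 32 * d i - 3 / 2 * x i + 3 / 32
        else w * (5 / 6 * d i + 2 * x i + 1 / 6))
      ≤ 14 / 5 + (34 * ∑ i, d i ^ 2 - 48 * ∑ i, x i ^ 2 - 7 * ∑ i, d i * x i)
        + ∑ i, 4 * (d i - d i ^ 2 - 6 * x i ^ 2) := by
  have hc := card_S' h h1 h0 hv (lt_trans hS (by norm_num))
  exact ⟨hc, nearSw' h h1 h0 hc hw0 hw hS⟩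

/-! The forms of the stability theorem without a weight. -/

/-- the functional without a parameter -/
theorem hst2 (d x : Fin 9 → ℝ)
    (h : ∀ i, 6 * x i ^ 2 ≤ d i - d i ^ 2) (h1 : ∑ i, d i = 1) (h0 : ∑ i, x i = 0)
    (hv : ∑ i, d i * x i ≤ 0)
    (hS : 14 / 5 + (34 * ∑ i, d i ^ 2 - 48 * ∑ i, x i ^ 2 - 7 * ∑ i, d i * x i)
      + ∑ i, 4 * (d i - d i ^ 2 - 6 * x i ^ 2) < 25 / 1000) :
    (Rt (1 / 20) x).card = 5 ∧
    36 / 10 * ∑ i, (if 1 / 20 ≤ x i then 29 / 32 * d i - 3 / 2 * x i + 3 / 32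
        else 5 / 6 * d i + 2 * x i + 1 / 6)
      ≤ 14 / 5 + (34 * ∑ i, d i ^ 2 - 48 * ∑ i, x i ^ 2 - 7 * ∑ i, d i * x i)
        + ∑ i, 4 * (d i - d i ^ 2 - 6 * x i ^ 2) := by
  have := stabS' 1 (by norm_num) (by norm_num) d x h h1 h0 hv hS
  simpa only [one_mul] using this

/-- the functional with a parameter -/
theorem hst1 (d x : Fin 9 → ℝ)
    (h : ∀ i, 6 * x i ^ 2 ≤ d i - d i ^ 2) (h1 : ∑ i, d i = 1) (h0 : ∑ i, x i = 0)
    (hv : ∑ i, d i * x i ≤ 0)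
    (hS : 14 / 5 + (34 * ∑ i, d i ^ 2 - 48 * ∑ i, x i ^ 2 - 7 * ∑ i, d i * x i)
      + ∑ i, (4 * (d i - d i ^ 2 - 6 * x i ^ 2) + 7 / 100 * ((1 - 9 * d i - 2 * x i) ^ 2
        + 49 / 3 * (d i - d i ^ 2 - 6 * x i ^ 2))) < 38 / 1000) :
    (Rt (1 / 20) x).card = 5 ∧
    52 / 10 * ∑ i, (if 1 / 20 ≤ x i then 29 / 32 * d i - 3 / 2 * x i + 3 / 32
        else 5 / 6 * d i + 2 * x i + 1 / 6)
      ≤ 14 / 5 + (34 * ∑ i, d i ^ 2 - 48 * ∑ i, x i ^ 2 - 7 * ∑ i, d i * x i)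
        + ∑ i, (4 * (d i - d i ^ 2 - 6 * x i ^ 2) + 7 / 100 * ((1 - 9 * d i - 2 * x i) ^ 2
          + 49 / 3 * (d i - d i ^ 2 - 6 * x i ^ 2))) := by
  have := stabT 1 (by norm_num) (by norm_num) d x h h1 h0 hv hS
  simpa only [one_mul] using this

end

end Vale.Agent.P224.SO.M7
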