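import Vale.Agent.P224.SO.Stab5
import Vale.Agent.P224.SO.R3b

/-!
Dimension five: the orientation resource controls the distance to a Clifford configuration.
-/

namespace Vale.Agent.P224.SO

open MeasureTheory Set Filter Function Module Vale.Agent.P224.UE
open scoped Topology RealInnerProductSpace ContDiff

set_option linter.unusedSectionVars false

section

variable {X : Type*} [MeasurableSpace X] {E : Type*} [NormedAddCommGroup E]
  [InnerProductSpace ℝ E] [FiniteDimensional ℝ E] [MeasurableSpace E] [BorelSpace E]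
  {μ : Measure X} [IsFiniteMeasure μ] {p n : X → E} {m : ℕ}

/-- the reduction with its basis -/
theorem reduction_b (hE : finrank ℝ E = m + 2) (hp : UF p) (hn : UF n)
    (pn : ∀ x, ⟪p x, n x⟫ = 0)
    (hrow : ∀ e : E, ∫ x, (⟪e, e⟫ - ⟪n x, e⟫ ^ 2 - (m + 1) * ⟪p x, e⟫ ^ 2) ∂μ = 0)
    (hsym : ∀ (z : X) (e : E), ∫ x, (⟪n x, p z⟫ * ⟪p x, e⟫ - ⟪n x, e⟫ * ⟪p x, p z⟫) ∂μ = 0)
    (hsp : ∀ w, (∀ x, ⟪p x, w⟫ = 0) → w = 0) (hA1 : 0 < μ.real univ) :
    ∃ (b : OrthonormalBasis (Fin (m + 2)) ℝ E) (d z : Fin (m + 2) → ℝ),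
      (∀ i, mom μ p p (b i) (b i) = μ.real univ * ((1 - d i) / ((m : ℝ) + 1))) ∧
      (∀ i, mom μ p n (b i) (b i) = μ.real univ * (z i / √((m : ℝ) + 1))) ∧
      (∀ i, mom μ n n (b i) (b i) = μ.real univ * d i) ∧
      (∀ i, z i ^ 2 ≤ d i - d i ^ 2) ∧ ∑ i, d i = 1 ∧ ∑ i, z i = 0 ∧
      μ.real univ ^ 2 * ((m + ∑ i, d i ^ 2) / ((m : ℝ) + 1) ^ 2)
        ≤ ∫ q : X × X, ⟪p q.1, p q.2⟫ * ⟪p q.1, p q.2⟫ ∂(μ.prod μ) ∧
      ∫ q : X × X, ⟪p q.1, p q.2⟫ * ⟪n q.1, n q.2⟫ ∂(μ.prod μ)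
        = μ.real univ ^ 2 * ((∑ i, z i ^ 2) / ((m : ℝ) + 1)) ∧
      ∫ q : X × X, ⟪p q.1, p q.2⟫ * ⟪p q.1, n q.2⟫ ∂(μ.prod μ)
        = -(μ.real univ ^ 2 * ((∑ i, d i * z i) / (((m : ℝ) + 1) * √((m : ℝ) + 1)))) ∧
      ∫ q : X × X, ⟪p q.1, p q.2⟫ * ⟪n q.1, p q.2⟫ ∂(μ.prod μ)
        = -(μ.real univ ^ 2 * ((∑ i, d i * z i) / (((m : ℝ) + 1) * √((m : ℝ) + 1)))) := by
  have hB := momL_symm hp hn hsym hsp
  set B := momL μ hp hn with hBd
  set b := hB.eigenvectorBasis hE with hb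
  set β := hB.eigenvalues hE with hβ
  set A := μ.real univ with hA
  set ξ : Fin (m + 2) → ℝ := fun i => mom μ p p (b i) (b i) with hξ
  have hpn : ∀ i j, mom μ p n (b i) (b j) = if i = j then β i else 0 := by
    intro i j
    rw [← inner_momL hp hn, ← hBd, hb, hB.apply_eigenvectorBasis hE i, ← hb, ← hβ]
    rw [RCLike.ofReal_real_eq_id, id, real_inner_smul_left, orthonormal_iff_ite.1 b.orthonormal i j]
    split_ifs <;> simp
  have I1 : ∫ q : X × X, ⟪p q.1, p q.2⟫ * ⟪p q.1, n q.2⟫ ∂(μ.prod μ) = ∑ i, ξ i * β i := by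
    rw [integral_pair b hp hp hp hn]
    refine Finset.sum_congr rfl fun i _ => ?_
    simp only [hpn, mul_ite, mul_zero, Finset.sum_ite_eq, Finset.mem_univ, if_true, hξ]
  have I2 : ∫ q : X × X, ⟪p q.1, p q.2⟫ * ⟪n q.1, p q.2⟫ ∂(μ.prod μ) = ∑ i, ξ i * β i := by
    rw [integral_pair b hp hn hp hp]
    refine Finset.sum_congr rfl fun i _ => ?_
    simp only [hpn, ite_mul, zero_mul, Finset.sum_ite_eq, Finset.mem_univ, if_true, hξ]
    ring
  have I3 : ∫ q : X × X, ⟪p q.1, p q.2⟫ * ⟪n q.1, n q.2⟫ ∂(μ.prod μ) = ∑ i, β i ^ 2 := by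
    rw [integral_pair b hp hn hp hn]
    refine Finset.sum_congr rfl fun i _ => ?_
    simp only [hpn, mul_ite, mul_zero, Finset.sum_ite_eq, Finset.mem_univ, if_true]
    ring
  have I4 : ∑ i, ξ i ^ 2 ≤ ∫ q : X × X, ⟪p q.1, p q.2⟫ * ⟪p q.1, p q.2⟫ ∂(μ.prod μ) := by
    rw [integral_pair b hp hp hp hp]
    refine Finset.sum_le_sum fun i _ => ?_
    have := Finset.single_le_sum (s := Finset.univ)
      (f := fun j => mom μ p p (b i) (b j) * mom μ p p (b i) (b j))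
      (fun j _ => mul_self_nonneg _) (Finset.mem_univ i)
    simp only [hξ]
    rw [sq]
    exact this
  have s1 : ∑ i, ξ i = A := by
    rw [hξ, sum_mom b hp hp]
    have : ∀ x, ⟪p x, p x⟫ = (1 : ℝ) := fun x => by
      rw [real_inner_self_eq_norm_sq, hp.unit, one_pow]
    simp only [this, integral_const, smul_eq_mul, mul_one, hA]
  have s2 : ∑ i, β i = 0 := by
    have h1 := sum_mom (μ := μ) b hp hn
    simp only [hpn, if_true, pn, integral_zero] at h1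
    exact h1
  have s3 : ∀ i, mom μ n n (b i) (b i) = A - (m + 1) * ξ i := by
    intro i
    have h1 := hrow (b i)
    have e1 : ∀ x, ⟪b i, b i⟫ - ⟪n x, b i⟫ ^ 2 - (m + 1) * ⟪p x, b i⟫ ^ 2
        = 1 - ⟪n x, b i⟫ * ⟪n x, b i⟫ - (m + 1) * (⟪p x, b i⟫ * ⟪p x, b i⟫) := fun x => by
      rw [real_inner_self_eq_norm_sq, b.orthonormal.1 i]; ring
    simp only [e1] at h1
    have i1 : Integrable (fun x => 1 - ⟪n x, b i⟫ * ⟪n x, b i⟫) μ :=
      (integrable_const _).sub (hn.integrable_mul hn _ _)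
    have i2 : Integrable (fun x => ((m : ℝ) + 1) * (⟪p x, b i⟫ * ⟪p x, b i⟫)) μ :=
      (hp.integrable_mul hp _ _).const_mul _
    rw [integral_sub i1 i2, integral_sub (integrable_const _) (hn.integrable_mul hn _ _),
      integral_const_mul, integral_const, smul_eq_mul, mul_one] at h1
    simp only [hξ, hA]
    unfold mom
    linarith
  have s4 : ∀ i, β i ^ 2 ≤ ξ i * (A - (m + 1) * ξ i) := by
    intro i
    have h1 := mom_sq_le (μ := μ) hp hn (b i) (b i)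
    rw [s3, hpn, if_pos rfl] at h1
    exact h1
  have hm1 : (0 : ℝ) < (m : ℝ) + 1 := by positivity
  have hr : √((m : ℝ) + 1) * √((m : ℝ) + 1) = (m : ℝ) + 1 := Real.mul_self_sqrt hm1.le
  have hr0 : 0 < √((m : ℝ) + 1) := Real.sqrt_pos.2 hm1
  set r := √((m : ℝ) + 1) with hrd
  refine ⟨b, fun i => 1 - (m + 1) * (ξ i / A), fun i => r * (β i / A), ?_, ?_, ?_, ?_, ?_, ?_,
    ?_, ?_, ?_, ?_⟩
  · intro i
    have hA' := hA1.ne'
    simp only [hξ]
    field_simp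
    ring
  · intro i
    have hA' := hA1.ne'
    have hr' := hr0.ne'
    rw [hpn, if_pos rfl]
    simp only
    field_simp
  · intro i
    have hA' := hA1.ne'
    rw [s3]
    simp only
    field_simp
  · intro i
    have h1 := s4 i
    have h2 : (r * (β i / A)) ^ 2 = (m + 1) * β i ^ 2 / A ^ 2 := by
      rw [mul_pow, sq r, hr, div_pow]; ring
    have h3 : (1 - (m + 1) * (ξ i / A)) - (1 - (m + 1) * (ξ i / A)) ^ 2
        = (m + 1) * (ξ i * (A - (m + 1) * ξ i)) / A ^ 2 := by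
      field_simp
      ring
    rw [h2, h3]
    gcongr
  · have : ∑ i : Fin (m + 2), (1 - (m + 1) * (ξ i / A))
        = (m + 2) - (m + 1) * ((∑ i, ξ i) / A) := by
      rw [Finset.sum_sub_distrib, Finset.sum_div, Finset.mul_sum]
      simp
    rw [this, s1, div_self hA1.ne']
    ring
  · have : ∑ i : Fin (m + 2), r * (β i / A) = r * ((∑ i, β i) / A) := by
      rw [Finset.sum_div, Finset.mul_sum]
    rw [this, s2, zero_div, mul_zero]
  · refine le_trans (le_of_eq ?_) I4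
    have e1 : ∑ i : Fin (m + 2), (1 - (m + 1) * (ξ i / A)) ^ 2
        = (m + 2) - 2 * (m + 1) * ((∑ i, ξ i) / A)
          + (m + 1) ^ 2 * ((∑ i, ξ i ^ 2) / A ^ 2) := by
      have : ∀ i, (1 - (m + 1) * (ξ i / A)) ^ 2
          = 1 - 2 * (m + 1) * (ξ i / A) + (m + 1) ^ 2 * (ξ i ^ 2 / A ^ 2) := fun i => by ring
      simp only [this, Finset.sum_add_distrib, Finset.sum_sub_distrib]
      rw [Finset.sum_div, Finset.mul_sum, Finset.sum_div, Finset.mul_sum]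
      simp
    simp only
    rw [e1, s1, div_self hA1.ne']
    field_simp
    ring
  · rw [I3]
    have e2 : ∑ i : Fin (m + 2), (r * (β i / A)) ^ 2 = (m + 1) * ((∑ i, β i ^ 2) / A ^ 2) := by
      have : ∀ i, (r * (β i / A)) ^ 2 = (m + 1) * (β i ^ 2 / A ^ 2) := fun i => by
        rw [mul_pow, sq r, hr, div_pow]
      simp only [this]
      rw [Finset.sum_div, Finset.mul_sum]
    simp only
    rw [e2]
    field_simp
  all_goals
    first | rw [I1] | rw [I2]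
    have e3 : ∑ i : Fin (m + 2), (1 - (m + 1) * (ξ i / A)) * (r * (β i / A))
        = r * ((∑ i, β i) / A) - (m + 1) * r * ((∑ i, ξ i * β i) / A ^ 2) := by
      have : ∀ i, (1 - (m + 1) * (ξ i / A)) * (r * (β i / A))
          = r * (β i / A) - (m + 1) * r * (ξ i * β i / A ^ 2) := fun i => by ring
      simp only [this, Finset.sum_sub_distrib]
      rw [Finset.sum_div, Finset.mul_sum, Finset.sum_div, Finset.mul_sum]
    simp only
    rw [e3, s2]
    field_simp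
    ring

/-- the eigenvalue of the Clifford configuration -/
noncomputable def zt (S : Finset (Fin 7)) (i : Fin 7) : ℝ := if i ∈ S then √6 / 3 else -(√6 / 2)

/-- the deviation from a Clifford configuration -/
noncomputable def dev (b : OrthonormalBasis (Fin 7) ℝ E) (S : Finset (Fin 7)) (x N : E) : E :=
  N - ∑ i, (zt S i * ⟪x, b i⟫) • b i

lemma dev_coord (b : OrthonormalBasis (Fin 7) ℝ E) (S : Finset (Fin 7)) (x N : E) (j : Fin 7) :
    ⟪dev b S x N, b j⟫ = ⟪N, b j⟫ - zt S j * ⟪x, b j⟫ := by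
  unfold dev
  rw [inner_sub_left, sum_inner]
  simp only [real_inner_smul_left, orthonormal_iff_ite.1 b.orthonormal, mul_ite, mul_one, mul_zero,
    Finset.sum_ite_eq', Finset.mem_univ, if_true]

lemma dev_sq (b : OrthonormalBasis (Fin 7) ℝ E) (S : Finset (Fin 7)) (x N : E) :
    ‖dev b S x N‖ ^ 2 = ∑ i, (⟪N, b i⟫ * ⟪N, b i⟫ - 2 * zt S i * (⟪x, b i⟫ * ⟪N, b i⟫)
      + zt S i ^ 2 * (⟪x, b i⟫ * ⟪x, b i⟫)) := by
  rw [← real_inner_self_eq_norm_sq, ← b.sum_inner_mul_inner]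
  refine Finset.sum_congr rfl fun i _ => ?_
  rw [real_inner_comm (dev b S x N) (b i), dev_coord]
  ring

lemma integral_dev (hp : UF p) (hn : UF n) (b : OrthonormalBasis (Fin 7) ℝ E)
    (S : Finset (Fin 7)) :
    ∫ x, ‖dev b S (p x) (n x)‖ ^ 2 ∂μ = ∑ i, (mom μ n n (b i) (b i)
      - 2 * zt S i * mom μ p n (b i) (b i) + zt S i ^ 2 * mom μ p p (b i) (b i)) := by
  simp only [dev_sq]
  have i1 : ∀ i, Integrable (fun x => ⟪n x, b i⟫ * ⟪n x, b i⟫) μ :=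
    fun i => hn.integrable_mul hn _ _
  have i2 : ∀ i, Integrable (fun x => 2 * zt S i * (⟪p x, b i⟫ * ⟪n x, b i⟫)) μ :=
    fun i => (hp.integrable_mul hn _ _).const_mul _
  have i3 : ∀ i, Integrable (fun x => zt S i ^ 2 * (⟪p x, b i⟫ * ⟪p x, b i⟫)) μ :=
    fun i => (hp.integrable_mul hp _ _).const_mul _
  have i4 : ∀ i, Integrable (fun x => ⟪n x, b i⟫ * ⟪n x, b i⟫
      - 2 * zt S i * (⟪p x, b i⟫ * ⟪n x, b i⟫)) μ := fun i => (i1 i).sub (i2 i)
  have i5 : ∀ i, Integrable (fun x => ⟪n x, b i⟫ * ⟪n x, b i⟫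
      - 2 * zt S i * (⟪p x, b i⟫ * ⟪n x, b i⟫) + zt S i ^ 2 * (⟪p x, b i⟫ * ⟪p x, b i⟫)) μ :=
    fun i => (i4 i).add (i3 i)
  rw [integral_finsetSum _ fun i _ => i5 i]
  refine Finset.sum_congr rfl fun i _ => ?_
  rw [integral_add (i4 i) (i3 i), integral_sub (i1 i) (i2 i), integral_const_mul,
    integral_const_mul]
  rfl

/-- the stable orientation resource -/
theorem stabR (hE : finrank ℝ E = 7) (h : TwoG μ 5 p n) [Nonempty X]
    (hsp : ∀ w, (∀ x, ⟪p x, w⟫ = 0) → w = 0)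
    (hor : 0 ≤ ∫ q : X × X, ⟪p q.1, p q.2⟫ * ⟪p q.1, n q.2⟫ ∂(μ.prod μ))
    (hA : 0 < μ.real univ) {c : ℝ} (hc0 : 0 ≤ c) (hc : 1 ≤ 6 * c ^ 2)
    (hR : 36 * ∫ q : X × X, (-(187 / 100) + 14 * ⟪p q.1, p q.2⟫ ^ 2
      - ⟪p q.1, p q.2⟫ * ⟪n q.1, n q.2⟫
      + c * (⟪p q.1, p q.2⟫ * ((⟪p q.1, n q.2⟫ + ⟪n q.1, p q.2⟫) / 2))) ∂(μ.prod μ)
        < 6 / 1000 * μ.real univ ^ 2) :
    ∃ (b : OrthonormalBasis (Fin 7) ℝ E) (S : Finset (Fin 7)), S.card = 4 ∧
      μ.real univ * ∫ x, ‖dev b S (p x) (n x)‖ ^ 2 ∂μ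
        ≤ 72 * ∫ q : X × X, (-(187 / 100) + 14 * ⟪p q.1, p q.2⟫ ^ 2
      - ⟪p q.1, p q.2⟫ * ⟪n q.1, n q.2⟫
      + c * (⟪p q.1, p q.2⟫ * ((⟪p q.1, n q.2⟫ + ⟪n q.1, p q.2⟫) / 2))) ∂(μ.prod μ) := by
  have hp : UF p := ⟨h.mp, h.np⟩
  have hn : UF n := ⟨h.mn, h.nn⟩
  obtain ⟨b, d, z, m1, m2, m3, h1, h2, h3, h4, h5, h6, h7⟩ := reduction_b (m := 5) hE hp hn h.pn
    (fun e => row_xi h (Classical.arbitrary X) e) (row_sym (by norm_num) h) hsp hA
  have e6 : (((5 : ℕ) : ℝ) + 1) = 6 := by norm_num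
  have e5 : ((5 : ℕ) : ℝ) = 5 := by norm_num
  rw [e6] at h4 h5 h6 h7
  rw [e5] at h4
  simp only [e6] at m1 m2
  have hr : √6 * √6 = (6 : ℝ) := Real.mul_self_sqrt (by norm_num)
  have hr0 : (0 : ℝ) < √6 := Real.sqrt_pos.2 (by norm_num)
  set A := μ.real univ with hAd
  have hA2 : 0 < A ^ 2 := by positivity
  have h8 : ∑ i, d i * z i ≤ 0 := by
    rw [h6] at hor
    by_contra hc
    rw [not_le] at hc
    have : 0 < A ^ 2 * ((∑ i, d i * z i) / (6 * √6)) := by positivity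
    linarith
  have hc1 : 1 ≤ √6 * c := by
    by_contra hc1
    rw [not_le] at hc1
    have h9 : 0 ≤ √6 * c := by positivity
    have : (√6 * c) ^ 2 < 1 := by nlinarith
    have : (√6 * c) ^ 2 = 6 * c ^ 2 := by rw [mul_pow, sq √6, hr]
    linarith
  -- the value of the resource
  set R := ∫ q : X × X, (-(187 / 100) + 14 * ⟪p q.1, p q.2⟫ ^ 2
      - ⟪p q.1, p q.2⟫ * ⟪n q.1, n q.2⟫
      + c * (⟪p q.1, p q.2⟫ * ((⟪p q.1, n q.2⟫ + ⟪n q.1, p q.2⟫) / 2))) ∂(μ.prod μ) with hRd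
  have hval : A ^ 2 * St.Sv d z ≤ 36 * R := by
    have hcast : ∀ q : X × X, (-(187 / 100) + 14 * ⟪p q.1, p q.2⟫ ^ 2
        - ⟪p q.1, p q.2⟫ * ⟪n q.1, n q.2⟫
        + c * (⟪p q.1, p q.2⟫ * ((⟪p q.1, n q.2⟫ + ⟪n q.1, p q.2⟫) / 2)))
        = (-(187 / 100) + 14 * (⟪p q.1, p q.2⟫ * ⟪p q.1, p q.2⟫)
          - ⟪p q.1, p q.2⟫ * ⟪n q.1, n q.2⟫)
          + c / 2 * (⟪p q.1, p q.2⟫ * ⟪p q.1, n q.2⟫ + ⟪p q.1, p q.2⟫ * ⟪n q.1, p q.2⟫) := by
      intro q
      ring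
    have j1 : Integrable (fun q : X × X => 14 * (⟪p q.1, p q.2⟫ * ⟪p q.1, p q.2⟫)) (μ.prod μ) :=
      (integrable_pair hp hp hp hp).const_mul _
    have j2 : Integrable (fun q : X × X => -(187 / 100)
        + 14 * (⟪p q.1, p q.2⟫ * ⟪p q.1, p q.2⟫)) (μ.prod μ) := (integrable_const _).add j1
    have j3 : Integrable (fun q : X × X => -(187 / 100)
        + 14 * (⟪p q.1, p q.2⟫ * ⟪p q.1, p q.2⟫) - ⟪p q.1, p q.2⟫ * ⟪n q.1, n q.2⟫)
        (μ.prod μ) := j2.sub (integrable_pair hp hn hp hn)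
    have j4 : Integrable (fun q : X × X => c / 2 * (⟪p q.1, p q.2⟫ * ⟪p q.1, n q.2⟫
        + ⟪p q.1, p q.2⟫ * ⟪n q.1, p q.2⟫)) (μ.prod μ) :=
      ((integrable_pair hp hp hp hn).add (integrable_pair hp hn hp hp)).const_mul _
    have hAA : (μ.prod μ).real univ = A ^ 2 := by
      rw [sq, hAd, measureReal_def, measureReal_def, ← univ_prod_univ, Measure.prod_prod,
        ENNReal.toReal_mul]
    have hR' : R = A ^ 2 * -(187 / 100)
        + 14 * ∫ q : X × X, ⟪p q.1, p q.2⟫ * ⟪p q.1, p q.2⟫ ∂(μ.prod μ)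
        - A ^ 2 * ((∑ i, z i ^ 2) / 6)
        + c / 2 * (-(A ^ 2 * ((∑ i, d i * z i) / (6 * √6)))
          + -(A ^ 2 * ((∑ i, d i * z i) / (6 * √6)))) := by
      rw [hRd]
      simp only [hcast]
      rw [integral_add j3 j4, integral_sub j2 (integrable_pair hp hn hp hn),
        integral_add (integrable_const _) j1, integral_const_mul, integral_const_mul,
        integral_add (integrable_pair hp hp hp hn) (integrable_pair hp hn hp hp),
        integral_const, smul_eq_mul, hAA, h5, h6, h7]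
    have hk : (∑ i, d i * z i) / (6 * √6) = √6 * (∑ i, d i * z i) / 36 := by
      field_simp
      linear_combination (-6 * ∑ i, d i * z i) * hr
    have h9 : √6 * c * (∑ i, d i * z i) ≤ 1 * ∑ i, d i * z i :=
      mul_le_mul_of_nonpos_right hc1 h8
    have h10 := mul_le_mul_of_nonneg_left h9 hA2.le
    unfold St.Sv
    rw [hk] at hR'
    have h11 : A ^ 2 * ((5 + ∑ i, d i ^ 2) / 6 ^ 2)
        = A ^ 2 * 5 / 36 + A ^ 2 * (∑ i, d i ^ 2) / 36 := by ring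
    rw [h11] at h4
    nlinarith
  have hS : St.Sv d z < 6 / 1000 := by
    by_contra hS
    rw [not_lt] at hS
    have := mul_le_mul_of_nonneg_left hS hA2.le
    linarith
  obtain ⟨q1, q2⟩ := St.stab h1 h2 h3 h8 hS
  refine ⟨b, Rt (1 / 5) z, q1, ?_⟩
  have hD : ∫ x, ‖dev b (Rt (1 / 5) z) (p x) (n x)‖ ^ 2 ∂μ = A * ∑ i, St.dl d z i := by
    rw [integral_dev hp hn, Finset.mul_sum]
    refine Finset.sum_congr rfl fun i _ => ?_
    rw [m1, m2, m3]
    unfold St.dl zt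
    by_cases hi : 1 / 5 ≤ z i
    · rw [if_pos hi, if_pos (mem_Rt.2 hi)]
      unfold St.de2
      field_simp
      linear_combination (9 * (1 - d i)) * hr
    · rw [if_neg hi, if_neg (fun hh => hi (mem_Rt.1 hh))]
      unfold St.de1
      field_simp
      linear_combination (4 * (1 - d i)) * hr
  rw [hD]
  have := mul_le_mul_of_nonneg_left q2 hA2.le
  nlinarith

end

end Vale.Agent.P224.SO
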