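import Vale.Agent.P224.SO.StabV

/-!
Dimension five: the stable resource with a part of the defect of the disc.
-/

namespace Vale.Agent.P224.SO

open MeasureTheory Set Filter Function Module Vale.Agent.P224.UE
open scoped Topology RealInnerProductSpace ContDiff

section

variable {X : Type*} [MeasurableSpace X] {E : Type*} [NormedAddCommGroup E]
  [InnerProductSpace ℝ E] [FiniteDimensional ℝ E] [MeasurableSpace E] [BorelSpace E]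
  {μ : Measure X} [IsFiniteMeasure μ] {p n : X → E}

/-- the stable resource from a stable scalar inequality with the defect of the disc -/
theorem stabRS_a {a t κ : ℝ} (hst : ∀ d z : Fin 7 → ℝ, (∀ i, z i ^ 2 ≤ d i - d i ^ 2) →
      ∑ i, d i = 1 → ∑ i, z i = 0 → ∑ i, d i * z i ≤ 0 →
      St.Sv d z + a * ∑ i, (d i - d i ^ 2 - z i ^ 2) < t → (Rt (1 / 5) z).card = 4 ∧
        κ * ∑ i, St.dl d z i ≤ St.Sv d z + a * ∑ i, (d i - d i ^ 2 - z i ^ 2))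
    (hE : finrank ℝ E = 7) (h : TwoG μ 5 p n) [Nonempty X]
    (hsp : ∀ w, (∀ x, ⟪p x, w⟫ = 0) → w = 0)
    (hor : 0 ≤ ∫ q : X × X, ⟪p q.1, p q.2⟫ * ⟪p q.1, n q.2⟫ ∂(μ.prod μ))
    (hA : 0 < μ.real univ) {ρ lu c : ℝ} (hr : 0 < ρ) (hu : a * ρ ≤ 3 * lu)
    (h3 : 3 * lu ≤ 14 * ρ) (hc0 : 0 ≤ c) (hc : 1 ≤ 6 * c ^ 2)
    (hR : 36 * ∫ q : X × X, (ρ * (-(187 / 100) + 14 * ⟪p q.1, p q.2⟫ ^ 2
              - ⟪p q.1, p q.2⟫ * ⟪n q.1, n q.2⟫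
              + c * (⟪p q.1, p q.2⟫ * ((⟪p q.1, n q.2⟫ + ⟪n q.1, p q.2⟫) / 2)))
            + lu * ((⟪p q.1, n q.2⟫ - ⟪n q.1, p q.2⟫) / 2) ^ 2) ∂(μ.prod μ)
        < t * ρ * μ.real univ ^ 2) :
    ∃ (b : OrthonormalBasis (Fin 7) ℝ E) (S : Finset (Fin 7)), S.card = 4 ∧
      κ * ρ * (μ.real univ * ∫ x, ‖dev b S (p x) (n x)‖ ^ 2 ∂μ)
        ≤ 36 * ∫ q : X × X, (ρ * (-(187 / 100) + 14 * ⟪p q.1, p q.2⟫ ^ 2
              - ⟪p q.1, p q.2⟫ * ⟪n q.1, n q.2⟫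
              + c * (⟪p q.1, p q.2⟫ * ((⟪p q.1, n q.2⟫ + ⟪n q.1, p q.2⟫) / 2)))
            + lu * ((⟪p q.1, n q.2⟫ - ⟪n q.1, p q.2⟫) / 2) ^ 2) ∂(μ.prod μ) := by
  obtain ⟨b, d, z, hd, hd1, hz0, hDZ, hdev, -, hT⟩ := resV hE h hsp hor hA
  have h4 := hT ρ lu c hr.le h3 hc0 hc
  have hA2 : 0 < μ.real univ ^ 2 * ρ := by positivity
  have hW : 0 ≤ ∑ i, (d i - d i ^ 2 - z i ^ 2) := Finset.sum_nonneg fun i _ => by linarith [hd i]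
  have h5 := mul_le_mul_of_nonneg_right hu hW
  have h6 : μ.real univ ^ 2 * ρ * (St.Sv d z + a * ∑ i, (d i - d i ^ 2 - z i ^ 2))
      ≤ μ.real univ ^ 2 * (ρ * St.Sv d z + 3 * lu * ∑ i, (d i - d i ^ 2 - z i ^ 2)) := by
    rw [mul_assoc]
    refine mul_le_mul_of_nonneg_left ?_ (sq_nonneg _)
    linarith
  have hS : St.Sv d z + a * ∑ i, (d i - d i ^ 2 - z i ^ 2) < t := by
    refine lt_of_mul_lt_mul_left (a := μ.real univ ^ 2 * ρ) ?_ hA2.le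
    calc μ.real univ ^ 2 * ρ * (St.Sv d z + a * ∑ i, (d i - d i ^ 2 - z i ^ 2)) ≤ _ := h6
      _ ≤ _ := h4
      _ < t * ρ * μ.real univ ^ 2 := hR
      _ = μ.real univ ^ 2 * ρ * t := by ring
  obtain ⟨q1, q2⟩ := hst d z hd hd1 hz0 hDZ hS
  refine ⟨b, Rt (1 / 5) z, q1, ?_⟩
  rw [hdev]
  calc κ * ρ * (μ.real univ * (μ.real univ * ∑ i, St.dl d z i))
      = μ.real univ ^ 2 * ρ * (κ * ∑ i, St.dl d z i) := by ring
    _ ≤ μ.real univ ^ 2 * ρ * (St.Sv d z + a * ∑ i, (d i - d i ^ 2 - z i ^ 2)) :=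
        mul_le_mul_of_nonneg_left q2 hA2.le
    _ ≤ _ := h6
    _ ≤ _ := h4

end

end Vale.Agent.P224.SO
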